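import Vale.Agent.P127.Num

/-! Sticky Kakeya sets in four dimensions: the slope lies near few lines. -/

namespace Vale.Agent.P127

open Vale.Agent.P118
open scoped RealInnerProductSpace
open Real Classical Module

namespace AfcX

variable {Ω Ω' Wt : Type} [Fintype Ω] [Fintype Ω'] {n : ℕ} {p : Ω → ℝ} {W : Ω → Wt} {τ : Ω → ℝ}
  {f : Ω → Eu n} {ρ A s u : ℝ}

theorem heavy (T : Tools) (hp : IsP p) (W : Ω → Wt) (E : Ω → Prop) (hu : 0 ≤ u)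
    (h : 2 * u < Pr p E) : u ≤ Pr p fun ω => E ω ∧
      u * Pr p (fun ω' => W ω' = W ω) < Pr p fun ω' => W ω' = W ω ∧ E ω' := by
  have h1 := T.t2.rare W E hp hu
  have h2 := (e1.pr_mono (E := E) hp fun ω _ hω => (lt_or_ge (u * Pr p (fun ω' => W ω' = W ω))
    (Pr p fun ω' => W ω' = W ω ∧ E ω')).imp (And.intro hω) (And.intro hω)).trans
      (e1.pr_or _ _ hp)
  linarith

theorem light_cut (hp : IsP p) {E : Ω → Prop} (hs : 0 ≤ s)
    (h : ∀ ω₀, p ω₀ ≠ 0 → ∀ γ₀ γ : Eu n, ‖γ‖ ≤ A →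
      Pr p (fun ω => E ω ∧ W ω = W ω₀ ∧ ‖f ω - γ₀ - τ ω • γ‖ ≤ ρ) ≤
        s * u * Pr p fun ω => W ω = W ω₀) :
    Light (cnd p fun ω => E ω ∧
      u * Pr p (fun ω' => W ω' = W ω) < Pr p fun ω' => W ω' = W ω ∧ E ω') W τ f ρ A s := by
  intro ω₀ h0 γ₀ γ hγ
  obtain ⟨h1, -, h2⟩ := e2.cnd_ne h0
  rw [e2.pr_cnd, e2.pr_cnd, ← mul_div_assoc]
  refine div_le_div_of_nonneg_right ((e1.pr_mono hp fun ω _ hω => ⟨hω.1.1, hω.2⟩).trans
    ((h ω₀ h1 γ₀ γ hγ).trans ?_)) (e1.pr_nonneg _ hp)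
  rw [mul_assoc]
  refine mul_le_mul_of_nonneg_left (h2.le.trans (e1.pr_mono hp fun ω _ hω => ⟨⟨hω.2, ?_⟩, hω.1⟩)) hs
  rw [hω.1]
  exact h2

theorem light_mp (T : Tools) {p' : Ω' → ℝ} {pr : Ω' → Ω} {W' : Ω' → Wt} (hm : MP p' pr p)
    (hW : ∀ z, p' z ≠ 0 → W (pr z) = W' z) (hs : 0 ≤ s) (h : Light p W τ f ρ A s) :
    Light p' W' (fun z => τ (pr z)) (fun z => f (pr z)) ρ A s := by
  intro z₀ h0 γ₀ γ hγ
  have h1 := h (pr z₀) (T.t1.mp_ne hm h0) γ₀ γ hγ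
  rw [← T.t1.mp_pr _ hm, ← T.t1.mp_pr _ hm] at h1
  refine (e1.pr_mono hm.1 fun z hz hh => ⟨?_, hh.2⟩).trans (h1.trans
    (mul_le_mul_of_nonneg_left (e1.pr_mono hm.1 fun z hz hh => ?_) hs))
  · rw [← hW z hz, ← hW z₀ h0, hh]
  · rw [hW z hz, hW z₀ h0, hh.1]

theorem hc_mp (T : Tools) {α : Type} {g : Ω → α} (ψ : α → Eu n) {p' : Ω' → ℝ} {pr : Ω' → Ω}
    {W' : Ω' → Wt} (hm : MP p' pr p) (hW : ∀ z, p' z ≠ 0 → W (pr z) = W' z) :
    Hc p' (fun z => (τ (pr z), ψ (g (pr z)))) W' ≤ Hc p (fun ω => (τ ω, g ω)) W := by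
  rw [← T.t1.mp _ _ hm]
  refine e1.hc_mono hm.1 (fun a b ha hb e => ?_) fun a b _ _ e => ?_
  · rw [hW a ha, hW b hb, e]
  · obtain ⟨h1, h2⟩ := Prod.ext_iff.1 (Prod.ext_iff.1 e).1
    exact Prod.ext h1 (congrArg ψ h2)

theorem four_pow (b : ℕ) : (4 : ℝ) ^ b ≤ exp (b * 2) := by
  rw [exp_nat_mul]
  refine pow_le_pow_left₀ (by norm_num) ?_ b
  have h := add_one_le_exp (1 : ℝ)
  rw [show (2 : ℝ) = 1 + 1 by norm_num, exp_add]
  nlinarith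

theorem log_bd {a ζ : ℝ} (ha : 0 ≤ a) (hζ : 0 < ζ) :
    log ((exp (-a) * ζ)⁻¹ + 1) ≤ a + log (ζ⁻¹ + 1) := by
  have h := one_le_exp ha
  rw [mul_inv, exp_neg, inv_inv, log_le_iff_le_exp (by positivity), exp_add,
    exp_log (by positivity)]
  linarith

end AfcX

open AfcX in
theorem sAfc (T : Tools) (B : Base) (tb : STb) (cov : SCov) (re : SRe) : SAfc := by
  intro m σ ctx p q r n ch ψ hn hψ lip kp
  have hσ := ctx.pos
  have hlg := log_two_pos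
  obtain ⟨η₀, κ₀, K, hη₀, hκ₀, hK, hre⟩ := re n (σ / 2) hn (half_pos hσ)
  refine ⟨min η₀ (1 / 2), lt_min hη₀ (by norm_num), min_le_right _ _, fun κ ζ hκ hζ => ?_⟩
  obtain ⟨k, k0, k1, k2, k3, k4, k5⟩ : ∃ k : ℝ, 0 < k ∧ k ≤ κ₀ ∧ k ≤ 1 / 2 ∧ k ≤ ζ ∧ K * k ≤ ζ ∧
      20 * (n + 1) * k ≤ σ * log 2 / 4 := by
    refine ⟨min (min κ₀ (1 / 2)) (min (min ζ (ζ / K)) (σ * log 2 / 4 / (20 * (n + 1)))),
      by positivity, (min_le_left _ _).trans (min_le_left _ _),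
      (min_le_left _ _).trans (min_le_right _ _),
      (min_le_right _ _).trans ((min_le_left _ _).trans (min_le_left _ _)), ?_, ?_⟩
    · rw [← le_div_iff₀' hK]
      exact (min_le_right _ _).trans ((min_le_left _ _).trans (min_le_right _ _))
    · rw [← le_div_iff₀' (by positivity)]
      exact (min_le_right _ _).trans (min_le_right _ _)
  obtain ⟨a1, ha1, r1⟩ := ef_use (hre k k0 k1) hκ
  have hz : 0 < min a1 (σ * log 2 * κ / 8) := by positivity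
  obtain ⟨a2, ha2, r2⟩ := ef_use1 (kp (k * κ) _ (by positivity) hz)
  obtain ⟨a3, ha3, r3⟩ := ef_use1 (tb ch σ lip _ hz)
  filter_upwards [r1, r2, r3, B.cut m σ ctx (ζ / 2) _ (half_pos hζ) (lt_min ha2 ha3),
    ef_const 1 (mul_pos k0 hκ), ef_const (log ((ζ / 2)⁻¹ + 1)) (half_pos hζ), ef_large 1]
    with x r1 r2 r3 r4 r5 r6 r7 Ω Tt Θ _ D Q F hD s s1 s2
  have hp := hD.ok.isP
  have L1 : (1 : ℝ) ≤ x.2 := by exact_mod_cast r7
  have s3 : 4 * (s : ℝ) ≤ x.2 := by exact_mod_cast s2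
  have s0 : (0 : ℝ) ≤ s := Nat.cast_nonneg s
  have s4 := mul_le_mul_of_nonneg_left s1 k0.le
  obtain ⟨b, b1, b2⟩ : ∃ b : ℕ, k * s ≤ b ∧ (b : ℝ) ≤ 2 * k * s :=
    ⟨⌈k * s⌉₊, Nat.le_ceil _, by
      have := Nat.ceil_lt_add_one (show 0 ≤ k * s by positivity)
      linarith⟩
  have b3 : b ≤ s := by
    have := mul_le_mul_of_nonneg_right k2 s0
    exact_mod_cast (show (b : ℝ) ≤ s by linarith)
  have b4 : (b : ℝ) * 2 ≤ k * x.2 := by
    have := mul_le_mul_of_nonneg_left s3 k0.le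
    linarith
  obtain ⟨Λ, β₀, β, c1, c2, c3, c4, c5, c6⟩ := cov D.p (D.Wd F s) (D.tb s)
    (fun ω => ψ (zm s s (F ω))) ((2 : ℝ) ^ (-η₀ * s)) (4 ^ b) (exp (-K * b) * (ζ / 2)) hp
    (by positivity) (by positivity)
  refine ⟨Λ, β₀, β, Det.trans ((hD.ok.det_tb s).pair (Det.pair (hD.det.trans
    (Det.comp _ _ fun y => ψ (zm s s y))) (hD.ok.det_Wd hD.det s))) c1, c2.trans ?_, c3, c4,
    fun ω hω => (c5 ω hω).1.trans ((four_pow b).trans (exp_le_exp.2 (b4.trans ?_))), ?_⟩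
  · rw [neg_mul]
    have h1 := log_bd (show 0 ≤ K * b by positivity) (half_pos hζ)
    have h2 := mul_le_mul_of_nonneg_left b4 hK.le
    have h3 := mul_le_mul_of_nonneg_right k4 (zero_le_one.trans L1)
    linarith
  · exact mul_le_mul_of_nonneg_right k3 (by linarith)
  refine mul_le_mul_of_nonneg_right (le_trans (e1.pr_mono (E' := fun ω => Λ ω = 0) hp
    fun ω hω hb => by_contra fun h0 => hb.not_ge (((c5 ω hω).2 h0).trans ?_)) ?_) (by linarith)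
  · refine rpow_le_rpow_of_exponent_le one_le_two (mul_le_mul_of_nonneg_right ?_ s0)
    exact neg_le_neg (min_le_left _ _)
  by_contra hc
  have d1 := heavy T hp (D.Wd F s) (fun ω => Λ ω = 0) (half_pos hζ).le (by linarith)
  have d2 := light_cut hp (exp_pos _).le c6
  have d3 := (r4 D _ d1 hD.ext).2.2.2 ch Q F hD
  have L0 : (0 : ℝ) ≤ x.2 := by linarith
  obtain ⟨Ω', _, p', pr₁, pr₂, m1, m2, m3, m4, m5⟩ := r2 _
    (mul_le_mul_of_nonneg_right (min_le_left _ _) L0) _ Q F d3 s b (by linarith) b3 s2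
  have d4 := (r3 _ (mul_le_mul_of_nonneg_right (min_le_right _ _) L0) _ Q F d3 s s2).2.2
  have lat : ∀ ω, LatP s (D.tb s ω) (ψ (zm s s (F ω))) := fun ω => by
    obtain ⟨l1, l2, l3, l4, l5⟩ := D.tb_lat F s ω
    exact ⟨l1, l2, l3, hψ s _ l4 l5⟩
  have g1 := light_mp T m1 (W := D.Wd F s) (fun _ _ => rfl) (exp_pos _).le d2
  have g2 := light_mp T m2 (W := D.Wd F s) m3 (exp_pos _).le d2
  have g3 := (hc_mp T (τ := D.tb s) (g := fun ω => zm s s (F ω)) (W := D.Wd F s) ψ m1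
    fun _ _ => rfl).trans d4
  have g4 := (hc_mp T (τ := D.tb s) (g := fun ω => zm s s (F ω)) (W := D.Wd F s) ψ m2 m3).trans d4
  have d5 := (r1 s _ s1 (mul_le_mul_of_nonneg_right (min_le_left _ _) L0) p'
    (fun z => D.Wd F s (pr₁ z)) (fun z => D.tb s (pr₁ z)) (fun z => D.tb s (pr₂ z))
    (fun z => ψ (zm s s (F (pr₁ z)))) (fun z => ψ (zm s s (F (pr₂ z)))) b m1.1 b1 b2
    (fun z _ => ⟨lat (pr₁ z), lat (pr₂ z)⟩) g3 g4 m4 g1 g2).trans m5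
  have d6 := mul_le_mul_of_nonneg_right (min_le_right a1 (σ * log 2 * κ / 8)) L0
  have d7 := mul_le_mul_of_nonneg_left b2 (show (0 : ℝ) ≤ 10 * (n + 1) by positivity)
  have d8 := mul_le_mul_of_nonneg_right k5 s0
  have d9 := mul_le_mul_of_nonneg_left s1 (mul_pos hσ hlg).le
  have d10 : 0 < σ * log 2 * κ * x.2 := by positivity
  linarith

end Vale.Agent.P127
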