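import Vale.Agent.P127.Num

namespace Vale.Agent.P127

open Vale.Agent.P118
open scoped RealInnerProductSpace
open Real Classical Module

namespace ChX

noncomputable def A (j : Fin 3) : Eu 3 →ₗ[ℝ] Eu 1 where
  toFun x := WithLp.toLp 2 fun _ => x j
  map_add' _ _ := rfl
  map_smul' _ _ := rfl

noncomputable def Bm (j : Fin 3) : Eu 3 →ₗ[ℝ] Eu 2 where
  toFun x := WithLp.toLp 2 fun k => x (j.succAbove k)
  map_add' _ _ := rfl
  map_smul' _ _ := rfl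

noncomputable def ins (j : Fin 3) (a : ℝ) (y : Fin 2 → ℝ) : Eu 3 :=
  WithLp.toLp 2 (Fin.insertNth (α := fun _ => ℝ) j a y)

theorem ins_a (j : Fin 3) (a : ℝ) (y : Fin 2 → ℝ) : ins j a y j = a :=
  Fin.insertNth_apply_same (α := fun _ => ℝ) j a y

theorem ins_b (j : Fin 3) (a : ℝ) (y : Fin 2 → ℝ) (k : Fin 2) : ins j a y (j.succAbove k) = y k :=
  Fin.insertNth_apply_succAbove (α := fun _ => ℝ) j a y k

theorem ext3 (j : Fin 3) {x y : Eu 3} (h1 : x j = y j)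
    (h2 : ∀ k, x (j.succAbove k) = y (j.succAbove k)) : x = y := by
  ext i
  rcases eq_or_ne i j with rfl | h
  · exact h1
  · obtain ⟨k, rfl⟩ := Fin.exists_succAbove_eq h
    exact h2 k

noncomputable def iA (j : Fin 3) : Eu 1 →ₗ[ℝ] Eu 3 where
  toFun y := ins j (y 0) 0
  map_add' _ _ := ext3 j (by simp [ins_a]) fun k => by simp [ins_b]
  map_smul' _ _ := ext3 j (by simp [ins_a]) fun k => by simp [ins_b]

noncomputable def iB (j : Fin 3) : Eu 2 →ₗ[ℝ] Eu 3 where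
  toFun y := ins j 0 y
  map_add' _ _ := ext3 j (by simp [ins_a]) fun k => by simp [ins_b]
  map_smul' _ _ := ext3 j (by simp [ins_a]) fun k => by simp [ins_b]

variable (j : Fin 3)

theorem A_ap (x : Eu 3) (k : Fin 1) : A j x k = x j := rfl

theorem B_ap (x : Eu 3) (k : Fin 2) : Bm j x k = x (j.succAbove k) := rfl

theorem iA_a (y : Eu 1) : iA j y j = y 0 := ins_a _ _ _

theorem iA_b (y : Eu 1) (k : Fin 2) : iA j y (j.succAbove k) = 0 := ins_b _ _ _ _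

theorem iB_a (y : Eu 2) : iB j y j = 0 := ins_a _ _ _

theorem iB_b (y : Eu 2) (k : Fin 2) : iB j y (j.succAbove k) = y k := ins_b _ _ _ _

theorem ext1 {x y : Eu 1} (h : x 0 = y 0) : x = y := by
  ext i
  rwa [Subsingleton.elim i 0]

theorem A_iA (y : Eu 1) : A j (iA j y) = y := ext1 (iA_a j y)

theorem B_iA (y : Eu 1) : Bm j (iA j y) = 0 := by
  ext k
  exact iA_b j y k

theorem A_iB (y : Eu 2) : A j (iB j y) = 0 := ext1 (iB_a j y)

theorem B_iB (y : Eu 2) : Bm j (iB j y) = y := by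
  ext k
  exact iB_b j y k

theorem spl (x : Eu 3) : iA j (A j x) + iB j (Bm j x) = x :=
  ext3 j (by simp [iA_a, iB_a, A_ap]) fun k => by simp [iA_b, iB_b, B_ap]

theorem n1 (y : Eu 1) : ‖y‖ = |y 0| := by
  rw [EuclideanSpace.norm_eq, Fin.sum_univ_one, sqrt_sq (norm_nonneg _), Real.norm_eq_abs]

theorem n2 (y : Eu 2) : ‖y‖ ^ 2 = y 0 ^ 2 + y 1 ^ 2 := by
  rw [EuclideanSpace.real_norm_sq_eq, Fin.sum_univ_two]

theorem nsq (x : Eu 3) : ‖x‖ ^ 2 = ‖A j x‖ ^ 2 + ‖Bm j x‖ ^ 2 := by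
  rw [EuclideanSpace.real_norm_sq_eq, Fin.sum_univ_succAbove _ j, n1, sq_abs,
    EuclideanSpace.real_norm_sq_eq]
  rfl

theorem A_le (x : Eu 3) : ‖A j x‖ ≤ ‖x‖ :=
  (sq_le_sq₀ (norm_nonneg _) (norm_nonneg _)).1 (by rw [nsq j x]; nlinarith [sq_nonneg ‖Bm j x‖])

theorem B_le (x : Eu 3) : ‖Bm j x‖ ≤ ‖x‖ :=
  (sq_le_sq₀ (norm_nonneg _) (norm_nonneg _)).1 (by rw [nsq j x]; nlinarith [sq_nonneg ‖A j x‖])

theorem iA_le (y : Eu 1) : ‖iA j y‖ ≤ ‖y‖ :=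
  (sq_le_sq₀ (norm_nonneg _) (norm_nonneg _)).1 (by rw [nsq j, A_iA, B_iA]; simp)

theorem iB_le (y : Eu 2) : ‖iB j y‖ ≤ ‖y‖ :=
  (sq_le_sq₀ (norm_nonneg _) (norm_nonneg _)).1 (by rw [nsq j, A_iB, B_iB]; simp)

theorem inn (n x : Eu 3) : ⟪n, x⟫ = n j * x j + ⟪Bm j n, Bm j x⟫ := by
  simp only [PiLp.inner_apply, Fin.sum_univ_succAbove _ j, B_ap, RCLike.inner_apply,
    conj_trivial, mul_comm]

noncomputable def ap1 : Eu 2 →ₗ[ℝ] Eu 1 →ₗ[ℝ] Eu 2 :=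
  LinearMap.mk₂ ℝ (fun F w => w 0 • F) (fun _ _ _ => smul_add _ _ _)
    (fun _ _ _ => smul_comm _ _ _) (fun _ _ _ => add_smul _ _ _) fun _ _ _ => mul_smul _ _ _

noncomputable def ap2 : Eu 2 →ₗ[ℝ] Eu 2 →ₗ[ℝ] Eu 1 :=
  LinearMap.mk₂ ℝ (fun F w => WithLp.toLp 2 fun _ => ⟪F, w⟫)
    (fun _ _ _ => ext1 (inner_add_left _ _ _)) (fun _ _ _ => ext1 (real_inner_smul_left _ _ _))
    (fun _ _ _ => ext1 (inner_add_right _ _ _)) fun _ _ _ => ext1 (real_inner_smul_right _ _ _)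

theorem ap1_ap (F : Eu 2) (w : Eu 1) : ap1 F w = w 0 • F := rfl

theorem ap2_ap (F w : Eu 2) : ap2 F w 0 = ⟪F, w⟫ := rfl

noncomputable def c1 : Chart 3 2 1 2 where
  Py := Bm j
  Pw := A j
  iy := iB j
  iw := iA j
  app := ap1
  dim := rfl
  split x := (add_comm _ _).trans (spl j x)
  Py_iy := B_iB j
  Pw_iy := A_iB j
  Py_iw := B_iA j
  Pw_iw := A_iA j
  Py_le := B_le j
  Pw_le := A_le j
  iy_le := iB_le j
  iw_le := iA_le j
  app_le F w := by rw [ap1_ap, norm_smul, n1, Real.norm_eq_abs, mul_comm]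
  app_ge F := ⟨0, by
    rw [ap1_ap, PiLp.single_eq_same, one_smul]
    linarith [norm_nonneg F]⟩

noncomputable def c2 : Chart 3 1 2 2 where
  Py := A j
  Pw := Bm j
  iy := iA j
  iw := iB j
  app := ap2
  dim := rfl
  split := spl j
  Py_iy := A_iA j
  Pw_iy := B_iA j
  Py_iw := A_iB j
  Pw_iw := B_iB j
  Py_le := A_le j
  Pw_le := B_le j
  iy_le := iA_le j
  iw_le := iB_le j
  app_le F w := by
    rw [n1, ap2_ap]
    exact abs_real_inner_le_norm _ _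
  app_ge F := by
    obtain ⟨k, hk⟩ := Finite.exists_max fun k : Fin 2 => |F k|
    refine ⟨k, ?_⟩
    rw [n1, ap2_ap, EuclideanSpace.inner_single_right, conj_trivial, one_mul]
    refine (sq_le_sq₀ (norm_nonneg _) (by positivity)).1 ?_
    have a0 := sq_le_sq.2 (hk 0)
    have a1 := sq_le_sq.2 (hk 1)
    rw [n2, mul_pow, sq_abs]
    nlinarith [sq_nonneg (F k)]

theorem big {u : Eu 3} (hu : u ≠ 0) : ∃ j, u j ≠ 0 ∧ ‖(u j)⁻¹ • Bm j u‖ ≤ 2 := by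
  obtain ⟨j, hj⟩ := Finite.exists_max fun k : Fin 3 => |u k|
  have h0 : u j ≠ 0 := fun h => hu (by
    ext i
    have := hj i
    rw [h, abs_zero] at this
    exact abs_nonpos_iff.1 this)
  refine ⟨j, h0, ?_⟩
  rw [norm_smul, norm_inv, Real.norm_eq_abs, inv_mul_le_iff₀ (abs_pos.2 h0)]
  refine (sq_le_sq₀ (norm_nonneg _) (by positivity)).1 ?_
  have a0 := sq_le_sq.2 (hj (j.succAbove 0))
  have a1 := sq_le_sq.2 (hj (j.succAbove 1))
  rw [n2, mul_pow, sq_abs, B_ap, B_ap]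
  nlinarith [sq_nonneg (u j)]

theorem gen {Q : Submodule ℝ (Eu 3)} (h : finrank ℝ Q = 1) :
    ∃ u ∈ Q, u ≠ 0 ∧ ∀ x ∈ Q, ∃ c : ℝ, c • u = x := by
  obtain ⟨u, h0, h1⟩ := finrank_eq_one_iff'.1 h
  refine ⟨u, u.2, fun e => h0 (Subtype.ext e), fun x hx => ?_⟩
  obtain ⟨c, hc⟩ := h1 ⟨x, hx⟩
  exact ⟨c, congrArg Subtype.val hc⟩

end ChX

open ChX in
theorem sCh1 : SCh1 := by
  refine ⟨c1, fun _ _ _ => rfl, fun Q hQ => ?_⟩
  obtain ⟨u, hu, u0, h⟩ := gen hQ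
  obtain ⟨j, j0, hj⟩ := big u0
  refine ⟨j, -((u j)⁻¹ • Bm j u), by rwa [norm_neg], fun x => ⟨?_, fun hx => ?_⟩⟩
  · have e : x - (c1 j).iy ((c1 j).pi (-((u j)⁻¹ • Bm j u)) x) = (x j / u j) • u := by
      change x - iB j (Bm j x + x j • -((u j)⁻¹ • Bm j u)) = _
      refine ext3 j ?_ fun k => ?_
      · rw [PiLp.sub_apply, iB_a, PiLp.smul_apply, smul_eq_mul, sub_zero, div_mul_cancel₀ _ j0]
      · simp only [PiLp.sub_apply, iB_b, PiLp.smul_apply, PiLp.add_apply, PiLp.neg_apply,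
          smul_eq_mul, B_ap]
        ring
    exact e ▸ Q.smul_mem _ hu
  · obtain ⟨c, rfl⟩ := h x hx
    change Bm j (c • u) + (c * u j) • -((u j)⁻¹ • Bm j u) = 0
    rw [map_smul, smul_neg, smul_smul, mul_inv_cancel_right₀ j0, add_neg_cancel]

open ChX in
theorem sCh2 : SCh2 := by
  refine ⟨c2, fun _ _ _ => rfl, fun Q hQ => ?_⟩
  have d := Q.finrank_add_finrank_orthogonal
  rw [hQ, finrank_euclideanSpace_fin] at d
  obtain ⟨n, hn, n0, h⟩ := gen (show finrank ℝ Qᗮ = 1 by omega)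
  obtain ⟨j, j0, hj⟩ := big n0
  have e : ∀ x, (c2 j).pi ((n j)⁻¹ • Bm j n) x 0 = (n j)⁻¹ * ⟪n, x⟫ := fun x => by
    change x j + ⟪(n j)⁻¹ • Bm j n, Bm j x⟫ = _
    rw [real_inner_smul_left, inn j n x, mul_add, inv_mul_cancel_left₀ j0]
  refine ⟨j, _, hj, fun x => ⟨?_, fun hx => ext1 ?_⟩⟩
  · rw [← Q.orthogonal_orthogonal, Submodule.mem_orthogonal]
    intro v hv
    obtain ⟨c, rfl⟩ := h v hv
    change ⟪c • n, x - iA j _⟫ = 0
    rw [real_inner_smul_left, inner_sub_right, inn j n (iA j _), B_iA, inner_zero_right, iA_a, e,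
      mul_inv_cancel_left₀ j0, add_zero, sub_self, mul_zero]
  · rw [e, Submodule.inner_left_of_mem_orthogonal hx hn, mul_zero]
    rfl

end Vale.Agent.P127
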