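import Vale.Agent.P127.Num

/-! Sticky Kakeya sets in four dimensions: the slope derivative is macroscopic and unique. -/

namespace Vale.Agent.P127

open Vale.Agent.P118
open scoped RealInnerProductSpace
open Real Classical Module

namespace CmpX

theorem flo_near {n i : ℕ} {x y : Eu n} (h : flo i x = flo i y) : ‖x - y‖ ≤ √n * 2⁻¹ ^ i :=
  norm_le_of_coord (by positivity) fun k => by
    rw [PiLp.sub_apply]; exact fl_same (flo_eq_iff.1 h k)

theorem card_le (S : Finset ℤ) (c a : ℝ) (ha : 0 ≤ a) (h : ∀ s ∈ S, |(s : ℝ) - c| ≤ a) :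
    (S.card : ℝ) ≤ 2 * a + 1 := by
  have h1 : S ⊆ Finset.Icc ⌈c - a⌉ ⌊c + a⌋ := fun s hs => by
    have h2 := abs_le.1 (h s hs)
    rw [Finset.mem_Icc, Int.ceil_le, Int.le_floor]
    constructor <;> linarith [h2.1, h2.2]
  have h2 : (S.card : ℝ) ≤ ((Finset.Icc ⌈c - a⌉ ⌊c + a⌋).card : ℝ) := by
    exact_mod_cast Finset.card_le_card h1
  refine h2.trans ?_
  rw [Int.card_Icc]
  rcases le_total (⌊c + a⌋ + 1 - ⌈c - a⌉) 0 with h3 | h3
  · rw [Int.toNat_of_nonpos h3]; push_cast; linarith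
  · have h4 : (((⌊c + a⌋ + 1 - ⌈c - a⌉).toNat : ℤ) : ℝ) = ((⌊c + a⌋ + 1 - ⌈c - a⌉ : ℤ) : ℝ) := by
      rw [Int.toNat_of_nonneg h3]
    rw [Int.cast_natCast] at h4
    rw [h4]; push_cast
    linarith [Int.floor_le (c + a), Int.le_ceil (c - a)]

theorem fl_near (i : ℕ) (x x' a : ℝ) (h : |x' - x| ≤ a * 2⁻¹ ^ i) :
    |(fl i x' : ℝ) - 2 ^ i * x| ≤ a + 1 := by
  have h0 : (0 : ℝ) < 2 ^ i := by positivity
  have h1 : |2 ^ i * x' - 2 ^ i * x| ≤ a := by
    rw [← mul_sub, abs_mul, abs_of_pos h0]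
    calc _ ≤ 2 ^ i * (a * 2⁻¹ ^ i) := by gcongr
      _ = a := by rw [inv_pow]; field_simp
  have h2 := Int.floor_le ((2 : ℝ) ^ i * x')
  have h3 := Int.lt_floor_add_one ((2 : ℝ) ^ i * x')
  have h4 := abs_le.1 h1
  unfold fl
  rw [abs_le]; constructor <;> linarith [h4.1, h4.2]

variable {Ω Tt Θ : Type} [Fintype Ω] {m p q r L : ℕ} {D : Cf Ω Tt Θ m} {σ E e u : ℝ}
  {Q : Ω → Submodule ℝ (Eu m)} {ch : Chart m p q r} {F α α' : Ω → Eu r}

theorem norm_w (h : D.OK L E) {ω : Ω} (hω : D.p ω ≠ 0) : ‖D.w ch ω‖ ≤ 2 * √m :=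
  (ch.Pw_le _).trans (h.norm_X hω)

/-- the pointwise form of the first statement -/
theorem mac (T : Tools) {b : ℕ} (hO : D.OK L E) (hu : 0 < u)
    (hP : u ≤ Pr D.p fun ω => ‖α ω‖ ≤ 2⁻¹ ^ b)
    (hF : (D.cut fun ω => ‖α ω‖ ≤ 2⁻¹ ^ b).FullC ch σ Q F L e) (hb : b ≤ L)
    (hD : D.DCP ch F α b E) :
    σ * b * log 2 ≤ 2 * e + u⁻¹ * E + (p * log (√p + 4 * √m + 1) + CE p) := by
  set Ev : Ω → Prop := fun ω => ‖α ω‖ ≤ 2⁻¹ ^ b with hEv
  have hp : IsP (cnd D.p Ev) := hF.pc.ok.isP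
  have h1 : p * b * log 2 - e ≤ Hc (cnd D.p Ev) (fun ω => flo b (D.z ch F ω)) D.c := hF.zl b hb
  have h2 : Hc (cnd D.p Ev) (fun ω => flo b (D.y ch F ω)) D.c ≤ (p - σ) * b * log 2 + e :=
    hF.yu b hb
  have h3 := e1.tri (fun ω => flo b (D.z ch F ω)) (fun ω => flo b (D.y ch F ω)) D.c hp
  have h4 := e1.tri (fun ω => flo b (D.z ch F ω))
    (fun ω => flo b (D.z ch F ω + ch.app (α ω) (D.w ch ω)))
    (fun ω => (flo b (D.y ch F ω), D.c ω)) hp
  have h5 := (e2.event_low (fun ω => flo b (D.z ch F ω + ch.app (α ω) (D.w ch ω)))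
    (fun ω => (flo b (D.y ch F ω), D.c ω)) Ev hO.isP).trans hD
  have h6 := e1.hc_nonneg (fun ω => flo b (D.z ch F ω + ch.app (α ω) (D.w ch ω)))
    (fun ω => (flo b (D.y ch F ω), D.c ω)) hp
  have h7 := (mul_le_mul_of_nonneg_right hP h6).trans h5
  rw [← le_inv_mul_iff₀ hu] at h7
  have hs : ∀ ω, cnd D.p Ev ω ≠ 0 → ‖ch.app (α ω) (D.w ch ω)‖ ≤ 2⁻¹ ^ b * (2 * √m) := fun ω hω =>
    (ch.app_le _ _).trans (mul_le_mul (e2.cnd_ne hω).2 (norm_w hO (e2.cnd_ne hω).1)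
      (norm_nonneg _) (by positivity))
  have h8 := T.t3.nearA b (D.z ch F) (fun ω => (flo b (D.z ch F ω + ch.app (α ω) (D.w ch ω)),
      flo b (D.y ch F ω), D.c ω)) (√p + 4 * √m + 1) hp
    (by linarith [sqrt_nonneg (p : ℝ), sqrt_nonneg (m : ℝ)]) fun ω ω' hω hω' hg => by
      have a1 := flo_near (Prod.ext_iff.1 hg).1
      have a2 := hs ω hω
      have a3 := hs ω' hω'
      have a4 : D.z ch F ω - D.z ch F ω' = (D.z ch F ω + ch.app (α ω) (D.w ch ω) -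
          (D.z ch F ω' + ch.app (α ω') (D.w ch ω'))) - ch.app (α ω) (D.w ch ω) +
          ch.app (α ω') (D.w ch ω') := by abel
      have a5 : (0 : ℝ) ≤ 2⁻¹ ^ b := by positivity
      rw [a4]
      refine (norm_add_le _ _).trans ((add_le_add_left (norm_sub_le _ _) _).trans ?_)
      linarith
  linarith

/-- the difference of the two derivative vectors is known -/
theorem cmpY (T : Tools) {h : ℕ} (hO : D.OK L E) (hD : D.DCP ch F α h E)
    (hD' : D.DCP ch F α' h E) :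
    Hc D.p (fun ω => flo h (ch.app (α ω - α' ω) (D.w ch ω)))
      (fun ω => (flo h (D.y ch F ω), D.c ω)) ≤ 2 * E + (p * log (2 * √p + 1) + CE p) := by
  have hp := hO.isP
  have h1 := e1.tri (fun ω => flo h (ch.app (α ω - α' ω) (D.w ch ω)))
    (fun ω => flo h (D.z ch F ω + ch.app (α ω) (D.w ch ω)))
    (fun ω => (flo h (D.y ch F ω), D.c ω)) hp
  have h2 := e1.tri (fun ω => flo h (ch.app (α ω - α' ω) (D.w ch ω)))
    (fun ω => flo h (D.z ch F ω + ch.app (α' ω) (D.w ch ω)))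
    (fun ω => (flo h (D.z ch F ω + ch.app (α ω) (D.w ch ω)), flo h (D.y ch F ω), D.c ω)) hp
  have h3 : Hc D.p (fun ω => flo h (D.z ch F ω + ch.app (α' ω) (D.w ch ω)))
      (fun ω => (flo h (D.z ch F ω + ch.app (α ω) (D.w ch ω)), flo h (D.y ch F ω), D.c ω)) ≤ E :=
    (e1.hc_mono hp (Det.snd _ _ _) (Det.fst _ _ _)).trans hD'
  have h4 := T.t3.nearA h (fun ω => ch.app (α ω - α' ω) (D.w ch ω))
    (fun ω => (flo h (D.z ch F ω + ch.app (α' ω) (D.w ch ω)),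
      flo h (D.z ch F ω + ch.app (α ω) (D.w ch ω)), flo h (D.y ch F ω), D.c ω)) (2 * √p + 1) hp
    (by linarith [sqrt_nonneg (p : ℝ)]) fun ω ω' _ _ hg => by
      have a1 := flo_near (Prod.ext_iff.1 hg).1
      have a2 := flo_near (Prod.ext_iff.1 (Prod.ext_iff.1 hg).2).1
      have a4 : ch.app (α ω - α' ω) (D.w ch ω) - ch.app (α ω' - α' ω') (D.w ch ω') =
          (D.z ch F ω + ch.app (α ω) (D.w ch ω) - (D.z ch F ω' + ch.app (α ω') (D.w ch ω'))) -
          (D.z ch F ω + ch.app (α' ω) (D.w ch ω) - (D.z ch F ω' + ch.app (α' ω') (D.w ch ω'))) := by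
        simp only [map_sub, LinearMap.sub_apply]; abel
      have a5 : (0 : ℝ) ≤ 2⁻¹ ^ h := by positivity
      rw [a4]
      refine (norm_sub_le _ _).trans ?_
      linarith
  unfold Cf.DCP at hD
  linarith

/-- all coordinates but one -/
noncomputable def W0 (h : ℕ) (k : Fin q) (w : Eu q) (k' : Fin q) : ℤ :=
  if k' = k then 0 else fl h (w k')

theorem cmpW (T : Tools) {β : Type} (h : ℕ) (k : Fin q) (g : Ω → β) (hO : D.OK L E) :
    Hc D.p (fun ω => W0 h k (D.w ch ω)) g ≤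
      (q - 1) * (h * log 2 + log (4 * (2 * √m) + 3)) := by
  have hp := hO.isP
  have h1 := e1.subadd (fun k' ω => W0 h k (D.w ch ω) k') g hp
  refine h1.trans ?_
  rw [← Finset.sum_erase_add _ _ (Finset.mem_univ k)]
  have h2 : Hc D.p (fun ω => W0 h k (D.w ch ω) k) g = 0 :=
    e1.hc_det hp fun _ _ _ _ _ => by simp [W0]
  have h3 : ∑ k' ∈ Finset.univ.erase k, Hc D.p (fun ω => W0 h k (D.w ch ω) k') g ≤
      ∑ _k' ∈ Finset.univ.erase k, (h * log 2 + log (4 * (2 * √m) + 3)) :=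
    Finset.sum_le_sum fun k' hk' => by
      have h4 : (fun ω => W0 h k (D.w ch ω) k') = fun ω => fl h (D.w ch ω k') := by
        funext ω; rw [W0, if_neg (Finset.ne_of_mem_erase hk')]
      rw [h4]
      exact T.t3.tot1B h (fun ω => D.w ch ω k') g _ hp (by positivity) fun ω hω =>
        (abs_coord_le _ _).trans (norm_w hO hω)
  rw [Finset.sum_const, Finset.card_erase_of_mem (Finset.mem_univ k), Finset.card_univ,
    Fintype.card_fin, nsmul_eq_mul, Nat.cast_sub k.pos, Nat.cast_one] at h3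
  linarith

omit [Fintype Ω] in
/-- the missing coordinate is nearly known when the matrix entry is large -/
theorem coord {h b : ℕ} (hb : b ≤ h) (k : Fin q) (β : Eu r) (w w' : Eu q) {A : ℝ}
    (hA : ‖β‖ ≤ A) (hk : 2⁻¹ ^ (h - b) ≤ 2 * ‖ch.app β (EuclideanSpace.single k 1)‖)
    (hW : W0 h k w' = W0 h k w) (hY : flo h (ch.app β w') = flo h (ch.app β w)) :
    |w' k - w k| ≤ 2 * (√p + A * √q) * 2 ^ (h - b) * 2⁻¹ ^ h := by
  have _ := hb
  have hA0 : 0 ≤ A := (norm_nonneg _).trans hA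
  set ρ : Eu q := w' - w - (w' k - w k) • EuclideanSpace.single k (1 : ℝ) with hρ
  have h1 : ‖ρ‖ ≤ √q * 2⁻¹ ^ h := norm_le_of_coord (by positivity) fun j => by
    by_cases hj : j = k
    · subst hj; simp [hρ]
    · have h2 := congrFun hW j
      rw [W0, W0, if_neg hj, if_neg hj] at h2
      have h3 := fl_same h2
      simpa [hρ, hj] using h3
  have h2 := flo_near hY
  have h3 : (w' k - w k) • ch.app β (EuclideanSpace.single k (1 : ℝ)) =
      (ch.app β w' - ch.app β w) - ch.app β ρ := by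
    rw [hρ, map_sub, map_sub, map_smul]; abel
  have h4 : ‖ch.app β ρ‖ ≤ A * (√q * 2⁻¹ ^ h) :=
    (ch.app_le _ _).trans (mul_le_mul hA h1 (norm_nonneg _) hA0)
  have h5 : |w' k - w k| * ‖ch.app β (EuclideanSpace.single k (1 : ℝ))‖ ≤
      (√p + A * √q) * 2⁻¹ ^ h := by
    rw [← Real.norm_eq_abs, ← norm_smul, h3]
    refine (norm_sub_le _ _).trans ?_
    linarith
  have h6 := mul_le_mul_of_nonneg_left hk (abs_nonneg (w' k - w k))
  have h7 : (0 : ℝ) < 2 ^ (h - b) := by positivity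
  have h8 : |w' k - w k| * 2⁻¹ ^ (h - b) ≤ 2 * (√p + A * √q) * 2⁻¹ ^ h := by linarith
  rw [inv_pow, ← div_eq_mul_inv, div_le_iff₀ h7] at h8
  linarith

/-- the constant of the second statement -/
noncomputable def CC (m p q : ℕ) : ℝ :=
  p * log (2 * √p + 1) + CE p + q * log (4 * (2 * √m) + 3) + log 2 + log (4 * √p + 8 * √q + 3)

theorem cnt_le {E : ℝ} (hE : 0 ≤ E) (p q j : ℕ) :
    2 * (2 * (√p + 2 * exp E * √q) * 2 ^ j + 1) + 1 ≤
      exp (j * log 2 + (E + log (4 * √p + 8 * √q + 3))) := by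
  have h1 : (0 : ℝ) ≤ √p := sqrt_nonneg _
  have h2 : (0 : ℝ) ≤ √q := sqrt_nonneg _
  have h3 : 1 ≤ exp E := one_le_exp hE
  have h4 : (1 : ℝ) ≤ 2 ^ j := one_le_pow₀ one_le_two
  rw [exp_add, exp_add, exp_log (by positivity), ← log_pow, exp_log (by positivity)]
  have h5 : 1 ≤ 2 ^ j * exp E := one_le_mul_of_one_le_of_one_le h4 h3
  have h6 : √p * 2 ^ j * 1 ≤ √p * 2 ^ j * exp E := by gcongr
  nlinarith

/-- the pointwise form of the second statement -/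
theorem cmp (T : Tools) {b h : ℕ} (hO : D.OK L E) (hF : D.FullC ch σ Q F L e)
    (hα : Det D.p D.c α) (hα' : Det D.p D.c α')
    (hn : ∀ ω, D.p ω ≠ 0 → ‖α ω‖ ≤ exp E ∧ ‖α' ω‖ ≤ exp E) (hb : b ≤ h) (hh : h ≤ L)
    (hD : D.DCP ch F α h E) (hD' : D.DCP ch F α' h E) (k : Fin q) :
    Pr D.p (fun ω => 2⁻¹ ^ (h - b) ≤ 2 * ‖ch.app (α ω - α' ω) (EuclideanSpace.single k 1)‖) *
      (b * log 2) ≤ e + (3 * E + CC m p q) := by
  have hp := hO.isP
  have hE := hO.nonneg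
  set Far : Ω → Prop :=
    fun ω => 2⁻¹ ^ (h - b) ≤ 2 * ‖ch.app (α ω - α' ω) (EuclideanSpace.single k 1)‖ with hFar
  have h1 := hF.wl h h le_rfl hh
  have h2 := e1.tri (fun ω => flo h (D.w ch ω)) (fun ω => flo h (ch.app (α ω - α' ω) (D.w ch ω)))
    (fun ω => (flo h (D.y ch F ω), D.c ω)) hp
  have h3 := cmpY T hO hD hD'
  have h4 := e1.tri (fun ω => flo h (D.w ch ω)) (fun ω => W0 h k (D.w ch ω))
    (fun ω => (flo h (ch.app (α ω - α' ω) (D.w ch ω)), flo h (D.y ch F ω), D.c ω)) hp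
  have h5 := cmpW (ch := ch) T h k
    (fun ω => (flo h (ch.app (α ω - α' ω) (D.w ch ω)), flo h (D.y ch F ω), D.c ω)) hO
  have h6 : Hc D.p (fun ω => flo h (D.w ch ω)) (fun ω => (W0 h k (D.w ch ω),
      flo h (ch.app (α ω - α' ω) (D.w ch ω)), flo h (D.y ch F ω), D.c ω)) ≤
      Hc D.p (fun ω => fl h (D.w ch ω k)) (fun ω => (W0 h k (D.w ch ω),
      flo h (ch.app (α ω - α' ω) (D.w ch ω)), flo h (D.y ch F ω), D.c ω)) :=
    e1.hc_mono hp (Det.refl _ _) fun ω ω' _ _ hg => flo_eq_iff.2 fun j => by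
      by_cases hj : j = k
      · rw [hj]; exact (Prod.ext_iff.1 hg).1
      · have a1 := congrFun (Prod.ext_iff.1 (Prod.ext_iff.1 hg).2).1 j
        dsimp only at a1
        rwa [W0, W0, if_neg hj, if_neg hj] at a1
  have h7 := T.t2.cntE (f := fun ω => fl h (D.w ch ω k)) (g := fun ω => (W0 h k (D.w ch ω),
      flo h (ch.app (α ω - α' ω) (D.w ch ω)), flo h (D.y ch F ω), D.c ω)) Far
    (A := (h - b : ℕ) * log 2 + (E + log (4 * √p + 8 * √q + 3)))
    (B := h * log 2 + log (4 * (2 * √m) + 3)) hp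
    (fun ω hω hf S hS => by
      refine (card_le S (2 ^ h * D.w ch ω k) (2 * (√p + 2 * exp E * √q) * 2 ^ (h - b) + 1)
        (by positivity) fun s hs => ?_).trans (cnt_le hE p q (h - b))
      obtain ⟨ω', hω', -, hg, rfl⟩ := hS s hs
      have a1 : D.c ω' = D.c ω := (Prod.ext_iff.1 (Prod.ext_iff.1 (Prod.ext_iff.1 hg).2).2).2
      have a2 := (Prod.ext_iff.1 (Prod.ext_iff.1 hg).2).1
      dsimp only at a2
      rw [hα ω' ω hω' hω a1, hα' ω' ω hω' hω a1] at a2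
      refine fl_near h _ _ _ (coord hb k (α ω - α' ω) _ _ ?_ hf (Prod.ext_iff.1 hg).1 a2)
      linarith [norm_sub_le (α ω) (α' ω), (hn ω hω).1, (hn ω hω).2])
    fun ω hω => T.t3.cnt1B h (fun ω => D.w ch ω k) _ _ ω (by positivity) hω fun ω hω =>
      (abs_coord_le _ _).trans (norm_w hO hω)
  rw [e1.pr_not Far hp, Nat.cast_sub hb] at h7
  have h8 := e1.pr_nonneg Far hp
  have h9 := e1.pr_le_one Far hp
  have c1 : 0 ≤ log (4 * (2 * √m) + 3) := log_nonneg (by linarith [sqrt_nonneg (m : ℝ)])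
  have c2 : 0 ≤ log (4 * √p + 8 * √q + 3) :=
    log_nonneg (by linarith [sqrt_nonneg (p : ℝ), sqrt_nonneg (q : ℝ)])
  have c3 := mul_nonneg h8 c1
  have c4 := mul_nonneg (sub_nonneg.2 h9) (add_nonneg hE c2)
  unfold CC
  linarith

end CmpX

theorem sMac (T : Tools) (B : Base) : SMac := by
  intro m σ hc p q r ch κ ζ hκ hζ
  have hσ := hc.pos
  have hl := log_two_pos
  have hδ : 0 < σ * κ * log 2 / 4 := by positivity
  obtain ⟨e, he, hF⟩ := ef_use1 (B.fullC m σ hc ch _ hδ)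
  filter_upwards [hF, B.cut m σ hc ζ e hζ he, ef_large 1,
    ef_lin (inv_pos.2 hζ).le (p * log (√p + 4 * √m + 1) + CE p) hδ] with x h1 h2 h3 h4
  intro Ω Tt Θ _ D Q F α b hP hb hbL hD
  have hL : (1 : ℝ) ≤ x.2 := by exact_mod_cast h3
  refine mul_le_mul_of_nonneg_right ?_ (by linarith)
  by_contra hn
  have hu := (not_le.1 hn).le
  have h5 := CmpX.mac T hP.ok hζ hu (h1 _ le_rfl _ Q F ((h2 D _ hu hP.ext).2.2.2 ch Q F hP)) hbL hD
  have h6 : σ * (κ * x.2) * log 2 ≤ σ * b * log 2 := by gcongr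
  have h7 := mul_le_mul_of_nonneg_left hL hδ.le
  linarith

theorem sCmp (T : Tools) (B : Base) : SCmp := by
  intro m σ hc p q r ch κ ζ hκ hζ
  have hl := log_two_pos
  have hδ : 0 < ζ * κ * log 2 / (2 * (q + 1)) := by positivity
  filter_upwards [B.fullC m σ hc ch _ hδ,
    ef_lin (show (0 : ℝ) ≤ 3 by norm_num) (CmpX.CC m p q) hδ] with x h1 h2
  intro Ω Tt Θ _ D Q F α α' b h hP hα hα' hn hb hbh hh hD hD'
  have hp := hP.ok.isP
  have hL : (0 : ℝ) ≤ x.2 := by positivity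
  have h3 := fun k => CmpX.cmp T hP.ok (h1 D Q F hP) hα hα' hn hbh hh hD hD' k
  have h4 : Pr D.p (fun ω => 2⁻¹ ^ (h - b) ≤ ‖α ω - α' ω‖) ≤ _ :=
    (e1.pr_mono hp fun ω _ hω => by
      obtain ⟨k, hk⟩ := ch.app_ge (α ω - α' ω)
      exact ⟨k, Finset.mem_univ k, hω.trans hk⟩).trans (e1.pr_exists Finset.univ (fun k ω =>
        2⁻¹ ^ (h - b) ≤ 2 * ‖ch.app (α ω - α' ω) (EuclideanSpace.single k 1)‖) hp)
  have h5 := mul_le_mul_of_nonneg_right h4 (show 0 ≤ b * log 2 by positivity)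
  rw [Finset.sum_mul] at h5
  have h6 := h5.trans (Finset.sum_le_sum fun k _ => (h3 k).trans (add_le_add_right h2 _))
  rw [Finset.sum_const, Finset.card_univ, Fintype.card_fin, nsmul_eq_mul] at h6
  have h7 := e1.pr_nonneg (fun ω => 2⁻¹ ^ (h - b) ≤ ‖α ω - α' ω‖) hp
  have h8 : Pr D.p (fun ω => 2⁻¹ ^ (h - b) ≤ ‖α ω - α' ω‖) * (κ * x.2 * log 2) ≤
      Pr D.p (fun ω => 2⁻¹ ^ (h - b) ≤ ‖α ω - α' ω‖) * (b * log 2) := by gcongr
  have h9 : (q + 1 : ℝ) * (ζ * κ * log 2 / (2 * (q + 1)) * x.2 +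
      ζ * κ * log 2 / (2 * (q + 1)) * x.2) = ζ * x.2 * (κ * log 2) := by field_simp; ring
  have h10 := mul_nonneg hδ.le hL
  refine le_of_mul_le_mul_right ?_ (mul_pos hκ hl)
  linarith

end Vale.Agent.P127
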