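import Vale.Agent.P127.Num

/-! Sticky Kakeya sets in four dimensions: the common constraints; line grains are impossible. -/

namespace Vale.Agent.P127

open Vale.Agent.P118
open scoped RealInnerProductSpace
open Real Classical Module

namespace ComX

theorem par {η : ℝ} (hη : 0 < η) (hη' : η ≤ 1 / 2) {L : ℕ} (h8 : 10 ≤ η ^ 2 / 200 * L) :
    ∃ s h r h' b : ℕ, η ^ 2 / 200 * L ≤ b ∧ 4 * s ≤ L ∧ (h : ℝ) ≤ η * s ∧ 2 * h ≤ s ∧ r + r ≤ h ∧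
      (h' : ℝ) ≤ η * r ∧ 2 * h' ≤ r ∧ 2 * b ≤ h' := by
  obtain ⟨s, s1, s2⟩ : ∃ s : ℕ, 4 * s ≤ L ∧ L ≤ 4 * s + 3 := ⟨L / 4, by omega, by omega⟩
  obtain ⟨h, t1, t2⟩ : ∃ h : ℕ, (h : ℝ) ≤ η * s ∧ η * s < h + 1 :=
    ⟨⌊η * s⌋₊, Nat.floor_le (by positivity), Nat.lt_floor_add_one _⟩
  obtain ⟨r, r1, r2⟩ : ∃ r : ℕ, r + r ≤ h ∧ h ≤ 2 * r + 1 := ⟨h / 2, by omega, by omega⟩
  obtain ⟨h', u1, u2⟩ : ∃ h : ℕ, (h : ℝ) ≤ η * r ∧ η * r < h + 1 :=
    ⟨⌊η * r⌋₊, Nat.floor_le (by positivity), Nat.lt_floor_add_one _⟩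
  obtain ⟨b, b1, b2⟩ : ∃ b : ℕ, 2 * b ≤ h' ∧ h' ≤ 2 * b + 1 := ⟨h' / 2, by omega, by omega⟩
  have hs : (0 : ℝ) ≤ s := by positivity
  have hr : (0 : ℝ) ≤ r := by positivity
  refine ⟨s, h, r, h', b, ?_, s1, t1, ?_, r1, u1, ?_, b1⟩
  · have v1 : (L : ℝ) ≤ 4 * s + 3 := by exact_mod_cast s2
    have v2 : (h : ℝ) ≤ 2 * r + 1 := by exact_mod_cast r2
    have v3 : (h' : ℝ) ≤ 2 * b + 1 := by exact_mod_cast b2
    have v4 := mul_le_mul_of_nonneg_left v1 hη.le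
    have v5 : η * L ≤ 8 * r + 10 := by linarith
    have v6 := mul_le_mul_of_nonneg_left v5 hη.le
    nlinarith
  · have : (2 * h : ℝ) ≤ s := by nlinarith
    exact_mod_cast this
  · have : (2 * h' : ℝ) ≤ r := by nlinarith
    exact_mod_cast this

theorem q1 (T : Tools) {Ω Tt Θ : Type} [Fintype Ω] {m p L b c j : ℕ} {σ E κ : ℝ}
    {ch : Chart m p 1 p} (hQ : Q1 ch) {D : Cf Ω Tt Θ m} {Q : Ω → Submodule ℝ (Eu m)}
    {F α : Ω → Eu p} (hF : D.FullC ch σ Q F L E) (hC : D.Com ch F α L b κ E) (hb : 2 * b ≤ L)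
    (hj : j + c = b) (hc : κ * L ≤ c) : σ * j * log 2 ≤ 3 * E + (log 2 + m * log (4 * (p + 1)) + CE m +
      Pr D.p (fun ω => ‖α ω‖ ≤ 2⁻¹ ^ c) * (m * j * log 2 + m * log (m + 1) + CE m)) := by
  have _ := hc
  have ho := hF.pc.ok
  have hp := ho.isP
  have h1 := hF.fg.full.dl j b (by omega) (by omega)
  have h2 := hF.zx b hb
  have h3 : Hc D.p _ _ ≤ E := hC.so
  have h4 := e1.tri (fun ω => flo j (D.v ω)) (fun ω => flo b (D.z ch F ω))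
    (fun ω => (flo b (D.X ω), D.c ω)) hp
  have h5 := e1.tri (fun ω => flo j (D.v ω)) (fun ω => flo b (ch.app (α ω) (ch.Pw (D.v ω))))
    (fun ω => (flo b (D.z ch F ω), flo b (D.X ω), D.c ω)) hp
  have h6 := e1.hc_mono (f := fun ω => flo b (ch.app (α ω) (ch.Pw (D.v ω))))
    (f' := fun ω => flo b (ch.app (α ω) (ch.Pw (D.v ω))))
    (g := fun ω => (flo b (D.z ch F ω), flo b (D.X ω), D.c ω))
    (g' := fun ω => (flo b (D.X ω), D.c ω)) hp (Det.snd _ _ _) (Det.fst _ _ _)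
  have hp0 : (0 : ℝ) ≤ p := by positivity
  have hm0 : (0 : ℝ) ≤ m := by positivity
  have h7 := T.t3.nearE j D.v (fun ω => (flo b (ch.app (α ω) (ch.Pw (D.v ω))),
    flo b (D.z ch F ω), flo b (D.X ω), D.c ω)) (fun ω => ¬‖α ω‖ ≤ 2⁻¹ ^ c) (4 * (p + 1)) (m + 1) hp
    (by linarith) (by linarith) (fun ω hω => (ho.box ω hω).2.1.norm_le.trans (sqrt_le_succ m))
    fun ω ω' hω hω' g1 _ e => by
      simp only [Prod.mk.injEq] at e
      obtain ⟨a1, a2, -, a4⟩ := e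
      have b1 := geo1.same_norm a1
      have b2 := geo1.same_norm a2
      unfold Cf.z at b2
      rw [← hC.det ω ω' hω hω' a4, ← map_sub, ← map_sub, hQ, norm_smul, Real.norm_eq_abs,
        ← norm_one] at b1
      rw [← hF.pc.det ω ω' hω hω' a4, ← ch.pi_sub] at b2
      have b3 := ch.norm_le (hF.pc.rep ω hω).1 (D.v ω - D.v ω')
      have b4 := mul_le_mul_of_nonneg_left (not_le.1 g1).le (norm_nonneg (ch.Pw (D.v ω - D.v ω')))
      have b5 : (2⁻¹ : ℝ) ^ b = 2⁻¹ ^ j * 2⁻¹ ^ c := by rw [← hj, pow_add]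
      have b6 : ‖ch.Pw (D.v ω - D.v ω')‖ ≤ √p * 2⁻¹ ^ j := by
        refine le_of_mul_le_mul_right (b4.trans (b1.trans_eq ?_)) (by positivity : 0 < (2⁻¹ : ℝ) ^ c)
        rw [b5, mul_assoc]
      have b7 : √p * 2⁻¹ ^ b ≤ √p * 2⁻¹ ^ j :=
        mul_le_mul_of_nonneg_left (pow_le_pow_of_le_one (by norm_num) (by norm_num) (by omega))
          (sqrt_nonneg _)
      have b8 := mul_le_mul_of_nonneg_right (sqrt_le_succ p) (by positivity : 0 ≤ (2⁻¹ : ℝ) ^ j)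
      linarith
  simp only [not_not] at h7
  linarith

end ComX

theorem sCom (mac : SMac) (so : SSo) : SCom := by
  intro m σ hc p q r ch η hη hη' ha hd
  have hκ₀ : 0 < η ^ 2 / 200 := by positivity
  refine ⟨_, hκ₀, fun κ ζ hκ hζ => ?_⟩
  obtain ⟨e₁, he₁, hso⟩ := ef_use1 (so m σ hc ch _ ζ hκ₀ hζ)
  obtain ⟨e₂, he₂, hmac⟩ := ef_use1 (mac m σ hc ch κ ζ hκ hζ)
  obtain ⟨e', he', k1, k2, k3⟩ : ∃ e : ℝ, 0 < e ∧ e ≤ e₁ ∧ e ≤ e₂ ∧ e ≤ ζ :=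
    ⟨min (min e₁ e₂) ζ, by positivity, (min_le_left _ _).trans (min_le_left _ _),
      (min_le_left _ _).trans (min_le_right _ _), min_le_right _ _⟩
  obtain ⟨e₃, he₃, hdc⟩ := ef_use1 (hd _ e' hκ₀ he')
  obtain ⟨e, he, k4, k5⟩ : ∃ e : ℝ, 0 < e ∧ e ≤ e₃ ∧ e ≤ e' :=
    ⟨min e₃ e', by positivity, min_le_left _ _, min_le_right _ _⟩
  filter_upwards [hso, hmac, hdc, ha _ e hκ₀ he, ef_small he, ef_const 10 hκ₀]
    with x h1 h2 h3 h4 h5 h6 Ω Tt Θ _ D Q F hD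
  clear hso hmac hdc ha hd mac so
  obtain ⟨E, L⟩ := x
  dsimp only at *
  have hL : (0 : ℝ) ≤ L := by positivity
  have m1 := mul_le_mul_of_nonneg_right k1 hL
  have m2 := mul_le_mul_of_nonneg_right k2 hL
  have m3 := mul_le_mul_of_nonneg_right k3 hL
  have m4 := mul_le_mul_of_nonneg_right k4 hL
  have m5 := mul_le_mul_of_nonneg_right k5 hL
  obtain ⟨s, h, u, h', b, n1, n2, n3, n4, n5, n6, n7, n8⟩ := ComX.par hη hη' h6
  have l : ∀ n : ℕ, b ≤ n → η ^ 2 / 200 * L ≤ n := fun n hn => n1.trans (by exact_mod_cast hn)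
  obtain ⟨M, F₀, α, hA⟩ := h4 D Q F hD s h (l _ (by omega)) n2 n3
  obtain ⟨M', F₀', α', hA'⟩ := h4 D Q F hD u h' (l _ (by omega)) (by omega) n6
  have hD' := hD.mono h5
  have d1 := h3 _ m4 D Q F F₀ α M s h hD' hA (l _ (by omega)) n4 (by omega)
  have d2 := h3 _ m4 D Q F F₀' α' M' u h' hD' hA' (l _ (by omega)) n7 (by omega) h' le_rfl
  have d3 : Det D.p D.c α := (hA.det.pair (D.det_T D.p)).trans hA.dα
  refine ⟨b, α, n1, by omega, d3, (hA.mono (m5.trans m3)).bd,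
    fun b' hb => (d1 b' (by omega)).mono m3, ?_, fun b₁ g1 g2 => ?_⟩
  · exact h1 _ m1 D Q F F₀' α α' M' u h' b (hD'.mono m5) (hA'.mono m5) d3 (hA.mono m5).bd n1 n8 n7
      (by omega) (d1 _ n5) (d1 _ (by omega)) d2
  · exact h2 _ m2 D Q F α b₁ (hD'.mono m5) g1 (by omega) (d1 _ (by omega))

theorem sQ1 (T : Tools) (B : Base) : SQ1 := by
  intro m σ hc p ch hQ ⟨κ₀, hκ₀, hcom⟩
  have hl := log_two_pos
  have hσ := hc.pos
  have hm0 : (0 : ℝ) ≤ m := by positivity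
  obtain ⟨K, hK⟩ : ∃ K, K = m * log (m + 1) + CE m := ⟨_, rfl⟩
  have hK0 : 0 ≤ K := by
    have := log_nonneg (show (1 : ℝ) ≤ m + 1 by linarith)
    have := CE_nonneg m
    rw [hK]; positivity
  obtain ⟨y, hy⟩ : ∃ y, y = σ * log 2 * κ₀ := ⟨_, rfl⟩
  have hy0 : 0 < y := by rw [hy]; positivity
  have he : 0 < y / 20 / (m + K + 3) := by positivity
  filter_upwards [hcom (κ₀ / 4) _ (by positivity) he, B.fullC m σ hc ch _ he, ef_const 10 hκ₀,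
    ef_const (log 2 + m * log (4 * (p + 1)) + CE m) (show 0 < y / 20 by positivity), ef_large 1]
    with x h1 h2 h3 h4 h5 Ω Tt Θ _ D Q F hD
  obtain ⟨E, L⟩ := x
  dsimp only at *
  obtain ⟨b, α, b1, b2, hC⟩ := h1 D Q F hD
  have hL : (1 : ℝ) ≤ L := by exact_mod_cast h5
  obtain ⟨j, c, j1, j2, j3⟩ : ∃ j c : ℕ, j + c = b ∧ b ≤ 2 * j + 1 ∧ b ≤ 2 * c + 1 :=
    ⟨b / 2, b - b / 2, by omega, by omega, by omega⟩
  have j4 : (b : ℝ) ≤ 2 * j + 1 := by exact_mod_cast j2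
  have j5 : (b : ℝ) ≤ 2 * c + 1 := by exact_mod_cast j3
  have j6 : (j : ℝ) ≤ L := by exact_mod_cast (by omega : j ≤ L)
  have h6 := ComX.q1 T hQ (h2 D Q F hD) hC (by omega) j1 (by linarith)
  have h7 := hC.mac c (by linarith) (by omega)
  have h8 := e1.pr_nonneg (fun ω => ‖α ω‖ ≤ 2⁻¹ ^ c) hD.ok.isP
  rw [add_assoc (m * j * log 2), ← hK] at h6
  obtain ⟨e, he'⟩ : ∃ e, e = y / 20 / (m + K + 3) := ⟨_, rfl⟩
  rw [← he'] at h6 h7 he
  have h9 : e * (m + K + 3) = y / 20 := by rw [he']; field_simp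
  have h10 : m * j * log 2 + K ≤ (m + K) * L := by
    have u1 : m * j * log 2 ≤ m * L * 1 := by gcongr; exact log_two_le_one
    nlinarith
  have h11 := mul_le_mul_of_nonneg_left h10 h8
  have h12 := mul_le_mul_of_nonneg_left h7 (add_nonneg hm0 hK0)
  have h13 : σ * log 2 * (κ₀ * L / 4) ≤ σ * log 2 * j :=
    mul_le_mul_of_nonneg_left (by linarith) (by positivity)
  have h14 : e * (m + K + 3) * L = y / 20 * L := by rw [h9]
  have h15 : σ * log 2 * (κ₀ * L / 4) = y * L / 4 := by rw [hy]; ring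
  have h16 : 0 < y * L := by positivity
  nlinarith

end Vale.Agent.P127
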