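import Vale.Agent.P127.Num

namespace Vale.Agent.P127

open Vale.Agent.P118
open scoped RealInnerProductSpace
open Real Classical Module

namespace CovX

theorem pr_split {Ω : Type} [Fintype Ω] (p : Ω → ℝ) (A B : Ω → Prop) :
    Pr p A = Pr p (fun ω => A ω ∧ B ω) + Pr p fun ω => A ω ∧ ¬B ω := by
  simp only [Pr, Finset.sum_filter, ← Finset.sum_add_distrib]
  refine Finset.sum_congr rfl fun ω _ => ?_
  by_cases hA : A ω <;> by_cases hB : B ω <;> simp [hA, hB]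

theorem greedy {Ω J : Type} [Fintype Ω] [Inhabited J] {p : Ω → ℝ} (hp : IsP p) (T : J → Ω → Prop)
    (δ : ℝ) (k : ℕ) : ∀ A : Ω → Prop, Pr p A ≤ (k + 1) * δ → ∃ g : ℕ → J, ∀ j,
      Pr p (fun ω => (∀ i < k, ¬T (g i) ω) ∧ A ω ∧ T j ω) ≤ δ := by
  induction k with
  | zero =>
    intro A hA
    refine ⟨fun _ => default, fun j => (e1.pr_mono hp fun ω _ h => h.2.1).trans ?_⟩
    simpa using hA
  | succ k ih =>
    intro A hA
    by_cases h : ∀ j, Pr p (fun ω => A ω ∧ T j ω) ≤ δ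
    · exact ⟨fun _ => default, fun j => (e1.pr_mono hp fun ω _ h => h.2).trans (h j)⟩
    push Not at h
    obtain ⟨j, hj⟩ := h
    have h1 := pr_split p A (T j)
    obtain ⟨g, hg⟩ := ih (fun ω => A ω ∧ ¬T j ω) (by push_cast at hA; linarith)
    refine ⟨Function.update g k j, fun j' => (e1.pr_mono hp fun ω _ h => ?_).trans (hg j')⟩
    refine ⟨fun i hi => ?_, ⟨h.2.1, ?_⟩, h.2.2⟩
    · have := h.1 i (by omega)
      rwa [Function.update_of_ne hi.ne] at this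
    · have := h.1 k (by omega)
      rwa [Function.update_self] at this

/-- one plus the index of a member that satisfies `P`, or zero -/
noncomputable def idx (k : ℕ) (P : ℕ → Prop) : ℕ :=
  if h : ∃ i < k, P i then h.choose + 1 else 0

theorem idx_le (k : ℕ) (P : ℕ → Prop) : idx k P ≤ k := by
  unfold idx
  split_ifs with h
  · exact h.choose_spec.1
  · exact Nat.zero_le _

theorem idx_ne {k : ℕ} {P : ℕ → Prop} (h : idx k P ≠ 0) : P (idx k P - 1) := by
  unfold idx at h ⊢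
  split_ifs at h ⊢ with h'
  · exact h'.choose_spec.2
  · exact absurd rfl h

theorem idx_eq {k : ℕ} {P : ℕ → Prop} (h : idx k P = 0) : ∀ i < k, ¬P i := by
  intro i hi hP
  have h' : ∃ i < k, P i := ⟨i, hi, hP⟩
  unfold idx at h
  rw [dif_pos h'] at h
  omega

end CovX

open CovX in
theorem sCov : SCov := by
  intro Ω Wt _ n p W τ f ρ A s₀ hp hA hs
  let J := {γ : Eu n × Eu n // ‖γ.2‖ ≤ A}
  have : Inhabited J := ⟨⟨(0, 0), by simpa using hA⟩⟩
  set k := ⌊s₀⁻¹⌋₊ with hk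
  have hk1 : 1 ≤ ((k : ℝ) + 1) * s₀ := by
    have := mul_le_mul_of_nonneg_right (Nat.lt_floor_add_one s₀⁻¹).le hs.le
    rwa [inv_mul_cancel₀ hs.ne'] at this
  have hk2 : (k : ℝ) ≤ s₀⁻¹ := Nat.floor_le (by positivity)
  choose g hg using fun w : Wt => greedy hp (fun (j : J) ω => ‖f ω - j.1.1 - τ ω • j.1.2‖ ≤ ρ)
    (s₀ * Pr p fun ω => W ω = w) k (fun ω => W ω = w) (by
      have := e1.pr_nonneg (fun ω => W ω = w) hp
      nlinarith)
  let lam : ℝ × Eu n × Wt → ℕ := fun x =>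
    idx k fun i => ‖x.2.1 - (g x.2.2 i).1.1 - x.1 • (g x.2.2 i).1.2‖ ≤ ρ
  refine ⟨fun ω => lam (τ ω, f ω, W ω), fun ω => (g (W ω) (lam (τ ω, f ω, W ω) - 1)).1.1,
    fun ω => (g (W ω) (lam (τ ω, f ω, W ω) - 1)).1.2, Det.comp p _ lam, ?_,
    Det.comp p _ fun x : ℕ × Wt => (g x.2 (x.1 - 1)).1.1,
    Det.comp p _ fun x : ℕ × Wt => (g x.2 (x.1 - 1)).1.2,
    fun ω _ => ⟨(g _ _).2, fun h => idx_ne h⟩, fun ω₀ _ γ₀ γ hγ => ?_⟩
  · rw [← e1.hc_const _ hp (Det.refl p fun _ => ())]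
    refine e2.count' hp fun ω _ S hS => ?_
    have h1 : S ⊆ Finset.range (k + 1) := fun a ha => by
      obtain ⟨ω', -, -, rfl⟩ := hS a ha
      exact Finset.mem_range.2 (Nat.lt_succ_of_le (idx_le _ _))
    have h2 := Finset.card_le_card h1
    rw [Finset.card_range] at h2
    have h3 : (S.card : ℝ) ≤ k + 1 := by exact_mod_cast h2
    linarith
  · refine (e1.pr_mono hp fun ω _ h => ?_).trans (hg (W ω₀) ⟨(γ₀, γ), hγ⟩)
    refine ⟨?_, h.2⟩
    rw [← h.2.1]
    exact idx_eq h.1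

end Vale.Agent.P127
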