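import Vale.Agent.P127.Num

/-! Sticky Kakeya sets in four dimensions: restriction to an event. -/

namespace Vale.Agent.P127

open Vale.Agent.P118
open scoped RealInnerProductSpace
open Real Classical Module

namespace CutX

section Gen

variable {Ω α β : Type} [Fintype Ω] {p : Ω → ℝ} {f : Ω → α} {g : Ω → β} {Ev : Ω → Prop}
  {u E Λ : ℝ}

theorem det (h : Det p f g) : Det (cnd p Ev) f g :=
  fun a b ha hb => h a b (e2.cnd_ne ha).1 (e2.cnd_ne hb).1

theorem cap (T : Tools) (hp : IsP p) (hu : 0 < u) (hP : u ≤ Pr p Ev)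
    (hc : ∀ ω, p ω ≠ 0 → Cnt p f g ω (exp Λ)) (hE : 0 ≤ E) (h : Λ - E ≤ Hc p f g) :
    Λ - (E + log 2) / u ≤ Hc (cnd p Ev) f g := by
  have h1 := T.t2.evcap Ev hp (hu.trans_le hP) hc
  have h2 : (Λ - Hc p f g + log 2) / Pr p Ev ≤ (E + log 2) / u :=
    div_le_div₀ (by linarith [log_two_pos]) (by linarith) hu hP
  linarith

theorem low (hp : IsP p) (hu : 0 < u) (hP : u ≤ Pr p Ev) (h : Hc p f g ≤ E) :
    Hc (cnd p Ev) f g ≤ (E + log 2) / u := by
  have h1 := e2.event_low f g Ev hp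
  have h2 := mul_le_mul_of_nonneg_right hP
    (e1.hc_nonneg f g (e2.isP_cnd hp (hu.trans_le hP).ne'))
  rw [le_div_iff₀' hu]
  linarith [log_two_pos]

end Gen

variable {Ω Tt Θ : Type} [Fintype Ω] {m L : ℕ} {D : Cf Ω Tt Θ m} {Ev : Ω → Prop} {u E : ℝ}

theorem ok (T : Tools) (h : D.OK L E) (hu : 0 < u) (hP : u ≤ Pr D.p Ev) :
    (D.cut Ev).OK L ((E + log 2) / u) where
  isP := e2.isP_cnd h.isP (hu.trans_le hP).ne'
  box ω hω := h.box ω (e2.cnd_ne hω).1
  lat ω hω := h.lat ω (e2.cnd_ne hω).1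
  det := det h.det
  dir := cap T h.isP hu hP (fun ω _ S hS => T.t4.cubeC L D.v D.c ω (fun ω hω => (h.box ω hω).2.1)
    S fun a ha => by
      obtain ⟨ω', h1, h2, h3⟩ := hS a ha
      exact ⟨ω', h1, h2, (h.lat ω' h1).2.trans h3⟩) h.nonneg h.dir
  tim := cap T h.isP hu hP (fun ω _ => T.t4.intC L D.t D.T ω fun ω hω => (h.box ω hω).2.2)
    h.nonneg h.tim
  stk i hi := low h.isP hu hP (h.stk i hi)

theorem gr (T : Tools) (h : D.OK L E) (hu : 0 < u) (hP : u ≤ Pr D.p Ev)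
    {Q : Ω → Submodule ℝ (Eu m)} {q : ℕ} (hG : D.Gr Q q L E) :
    (D.cut Ev).Gr Q q L ((E + (2 * m * log (2 * (m + 1)) + CE m) + log 2) / u) := by
  have hm : (0 : ℝ) ≤ m := by positivity
  have ha : (1 : ℝ) ≤ 2 * (m + 1) := by linarith
  have hC : 0 ≤ 2 * m * log (2 * (m + 1 : ℝ)) + CE m := by
    have := log_nonneg ha
    have := CE_nonneg m
    positivity
  refine ⟨det hG.1, fun ω hω => hG.2.1 ω (e2.cnd_ne hω).1, le_trans ?_ (cap T h.isP hu hP
    (fun ω hω => T.t4.plateC 0 L q D.X _ (Q ω) (2 * (m + 1)) ω (Nat.zero_le _) ha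
      (hG.2.1 ω hω).le fun ω' hω' e => ⟨?_, ?_⟩) (add_nonneg h.nonneg hC) ?_)⟩
  · push_cast
    linarith
  · linarith [norm_sub_le (D.X ω') (D.X ω), h.norm_X hω, h.norm_X hω', sqrt_le_half m,
      pow_zero (2⁻¹ : ℝ)]
  · obtain ⟨h1, h2⟩ := Prod.ext_iff.1 e
    have h3 := geo1.same_norm (show flo L _ = flo L _ from h1)
    rw [hG.1 ω' ω hω' hω h2, ← la.prj_sub] at h3
    exact h3.trans (mul_le_mul_of_nonneg_right (by linarith [sqrt_le_succ m]) (by positivity))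
  · refine le_trans ?_ hG.2.2
    push_cast
    linarith

theorem up (T : Tools) {σ δ : ℝ} (hσ : 0 < σ) (h : D.Ext σ L E) (hu : 0 < u)
    (hP : u ≤ Pr D.p Ev) (hδ : 0 < δ) (hE : E ≤ δ * L)
    (hlb : δ / (m + 1) ≤ Pr D.p (fun ω => ¬Ev ω) → (m - σ - δ) * L * log 2 ≤
      Hc (cnd D.p fun ω => ¬Ev ω) (fun ω => flo L (D.X ω)) D.c) :
    Hc (cnd D.p Ev) (fun ω => flo L (D.X ω)) D.c ≤ (m - σ) * L * log 2 + 2 * δ / u * L := by
  have hp := h.1.isP
  have h0 := h.2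
  have h1 := T.t2.evsum (fun ω => flo L (D.X ω)) D.c Ev hp
  have h2 := e2.event_low (fun ω => flo L (D.X ω)) D.c Ev hp
  have h3 := e1.pr_not Ev hp
  have h4 := e1.pr_le_one Ev hp
  have hm : (0 : ℝ) ≤ m := by positivity
  have hL : (0 : ℝ) ≤ L := by positivity
  have hl := log_two_pos
  have hl' : L * log 2 ≤ L := mul_le_of_le_one_right hL log_two_le_one
  rw [h3] at h1 hlb
  generalize Hc (cnd D.p Ev) (fun ω => flo L (D.X ω)) D.c = H at *
  generalize Hc (cnd D.p fun ω => ¬Ev ω) (fun ω => flo L (D.X ω)) D.c = H' at *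
  generalize Pr D.p Ev = P at *
  have key : P * H ≤ P * ((m - σ) * L * log 2) + 2 * δ * L := by
    by_cases hc : δ / (m + 1) ≤ 1 - P
    · have h5 := mul_le_mul_of_nonneg_left (hlb hc) (sub_nonneg.2 h4)
      have h6 : (1 - P) * (δ * (L * log 2)) ≤ δ * L :=
        (mul_le_of_le_one_left (by positivity) (by linarith)).trans
          (mul_le_mul_of_nonneg_left hl' hδ.le)
      linarith
    · rw [div_le_iff₀ (by positivity), not_le] at hc
      have h5 : (m - σ) * (L * log 2) ≤ (m + 1) * L :=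
        (mul_le_mul_of_nonneg_right (by linarith) (by positivity)).trans
          (mul_le_mul_of_nonneg_left hl' (by positivity))
      have h6 := mul_le_mul_of_nonneg_left h5 (sub_nonneg.2 h4)
      have h7 := mul_le_mul_of_nonneg_right hc.le hL
      linarith
  by_contra hc
  have h5 := mul_lt_mul_of_pos_left (not_le.1 hc) (hu.trans_le hP)
  have h6 : u * (2 * δ / u * L) ≤ P * (2 * δ / u * L) :=
    mul_le_mul_of_nonneg_right hP (by positivity)
  have h7 : u * (2 * δ / u * L) = 2 * δ * L := by field_simp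
  linarith

end CutX

open CutX in
theorem sCut (T : Tools) : SCut := by
  intro m σ hc u ζ hu hζ
  have hδ : 0 < ζ * u / 2 := by positivity
  have hu' : 0 < ζ * u / 2 / (m + 1) := by positivity
  obtain ⟨e, he, hlb⟩ := ef_use1 (hc.lb _ hδ)
  filter_upwards [hlb, ef_small hδ, ef_lin (inv_pos.2 hu').le (log 2 / (ζ * u / 2 / (m + 1))) he,
    ef_lin (inv_pos.2 hu).le ((2 * m * log (2 * (m + 1)) + CE m + log 2) / u) hζ]
    with x hlb h1 h2 h3 Ω Tt Θ _ D Ev hP hE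
  have hm : (0 : ℝ) ≤ m := by positivity
  have hC : 0 ≤ 2 * m * log (2 * (m + 1 : ℝ)) + CE m := by
    have := log_nonneg (show (1 : ℝ) ≤ 2 * (m + 1) by linarith)
    have := CE_nonneg m
    positivity
  have h4 : (x.1 + (2 * m * log (2 * (m + 1)) + CE m) + log 2) / u ≤ ζ * x.2 := by
    rw [add_assoc, add_div, div_eq_inv_mul]
    exact h3
  have h5 : (x.1 + log 2) / u ≤ ζ * x.2 :=
    (div_le_div_of_nonneg_right (by linarith) hu.le).trans h4
  have hX : (D.cut Ev).Ext σ x.2 (ζ * x.2) := by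
    refine ⟨(ok T hE.1 hu hP).mono h5, (up T hc.pos hE hu hP hδ h1 fun h => ?_).trans_eq ?_⟩
    · refine hlb _ ?_ (D.cut fun ω => ¬Ev ω) (ok T hE.1 hu' h)
      rw [add_div, div_eq_inv_mul]
      exact h2
    · congr 2
      field_simp
  have hG : ∀ Q q, D.Gr Q q x.2 x.1 → (D.cut Ev).Gr Q q x.2 (ζ * x.2) := fun Q q h =>
    (gr T hE.1 hu hP h).mono h4
  have hL : ∀ Q, D.Pl Q x.2 x.1 → (D.cut Ev).Pl Q x.2 (ζ * x.2) := fun Q h i hi =>
    (low hE.1.isP hu hP (h i hi)).trans h5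
  exact ⟨hX, hG, hL, fun ch Q F h => ⟨hX, hG _ _ h.gr, hL _ h.pl, det h.det,
    fun ω hω => h.rep ω (e2.cnd_ne hω).1⟩⟩

end Vale.Agent.P127
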