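import Vale.Agent.P127.Num

/-! The derivative constraint on affine windows. -/

namespace Vale.Agent.P127

open Vale.Agent.P118
open scoped RealInnerProductSpace
open Real Classical Module

namespace DcX

section Geo

variable {m p q r : ℕ} (ch : Chart m p q r)

/-- the discretised derivative -/
noncomputable def U (F α : Eu r) (t : ℝ) (l : Eu m × Eu m) : Eu p :=
  ch.pi F l.2 + ch.app α (ch.Pw (l.1 + t • l.2))

theorem smul_le {t : ℝ} (h0 : 0 ≤ t) (h1 : t < 1) (x : Eu m) : ‖t • x‖ ≤ ‖x‖ := by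
  rw [norm_smul, Real.norm_eq_abs, abs_of_nonneg h0]
  exact mul_le_of_le_one_left (norm_nonneg _) h1.le

theorem U_le {F α : Eu r} {t A B : ℝ} {a v : Eu m} (hF : ‖F‖ ≤ 2) (hα : ‖α‖ ≤ A) (h0 : 0 ≤ t)
    (h1 : t < 1) (ha : ‖a‖ ≤ B) (hv : ‖v‖ ≤ B) : ‖U ch F α t (a, v)‖ ≤ (3 + 2 * A) * B := by
  have e1 := ch.pi_le hF v
  have e2 := ch.app_Pw_le α (a + t • v)
  have e3 : ‖a + t • v‖ ≤ 2 * B := by linarith [norm_add_le a (t • v), smul_le h0 h1 v]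
  have e4 : ‖α‖ * ‖a + t • v‖ ≤ A * (2 * B) :=
    mul_le_mul hα e3 (norm_nonneg _) ((norm_nonneg _).trans hα)
  unfold U
  linarith [norm_add_le (ch.pi F v) (ch.app α (ch.Pw (a + t • v)))]

theorem U_sub (F α : Eu r) (t : ℝ) (a v a' v' : Eu m) :
    U ch F α t (a, v) - U ch F α t (a', v') = U ch F α t (a - a', v - v') := by
  simp only [U, Chart.pi_sub, smul_sub, map_add, map_sub]
  abel

theorem U_near {F α : Eu r} {t A : ℝ} (i : ℕ) (a v : Eu m) (hF : ‖F‖ ≤ 2) (hα : ‖α‖ ≤ A)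
    (h0 : 0 ≤ t) (h1 : t < 1) :
    ‖U ch F α t (a, v) - U ch F α t (flo i a, flo i v)‖ ≤ (3 + 2 * A) * (√m * 2⁻¹ ^ i) := by
  rw [U_sub]
  exact U_le ch hF hα h0 h1 (geo1.norm_sub_flo i a) (geo1.norm_sub_flo i v)

theorem y_diff {F₁ F₂ : Eu r} {t₁ t₂ δ R : ℝ} {a v : Eu m} (hF : ‖F₂‖ ≤ 2) (h0 : 0 ≤ t₁)
    (h1 : t₁ < 1) (ha : InC a) (hv : InC v) (ht : |t₂ - t₁| ≤ δ) (hFF : ‖F₂ - F₁‖ ≤ R * δ) :
    ‖ch.pi F₂ (a + t₂ • v) - ch.pi F₁ (a + t₁ • v)‖ ≤ (3 * √m + 2 * (√m * R)) * δ := by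
  have e0 : ch.pi F₂ (a + t₂ • v) - ch.pi F₁ (a + t₁ • v) =
      ch.pi F₂ ((t₂ - t₁) • v) + ch.app (F₂ - F₁) (ch.Pw (a + t₁ • v)) := by
    rw [← ch.pi_sub_pi, sub_smul, ch.pi_sub, ch.pi_add, ch.pi_add F₂]
    abel
  have e1 := ch.pi_le hF ((t₂ - t₁) • v)
  have e2 : ‖(t₂ - t₁) • v‖ ≤ δ * √m := by
    rw [norm_smul, Real.norm_eq_abs]
    exact mul_le_mul ht hv.norm_le (norm_nonneg _) ((abs_nonneg _).trans ht)
  have e3 := ch.app_Pw_le (F₂ - F₁) (a + t₁ • v)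
  have e4 : ‖a + t₁ • v‖ ≤ 2 * √m := by
    linarith [norm_add_le a (t₁ • v), smul_le h0 h1 v, ha.norm_le, hv.norm_le]
  have e5 : ‖F₂ - F₁‖ * ‖a + t₁ • v‖ ≤ R * δ * (2 * √m) :=
    mul_le_mul hFF e4 (norm_nonneg _) ((norm_nonneg _).trans hFF)
  rw [e0]
  linarith [norm_add_le (ch.pi F₂ ((t₂ - t₁) • v)) (ch.app (F₂ - F₁) (ch.Pw (a + t₁ • v)))]

theorem y_aff {F₁ F₂ F₀ α : Eu r} {t₁ t₂ ε R A : ℝ} {a v : Eu m} (s : ℕ) (hF : ‖F₁‖ ≤ 2)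
    (hα : ‖α‖ ≤ A) (h0 : 0 ≤ t₁) (h1 : t₁ < 1) (ha : InC a) (hv : InC v)
    (ht : |t₂ - t₁| ≤ 2⁻¹ ^ s) (hR : 0 ≤ R) (hFF : ‖F₂ - F₁‖ ≤ R * 2⁻¹ ^ s)
    (hε : 2⁻¹ ^ s * 2⁻¹ ^ s ≤ ε) (k1 : ‖F₁ - F₀ - t₁ • α‖ ≤ ε) (k2 : ‖F₂ - F₀ - t₂ • α‖ ≤ ε) :
    ‖ch.pi F₁ (a + t₁ • v) - ch.pi F₂ (a + t₂ • v) +
      (t₂ - t₁) • U ch F₁ α t₁ (flo s a, flo s v)‖ ≤ (7 * √m + √m * R + 2 * √m * A) * ε := by
  have hA : 0 ≤ A := (norm_nonneg _).trans hα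
  have e0 : ch.pi F₁ (a + t₁ • v) - ch.pi F₂ (a + t₂ • v) +
      (t₂ - t₁) • U ch F₁ α t₁ (flo s a, flo s v) =
      ch.app ((F₁ - F₀ - t₁ • α) - (F₂ - F₀ - t₂ • α)) (ch.Pw (a + t₁ • v)) -
        (t₂ - t₁) • ((U ch F₁ α t₁ (a, v) - U ch F₁ α t₁ (flo s a, flo s v)) +
          ch.app (F₂ - F₁) (ch.Pw v)) := by
    simp only [U, Chart.pi, map_add, map_sub, map_smul, LinearMap.sub_apply,
      LinearMap.smul_apply]
    module
  have e1 := ch.app_Pw_le ((F₁ - F₀ - t₁ • α) - (F₂ - F₀ - t₂ • α)) (a + t₁ • v)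
  have e2 : ‖(F₁ - F₀ - t₁ • α) - (F₂ - F₀ - t₂ • α)‖ ≤ 2 * ε := by
    linarith [norm_sub_le (F₁ - F₀ - t₁ • α) (F₂ - F₀ - t₂ • α)]
  have e4 : ‖a + t₁ • v‖ ≤ 2 * √m := by
    linarith [norm_add_le a (t₁ • v), smul_le h0 h1 v, ha.norm_le, hv.norm_le]
  have e5 : ‖(F₁ - F₀ - t₁ • α) - (F₂ - F₀ - t₂ • α)‖ * ‖a + t₁ • v‖ ≤ 2 * ε * (2 * √m) :=
    mul_le_mul e2 e4 (norm_nonneg _) ((norm_nonneg _).trans e2)
  have e6 := U_near ch s a v hF hα h0 h1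
  have e7 := ch.app_Pw_le (F₂ - F₁) v
  have e8 : ‖F₂ - F₁‖ * ‖v‖ ≤ R * 2⁻¹ ^ s * √m :=
    mul_le_mul hFF hv.norm_le (norm_nonneg _) ((norm_nonneg _).trans hFF)
  set W := (U ch F₁ α t₁ (a, v) - U ch F₁ α t₁ (flo s a, flo s v)) + ch.app (F₂ - F₁) (ch.Pw v)
    with hW
  have e9 : ‖W‖ ≤ (3 * √m + √m * R + 2 * √m * A) * 2⁻¹ ^ s := by
    have := norm_add_le (U ch F₁ α t₁ (a, v) - U ch F₁ α t₁ (flo s a, flo s v))
      (ch.app (F₂ - F₁) (ch.Pw v))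
    linarith
  have e10 : ‖(t₂ - t₁) • W‖ ≤ (3 * √m + √m * R + 2 * √m * A) * ε := by
    rw [norm_smul, Real.norm_eq_abs]
    calc |t₂ - t₁| * ‖W‖ ≤ 2⁻¹ ^ s * ((3 * √m + √m * R + 2 * √m * A) * 2⁻¹ ^ s) :=
          mul_le_mul ht e9 (norm_nonneg _) (by positivity)
      _ = (3 * √m + √m * R + 2 * √m * A) * (2⁻¹ ^ s * 2⁻¹ ^ s) := by ring
      _ ≤ _ := mul_le_mul_of_nonneg_left hε (by positivity)
  rw [e0]
  linarith [norm_sub_le (ch.app ((F₁ - F₀ - t₁ • α) - (F₂ - F₀ - t₂ • α)) (ch.Pw (a + t₁ • v)))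
    ((t₂ - t₁) • W)]

end Geo

/-- the constant -/
noncomputable def KK (m p r : ℕ) : ℝ := 10 + 10 * √m + 10 * (√m * √r) + √p

theorem KK_pos (m p r : ℕ) : 0 < KK m p r := by unfold KK; positivity

theorem le_exp {E K c c' : ℝ} (hE : 0 ≤ E) (hc : 0 ≤ c) (h : c + c' ≤ K) :
    c + c' * exp E ≤ exp (E + K) := by
  have h1 : 1 ≤ exp E := one_le_exp hE
  have h2 : K ≤ exp K := by linarith [add_one_le_exp K]
  rw [exp_add]
  nlinarith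

theorem half_pow_le {i j : ℕ} (h : i ≤ j) : (2⁻¹ : ℝ) ^ j ≤ 2⁻¹ ^ i :=
  pow_le_pow_of_le_one (by norm_num) (by norm_num) h

section Main

variable {Ω Tt Θ : Type} [Fintype Ω] {m p q r L s h : ℕ} {σ E e ζ E' : ℝ} {D : Cf Ω Tt Θ m}
  {ch : Chart m p q r} {Q : Ω → Submodule ℝ (Eu m)} {F F₀ α : Ω → Eu r} {M : Ω → ℤ × Eu r × ℕ}

theorem det_α (A : D.Afn F L s h E M F₀ α) : Det D.p D.c α :=
  (A.det.pair (D.det_T D.p)).trans A.dα

theorem det_U (P : D.PC ch σ Q F L E) (A : D.Afn F L s h E M F₀ α) (i : ℕ) :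
    Det D.p (fun ω => (D.ln i ω, D.c ω)) fun ω => U ch (F ω) (α ω) (D.t ω) (D.ln i ω) := by
  intro ω ω' h1 h2 e
  obtain ⟨e1, e2⟩ := Prod.ext_iff.1 e
  dsimp only at e1 e2 ⊢
  rw [e1, P.det ω ω' h1 h2 e2, det_α A ω ω' h1 h2 e2, P.ok.det ω ω' h1 h2 e2]

/-- from the window level down to all smaller levels -/
theorem down (T : Tools) (P : D.PC ch σ Q F L E) (A : D.Afn F L s h E M F₀ α)
    (C : D.FullC ch σ Q F L e) (hh : h ≤ s) (hs : s ≤ L)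
    (H : Hc D.p (fun ω => flo h (prj (Q ω) (ch.iy (U ch (F ω) (α ω) (D.t ω) (D.ln s ω)))))
      (fun ω => (flo s (D.y ch F ω), D.c ω)) ≤ ζ) {b : ℕ} (hb : b ≤ h) :
    D.DCP ch F α b (ζ + 2 * e + 3 * (p * (E + KK m p r) + CE p)) := by
  have hp := P.ok.isP
  have hE := P.ok.nonneg
  have hK := KK_pos m p r
  have ha : 1 ≤ exp (E + KK m p r) := one_le_exp (by linarith)
  have hS : (0 : ℝ) ≤ √m := sqrt_nonneg _
  have hSR : (0 : ℝ) ≤ √m * √r := by positivity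
  have hP : (0 : ℝ) ≤ √p := sqrt_nonneg _
  have near : ∀ i ω, D.p ω ≠ 0 → ‖U ch (F ω) (α ω) (D.t ω) (D.l ω) -
      U ch (F ω) (α ω) (D.t ω) (D.ln i ω)‖ ≤ (3 + 2 * exp E) * (√m * 2⁻¹ ^ i) := fun i ω hω =>
    U_near ch i _ _ (P.rep ω hω).1 (A.bd ω hω) (P.ok.box ω hω).2.2.1 (P.ok.box ω hω).2.2.2
  have k6 : 6 * √m + 4 * √m * exp E ≤ exp (E + KK m p r) :=
    le_exp hE (by positivity) (by unfold KK; linarith)
  have hx := exp_pos E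
  have h1 := e1.tri (fun ω => flo h (U ch (F ω) (α ω) (D.t ω) (D.ln s ω)))
    (fun ω => flo h (prj (Q ω) (ch.iy (U ch (F ω) (α ω) (D.t ω) (D.ln s ω)))))
    (fun ω => (flo s (D.y ch F ω), D.c ω)) hp
  have h2 := T.t3.nearA h (fun ω => U ch (F ω) (α ω) (D.t ω) (D.ln s ω))
    (fun ω => (flo h (prj (Q ω) (ch.iy (U ch (F ω) (α ω) (D.t ω) (D.ln s ω)))),
      (flo s (D.y ch F ω), D.c ω))) _ hp ha (by
    intro ω ω' k1 k2 e
    obtain ⟨e1, e2⟩ := Prod.ext_iff.1 e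
    have e3 : F ω = F ω' := P.det ω ω' k1 k2 (Prod.ext_iff.1 e2).2
    have e4 := geo1.same_norm e1
    rw [← ch.pi_iy (F ω) (U ch (F ω) (α ω) (D.t ω) (D.ln s ω)), ← (P.rep ω k1).2.pi_prj,
      ← ch.pi_iy (F ω') (U ch (F ω') (α ω') (D.t ω') (D.ln s ω')), ← (P.rep ω' k2).2.pi_prj]
    nth_rewrite 1 [← e3]
    rw [← ch.pi_sub]
    refine (ch.pi_le (P.rep ω k1).1 _).trans ?_
    have : (0 : ℝ) < 2⁻¹ ^ h := by positivity
    nlinarith [mul_nonneg hS hx.le])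
  have h3 : Hc D.p (fun ω => flo b (U ch (F ω) (α ω) (D.t ω) (D.ln s ω)))
      (fun ω => (flo s (D.y ch F ω), D.c ω)) ≤
      Hc D.p (fun ω => flo h (U ch (F ω) (α ω) (D.t ω) (D.ln s ω)))
      (fun ω => (flo s (D.y ch F ω), D.c ω)) :=
    e1.hc_mono hp (Det.refl _ _) fun ω ω' _ _ e => flo_of_flo hb (Prod.ext_iff.1 e).1
  have hb0 : (0 : ℝ) < 2⁻¹ ^ b := by positivity
  have h4 := T.t3.closeD b (fun ω => U ch (F ω) (α ω) (D.t ω) (D.ln b ω))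
    (fun ω => U ch (F ω) (α ω) (D.t ω) (D.ln s ω)) (fun _ => 0)
    (fun ω => (flo s (D.y ch F ω), D.c ω)) _ hp ha (fun _ _ _ _ _ => rfl) (by
    intro ω hω
    have k1 := near b ω hω
    have k2 := near s ω hω
    have k3 : (3 + 2 * exp E) * (√m * 2⁻¹ ^ s) ≤ (3 + 2 * exp E) * (√m * 2⁻¹ ^ b) :=
      mul_le_mul_of_nonneg_left (mul_le_mul_of_nonneg_left (half_pow_le (hb.trans hh)) hS)
        (by positivity)
    have k4 := norm_sub_le_norm_sub_add_norm_sub (U ch (F ω) (α ω) (D.t ω) (D.ln b ω))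
      (U ch (F ω) (α ω) (D.t ω) (D.l ω)) (U ch (F ω) (α ω) (D.t ω) (D.ln s ω))
    rw [norm_sub_rev] at k1
    rw [sub_zero]
    nlinarith)
  have h5 := e1.dp (f := D.ln b) (f' := fun ω => flo b (U ch (F ω) (α ω) (D.t ω) (D.ln b ω)))
    (g := fun ω => (flo s (D.y ch F ω), D.c ω)) (k := fun ω => (flo b (D.y ch F ω), D.c ω)) hp
    (fun ω ω' k1 k2 e => congrArg (flo b) (det_U P A b ω ω' k1 k2
      (Prod.ext (Prod.ext_iff.1 e).1 (Prod.ext_iff.1 (Prod.ext_iff.1 e).2).2)))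
    (fun ω ω' _ _ e => Prod.ext (flo_of_flo (hb.trans hh) (Prod.ext_iff.1 e).1)
      (Prod.ext_iff.1 e).2)
  have h6 := C.nu b ((hb.trans hh).trans hs)
  have h7 := C.nl b s (hb.trans hh) hs
  have h8 := T.t3.closeD b (fun ω => U ch (F ω) (α ω) (D.t ω) (D.l ω))
    (fun ω => U ch (F ω) (α ω) (D.t ω) (D.ln b ω)) (fun _ => 0)
    (fun ω => (flo b (D.y ch F ω), D.c ω)) _ hp ha (fun _ _ _ _ _ => rfl) (by
    intro ω hω
    have k1 := near b ω hω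
    rw [sub_zero]
    nlinarith [mul_nonneg hS hb0.le, mul_nonneg (mul_nonneg hS hb0.le) hx.le])
  rw [log_exp] at h2 h4 h8
  change Hc D.p (fun ω => flo b (U ch (F ω) (α ω) (D.t ω) (D.l ω)))
    (fun ω => (flo b (D.y ch F ω), D.c ω)) ≤ _
  linarith

/-- the application of the shift lemma -/
theorem up (T : Tools) (P : D.PC ch σ Q F L E) (A : D.Afn F L s h E M F₀ α) (tw : D.Two M L E)
    (C₁ : (D.one M).FullC ch σ (fun z => Q z.1) (fun z => F z.1) L e)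
    (C₂ : (D.two₂ M).FullC ch σ (fun z => Q z.2) (fun z => F z.2) L e) (hh : h ≤ s)
    (hs : s + h ≤ L) (k1 : 4 * E ≤ E') (k2 : E + KK m p r ≤ E')
    (k3 : 2 * e + (p * (E + KK m p r) + CE p) ≤ E')
    (sh : ∀ {Ω Tt Θ Θ₂ γ γ' : Type} [Fintype Ω] (D : Cf Ω Tt Θ m) (Q : Ω → Submodule ℝ (Eu m))
    (th₂ : Ω → Θ₂) (t₂ : Ω → ℝ) (G : Ω → γ) (C : Ω → γ') (Dv φ : Ω → Eu m) (Ev : Ω → Prop)
    (s h : ℕ), D.Ext σ L E' → D.Gr Q q L E' → s + h ≤ L →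
    Det D.p (fun ω => (th₂ ω, D.c ω)) t₂ → Det D.p (fun ω => (D.ln s ω, D.c ω)) Dv →
    Det D.p (fun ω => (G ω, C ω, th₂ ω, D.c ω)) φ →
    h * log 2 - E' ≤ Hc D.p (fun ω => fl (s + h) (t₂ ω)) (fun ω => (D.l ω, D.c ω)) →
    Hc D.p C (fun ω => (D.ln s ω, D.c ω)) ≤ E' →
    Hc D.p (D.ln s) (fun ω => (C ω, D.c ω)) -
      Hc D.p (D.ln s) (fun ω => (G ω, C ω, th₂ ω, D.c ω)) ≤ E' →
    (∀ ω, D.p ω ≠ 0 → |t₂ ω - D.t ω| ≤ 2⁻¹ ^ s ∧ prj (Q ω) (Dv ω) = Dv ω ∧ ‖Dv ω‖ ≤ exp E' ∧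
      (Ev ω → ‖prj (Q ω) (D.X ω) - φ ω + (t₂ ω - D.t ω) • Dv ω‖ ≤ exp E' * 2⁻¹ ^ (s + h))) →
    Pr D.p (fun ω => ¬Ev ω) * L ≤ E' →
    Hc D.p (fun ω => flo h (Dv ω)) (fun ω => (C ω, D.c ω)) ≤ ζ) :
    Hc D.p (fun ω => flo h (prj (Q ω) (ch.iy (U ch (F ω) (α ω) (D.t ω) (D.ln s ω)))))
      (fun ω => (flo s (D.y ch F ω), D.c ω)) ≤ ζ := by
  have hp := P.ok.isP
  have hp' : IsP (D.pp M) := tw.mp₁.1
  have hE := P.ok.nonneg
  have he := C₁.fg.full.ok.nonneg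
  have hK := KK_pos m p r
  have hCE := CE_nonneg p
  have hpK : 0 ≤ p * (E + KK m p r) := by positivity
  have ha : 1 ≤ exp (E + KK m p r) := one_le_exp (by linarith)
  have ha' : exp (E + KK m p r) ≤ exp E' := exp_le_exp.2 k2
  have hS : (0 : ℝ) ≤ √m := sqrt_nonneg _
  have hSR : (0 : ℝ) ≤ √m * √r := by positivity
  have hP : (0 : ℝ) ≤ √p := sqrt_nonneg _
  have hx := exp_pos E
  have hs' : s ≤ L := le_trans (Nat.le_add_right _ _) hs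
  have hMT : ∀ z, D.pp M z ≠ 0 → (M z.2, D.T z.2) = (M z.1, D.T z.1) := fun z hz =>
    Prod.ext (tw.supp z hz).2.2.2.2.2 (tw.supp z hz).2.2.2.2.1
  have hdt : ∀ z, D.pp M z ≠ 0 → |D.t z.2 - D.t z.1| ≤ 2⁻¹ ^ s := fun z hz =>
    fl_same (A.dt _ _ (tw.supp z hz).2.1 (tw.supp z hz).1 (hMT z hz))
  have hdF : ∀ z, D.pp M z ≠ 0 → ‖F z.2 - F z.1‖ ≤ √r * 2⁻¹ ^ s := fun z hz =>
    geo1.same_norm (A.dF _ _ (tw.supp z hz).2.1 (tw.supp z hz).1 (hMT z hz))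
  have hy2 : ∀ z, D.pp M z ≠ 0 →
      D.y ch F z.2 = ch.pi (F z.2) (D.a z.1 + D.t z.2 • D.v z.1) := fun z hz => by
    rw [← (tw.supp z hz).2.2.1, ← (tw.supp z hz).2.2.2.1]; rfl
  have hyy : ∀ z, D.pp M z ≠ 0 →
      ‖D.y ch F z.2 - D.y ch F z.1‖ ≤ (3 * √m + 2 * (√m * √r)) * 2⁻¹ ^ s := fun z hz => by
    obtain ⟨b1, b2, b3, b4⟩ := P.ok.box _ (tw.supp z hz).1
    rw [hy2 z hz]
    exact y_diff ch (P.rep _ (tw.supp z hz).2.1).1 b3 b4 b1 b2 (hdt z hz) (hdF z hz)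
  rw [← T.t1.mp _ _ tw.mp₁]
  refine sh (D.one M) (fun z => Q z.1) (fun z => D.th z.2) (fun z => D.t z.2)
    (fun z => flo (s + h) (D.y ch F z.2)) (fun z => flo s (D.y ch F z.1))
    (fun z => prj (Q z.1) (ch.iy (U ch (F z.1) (α z.1) (D.t z.1) (D.ln s z.1))))
    (fun z => prj (Q z.1) (ch.iy (flo (s + h) (D.y ch F z.2))))
    (fun z => ¬ (2⁻¹ ^ (s + h) < ‖F z.1 - F₀ z.1 - D.t z.1 • α z.1‖ ∨
      2⁻¹ ^ (s + h) < ‖F z.2 - F₀ z.2 - D.t z.2 • α z.2‖)) s h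
    ((tw.ext σ P.ext).1.mono (by linarith)) ((tw.gr Q q P.gr).1.mono (by linarith)) hs
    ?_ ?_ ?_ ?_ ?_ ?_ ?_ ?_
  · intro z z' h1 h2 e
    obtain ⟨e1, e2⟩ := Prod.ext_iff.1 e
    refine P.ok.det _ _ (tw.supp z h1).2.1 (tw.supp z' h2).2.1 (Prod.ext e1 ?_)
    change D.T z.2 = D.T z'.2
    rw [(tw.supp z h1).2.2.2.2.1, (tw.supp z' h2).2.2.2.2.1]
    exact (Prod.ext_iff.1 e2).2
  · intro z z' h1 h2 e
    have e1 := det_U P A s _ _ (tw.supp z h1).1 (tw.supp z' h2).1 e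
    have e2 := P.gr.1 _ _ (tw.supp z h1).1 (tw.supp z' h2).1 (Prod.ext_iff.1 e).2
    dsimp only at e1 ⊢
    rw [e1, e2]
  · intro z z' h1 h2 e
    have e1 := (Prod.ext_iff.1 e).1
    have e2 := P.gr.1 _ _ (tw.supp z h1).1 (tw.supp z' h2).1
      (Prod.ext_iff.1 (Prod.ext_iff.1 (Prod.ext_iff.1 e).2).2).2
    dsimp only at e1 ⊢
    rw [e1, e2]
  · have h1 := tw.tim (s + h) hs
    have h2 := A.ent
    push_cast at h1
    change _ ≤ Hc (D.pp M) (fun z => fl (s + h) (D.t z.2)) fun z => (D.l z.1, D.c z.1)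
    linarith
  · have h1 := C₁.ylu s s le_rfl hs'
    rw [sub_self, mul_zero, zero_mul, zero_add] at h1
    exact le_trans h1 (by linarith)
  · have h1 := C₁.nu s hs'
    have h2 := C₂.nl s (s + h) (Nat.le_add_right _ _) hs
    have h3 := e1.tri ((D.two₂ M).ln s) (fun z => flo s (D.y ch F z.1))
      (fun z => (flo (s + h) (D.y ch F z.2), (D.two₂ M).c z)) hp'
    have h4 := T.t3.nearA s (fun z : Ω × Ω => D.y ch F z.1)
      (fun z => (flo (s + h) (D.y ch F z.2), (D.two₂ M).c z)) _ hp' ha (by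
      intro z z' j1 j2 e
      have e1 := hyy z j1
      have e2 := hyy z' j2
      have e3 : ‖D.y ch F z.2 - D.y ch F z'.2‖ ≤ √p * 2⁻¹ ^ (s + h) :=
        geo1.same_norm (Prod.ext_iff.1 e).1
      have e4 : √p * 2⁻¹ ^ (s + h) ≤ √p * 2⁻¹ ^ s :=
        mul_le_mul_of_nonneg_left (half_pow_le (Nat.le_add_right _ _)) hP
      have e5 := norm_sub_le_norm_sub_add_norm_sub (D.y ch F z.1) (D.y ch F z.2) (D.y ch F z'.1)
      have e6 := norm_sub_le_norm_sub_add_norm_sub (D.y ch F z.2) (D.y ch F z'.2) (D.y ch F z'.1)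
      have e7 : (6 * √m + 4 * (√m * √r) + √p) + 0 * exp E ≤ exp (E + KK m p r) :=
        le_exp hE (by positivity) (by unfold KK; linarith)
      have e8 : (0 : ℝ) < 2⁻¹ ^ s := by positivity
      rw [norm_sub_rev] at e1
      nlinarith)
    have h5 : Hc (D.pp M) ((D.two₂ M).ln s) (fun z => (flo s (D.y ch F z.1),
        (flo (s + h) (D.y ch F z.2), (D.two₂ M).c z))) ≤ Hc (D.pp M) ((D.one M).ln s)
        (fun z => (flo (s + h) (D.y ch F z.2), flo s (D.y ch F z.1), D.th z.2, (D.one M).c z)) := by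
      refine e1.hc_mono hp' (fun z z' j1 j2 e => ?_) fun z z' j1 j2 e => ?_
      · obtain ⟨e1, e2⟩ := Prod.ext_iff.1 e
        obtain ⟨e3, e4⟩ := Prod.ext_iff.1 e2
        obtain ⟨e5, e6⟩ := Prod.ext_iff.1 e4
        obtain ⟨e7, e8⟩ := Prod.ext_iff.1 e5
        refine Prod.ext e3 (Prod.ext e1 (Prod.ext e8 (Prod.ext e7 ?_)))
        change D.T z.1 = D.T z'.1
        rw [← (tw.supp z j1).2.2.2.2.1, ← (tw.supp z' j2).2.2.2.2.1]
        exact e6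
      · have e1 : D.ln s z.1 = D.ln s z'.1 := (Prod.ext_iff.1 e).1
        change (flo s (D.a z.2), flo s (D.v z.2)) = (flo s (D.a z'.2), flo s (D.v z'.2))
        rw [(tw.supp z j1).2.2.1, (tw.supp z j1).2.2.2.1, (tw.supp z' j2).2.2.1,
          (tw.supp z' j2).2.2.2.1]
        exact e1
    rw [log_exp] at h4
    change Hc (D.pp M) ((D.one M).ln s) (fun z => (flo s (D.y ch F z.1), (D.one M).c z)) ≤ _ at h1
    change _ ≤ Hc (D.pp M) ((D.two₂ M).ln s)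
      (fun z => (flo (s + h) (D.y ch F z.2), (D.two₂ M).c z)) at h2
    change Hc (D.pp M) ((D.one M).ln s) (fun z => (flo s (D.y ch F z.1), (D.one M).c z)) -
      Hc (D.pp M) ((D.one M).ln s)
        (fun z => (flo (s + h) (D.y ch F z.2), flo s (D.y ch F z.1), D.th z.2, (D.one M).c z)) ≤ _
    linarith
  · intro z hz
    obtain ⟨j1, j2, -⟩ := tw.supp z hz
    obtain ⟨b1, b2, b3, b4⟩ := P.ok.box _ j1
    refine ⟨hdt z hz, prj_prj _ _, ?_, fun hev => ?_⟩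
    · refine (la.prj_norm _ _).trans ((ch.iy_le _).trans ?_)
      refine (U_le ch (P.rep _ j1).1 (A.bd _ j1) b3 b4 (b1.flo s).norm_le
        (b2.flo s).norm_le).trans (le_trans ?_ ha')
      have : 3 * √m + 2 * √m * exp E ≤ exp (E + KK m p r) :=
        le_exp hE (by positivity) (by unfold KK; linarith)
      linarith
    · obtain ⟨v1, v2⟩ := not_or.1 hev
      rw [A.d₀ _ _ j2 j1 (hMT z hz), A.dα _ _ j2 j1 (hMT z hz)] at v2
      have e1 := y_aff ch s (P.rep _ j1).1 (A.bd _ j1) b3 b4 b1 b2 (hdt z hz) (sqrt_nonneg r)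
        (hdF z hz) (ε := 2⁻¹ ^ (s + h)) (by rw [← pow_add]; exact half_pow_le (by omega))
        (not_lt.1 v1) (not_lt.1 v2)
      rw [← hy2 z hz] at e1
      have e2 := geo1.norm_sub_flo (s + h) (D.y ch F z.2)
      have e3 : prj (Q z.1) (D.X z.1) - prj (Q z.1) (ch.iy (flo (s + h) (D.y ch F z.2))) +
          (D.t z.2 - D.t z.1) • prj (Q z.1) (ch.iy (U ch (F z.1) (α z.1) (D.t z.1) (D.ln s z.1))) =
          prj (Q z.1) (ch.iy ((D.y ch F z.1 - D.y ch F z.2 +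
            (D.t z.2 - D.t z.1) • U ch (F z.1) (α z.1) (D.t z.1) (D.ln s z.1)) +
            (D.y ch F z.2 - flo (s + h) (D.y ch F z.2)))) := by
        rw [(P.rep _ j1).2.prj_eq (D.X z.1), ← la.prj_sub, ← la.prj_smul, ← la.prj_add, ← map_sub,
          ← map_smul, ← map_add]
        congr 2
        change D.y ch F z.1 - _ + _ = _
        abel
      change ‖prj (Q z.1) (D.X z.1) - prj (Q z.1) (ch.iy (flo (s + h) (D.y ch F z.2))) +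
          (D.t z.2 - D.t z.1) • prj (Q z.1) (ch.iy (U ch (F z.1) (α z.1) (D.t z.1) (D.ln s z.1)))‖
          ≤ _
      rw [e3]
      refine (la.prj_norm _ _).trans ((ch.iy_le _).trans ((norm_add_le _ _).trans ?_))
      have e4 : (7 * √m + √m * √r + √p) + 2 * √m * exp E ≤ exp (E + KK m p r) :=
        le_exp hE (by positivity) (by unfold KK; linarith)
      have e5 : (0 : ℝ) < 2⁻¹ ^ (s + h) := by positivity
      refine (add_le_add e1 e2).trans ?_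
      nlinarith
  · have h1 := T.t1.mp_pr (fun ω => 2⁻¹ ^ (s + h) < ‖F ω - F₀ ω - D.t ω • α ω‖) tw.mp₁
    have h2 := T.t1.mp_pr (fun ω => 2⁻¹ ^ (s + h) < ‖F ω - F₀ ω - D.t ω • α ω‖) tw.mp₂
    have h3 := e1.pr_or (fun z : Ω × Ω => 2⁻¹ ^ (s + h) < ‖F z.1 - F₀ z.1 - D.t z.1 • α z.1‖)
      (fun z => 2⁻¹ ^ (s + h) < ‖F z.2 - F₀ z.2 - D.t z.2 • α z.2‖) hp'
    rw [h1, h2] at h3
    have h4 := A.pr
    have h5 : Pr (D.pp M) (fun z => ¬¬(2⁻¹ ^ (s + h) < ‖F z.1 - F₀ z.1 - D.t z.1 • α z.1‖ ∨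
        2⁻¹ ^ (s + h) < ‖F z.2 - F₀ z.2 - D.t z.2 • α z.2‖)) ≤ _ :=
      (e1.pr_mono hp' fun z _ hz => not_not.1 hz).trans h3
    have h6 := mul_le_mul_of_nonneg_right h5 (Nat.cast_nonneg L : (0 : ℝ) ≤ L)
    exact h6.trans (by linarith)

end Main

end DcX

open DcX in
theorem sDc (T : Tools) (B : Base) (sh : SSh) : SDc := by
  intro m σ ctx p q r ch ng κ ζ _ hζ
  obtain ⟨e, he, hsh⟩ := ef_use1 (sh m σ ctx q ng (ζ / 3) (by positivity))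
  have hζ1 : 0 < min (ζ / 6) (e / 4) := lt_min (by positivity) (by positivity)
  obtain ⟨e', he', hC⟩ := ef_use1 (B.fullC m σ ctx ch _ hζ1)
  filter_upwards [hsh, hC, ef_lin (A := 4) (by norm_num) 0 he,
    ef_lin (A := 1) (by norm_num) (KK m p r) he, ef_lin (A := 3) (by norm_num) 0 he',
    ef_lin (A := p) (by positivity) (p * KK m p r + CE p) (half_pos he),
    ef_lin (A := p) (by positivity) (p * KK m p r + CE p) (show 0 < ζ / 9 by positivity)]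
    with x hsh hC k1 k2 k3 k4 k5
  intro Ω Tt Θ _ D Q F F₀ α M s h P A _ hh hs b hb
  have hE := P.ok.nonneg
  have hL : (0 : ℝ) ≤ x.2 := Nat.cast_nonneg _
  have tw := B.two D M x.2 x.1 P.ok A.det
  have C₀ := hC x.1 (by linarith) D Q F P
  have C₁ := hC (3 * x.1) (by linarith) _ _ _ (tw.pc ch σ Q F P).1
  have C₂ := hC (3 * x.1) (by linarith) _ _ _ (tw.pc ch σ Q F P).2.2
  have m1 : min (ζ / 6) (e / 4) * x.2 ≤ ζ / 6 * x.2 :=
    mul_le_mul_of_nonneg_right (min_le_left _ _) hL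
  have m2 : min (ζ / 6) (e / 4) * x.2 ≤ e / 4 * x.2 :=
    mul_le_mul_of_nonneg_right (min_le_right _ _) hL
  have H := up (E' := e * x.2) T P A tw C₁ C₂ (by omega) (by omega) (by linarith) (by linarith)
    (by linarith) (hsh (e * x.2) le_rfl)
  exact (down T P A C₀ (by omega) (by omega) H hb).mono (by linarith)

end Vale.Agent.P127
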