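import Vale.Agent.P118.ONum

/-! Sticky Kakeya sets in four dimensions: the discrete models. -/

namespace Vale.Agent.P127

open Vale.Agent.P118
open scoped RealInnerProductSpace
open Real Classical Module

/-- pairs (error, level) with the error small compared with the level, and the level large -/
def EF : Filter (ℝ × ℕ) where
  sets := {S | ∃ e : ℝ, 0 < e ∧ ∃ L₀ : ℕ, ∀ L ≥ L₀, ∀ E : ℝ, E ≤ e * L → (E, L) ∈ S}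
  univ_sets := ⟨1, one_pos, 0, fun _ _ _ _ => trivial⟩
  sets_of_superset := fun ⟨e, he, L₀, h⟩ hs => ⟨e, he, L₀, fun L hL E hE => hs (h L hL E hE)⟩
  inter_sets := fun ⟨e, he, L₀, h⟩ ⟨e', he', L₁, h'⟩ =>
    ⟨min e e', lt_min he he', max L₀ L₁, fun L hL E hE =>
      ⟨h L (le_of_max_le_left hL) E
          (hE.trans (mul_le_mul_of_nonneg_right (min_le_left _ _) (Nat.cast_nonneg L))),
        h' L (le_of_max_le_right hL) E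
          (hE.trans (mul_le_mul_of_nonneg_right (min_le_right _ _) (Nat.cast_nonneg L)))⟩⟩

/-- the half open unit cube -/
def InC {m : ℕ} (x : Eu m) : Prop := ∀ k, 0 ≤ x k ∧ x k < 1

/-- `pr` carries `p'` to `p` -/
def MP {Ω Ω' : Type} [Fintype Ω'] (p' : Ω' → ℝ) (pr : Ω' → Ω) (p : Ω → ℝ) : Prop :=
  IsP p' ∧ ∀ ω, Pr p' (fun z => pr z = ω) = p ω

/-- a random line `t ↦ a + t v`, a random time `t`, a label `th` attached to the time and a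
background variable `T` -/
structure Cf (Ω Tt Θ : Type) (m : ℕ) where
  p : Ω → ℝ
  T : Ω → Tt
  th : Ω → Θ
  a : Ω → Eu m
  v : Ω → Eu m
  t : Ω → ℝ

namespace Cf

variable {Ω Tt Θ Ω' Θ' μ : Type} [Fintype Ω] {m : ℕ} (D : Cf Ω Tt Θ m)

/-- the position at the random time -/
noncomputable def X (ω : Ω) : Eu m := D.a ω + D.t ω • D.v ω

def c (ω : Ω) : Θ × Tt := (D.th ω, D.T ω)

def l (ω : Ω) : Eu m × Eu m := (D.a ω, D.v ω)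

/-- the line at resolution `2^{-i}` -/
noncomputable def ln (i : ℕ) (ω : Ω) : Eu m × Eu m := (flo i (D.a ω), flo i (D.v ω))

structure OK (L : ℕ) (E : ℝ) : Prop where
  isP : IsP D.p
  box : ∀ ω, D.p ω ≠ 0 → InC (D.a ω) ∧ InC (D.v ω) ∧ 0 ≤ D.t ω ∧ D.t ω < 1
  lat : ∀ ω, D.p ω ≠ 0 → flo L (D.a ω) = D.a ω ∧ flo L (D.v ω) = D.v ω
  det : Det D.p D.c D.t
  dir : m * L * log 2 - E ≤ Hc D.p D.v D.c
  tim : L * log 2 - E ≤ Hc D.p (fun ω => fl L (D.t ω)) D.T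
  stk : ∀ i ≤ L, Hc D.p (fun ω => flo i (D.a ω)) (fun ω => (flo i (D.v ω), D.T ω)) ≤ E

/-- an almost extremal model -/
def Ext (σ : ℝ) (L : ℕ) (E : ℝ) : Prop :=
  D.OK L E ∧ Hc D.p (fun ω => flo L (D.X ω)) D.c ≤ (m - σ) * L * log 2 + E

/-- the slices are unions of translates of the `q`-dimensional spaces `Q` -/
def Gr (Q : Ω → Submodule ℝ (Eu m)) (q L : ℕ) (E : ℝ) : Prop :=
  Det D.p D.c Q ∧ (∀ ω, D.p ω ≠ 0 → finrank ℝ (Q ω) = q) ∧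
    q * L * log 2 - E ≤
      Hc D.p (fun ω => flo L (D.X ω)) fun ω => (flo L (prj (Q ω) (D.X ω)), D.c ω)

/-- the directions through a point only vary along `Q` -/
def Pl (Q : Ω → Submodule ℝ (Eu m)) (L : ℕ) (E : ℝ) : Prop :=
  ∀ i, 2 * i ≤ L →
    Hc D.p (fun ω => flo i (prj (Q ω) (D.v ω))) (fun ω => (flo i (D.X ω), D.c ω)) ≤ E

/-- zoom into a tube of level `i`, keep `n` further levels -/
noncomputable def win (i n : ℕ) : Cf Ω (Tt × Eu m × Eu m) Θ m where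
  p := D.p
  T ω := (D.T ω, D.ln i ω)
  th := D.th
  a ω := zm i n (D.a ω)
  v ω := zm i n (D.v ω)
  t := D.t

/-- restriction to an event -/
noncomputable def cut (Ev : Ω → Prop) : Cf Ω Tt Θ m := { D with p := cnd D.p Ev }

/-- a larger probability space and a finer label -/
def lab (p' : Ω' → ℝ) (pr : Ω' → Ω) (th' : Ω' → Θ') : Cf Ω' Tt Θ' m where
  p := p'
  T z := D.T (pr z)
  th := th'
  a z := D.a (pr z)
  v z := D.v (pr z)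
  t z := D.t (pr z)

/-- two labels on the same line with the same value of `M` -/
noncomputable def pp (M : Ω → μ) : Ω × Ω → ℝ := res D.p fun ω => (D.l ω, D.T ω, M ω)

noncomputable def one (M : Ω → μ) : Cf (Ω × Ω) Tt Θ m :=
  D.lab (D.pp M) Prod.fst fun z => D.th z.1

noncomputable def two₁ (M : Ω → μ) : Cf (Ω × Ω) Tt (Θ × Θ) m :=
  D.lab (D.pp M) Prod.fst fun z => (D.th z.1, D.th z.2)

noncomputable def two₂ (M : Ω → μ) : Cf (Ω × Ω) Tt (Θ × Θ) m :=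
  D.lab (D.pp M) Prod.snd fun z => (D.th z.1, D.th z.2)

/-- entropies of an extremal model at all levels -/
structure Full (σ : ℝ) (L : ℕ) (E : ℝ) : Prop where
  ok : D.OK L E
  xu : ∀ i ≤ L, Hc D.p (fun ω => flo i (D.X ω)) D.c ≤ (m - σ) * i * log 2 + E
  x0 : ∀ i ≤ L, (m - σ) * i * log 2 - E ≤ Hc D.p (fun ω => flo i (D.X ω)) D.c
  xl : ∀ i j, i ≤ j → j ≤ L → (m - σ) * ((j : ℝ) - i) * log 2 - E ≤
    Hc D.p (fun ω => flo j (D.X ω)) fun ω => (D.ln i ω, D.c ω)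
  xn : ∀ i ≤ L, Hc D.p (fun ω => flo i (D.X ω)) (fun ω => (D.ln i ω, D.c ω)) ≤ E
  lu : ∀ i ≤ L, Hc D.p (D.ln i) D.T ≤ m * i * log 2 + E
  vl : ∀ i ≤ L, m * i * log 2 - E ≤ Hc D.p (fun ω => flo i (D.v ω)) D.c
  inf : Hc D.p D.l D.T - Hc D.p D.l D.c ≤ E
  tl : ∀ i ≤ L, i * log 2 - E ≤ Hc D.p (fun ω => fl i (D.t ω)) fun ω => (D.l ω, D.T ω)
  dl : ∀ i j, i ≤ j → j ≤ L → σ * i * log 2 - E ≤
    Hc D.p (fun ω => flo i (D.v ω)) fun ω => (flo j (D.X ω), D.c ω)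
  du : ∀ i ≤ L, Hc D.p (D.ln i) (fun ω => (flo i (D.X ω), D.c ω)) ≤ σ * i * log 2 + E

/-- entropies of the position modulo the grains -/
structure FullG (σ : ℝ) (Q : Ω → Submodule ℝ (Eu m)) (q L : ℕ) (E : ℝ) : Prop where
  full : D.Full σ L E
  gr : D.Gr Q q L E
  yu : ∀ i ≤ L, Hc D.p (fun ω => flo i (prj (Q ω) (D.X ω))) D.c ≤ (m - q - σ) * i * log 2 + E
  y0 : ∀ i ≤ L, (m - q - σ) * i * log 2 - E ≤ Hc D.p (fun ω => flo i (prj (Q ω) (D.X ω))) D.c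
  yw : ∀ i j, i ≤ j → j ≤ L → Hc D.p (fun ω => flo j (prj (Q ω) (D.X ω)))
    (fun ω => (flo i (prj (Q ω) (D.X ω)), D.c ω)) ≤ (m - q - σ) * ((j : ℝ) - i) * log 2 + E
  yl : ∀ i j, i ≤ j → j ≤ L → (m - q - σ) * ((j : ℝ) - i) * log 2 - E ≤
    Hc D.p (fun ω => flo j (prj (Q ω) (D.X ω))) fun ω => (D.ln i ω, D.c ω)
  ylu : ∀ i j, i ≤ j → j ≤ L → Hc D.p (fun ω => flo j (prj (Q ω) (D.X ω)))
    (fun ω => (D.ln i ω, D.c ω)) ≤ (m - q - σ) * ((j : ℝ) - i) * log 2 + E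

end Cf

/-- the lower bound with loss `σ` holds for all admissible models -/
def LB (m : ℕ) (σ : ℝ) : Prop :=
  ∀ γ : ℝ, 0 < γ → ∀ᶠ x in EF, ∀ {Ω Tt Θ : Type} [Fintype Ω] (D : Cf Ω Tt Θ m), D.OK x.2 x.1 →
    (m - σ - γ) * x.2 * log 2 ≤ Hc D.p (fun ω => flo x.2 (D.X ω)) D.c

structure Ctx (m : ℕ) (σ : ℝ) : Prop where
  pos : 0 < σ
  le : σ ≤ m
  lb : LB m σ

/-- no extremal model has grains of dimension `q` -/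
def NG (m : ℕ) (σ : ℝ) (q : ℕ) : Prop :=
  ∀ᶠ x in EF, ∀ {Ω Tt Θ : Type} [Fintype Ω] (D : Cf Ω Tt Θ m) (Q : Ω → Submodule ℝ (Eu m)),
    D.Ext σ x.2 x.1 → D.Gr Q q x.2 x.1 → False

/-- a splitting of `ℝ^m` into `ℝ^p ⊕ ℝ^q` and a linear family of maps `ℝ^q → ℝ^p` -/
structure Chart (m p q r : ℕ) where
  Py : Eu m →ₗ[ℝ] Eu p
  Pw : Eu m →ₗ[ℝ] Eu q
  iy : Eu p →ₗ[ℝ] Eu m
  iw : Eu q →ₗ[ℝ] Eu m
  app : Eu r →ₗ[ℝ] Eu q →ₗ[ℝ] Eu p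
  dim : m = p + q
  split : ∀ x, iy (Py x) + iw (Pw x) = x
  Py_iy : ∀ y, Py (iy y) = y
  Pw_iy : ∀ y, Pw (iy y) = 0
  Py_iw : ∀ w, Py (iw w) = 0
  Pw_iw : ∀ w, Pw (iw w) = w
  Py_le : ∀ x, ‖Py x‖ ≤ ‖x‖
  Pw_le : ∀ x, ‖Pw x‖ ≤ ‖x‖
  iy_le : ∀ y, ‖iy y‖ ≤ ‖y‖
  iw_le : ∀ w, ‖iw w‖ ≤ ‖w‖
  app_le : ∀ F w, ‖app F w‖ ≤ ‖F‖ * ‖w‖
  app_ge : ∀ F, ∃ k : Fin q, ‖F‖ ≤ 2 * ‖app F (EuclideanSpace.single k 1)‖

namespace Chart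

variable {m p q r : ℕ} (ch : Chart m p q r)

/-- the projection along the graph of `-F` -/
noncomputable def pi (F : Eu r) (x : Eu m) : Eu p := ch.Py x + ch.app F (ch.Pw x)

/-- `Q` is the kernel of `pi F` -/
def Rep (Q : Submodule ℝ (Eu m)) (F : Eu r) : Prop :=
  ∀ x, x - ch.iy (ch.pi F x) ∈ Q ∧ (x ∈ Q → ch.pi F x = 0)

end Chart

/-- grains are lines -/
def Q1 {m p : ℕ} (ch : Chart m p 1 p) : Prop := ∀ F w, ch.app F w = w 0 • F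

/-- grains are planes in `ℝ^3` -/
def P1 (ch : Chart 3 1 2 2) : Prop := ∀ F w, ch.app F w 0 = ⟪F, w⟫

/-- the unit normal of a plane vector -/
noncomputable def nn (α : Eu 2) : Eu 2 := ‖α‖⁻¹ • WithLp.toLp 2 ![-α 1, α 0]

namespace Cf

variable {Ω Tt Θ : Type} [Fintype Ω] {m p q r : ℕ} (D : Cf Ω Tt Θ m) (ch : Chart m p q r)

noncomputable def y (F : Ω → Eu r) (ω : Ω) : Eu p := ch.pi (F ω) (D.X ω)

noncomputable def z (F : Ω → Eu r) (ω : Ω) : Eu p := ch.pi (F ω) (D.v ω)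

noncomputable def w (ω : Ω) : Eu q := ch.Pw (D.X ω)

/-- an extremal model with grains and planiness, in a chart -/
structure PC (σ : ℝ) (Q : Ω → Submodule ℝ (Eu m)) (F : Ω → Eu r) (L : ℕ) (E : ℝ) : Prop where
  ext : D.Ext σ L E
  gr : D.Gr Q q L E
  pl : D.Pl Q L E
  det : Det D.p D.c F
  rep : ∀ ω, D.p ω ≠ 0 → ‖F ω‖ ≤ 2 ∧ ch.Rep (Q ω) (F ω)

structure FullC (σ : ℝ) (Q : Ω → Submodule ℝ (Eu m)) (F : Ω → Eu r) (L : ℕ) (E : ℝ) : Prop where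
  pc : D.PC ch σ Q F L E
  fg : D.FullG σ Q q L E
  yu : ∀ i ≤ L, Hc D.p (fun ω => flo i (D.y ch F ω)) D.c ≤ (p - σ) * i * log 2 + E
  y0 : ∀ i ≤ L, (p - σ) * i * log 2 - E ≤ Hc D.p (fun ω => flo i (D.y ch F ω)) D.c
  yw : ∀ i j, i ≤ j → j ≤ L → Hc D.p (fun ω => flo j (D.y ch F ω))
    (fun ω => (flo i (D.y ch F ω), D.c ω)) ≤ (p - σ) * ((j : ℝ) - i) * log 2 + E
  yl : ∀ i j, i ≤ j → j ≤ L → (p - σ) * ((j : ℝ) - i) * log 2 - E ≤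
    Hc D.p (fun ω => flo j (D.y ch F ω)) fun ω => (D.ln i ω, D.c ω)
  ylu : ∀ i j, i ≤ j → j ≤ L → Hc D.p (fun ω => flo j (D.y ch F ω))
    (fun ω => (D.ln i ω, D.c ω)) ≤ (p - σ) * ((j : ℝ) - i) * log 2 + E
  wl : ∀ i j, i ≤ j → j ≤ L → q * i * log 2 - E ≤
    Hc D.p (fun ω => flo i (D.w ch ω)) fun ω => (flo j (D.y ch F ω), D.c ω)
  wln : ∀ i j, i ≤ j → j ≤ L → q * ((j : ℝ) - i) * log 2 - E ≤
    Hc D.p (fun ω => flo j (D.w ch ω)) fun ω => (flo j (D.y ch F ω), D.ln i ω, D.c ω)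
  zx : ∀ i, 2 * i ≤ L →
    Hc D.p (fun ω => flo i (D.z ch F ω)) (fun ω => (flo i (D.X ω), D.c ω)) ≤ E
  zy : ∀ i, 2 * i ≤ L → Hc D.p (fun ω => flo i (D.z ch F ω))
    (fun ω => (flo i (D.y ch F ω), flo i (D.w ch ω), D.c ω)) ≤ E
  zl : ∀ i ≤ L, p * i * log 2 - E ≤ Hc D.p (fun ω => flo i (D.z ch F ω)) D.c
  nl : ∀ i j, i ≤ j → j ≤ L → (q + σ) * i * log 2 - E ≤
    Hc D.p (D.ln i) fun ω => (flo j (D.y ch F ω), D.c ω)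
  nu : ∀ i ≤ L, Hc D.p (D.ln i) (fun ω => (flo i (D.y ch F ω), D.c ω)) ≤ (q + σ) * i * log 2 + E

/-- `F` is an affine function of the time on windows of level `s`, up to `2^{-(s+h)}` -/
structure Afn (F : Ω → Eu r) (L s h : ℕ) (E : ℝ) (M : Ω → ℤ × Eu r × ℕ) (F₀ α : Ω → Eu r) :
    Prop where
  det : Det D.p D.c M
  ent : Hc D.p M D.T ≤ s * log 2 + E
  dt : Det D.p (fun ω => (M ω, D.T ω)) fun ω => fl s (D.t ω)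
  dF : Det D.p (fun ω => (M ω, D.T ω)) fun ω => flo s (F ω)
  d₀ : Det D.p (fun ω => (M ω, D.T ω)) F₀
  dα : Det D.p (fun ω => (M ω, D.T ω)) α
  bd : ∀ ω, D.p ω ≠ 0 → ‖α ω‖ ≤ exp E
  pr : Pr D.p (fun ω => 2⁻¹ ^ (s + h) < ‖F ω - F₀ ω - D.t ω • α ω‖) * L ≤ E

/-- the derivative of `y` along the line is a function of `y` -/
def DCP (F α : Ω → Eu r) (b : ℕ) (E : ℝ) : Prop :=
  Hc D.p (fun ω => flo b (D.z ch F ω + ch.app (α ω) (D.w ch ω)))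
    (fun ω => (flo b (D.y ch F ω), D.c ω)) ≤ E

/-- the directions through a point only vary in the kernel of `α` -/
def SOP (α : Ω → Eu r) (b : ℕ) (E : ℝ) : Prop :=
  Hc D.p (fun ω => flo b (ch.app (α ω) (ch.Pw (D.v ω)))) (fun ω => (flo b (D.X ω), D.c ω)) ≤ E

/-- the window of level `s` -/
noncomputable def Wd (F : Ω → Eu r) (s : ℕ) (ω : Ω) : ℤ × Eu r × Tt :=
  (fl s (D.t ω), flo s (F ω), D.T ω)

/-- the time inside its window, at relative resolution `2^{-s}` -/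
noncomputable def tb (s : ℕ) (ω : Ω) : ℝ :=
  ((fl (s + s) (D.t ω) : ℝ) - 2 ^ s * fl s (D.t ω)) / 2 ^ s

/-- the position at the start of the window -/
noncomputable def X0 (s : ℕ) (ω : Ω) : Eu m := D.a ω + ((fl s (D.t ω) : ℝ) / 2 ^ s) • D.v ω

/-- the slab of a line -/
noncomputable def KK (F : Ω → Eu r) (s : ℕ) (ω : Ω) : (Eu p × Eu p × Eu q) × ℤ × Eu r × Tt :=
  ((flo (s + s) (ch.pi (flo s (F ω)) (D.X0 s ω)), flo s (ch.pi (flo s (F ω)) (D.v ω)),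
    flo s (ch.Pw (D.X0 s ω))), D.Wd F s ω)

/-- the common conclusions for both kinds of charts -/
structure Com (F α : Ω → Eu r) (L b : ℕ) (κ E : ℝ) : Prop where
  det : Det D.p D.c α
  bd : ∀ ω, D.p ω ≠ 0 → ‖α ω‖ ≤ exp E
  dc : ∀ b' ≤ b, D.DCP ch F α b' E
  so : D.SOP ch α b E
  mac : ∀ b₁ : ℕ, κ * L ≤ b₁ → b₁ ≤ b → Pr D.p (fun ω => ‖α ω‖ ≤ 2⁻¹ ^ b₁) * L ≤ E

end Cf

/-- no extremal model in the chart -/
def NPC {m p q r : ℕ} (ch : Chart m p q r) (σ : ℝ) : Prop :=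
  ∀ᶠ x in EF, ∀ {Ω Tt Θ : Type} [Fintype Ω] (D : Cf Ω Tt Θ m) (Q : Ω → Submodule ℝ (Eu m))
    (F : Ω → Eu r), D.PC ch σ Q F x.2 x.1 → False

/-- the slope of the grains is a function of the time -/
def LipP {m p q r : ℕ} (ch : Chart m p q r) (σ : ℝ) : Prop :=
  ∀ ζ : ℝ, 0 < ζ → ∀ᶠ x in EF, ∀ {Ω Tt Θ : Type} [Fintype Ω] (D : Cf Ω Tt Θ m)
    (Q : Ω → Submodule ℝ (Eu m)) (F : Ω → Eu r), D.PC ch σ Q F x.2 x.1 → ∀ s, 2 * s ≤ x.2 →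
    Hc D.p (fun ω => flo s (F ω)) (fun ω => (fl s (D.t ω), D.T ω)) ≤ ζ * x.2

/-- the slope of the grains is locally an affine function of the time -/
def AffP {m p q r : ℕ} (ch : Chart m p q r) (σ η : ℝ) : Prop :=
  ∀ κ ζ : ℝ, 0 < κ → 0 < ζ → ∀ᶠ x in EF, ∀ {Ω Tt Θ : Type} [Fintype Ω] (D : Cf Ω Tt Θ m)
    (Q : Ω → Submodule ℝ (Eu m)) (F : Ω → Eu r), D.PC ch σ Q F x.2 x.1 → ∀ s h : ℕ,
    κ * x.2 ≤ s → 4 * s ≤ x.2 → h ≤ η * s → ∃ M F₀ α, D.Afn F x.2 s h (ζ * x.2) M F₀ α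

/-- the truncated slope of two points -/
noncomputable def slp {n : ℕ} (N b : ℕ) (τ₁ τ₂ : ℝ) (f₁ f₂ : Eu n) : Eu n :=
  if 2⁻¹ ^ b ≤ |τ₂ - τ₁| then flo N ((τ₂ - τ₁)⁻¹ • (f₂ - f₁)) else 0

/-- neighbourhoods of lines have small conditional probability -/
def Light {Ω Wt : Type} [Fintype Ω] {n : ℕ} (p : Ω → ℝ) (W : Ω → Wt) (τ : Ω → ℝ) (f : Ω → Eu n)
    (ρ A s₀ : ℝ) : Prop :=
  ∀ ω₀, p ω₀ ≠ 0 → ∀ β₀ β : Eu n, ‖β‖ ≤ A →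
    Pr p (fun ω => W ω = W ω₀ ∧ ‖f ω - β₀ - τ ω • β‖ ≤ ρ) ≤ s₀ * Pr p fun ω => W ω = W ω₀

/-- a point of the unit cube of `ℝ^{1+n}` with coordinates in `2^{-N} ℤ` -/
def LatP {n : ℕ} (N : ℕ) (τ : ℝ) (f : Eu n) : Prop :=
  (fl N τ : ℝ) / 2 ^ N = τ ∧ 0 ≤ τ ∧ τ < 1 ∧ flo N f = f ∧ InC f

/-- the slopes of the graph of `ψ F` over a window have small entropy -/
def KP {m p q r n : ℕ} (ch : Chart m p q r) (ψ : Eu r → Eu n) (σ : ℝ) : Prop :=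
  ∀ κ ζ : ℝ, 0 < κ → 0 < ζ → ∀ᶠ x in EF, ∀ {Ω Tt Θ : Type} [Fintype Ω] (D : Cf Ω Tt Θ m)
    (Q : Ω → Submodule ℝ (Eu m)) (F : Ω → Eu r), D.PC ch σ Q F x.2 x.1 → ∀ s b : ℕ,
    κ * x.2 ≤ b → b ≤ s → 4 * s ≤ x.2 →
    ∃ (Ω' : Type) (_ : Fintype Ω') (p' : Ω' → ℝ) (pr₁ pr₂ : Ω' → Ω), MP p' pr₁ D.p ∧
      MP p' pr₂ D.p ∧ (∀ z, p' z ≠ 0 → D.Wd F s (pr₂ z) = D.Wd F s (pr₁ z)) ∧
      2 * s * log 2 - ζ * x.2 ≤
        Hc p' (fun z => (D.tb s (pr₁ z), D.tb s (pr₂ z))) (fun z => D.Wd F s (pr₁ z)) ∧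
      Hc p' (fun z => slp s b (D.tb s (pr₁ z)) (D.tb s (pr₂ z)) (ψ (zm s s (F (pr₁ z))))
          (ψ (zm s s (F (pr₂ z)))))
        (fun z => ((D.tb s (pr₁ z), ψ (zm s s (F (pr₁ z)))), D.Wd F s (pr₁ z))) ≤
        (1 - σ) * s * log 2 + 10 * (n + 1) * b + ζ * x.2

/-- the graph of `ψ F` over a window lies near few lines -/
def AffQ {m p q r n : ℕ} (ch : Chart m p q r) (ψ : Eu r → Eu n) (σ η : ℝ) : Prop :=
  ∀ κ ζ : ℝ, 0 < κ → 0 < ζ → ∀ᶠ x in EF, ∀ {Ω Tt Θ : Type} [Fintype Ω] (D : Cf Ω Tt Θ m)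
    (Q : Ω → Submodule ℝ (Eu m)) (F : Ω → Eu r), D.PC ch σ Q F x.2 x.1 → ∀ s : ℕ,
    κ * x.2 ≤ s → 4 * s ≤ x.2 → ∃ (Λ : Ω → ℕ) (β₀ β : Ω → Eu n), Det D.p D.c Λ ∧
      Hn D.p Λ ≤ ζ * x.2 ∧ Det D.p (fun ω => (Λ ω, D.Wd F s ω)) β₀ ∧
      Det D.p (fun ω => (Λ ω, D.Wd F s ω)) β ∧ (∀ ω, D.p ω ≠ 0 → ‖β ω‖ ≤ exp (ζ * x.2)) ∧
      Pr D.p (fun ω => (2 : ℝ) ^ (-η * s) < ‖ψ (zm s s (F ω)) - β₀ ω - D.tb s ω • β ω‖) * x.2 ≤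
        ζ * x.2

/-- the derivative constraint on affine windows -/
def DcP {m p q r : ℕ} (ch : Chart m p q r) (σ : ℝ) : Prop :=
  ∀ κ ζ : ℝ, 0 < κ → 0 < ζ → ∀ᶠ x in EF, ∀ {Ω Tt Θ : Type} [Fintype Ω] (D : Cf Ω Tt Θ m)
    (Q : Ω → Submodule ℝ (Eu m)) (F F₀ α : Ω → Eu r) (M : Ω → ℤ × Eu r × ℕ) (s h : ℕ),
    D.PC ch σ Q F x.2 x.1 → D.Afn F x.2 s h x.1 M F₀ α → κ * x.2 ≤ h → 2 * h ≤ s →
    2 * s ≤ x.2 → ∀ b ≤ h, D.DCP ch F α b (ζ * x.2)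

/-- the common conclusions hold at a level comparable with `L` -/
def ComP {m p q r : ℕ} (ch : Chart m p q r) (σ : ℝ) : Prop :=
  ∃ κ₀ : ℝ, 0 < κ₀ ∧ ∀ κ ζ : ℝ, 0 < κ → 0 < ζ → ∀ᶠ x in EF,
    ∀ {Ω Tt Θ : Type} [Fintype Ω] (D : Cf Ω Tt Θ m) (Q : Ω → Submodule ℝ (Eu m)) (F : Ω → Eu r),
    D.PC ch σ Q F x.2 x.1 → ∃ (b : ℕ) (α : Ω → Eu r), κ₀ * x.2 ≤ b ∧ 4 * b ≤ x.2 ∧
      D.Com ch F α x.2 b κ (ζ * x.2)

/-- one coordinate of a vector -/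
noncomputable def co {r : ℕ} (k : Fin r) (F : Eu r) : Eu 1 := WithLp.toLp 2 fun _ => F k

/-- the direction of the grain in the kernel of `α` -/
noncomputable def uu (ch : Chart 3 1 2 2) (F α : Eu 2) : Eu 3 :=
  ch.iw (nn α) - ch.iy (ch.app F (nn α))

/-- a normalised family of segments -/
structure Nrm (K : Set (Eu 4)) (V : Set (Eu 3)) (a : Eu 3 → Eu 3) (s : ℝ) : Prop where
  pos : MeasureTheory.volume V ≠ 0
  box : ∀ v ∈ V, InC v ∧ InC (a v)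
  seg : ∀ v ∈ V, ∀ t ∈ Set.Icc (0 : ℝ) 1, cons t (a v + t • v) ∈ K
  stk : ∃ C : ℝ, ∀ (i : ℕ) (S : Finset (Eu 3 × Eu 3)),
    (∀ u ∈ S, ∃ v ∈ V, u = (flo i (a v), flo i v)) → (S.card : ℝ) ≤ C * 2 ^ (s * i)

/-- a finite family of lines with marked times -/
structure Fam (S : Finset (Eu 3 × Eu 3 × ℕ)) (L : ℕ) (C s d : ℝ) : Prop where
  lat : ∀ u ∈ S, InC u.1 ∧ InC u.2.1 ∧ flo L u.1 = u.1 ∧ flo L u.2.1 = u.2.1 ∧ u.2.2 < 2 ^ L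
  big : (2 : ℝ) ^ (4 * L) ≤ C * L ^ 4 * S.card
  fn : ∀ u ∈ S, ∀ u' ∈ S, u.2.1 = u'.2.1 → u.1 = u'.1
  stk : ∀ i ≤ L, ((S.image fun u => (flo i u.1, flo i u.2.1)).card : ℝ) ≤ C * 2 ^ (s * i)
  few : ((S.image fun u => (u.2.2, flo L (u.1 + ((u.2.2 : ℝ) / 2 ^ L) • u.2.1))).card : ℝ) ≤
    C * 2 ^ (d * L)

end Vale.Agent.P127
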