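import Vale.Agent.P127.Num

namespace Vale.Agent.P127

open Vale.Agent.P118
open scoped RealInnerProductSpace
open Real Classical Module

namespace ET1X

variable {Ω Ω' α β γ δ : Type} [Fintype Ω] [Fintype Ω'] {p' : Ω' → ℝ} {pr : Ω' → Ω} {p : Ω → ℝ}

theorem mp_ex (φ : Ω → ℝ) (h : MP p' pr p) : Ex p' (fun z => φ (pr z)) = Ex p φ := by
  unfold Ex
  rw [← Finset.sum_fiberwise Finset.univ pr]
  refine Finset.sum_congr rfl fun ω _ => ?_
  rw [← h.2 ω, Pr, Finset.sum_mul]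
  exact Finset.sum_congr rfl fun z hz => by rw [← (Finset.mem_filter.1 hz).2]

theorem mp_pr (E : Ω → Prop) (h : MP p' pr p) : Pr p' (fun z => E (pr z)) = Pr p E := by
  rw [e1.pr_eq_ex, e1.pr_eq_ex]
  exact mp_ex (fun ω => if E ω then 1 else 0) h

theorem mp_hn (f : Ω → α) (h : MP p' pr p) : Hn p' (fun z => f (pr z)) = Hn p f := by
  unfold Hn
  rw [← mp_ex _ h]
  refine congrArg _ (funext fun z => ?_)
  rw [mp_pr (fun ω' => f ω' = f (pr z)) h]

theorem mp (f : Ω → α) (g : Ω → β) (h : MP p' pr p) :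
    Hc p' (fun z => f (pr z)) (fun z => g (pr z)) = Hc p f g := by
  unfold Hc
  rw [mp_hn (fun ω => (f ω, g ω)) h, mp_hn g h]

theorem pr_id (p : Ω → ℝ) (ω : Ω) : Pr p (fun z => z = ω) = p ω := by
  unfold Pr
  rw [Finset.sum_filter]
  simp

omit [Fintype Ω] in
theorem mp_ne {z : Ω'} (h : MP p' pr p) (hz : p' z ≠ 0) : p (pr z) ≠ 0 := by
  have h1 : Pr p' (fun z' => z' = z) ≤ Pr p' fun z' => pr z' = pr z :=
    e1.pr_mono h.1 fun _ _ e => congrArg pr e
  rw [pr_id, h.2] at h1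
  exact ((lt_of_le_of_ne (h.1.1 z) hz.symm).trans_le h1).ne'

theorem mp_isP (h : MP p' pr p) : IsP p := by
  refine ⟨fun ω => h.2 ω ▸ e1.pr_nonneg _ h.1, ?_⟩
  have h1 := mp_ex (fun _ => 1) h
  rw [e1.ex_const 1 h.1] at h1
  simpa [Ex] using h1.symm

theorem isK (g : Ω → β) (hp : IsP p) : IsK p (fib p g) := fun _ h => e2.isP_fib g hp h

theorem mp_fst (g : Ω → β) (hp : IsP p) : MP (res p g) Prod.fst p :=
  ⟨e3.isP_res g hp, fun ω =>
    ((e3.fst g g hp (isK g hp)).2.2.1 fun ω' => ω' = ω).trans (pr_id p ω)⟩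

theorem mp_snd (g : Ω → β) (hp : IsP p) : MP (res p g) Prod.snd p :=
  ⟨e3.isP_res g hp, fun ω => ((e3.res_snd g g g hp).2.2 fun ω' => ω' = ω).trans (pr_id p ω)⟩

theorem hc_swap (g : Ω → β) (f : Ω × Ω → α) (k : Ω × Ω → γ) :
    Hc (res p g) f k = Hc (res p g) (fun z => f (z.2, z.1)) fun z => k (z.2, z.1) :=
  (e3.equiv (p := res p g) (p' := res p g) (Equiv.prodComm Ω Ω) f k
    fun z => e3.res_swap p g z.2 z.1).1

theorem ci0 (g : Ω → β) (f : Ω → α) (K : Ω → δ) (hp : IsP p) (hK : Det p K g) :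
    Hc (res p g) (fun z => f z.2) (fun z => K z.1) = Hc p f g := by
  have hr := e3.isP_res g hp
  have h1 : Hc (res p g) (fun z => f z.2) (fun z => K z.1) =
      Hc (res p g) (fun z => f z.2) fun z => (K z.1, g z.1) :=
    e1.hc_congr hr ((Det.refl _ _).pair fun a b ha hb e =>
      hK _ _ (e3.res_ne ha).1 (e3.res_ne hb).1 e) (Det.fst _ _ _) (Det.fst _ _ _) (Det.fst _ _ _)
  have h2 := e1.chain (fun z : Ω × Ω => K z.1) (fun z => f z.2) (fun z => g z.1) hr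
  have h3 := e3.res_pair g K f hp
  have h4 := mp K g (mp_fst g hp)
  linarith

theorem ci (g : Ω → β) (f : Ω → α) (k : Ω → γ) (K : Ω → δ) (hp : IsP p) (hK : Det p K g) :
    Hc (res p g) (fun z => f z.2) (fun z => (k z.2, K z.1)) = Hc p f fun ω => (k ω, g ω) := by
  have h1 := e1.chain (fun z : Ω × Ω => k z.2) (fun z => f z.2) (fun z => K z.1) (e3.isP_res g hp)
  have h2 := ci0 g (fun ω => (k ω, f ω)) K hp hK
  have h3 := ci0 g k K hp hK
  have h4 := e1.chain k f g hp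
  linarith

theorem ci0' (g : Ω → β) (f : Ω → α) (K : Ω → δ) (hp : IsP p) (hK : Det p K g) :
    Hc (res p g) (fun z => f z.1) (fun z => K z.2) = Hc p f g :=
  (hc_swap g _ _).trans (ci0 g f K hp hK)

theorem ci_le (g : Ω → β) (f : Ω → α) (C : Ω × Ω → δ) (hp : IsP p) :
    (Det (res p g) Prod.fst C → Hc p f g ≤ Hc (res p g) (fun z => f z.2) C) ∧
      (Det (res p g) Prod.snd C → Hc p f g ≤ Hc (res p g) (fun z => f z.1) C) := by
  have hd : Det p (fun ω => ω) g := fun _ _ _ _ e => congrArg g e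
  refine ⟨fun h => ?_, fun h => ?_⟩
  · rw [← ci0 g f _ hp hd]
    exact e1.hc_mono (e3.isP_res g hp) h (Det.fst _ _ _)
  · rw [← ci0' g f _ hp hd]
    exact e1.hc_mono (e3.isP_res g hp) h (Det.fst _ _ _)

end ET1X

open ET1X in
theorem eT1 : ET1 where
  mp := mp
  mp_hn := mp_hn
  mp_pr := mp_pr
  mp_ne := mp_ne
  mp_isP := mp_isP
  mp_id hp := ⟨hp, pr_id _⟩
  mp_fst := mp_fst
  mp_snd := mp_snd
  mp_comp h' h := ⟨h'.1, fun ω => (mp_pr (fun z => _ = ω) h').trans (h.2 ω)⟩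
  swap p g E := ((e3.equiv (p := res p g) (p' := res p g) (Equiv.prodComm _ _) (fun _ => ())
    (fun _ => ()) fun z => e3.res_swap p g z.2 z.1).2.2.1 E).symm
  ci := ci
  ci' g f k K hp hK := (hc_swap g _ _).trans (ci g f k K hp hK)
  ci0 g f K hp hK := ⟨ci0 g f K hp hK, ci0' g f K hp hK⟩
  ci_le := ci_le

end Vale.Agent.P127
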