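import Vale.Agent.P127.Num

namespace Vale.Agent.P127

open Vale.Agent.P118
open scoped RealInnerProductSpace
open Real Classical Module

namespace ET2X

variable {Ω α β γ δ δ' : Type} [Fintype Ω] {p : Ω → ℝ}

theorem ex_ite (p : Ω → ℝ) (E : Ω → Prop) (A B : ℝ) :
    Ex p (fun ω => if E ω then A else B) = Pr p E * A + Pr p (fun ω => ¬E ω) * B := by
  rw [e1.pr_eq_ex, e1.pr_eq_ex, mul_comm _ A, mul_comm _ B, ← e1.ex_mul, ← e1.ex_mul, ← e1.ex_add]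
  refine congrArg _ (funext fun ω => ?_)
  by_cases h : E ω <;> simp [h]

theorem evsum (f : Ω → α) (g : Ω → β) (E : Ω → Prop) (hp : IsP p) :
    Pr p E * Hc (cnd p E) f g + Pr p (fun ω => ¬E ω) * Hc (cnd p fun ω => ¬E ω) f g ≤
      Hc p f g := by
  have h1 : Hc p f (fun ω => (g ω, E ω)) ≤ Hc p f g :=
    e1.hc_mono hp (Det.fst _ _ _) (Det.fst _ _ _)
  rw [e2.hc_fib' f g E hp] at h1
  rw [← ex_ite]
  refine le_of_eq_of_le (congrArg _ (funext fun ω₀ => ?_)) h1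
  unfold fib
  by_cases h : E ω₀
  · have : (fun ω => E ω = E ω₀) = E := funext fun ω => by simp [h]
    rw [if_pos h, this]
  · have : (fun ω => E ω = E ω₀) = fun ω => ¬E ω := funext fun ω => by simp [h]
    rw [if_neg h, this]

theorem term_le {f : Ω → α} {g : Ω → β} (E : Ω → Prop) {A : ℝ} (hp : IsP p)
    (h : ∀ ω, p ω ≠ 0 → E ω → ∀ S : Finset α,
      (∀ a ∈ S, ∃ ω', p ω' ≠ 0 ∧ E ω' ∧ g ω' = g ω ∧ f ω' = a) → (S.card : ℝ) ≤ exp A) :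
    Pr p E * Hc (cnd p E) f g ≤ Pr p E * A := by
  by_cases h0 : Pr p E = 0
  · simp [h0]
  refine mul_le_mul_of_nonneg_left ?_ (e1.pr_nonneg E hp)
  rw [← log_exp A]
  refine e2.count' (e2.isP_cnd hp h0) fun ω hω S hS => ?_
  refine h ω (e2.cnd_ne hω).1 (e2.cnd_ne hω).2 S fun a ha => ?_
  obtain ⟨ω', h1, h2⟩ := hS a ha
  exact ⟨ω', (e2.cnd_ne h1).1, (e2.cnd_ne h1).2, h2⟩

theorem term_le' {f : Ω → α} {g : Ω → β} (E : Ω → Prop) {A : ℝ} (hp : IsP p)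
    (h : ∀ ω, p ω ≠ 0 → Cnt p f g ω (exp A)) : Pr p E * Hc (cnd p E) f g ≤ Pr p E * A :=
  term_le E hp fun ω hω _ S hS => h ω hω S fun a ha => by
    obtain ⟨ω', h1, -, h2⟩ := hS a ha
    exact ⟨ω', h1, h2⟩

theorem evcap {f : Ω → α} {g : Ω → β} (E : Ω → Prop) {Λ : ℝ} (hp : IsP p) (h0 : 0 < Pr p E)
    (h : ∀ ω, p ω ≠ 0 → Cnt p f g ω (exp Λ)) :
    Λ - (Λ - Hc p f g + log 2) / Pr p E ≤ Hc (cnd p E) f g := by
  have h1 := e2.event_up f g E hp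
  have h2 := term_le' (fun ω => ¬E ω) hp h
  have h3 := e1.pr_not E hp
  rw [sub_le_comm, le_div_iff₀ h0]
  rw [h3] at h1 h2
  nlinarith

theorem cntE {f : Ω → α} {g : Ω → β} (E : Ω → Prop) {A B : ℝ} (hp : IsP p)
    (h : ∀ ω, p ω ≠ 0 → E ω → ∀ S : Finset α,
      (∀ a ∈ S, ∃ ω', p ω' ≠ 0 ∧ E ω' ∧ g ω' = g ω ∧ f ω' = a) → (S.card : ℝ) ≤ exp A)
    (h' : ∀ ω, p ω ≠ 0 → Cnt p f g ω (exp B)) :
    Hc p f g ≤ log 2 + Pr p E * A + Pr p (fun ω => ¬E ω) * B := by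
  linarith [e2.event_up f g E hp, term_le E hp h, term_le' (fun ω => ¬E ω) hp h']

theorem info {f : Ω → α} {g : Ω → β} {l : Ω → γ} {k : Ω → δ} {k' : Ω → δ'} (hp : IsP p)
    (hf : Det p (fun ω => (l ω, k ω)) f) (hg : Det p (fun ω => (l ω, k ω)) g) (hk : Det p k' k) :
    Hc p f (fun ω => (g ω, k ω)) - Hc p f (fun ω => (g ω, k' ω)) ≤ Hc p l k - Hc p l k' := by
  have h1 : Hc p f (fun ω => (g ω, k ω)) - Hc p f (fun ω => (g ω, k' ω)) ≤
      Hc p l (fun ω => (g ω, k ω)) - Hc p l fun ω => (g ω, k' ω) :=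
    e1.dp hp (((Det.fst _ _ _).pair ((Det.snd _ _ _).trans (Det.snd _ _ _))).trans hf)
      ((Det.fst _ _ _).pair ((Det.snd _ _ _).trans hk))
  have h2 := e1.chain g l k hp
  have h3 := e1.chain g l k' hp
  have h4 : Hc p (fun ω => (g ω, l ω)) k = Hc p l k :=
    e1.hc_congr hp (Det.refl _ _) (Det.refl _ _) (hg.pair (Det.fst _ _ _))
      ((Det.fst _ _ _).trans (Det.snd _ _ _))
  have h5 : Hc p (fun ω => (g ω, l ω)) k' = Hc p l k' :=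
    e1.hc_congr hp (Det.refl _ _) (Det.refl _ _)
      ((((Det.fst _ _ _).pair ((Det.snd _ _ _).trans hk)).trans hg).pair (Det.fst _ _ _))
      ((Det.fst _ _ _).trans (Det.snd _ _ _))
  have h6 : Hc p g k' ≤ Hc p g k := e1.hc_mono hp hk (Det.fst _ _ _)
  linarith

theorem pr_fib (p : Ω → ℝ) (g : Ω → β) (A : Ω → Prop) :
    Pr p A = ∑ c ∈ Finset.univ.image g, Pr p fun ω => g ω = c ∧ A ω := by
  unfold Pr
  rw [← Finset.sum_fiberwise_of_maps_to (t := Finset.univ.image g) (g := g)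
    fun ω _ => Finset.mem_image_of_mem g (Finset.mem_univ ω)]
  refine Finset.sum_congr rfl fun c _ => Finset.sum_congr ?_ fun _ _ => rfl
  ext ω
  simp [and_comm]

theorem sum_pr (g : Ω → β) (hp : IsP p) :
    ∑ c ∈ Finset.univ.image g, Pr p (fun ω => g ω = c) = 1 := by
  rw [← hp.2]
  exact Finset.sum_fiberwise_of_maps_to
    (fun ω _ => Finset.mem_image_of_mem g (Finset.mem_univ ω)) p

theorem ex_div (h : Ω → β) (ψ : β → ℝ) (hψ : ∀ c, 0 ≤ ψ c) :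
    Ex p (fun ω => ψ (h ω) / Pr p fun ω' => h ω' = h ω) ≤ ∑ c ∈ Finset.univ.image h, ψ c := by
  unfold Ex
  rw [← Finset.sum_fiberwise_of_maps_to (t := Finset.univ.image h) (g := h)
    fun ω _ => Finset.mem_image_of_mem h (Finset.mem_univ ω)]
  refine Finset.sum_le_sum fun c _ => ?_
  have e : ∑ ω with h ω = c, p ω * (ψ (h ω) / Pr p fun ω' => h ω' = h ω) =
      Pr p (fun ω' => h ω' = c) * (ψ c / Pr p fun ω' => h ω' = c) := by
    rw [Pr, Finset.sum_mul]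
    exact Finset.sum_congr rfl fun ω hω => by rw [(Finset.mem_filter.1 hω).2]; rfl
  rw [e]
  by_cases h0 : Pr p (fun ω' => h ω' = c) = 0
  · rw [h0, zero_mul]
    exact hψ c
  · rw [mul_div_cancel₀ _ h0]

theorem pr_pos {A : Ω → Prop} {ω : Ω} (hp : IsP p) (hω : p ω ≠ 0) (hA : A ω) : 0 < Pr p A :=
  (lt_of_le_of_ne (hp.1 ω) hω.symm).trans_le
    (Finset.single_le_sum (f := p) (fun ω _ => hp.1 ω)
      (Finset.mem_filter.2 ⟨Finset.mem_univ ω, hA⟩))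

theorem ex_ratio (f : Ω → α) (g : Ω → β) (hp : IsP p) :
    Ex p (fun ω => (Pr p (fun ω' => f ω' = f ω) * Pr p fun ω' => g ω' = g ω) /
      Pr p fun ω' => f ω' = f ω ∧ g ω' = g ω) ≤ 1 := by
  have hψ : ∀ c : α × β, 0 ≤ Pr p (fun ω' => f ω' = c.1) * Pr p fun ω' => g ω' = c.2 :=
    fun c => mul_nonneg (e1.pr_nonneg _ hp) (e1.pr_nonneg _ hp)
  have h1 := ex_div (p := p) (fun ω => (f ω, g ω)) _ hψ
  simp only [Prod.mk.injEq] at h1
  refine h1.trans ?_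
  calc _ ≤ ∑ c ∈ Finset.univ.image f ×ˢ Finset.univ.image g,
        Pr p (fun ω' => f ω' = c.1) * Pr p fun ω' => g ω' = c.2 := by
        refine Finset.sum_le_sum_of_subset_of_nonneg (fun c hc => ?_) fun c _ _ => hψ c
        simp only [Finset.mem_image] at hc
        obtain ⟨ω, -, rfl⟩ := hc
        exact Finset.mem_product.2 ⟨Finset.mem_image_of_mem f (Finset.mem_univ ω),
          Finset.mem_image_of_mem g (Finset.mem_univ ω)⟩
    _ = 1 := by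
        rw [Finset.sum_product, ← Finset.sum_mul_sum (f := fun a => Pr p fun ω' => f ω' = a)
          (g := fun b => Pr p fun ω' => g ω' = b), sum_pr f hp, sum_pr g hp, mul_one]

theorem pmi (f : Ω → α) (g : Ω → β) {x : ℝ} (hp : IsP p) (hx : 0 < x) :
    Pr p (fun ω => exp x * (Pr p (fun ω' => f ω' = f ω) * Pr p fun ω' => g ω' = g ω) ≤
      Pr p fun ω' => f ω' = f ω ∧ g ω' = g ω) ≤ (Hn p f - Hc p f g + 1) / x := by
  set μ : Ω → ℝ := fun ω => Pr p fun ω' => f ω' = f ω with hμ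
  set ν : Ω → ℝ := fun ω => Pr p fun ω' => g ω' = g ω with hν
  set ρ : Ω → ℝ := fun ω => Pr p fun ω' => f ω' = f ω ∧ g ω' = g ω with hρ
  have hpos : ∀ ω, p ω ≠ 0 → 0 < μ ω ∧ 0 < ν ω ∧ 0 < ρ ω := fun ω hω =>
    ⟨pr_pos hp hω rfl, pr_pos hp hω rfl, pr_pos hp hω ⟨rfl, rfl⟩⟩
  have hlog : ∀ ω, p ω ≠ 0 → -log (μ ω) - log (ν ω / ρ ω) = -log (μ ω * ν ω / ρ ω) := by
    intro ω hω
    obtain ⟨h1, h2, h3⟩ := hpos ω hω
    rw [mul_div_assoc, log_mul h1.ne' (by positivity)]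
    ring
  have h1 := e1.markov (f := fun ω => (-log (μ ω) - log (ν ω / ρ ω)) + μ ω * ν ω / ρ ω) hp
    (fun ω hω => by
      obtain ⟨h1, h2, h3⟩ := hpos ω hω
      have := log_le_sub_one_of_pos (show 0 < μ ω * ν ω / ρ ω by positivity)
      rw [hlog ω hω]
      linarith) hx
  rw [e1.ex_add, e1.ex_sub, ← e2.hc_eq f g hp] at h1
  refine (e1.pr_mono hp fun ω hω h => ?_).trans (h1.trans ?_)
  · obtain ⟨h1, h2, h3⟩ := hpos ω hω
    have h4 : μ ω * ν ω / ρ ω ≤ exp (-x) := by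
      rw [div_le_iff₀ h3, exp_neg, ← div_eq_inv_mul, le_div_iff₀' (exp_pos x)]
      exact h
    have h5 : 0 < μ ω * ν ω / ρ ω := by positivity
    have h6 := (log_le_iff_le_exp h5).2 h4
    rw [hlog ω hω]
    linarith
  · exact div_le_div_of_nonneg_right (add_le_add le_rfl (ex_ratio f g hp)) hx.le

theorem rare (g : Ω → β) (E : Ω → Prop) {u : ℝ} (hp : IsP p) (hu : 0 ≤ u) :
    Pr p (fun ω => E ω ∧ Pr p (fun ω' => g ω' = g ω ∧ E ω') ≤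
      u * Pr p fun ω' => g ω' = g ω) ≤ u := by
  rw [pr_fib p g]
  conv_rhs => rw [← mul_one u, ← sum_pr g hp, Finset.mul_sum]
  refine Finset.sum_le_sum fun c _ => ?_
  by_cases h : Pr p (fun ω' => g ω' = c ∧ E ω') ≤ u * Pr p fun ω' => g ω' = c
  · exact (e1.pr_mono hp fun ω _ hω => ⟨hω.1, hω.2.1⟩).trans h
  · have h1 : Pr p (fun _ => False) = 0 := by simp [Pr]
    refine (e1.pr_mono (E' := fun _ => False) hp fun ω _ hω => h ?_).trans ?_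
    · rw [← hω.1]
      exact hω.2.2
    · rw [h1]
      exact mul_nonneg hu (e1.pr_nonneg _ hp)

theorem cnt (q t : Ω → ℝ) (g : Ω → β) (k n : ℕ) (ω : Ω)
    (h : ∀ ω', q ω' ≠ 0 → g ω' = g ω → |t ω' - t ω| ≤ 2 * 2⁻¹ ^ k) :
    Cnt q (fun ω => fl (k + n) (t ω)) g ω (exp (n * log 2 + 6)) := by
  intro S hS
  have h1 := ev.cnt1 (p := q) (k + n) t g (2 * 2 ^ n) ω (by positivity) (fun ω' h1 h2 => by
    refine (h ω' h1 h2).trans_eq ?_
    rw [pow_add, inv_pow, inv_pow]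
    field_simp) S hS
  have h2 : exp (n * log 2 + 6) = 2 ^ n * exp 6 := by
    rw [exp_add, exp_nat_mul, exp_log two_pos]
  have h3 := add_one_le_exp 6
  have h4 : (1 : ℝ) ≤ 2 ^ n := one_le_pow₀ one_le_two
  rw [h2]
  nlinarith

theorem tsep (t₁ t₂ : Ω → ℝ) (g : Ω → β) (N r b : ℕ) (E : ℝ) (hp : IsP p) (hN : r + b ≤ N)
    (hd : Det p g t₁) (h1 : ∀ ω, p ω ≠ 0 → |t₂ ω - t₁ ω| ≤ 2⁻¹ ^ r)
    (h2 : ((N : ℝ) - r) * log 2 - E ≤ Hc p (fun ω => fl N (t₂ ω)) g) :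
    Pr p (fun ω => |t₂ ω - t₁ ω| ≤ 2⁻¹ ^ (r + b)) * (b * log 2) ≤ E + 10 := by
  obtain ⟨n, rfl⟩ := Nat.exists_eq_add_of_le hN
  have key : ∀ (ω ω' : Ω) (ε : ℝ), p ω ≠ 0 → p ω' ≠ 0 → g ω' = g ω → |t₂ ω - t₁ ω| ≤ ε →
      |t₂ ω' - t₁ ω'| ≤ ε → |t₂ ω' - t₂ ω| ≤ 2 * ε := by
    intro ω ω' ε hω hω' e a b
    rw [hd ω' ω hω' hω e] at b
    rw [abs_le] at a b ⊢
    constructor <;> linarith [a.1, a.2, b.1, b.2]
  have h3 := cntE (f := fun ω => fl (r + b + n) (t₂ ω)) (g := g)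
    (fun ω => |t₂ ω - t₁ ω| ≤ 2⁻¹ ^ (r + b)) (A := n * log 2 + 6)
    (B := ((b + n : ℕ) : ℝ) * log 2 + 6) hp
    (fun ω hω hE S hS => cnt (fun ω => if |t₂ ω - t₁ ω| ≤ 2⁻¹ ^ (r + b) then p ω else 0) t₂ g
      (r + b) n ω (fun ω' h1 h2 => key ω ω' _ hω (ite_ne_right_iff.1 h1).2 h2 hE
        (ite_ne_right_iff.1 h1).1) S fun a ha => by
          obtain ⟨ω', k1, k2, k3⟩ := hS a ha
          exact ⟨ω', ite_ne_right_iff.2 ⟨k2, k1⟩, k3⟩)
    (fun ω hω => by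
      rw [add_assoc]
      exact cnt p t₂ g r (b + n) ω fun ω' k1 k2 => key ω ω' _ hω k1 k2 (h1 ω hω) (h1 ω' k1))
  rw [e1.pr_not _ hp] at h3
  push_cast at h2 h3
  nlinarith [log_two_le_one]

end ET2X

open ET2X in
theorem eT2 : ET2 := ⟨evsum, evcap, cntE, info, pmi, rare, tsep⟩

end Vale.Agent.P127
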