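import Vale.Agent.P127.Num

/-! Sticky Kakeya sets in four dimensions: counting cubes. -/

namespace Vale.Agent.P127

open Vale.Agent.P118
open scoped RealInnerProductSpace
open Real Classical Module

namespace ET3X

variable {Ω α β : Type} {m : ℕ} {p : Ω → ℝ}

theorem cnt_mono {f : Ω → α} {g : Ω → β} {ω : Ω} {N N' : ℝ} (h : Cnt p f g ω N) (hN : N ≤ N') :
    Cnt p f g ω N' := fun S hS => (h S hS).trans hN

theorem rad_le (m i : ℕ) {a : ℝ} (ha : 1 ≤ a) :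
    a * 2⁻¹ ^ i ≤ a * (5 * (m + 1)) * (2⁻¹ : ℝ) ^ i := by
  have h0 : (0 : ℝ) ≤ m := by positivity
  have h1 : a ≤ a * (5 * (m + 1)) := by nlinarith
  exact mul_le_mul_of_nonneg_right h1 (by positivity)

theorem two_pow_mul (i : ℕ) : (2 : ℝ) ^ i * 2⁻¹ ^ i = 1 := by
  rw [← mul_pow, mul_inv_cancel₀ two_ne_zero, one_pow]

theorem one_le_two_pow (i : ℕ) : (1 : ℝ) ≤ 2 ^ i := one_le_pow₀ one_le_two

/-- the count on an event -/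
theorem cnt_ev {f : Ω → α} {g : Ω → β} {E : Ω → Prop} {ω : Ω} {N : ℝ}
    (h : Cnt (fun w => if E w then p w else 0) f g ω N) (S : Finset α)
    (hS : ∀ a ∈ S, ∃ ω', p ω' ≠ 0 ∧ E ω' ∧ g ω' = g ω ∧ f ω' = a) : (S.card : ℝ) ≤ N :=
  h S fun a ha => by
    obtain ⟨ω', h1, h2, h3, h4⟩ := hS a ha
    exact ⟨ω', by simpa [h2] using h1, h3, h4⟩

theorem ite_ne {E : Ω → Prop} {ω : Ω} (h : (if E ω then p ω else 0) ≠ 0) : p ω ≠ 0 ∧ E ω := by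
  by_cases hE : E ω
  · exact ⟨by simpa [hE] using h, hE⟩
  · simp [hE] at h

variable [Fintype Ω]

theorem cntA (i : ℕ) (X : Ω → Eu m) (g : Ω → β) (a : ℝ) (ω : Ω) (ha : 1 ≤ a)
    (h : ∀ ω', p ω' ≠ 0 → g ω' = g ω → ‖X ω' - X ω‖ ≤ a * 2⁻¹ ^ i) :
    Cnt p (fun ω => flo i (X ω)) g ω (exp (m * log a + CE m)) :=
  cnt_mono (ev.cnt i X g a ω ha fun ω' h1 h2 => (h ω' h1 h2).trans (rad_le m i ha))
    (exp_le_exp.2 (by linarith [CE_nonneg m]))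

theorem nearA (i : ℕ) (X : Ω → Eu m) (g : Ω → β) (a : ℝ) (hp : IsP p) (ha : 1 ≤ a)
    (h : ∀ ω ω', p ω ≠ 0 → p ω' ≠ 0 → g ω = g ω' → ‖X ω - X ω'‖ ≤ a * 2⁻¹ ^ i) :
    Hc p (fun ω => flo i (X ω)) g ≤ m * log a + CE m := by
  have h1 := ev.near i X g a hp ha fun ω ω' h1 h2 h3 => (h ω ω' h1 h2 h3).trans (rad_le m i ha)
  linarith [CE_nonneg m]

theorem near1 (i : ℕ) (X : Ω → ℝ) (g : Ω → β) (a : ℝ) (hp : IsP p) (ha : 0 ≤ a)
    (h : ∀ ω ω', p ω ≠ 0 → p ω' ≠ 0 → g ω = g ω' → |X ω - X ω'| ≤ a * 2⁻¹ ^ i) :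
    Hc p (fun ω => fl i (X ω)) g ≤ log (2 * a + 3) :=
  e2.count' hp fun ω hω => ev.cnt1 i X g a ω ha fun ω' h1 h2 => h ω' ω h1 hω h2

omit [Fintype Ω] in
theorem close_pt {i : ℕ} {x x' y y' c : Eu m} {a : ℝ} (ha : 1 ≤ a)
    (h1 : ‖x - x' - c‖ ≤ a * 2⁻¹ ^ i) (h2 : ‖y - y' - c‖ ≤ a * 2⁻¹ ^ i)
    (h3 : flo i x' = flo i y') : ‖x - y‖ ≤ a * (5 * (m + 1)) * 2⁻¹ ^ i := by
  have h4 := geo1.norm_sub_flo i x'
  have h5 := geo1.norm_sub_flo i y'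
  rw [h3] at h4
  have h6 : x - y = ((x - x' - c) - (y - y' - c)) + ((x' - flo i y') - (y' - flo i y')) := by abel
  have h7 : ‖x - y‖ ≤ (‖x - x' - c‖ + ‖y - y' - c‖) + (‖x' - flo i y'‖ + ‖y' - flo i y'‖) := by
    rw [h6]
    exact (norm_add_le _ _).trans (add_le_add (norm_sub_le _ _) (norm_sub_le _ _))
  have h0 : (0 : ℝ) ≤ m := by positivity
  have h8 : 2 * a + 2 * √m ≤ a * (5 * (m + 1)) := by nlinarith [sqrt_le_half m]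
  have h9 := mul_le_mul_of_nonneg_right h8 (show (0 : ℝ) ≤ 2⁻¹ ^ i by positivity)
  linarith

theorem closeD (i : ℕ) (X X' c : Ω → Eu m) (g : Ω → β) (a : ℝ) (hp : IsP p) (ha : 1 ≤ a)
    (hc : Det p g c) (h : ∀ ω, p ω ≠ 0 → ‖X ω - X' ω - c ω‖ ≤ a * 2⁻¹ ^ i) :
    Hc p (fun ω => flo i (X ω)) g ≤ Hc p (fun ω => flo i (X' ω)) g + m * log a + CE m := by
  have h1 := e1.tri (fun ω => flo i (X ω)) (fun ω => flo i (X' ω)) g hp
  have h2 := ev.near i X (fun ω => (flo i (X' ω), g ω)) a hp ha fun ω ω' hω hω' e => by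
    obtain ⟨e1, e2⟩ := Prod.ext_iff.1 e
    have h3 := h ω' hω'
    rw [← hc ω ω' hω hω' e2] at h3
    exact close_pt ha (h ω hω) h3 e1
  linarith [CE_nonneg m]

theorem cntB (i : ℕ) (X : Ω → Eu m) (g : Ω → β) (R : ℝ) (ω : Ω) (hR : 1 ≤ R) (hω : p ω ≠ 0)
    (h : ∀ ω, p ω ≠ 0 → ‖X ω‖ ≤ R) :
    Cnt p (fun ω => flo i (X ω)) g ω (exp (m * i * log 2 + m * log R + CE m)) := by
  have h0 : (0 : ℝ) ≤ m := by positivity
  have ha : 1 ≤ R * 2 ^ i := one_le_mul_of_one_le_of_one_le hR (one_le_two_pow i)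
  refine cnt_mono (ev.cnt i X g (R * 2 ^ i) ω ha fun ω' h1 _ => ?_) (exp_le_exp.2 ?_)
  · have h2 : R * 2 ^ i * (5 * (m + 1)) * (2⁻¹ : ℝ) ^ i = R * (5 * (m + 1)) := by
      rw [mul_right_comm, mul_assoc R, two_pow_mul, mul_one]
    rw [h2]
    have h3 := norm_sub_le (X ω') (X ω)
    nlinarith [h ω' h1, h ω hω]
  · rw [log_mul (by positivity) (by positivity), log_pow]
    nlinarith [CE_nonneg m]

theorem totB (i : ℕ) (X : Ω → Eu m) (g : Ω → β) (R : ℝ) (hp : IsP p) (hR : 1 ≤ R)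
    (h : ∀ ω, p ω ≠ 0 → ‖X ω‖ ≤ R) :
    Hc p (fun ω => flo i (X ω)) g ≤ m * i * log 2 + m * log R + CE m := by
  have h1 := e2.count' hp fun ω hω => cntB i X g R ω hR hω h
  rwa [log_exp] at h1

theorem cnt1B (i : ℕ) (X : Ω → ℝ) (g : Ω → β) (R : ℝ) (ω : Ω) (hR : 0 ≤ R) (hω : p ω ≠ 0)
    (h : ∀ ω, p ω ≠ 0 → |X ω| ≤ R) :
    Cnt p (fun ω => fl i (X ω)) g ω (exp (i * log 2 + log (4 * R + 3))) := by
  refine cnt_mono (ev.cnt1 i X g (2 * R * 2 ^ i) ω (by positivity) fun ω' h1 _ => ?_) ?_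
  · rw [mul_assoc, two_pow_mul, mul_one]
    have h3 := abs_sub (X ω') (X ω)
    linarith [h ω' h1, h ω hω]
  · rw [exp_add, ← log_pow, exp_log (by positivity), exp_log (by positivity)]
    nlinarith [one_le_two_pow i]

theorem tot1B (i : ℕ) (X : Ω → ℝ) (g : Ω → β) (R : ℝ) (hp : IsP p) (hR : 0 ≤ R)
    (h : ∀ ω, p ω ≠ 0 → |X ω| ≤ R) :
    Hc p (fun ω => fl i (X ω)) g ≤ i * log 2 + log (4 * R + 3) := by
  have h1 := e2.count' hp fun ω hω => cnt1B i X g R ω hR hω h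
  rwa [log_exp] at h1

theorem nearE (t2 : ET2) (i : ℕ) (X : Ω → Eu m) (g : Ω → β) (E : Ω → Prop) (a R : ℝ)
    (hp : IsP p) (ha : 1 ≤ a) (hR : 1 ≤ R) (hX : ∀ ω, p ω ≠ 0 → ‖X ω‖ ≤ R)
    (h : ∀ ω ω', p ω ≠ 0 → p ω' ≠ 0 → E ω → E ω' → g ω = g ω' → ‖X ω - X ω'‖ ≤ a * 2⁻¹ ^ i) :
    Hc p (fun ω => flo i (X ω)) g ≤ log 2 + m * log a + CE m +
      Pr p (fun ω => ¬E ω) * (m * i * log 2 + m * log R + CE m) := by
  have h1 := t2.cntE (f := fun ω => flo i (X ω)) (g := g) E (A := m * log a + CE m) hp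
    (fun ω hω hE => cnt_ev (cntA i X g a ω ha fun ω' h1 h2 =>
      h ω' ω (ite_ne h1).1 hω (ite_ne h1).2 hE h2))
    fun ω hω => cntB i X g R ω hR hω hX
  have h2 : 0 ≤ m * log a + CE m :=
    add_nonneg (mul_nonneg (by positivity) (log_nonneg ha)) (CE_nonneg m)
  have h3 := mul_le_of_le_one_left h2 (e1.pr_le_one E hp)
  linarith

theorem near1E (t2 : ET2) (i : ℕ) (X : Ω → ℝ) (g : Ω → β) (E : Ω → Prop) (a R : ℝ)
    (hp : IsP p) (ha : 0 ≤ a) (hR : 0 ≤ R) (hX : ∀ ω, p ω ≠ 0 → |X ω| ≤ R)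
    (h : ∀ ω ω', p ω ≠ 0 → p ω' ≠ 0 → E ω → E ω' → g ω = g ω' → |X ω - X ω'| ≤ a * 2⁻¹ ^ i) :
    Hc p (fun ω => fl i (X ω)) g ≤ log 2 + log (2 * a + 3) +
      Pr p (fun ω => ¬E ω) * (i * log 2 + log (4 * R + 3)) := by
  have h0 : exp (log (2 * a + 3)) = 2 * a + 3 := exp_log (by positivity)
  have h1 := t2.cntE (f := fun ω => fl i (X ω)) (g := g) E (A := log (2 * a + 3)) hp
    (fun ω hω hE => cnt_ev (cnt_mono (ev.cnt1 i X g a ω ha fun ω' h1 h2 =>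
      h ω' ω (ite_ne h1).1 hω (ite_ne h1).2 hE h2) h0.ge))
    fun ω hω => cnt1B i X g R ω hR hω hX
  have h2 : 0 ≤ log (2 * a + 3) := log_nonneg (by linarith)
  have h3 := mul_le_of_le_one_left h2 (e1.pr_le_one E hp)
  linarith

omit [Fintype Ω] in
theorem far_pt {h h' : ℕ} (hh : h' ≤ h) {x y z : Eu m} (h1 : ‖x - z‖ < 2⁻¹ ^ h')
    (h2 : ‖y - z‖ < 2⁻¹ ^ h') : ‖x - y‖ ≤ 2 * 2 ^ (h - h') * 2⁻¹ ^ h := by
  obtain ⟨k, rfl⟩ := Nat.exists_eq_add_of_le hh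
  have h3 : (2 : ℝ) * 2 ^ (h' + k - h') * 2⁻¹ ^ (h' + k) = 2 * 2⁻¹ ^ h' := by
    rw [Nat.add_sub_cancel_left, pow_add, mul_assoc, mul_left_comm ((2 : ℝ) ^ k), two_pow_mul,
      mul_one]
  have h4 : x - y = (x - z) - (y - z) := by abel
  rw [h3, h4]
  linarith [norm_sub_le (x - z) (y - z)]

theorem far (t1 : ET1) (t2 : ET2) (h h' : ℕ) (X : Ω → Eu m) (g : Ω → β) (R : ℝ) (hp : IsP p)
    (hh : h' ≤ h) (hR : 1 ≤ R) (hX : ∀ ω, p ω ≠ 0 → ‖X ω‖ ≤ R) :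
    Hc p (fun ω => flo h (X ω)) g ≤ log 2 + m * ((h : ℝ) - h') * log 2 + 2 * CE m +
      Pr (res p g) (fun z => 2⁻¹ ^ h' ≤ ‖X z.2 - X z.1‖) * (m * h * log 2 + m * log R + CE m) := by
  have hq := e3.isP_res g hp
  have h1 := (t1.ci0 g (fun ω => flo h (X ω)) (fun ω => ω) hp (Det.comp p (fun ω => ω) g)).1
  have ha : (1 : ℝ) ≤ 2 * 2 ^ (h - h') := by linarith [one_le_two_pow (h - h')]
  have h2 := nearE t2 h (fun z : Ω × Ω => X z.2) (fun z => z.1)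
    (fun z => ‖X z.2 - X z.1‖ < 2⁻¹ ^ h') _ R hq ha hR (fun z hz => hX _ (e3.res_ne hz).2.1)
    fun z z' _ _ hE hE' e => far_pt hh hE (by rw [e]; exact hE')
  have h3 : Pr (res p g) (fun z => ¬‖X z.2 - X z.1‖ < 2⁻¹ ^ h') ≤
      Pr (res p g) (fun z => 2⁻¹ ^ h' ≤ ‖X z.2 - X z.1‖) :=
    e1.pr_mono hq fun z _ hz => not_lt.1 hz
  have h0 : (0 : ℝ) ≤ m := by positivity
  have h4 : 0 ≤ m * h * log 2 + m * log R + CE m :=
    add_nonneg (add_nonneg (mul_nonneg (by positivity) log_two_pos.le)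
      (mul_nonneg h0 (log_nonneg hR))) (CE_nonneg m)
  have h5 := mul_le_mul_of_nonneg_right h3 h4
  have h6 : log (2 * 2 ^ (h - h')) = log 2 + ((h : ℝ) - h') * log 2 := by
    rw [log_mul two_ne_zero (by positivity), log_pow, Nat.cast_sub hh]
  have h7 : m * log 2 ≤ CE m := by
    nlinarith [lin_le_CE m, log_two_le_one, log_two_pos]
  rw [h6, h1] at h2
  nlinarith

end ET3X

theorem eT3 (t1 : ET1) (t2 : ET2) : ET3 where
  cntA := ET3X.cntA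
  nearA := ET3X.nearA
  near1 := ET3X.near1
  closeD := ET3X.closeD
  cntB := ET3X.cntB
  totB := ET3X.totB
  cnt1B := ET3X.cnt1B
  tot1B := ET3X.tot1B
  nearE := ET3X.nearE t2
  near1E := ET3X.near1E t2
  far := ET3X.far t1 t2

end Vale.Agent.P127
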