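import Vale.Agent.P127.Num

/-! Counting cubes in plates and in the unit cube. -/

namespace Vale.Agent.P127

open Vale.Agent.P118
open scoped RealInnerProductSpace
open Real Classical Module

namespace ET4X

variable {Ω α β : Type} {m : ℕ} {p : Ω → ℝ}

theorem sqrt_le (m : ℕ) : √(m : ℝ) ≤ m := by
  rw [sqrt_le_left (Nat.cast_nonneg m)]
  exact_mod_cast Nat.le_self_pow two_ne_zero m

theorem mono {f : Ω → α} {g : Ω → β} {ω : Ω} {N N' : ℝ} (h : Cnt p f g ω N) (hN : N ≤ N') :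
    Cnt p f g ω N' := fun S hS => (h S hS).trans hN

theorem ent [Fintype Ω] {f : Ω → α} {g : Ω → β} {A : ℝ} (hp : IsP p)
    (h : ∀ ω, p ω ≠ 0 → Cnt p f g ω (exp A)) : Hc p f g ≤ A := by
  simpa using e2.count' hp h

theorem two_pow (k : ℕ) : (2 : ℝ) ^ k = exp (k * log 2) := by
  rw [exp_nat_mul, exp_log two_pos]

theorem plate (i k : ℕ) (X : Ω → Eu m) (g : Ω → β) (V : Submodule ℝ (Eu m)) (R ε : ℝ) (ω : Ω)
    (hR : 0 ≤ R) (hε : 0 ≤ ε) (hk : finrank ℝ V ≤ k)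
    (h : ∀ ω', p ω' ≠ 0 → g ω' = g ω → ‖X ω' - X ω‖ ≤ R ∧ ‖prj V (X ω' - X ω)‖ ≤ ε) :
    Cnt p (fun ω => flo i (X ω)) g ω
      ((R * 2 ^ i + m + 1) ^ k * (ε * 2 ^ i + m + 1) ^ m * exp (CE m / 10)) := by
  intro S hS
  have e : ∀ r : ℝ, (r + m * 2⁻¹ ^ i) * 2 ^ i + 1 = r * 2 ^ i + m + 1 := fun r => by
    rw [add_mul, mul_assoc, ← mul_pow, inv_mul_cancel₀ two_ne_zero, one_pow, mul_one]
  have c := la.count i S (X ω) V (R + m * 2⁻¹ ^ i) (ε + m * 2⁻¹ ^ i) (by positivity)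
    (by positivity) fun u hu => by
      obtain ⟨w, hw, hg, rfl⟩ := hS u hu
      obtain ⟨h1, h2⟩ := h w hw hg
      have h3 : ‖X w - flo i (X w)‖ ≤ m * 2⁻¹ ^ i :=
        (geo1.norm_sub_flo i _).trans (mul_le_mul_of_nonneg_right (sqrt_le m) (by positivity))
      have h4 : flo i (X w) - X ω = (X w - X ω) - (X w - flo i (X w)) := by abel
      refine ⟨geo1.flo_flo _ le_rfl, ?_, ?_⟩
      · beta_reduce
        rw [h4]
        exact (norm_sub_le _ _).trans (add_le_add h1 h3)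
      · beta_reduce
        rw [h4, la.prj_sub]
        exact (norm_sub_le _ _).trans (add_le_add h2 ((la.prj_norm _ _).trans h3))
  rw [e, e] at c
  refine c.trans (mul_le_mul_of_nonneg_right (mul_le_mul_of_nonneg_right
    (pow_le_pow_right₀ ?_ hk) (by positivity)) (exp_pos _).le)
  have : 0 ≤ R * 2 ^ i + m := by positivity
  linarith

theorem plateC (i j k : ℕ) (X : Ω → Eu m) (g : Ω → β) (V : Submodule ℝ (Eu m)) (a : ℝ) (ω : Ω)
    (hij : i ≤ j) (ha : 1 ≤ a) (hk : finrank ℝ V ≤ k)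
    (h : ∀ ω', p ω' ≠ 0 → g ω' = g ω →
      ‖X ω' - X ω‖ ≤ a * 2⁻¹ ^ i ∧ ‖prj V (X ω' - X ω)‖ ≤ a * 2⁻¹ ^ j) :
    Cnt p (fun ω => flo j (X ω)) g ω
      (exp (k * ((j : ℝ) - i) * log 2 + 2 * m * log a + CE m)) := by
  have a0 : 0 < a := by linarith
  refine mono (plate j _ X g V _ _ ω (by positivity) (by positivity) le_rfl h) ?_
  obtain ⟨d, rfl⟩ := Nat.exists_eq_add_of_le hij
  have hm : finrank ℝ V ≤ m := by simpa using V.finrank_le
  set r := finrank ℝ V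
  have m0 : (0 : ℝ) ≤ m := by positivity
  have e1 : a * 2⁻¹ ^ i * 2 ^ (i + d) = a * 2 ^ d := by
    rw [pow_add, inv_pow]
    field_simp
  have e2 : a * 2⁻¹ ^ (i + d) * 2 ^ (i + d) = a := by
    rw [inv_pow]
    field_simp
  have d1 : (1 : ℝ) ≤ 2 ^ d := one_le_pow₀ one_le_two
  have b1 : a * 2 ^ d + m + 1 ≤ exp (d * log 2 + log a + log (m + 2)) := by
    rw [exp_add, exp_add, ← two_pow, exp_log a0, exp_log (by positivity)]
    have : 1 ≤ a * 2 ^ d := by nlinarith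
    nlinarith
  have b2 : a + m + 1 ≤ exp (log a + log (m + 2)) := by
    rw [exp_add, exp_log a0, exp_log (by positivity)]
    nlinarith
  rw [e1, e2]
  refine (mul_le_mul_of_nonneg_right (mul_le_mul (pow_le_pow_left₀ (by positivity) b1 r)
    (pow_le_pow_left₀ (by positivity) b2 m) (by positivity) (by positivity))
    (exp_pos _).le).trans ?_
  rw [← exp_nat_mul, ← exp_nat_mul, ← exp_add, ← exp_add, exp_le_exp]
  have l1 : 0 ≤ log a := log_nonneg ha
  have l2 : 0 ≤ log ((m : ℝ) + 2) := log_nonneg (by linarith)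
  have l3 : log ((m : ℝ) + 2) ≤ m + 1 := by
    linarith [log_le_sub_one_of_pos (show (0 : ℝ) < m + 2 by positivity)]
  have l4 : 0 ≤ (d : ℝ) * log 2 := mul_nonneg (by positivity) log_two_pos.le
  have k1 : (r : ℝ) ≤ k := by exact_mod_cast hk
  have k2 : (r : ℝ) ≤ m := by exact_mod_cast hm
  have c1 := mul_le_mul_of_nonneg_right k1 l4
  have c2 := mul_le_mul_of_nonneg_right k2 l1
  have c3 := mul_le_mul_of_nonneg_right k2 l2
  have c4 := mul_le_mul_of_nonneg_left l3 m0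
  unfold CE
  push_cast
  nlinarith

theorem subC (i j : ℕ) (X : Ω → Eu m) (g : Ω → β) (ω : Ω) (c : Eu m) (hij : i ≤ j)
    (h : ∀ ω', p ω' ≠ 0 → g ω' = g ω → flo i (X ω') = c) :
    Cnt p (fun ω => flo j (X ω)) g ω (exp (m * ((j : ℝ) - i) * log 2)) := by
  intro S hS
  refine (geo1.card_sub i j S c hij fun u hu => ?_).trans (le_of_eq ?_)
  · obtain ⟨w, hw, hg, rfl⟩ := hS u hu
    exact ⟨geo1.flo_flo _ le_rfl, (geo1.flo_flo _ hij).trans (h w hw hg)⟩
  · rw [two_pow, ← exp_nat_mul, Nat.cast_sub hij, mul_assoc]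

theorem intC (n : ℕ) (f : Ω → ℤ) (g : Ω → β) (ω : Ω) (c : ℤ)
    (h : ∀ ω', p ω' ≠ 0 → g ω' = g ω → 0 ≤ f ω' - c ∧ f ω' - c < 2 ^ n) :
    Cnt p f g ω (exp (n * log 2)) := by
  intro S hS
  have h1 : S ⊆ Finset.Ico c (c + 2 ^ n) := fun u hu => by
    obtain ⟨w, hw, hg, rfl⟩ := hS u hu
    have := h w hw hg
    rw [Finset.mem_Ico]
    constructor <;> linarith [this.1, this.2]
  have h2 := Finset.card_le_card h1
  rw [Int.card_Ico, add_sub_cancel_left, show (2 : ℤ) ^ n = ((2 ^ n : ℕ) : ℤ) by simp,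
    Int.toNat_natCast] at h2
  rw [← two_pow]
  exact_mod_cast h2

theorem cubeC (i : ℕ) (X : Ω → Eu m) (g : Ω → β) (ω : Ω) (h : ∀ ω, p ω ≠ 0 → InC (X ω)) :
    Cnt p (fun ω => flo i (X ω)) g ω (exp (m * i * log 2)) := by
  simpa using subC 0 i X g ω 0 (Nat.zero_le _) fun w hw _ => (h w hw).flo_zero

theorem intC' (i : ℕ) (t : Ω → ℝ) (g : Ω → β) (ω : Ω) (h : ∀ ω, p ω ≠ 0 → 0 ≤ t ω ∧ t ω < 1) :
    Cnt p (fun ω => fl i (t ω)) g ω (exp (i * log 2)) :=
  intC i _ g ω 0 fun w hw _ => by simpa using fl_mem (h w hw).1 (h w hw).2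

end ET4X

open ET4X in
theorem eT4 : ET4 where
  plate := plate
  plateC := plateC
  plateH i j k X g V a hp hij ha hk h :=
    ent hp fun ω hω => plateC i j k X g (V ω) a ω hij ha (hk ω hω) fun w hw => h ω w hω hw
  cubeC := cubeC
  cube i X g hp h := ent hp fun ω _ => cubeC i X g ω h
  sub i j X g hp hij h :=
    ent hp fun ω hω => subC i j X g ω (flo i (X ω)) hij fun w hw hg => h w ω hw hω hg
  intC := intC'
  int i t g hp h := ent hp fun ω _ => intC' i t g ω h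
  sub1 i j t g hp hij h := by
    obtain ⟨d, rfl⟩ := Nat.exists_eq_add_of_le hij
    rw [Nat.cast_add, add_sub_cancel_left]
    refine ent hp fun ω hω => intC d _ g ω (2 ^ d * fl i (t ω)) fun w hw hg => ?_
    rw [← show fl i (t w) = fl i (t ω) from h w ω hw hω hg]
    exact fl_sub_mem i d (t w)

end Vale.Agent.P127
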