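import Vale.Agent.P127.Num

/-! Sticky Kakeya sets in four dimensions: a free direction enlarges the grains. -/

namespace Vale.Agent.P127

open Vale.Agent.P118
open scoped RealInnerProductSpace
open Real Classical Module

namespace EnlX

variable {Ω β γ : Type} [Fintype Ω] {m : ℕ}

theorem two_cnt {α α' β' : Type} {p : Ω → ℝ} {f : Ω → α} {g : Ω → β} {f' : Ω → α'} {g' : Ω → β'}
    (u : Ω → ℝ) {K K' : ℝ} (hp : IsP p) (hK : 0 < K) (hK' : 0 < K') (hu : ∀ ω, p ω ≠ 0 → 0 < u ω)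
    (h1 : ∀ ω, p ω ≠ 0 → Cnt p f g ω (u ω * K)) (h2 : ∀ ω, p ω ≠ 0 → Cnt p f' g' ω (K' / u ω)) :
    Hc p f g + Hc p f' g' ≤ log K + log K' := by
  have a1 := e2.count (N := fun ω => u ω * K) hp h1
  have a2 := e2.count (N := fun ω => K' / u ω) hp h2
  have a3 := e1.ex_add p (fun ω => log (u ω * K)) (fun ω => log (K' / u ω))
  have a4 : Ex p (fun ω => log (u ω * K) + log (K' / u ω)) ≤ Ex p (fun _ => log K + log K') :=
    e1.ex_mono hp fun ω hω => by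
      rw [log_mul (hu ω hω).ne' hK.ne', log_div hK'.ne' (hu ω hω).ne']; linarith
  rw [e1.ex_const _ hp] at a4
  linarith

omit [Fintype Ω] in
theorem cnt_mono {α : Type} {p : Ω → ℝ} {f : Ω → α} {g : Ω → β} {ω : Ω} {N N' : ℝ}
    (h : Cnt p f g ω N) (hN : N ≤ N') : Cnt p f g ω N' := fun S hS => (h S hS).trans hN

theorem prj_sup (Q : Submodule ℝ (Eu m)) (d x : Eu m) :
    prj (Q ⊔ (ℝ ∙ d)) (prj Q x) = prj (Q ⊔ (ℝ ∙ d)) x := by
  have h := la.prj_mem (Q ⊔ (ℝ ∙ d)) _ (Submodule.mem_sup_left (la.sub_prj Q x))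
  rw [la.prj_sub] at h
  exact (sub_eq_zero.1 h).symm

theorem rank_sup {Q : Submodule ℝ (Eu m)} {d : Eu m} (h : prj Q d = d) (h0 : 0 < ‖d‖) :
    finrank ℝ (Q ⊔ (ℝ ∙ d) : Submodule ℝ (Eu m)) = finrank ℝ Q + 1 := by
  refine Submodule.finrank_sup_span_singleton fun hd => ?_
  rw [la.prj_mem Q d hd] at h
  rw [← h] at h0
  simp at h0

theorem diff_le {P P' φ d : Eu m} {s s' ε : ℝ} (h : ‖P - φ - s • d‖ ≤ ε)
    (h' : ‖P' - φ - s' • d‖ ≤ ε) : ‖P' - P - (s' - s) • d‖ ≤ 2 * ε := by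
  have e : P' - P - (s' - s) • d = (P' - φ - s' • d) - (P - φ - s • d) := by
    rw [sub_smul]; abel
  rw [e]
  linarith [norm_sub_le (P' - φ - s' • d) (P - φ - s • d)]

theorem num1 {a u x y : ℝ} (hx : 1 ≤ x) (hu : 1 ≤ u) (hy : y ≤ 2 * x) (ha : 0 ≤ a) :
    2 * x * u + y + a + 1 ≤ u * (x * (a + 5)) ∧ y + a + 1 ≤ x * (a + 5) := by
  have h1 : a + 1 ≤ x * (a + 1) := le_mul_of_one_le_left (by linarith) hx
  have h2 : y + a + 1 ≤ x * (a + 3) := by linarith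
  have h3 : x * (a + 3) ≤ u * (x * (a + 3)) := le_mul_of_one_le_left (by positivity) hu
  constructor <;> nlinarith

/-- the constant of the argument -/
noncomputable def C0 (m : ℕ) : ℝ :=
  (m + 1) * log (m + 5) + log (2 * m + 9) + m * log 2 + 2 * CE m

theorem stepA (T : Tools) {p : Ω → ℝ} {P φ d : Ω → Eu m} {W : Ω → γ} {s : Ω → ℝ} {h n : ℕ}
    {E : ℝ} (hp : IsP p) (hE : 0 ≤ E) (hn : h ≤ n) (hd : Det p W d) (hφ : Det p W φ)
    (H : ∀ ω, p ω ≠ 0 → 2⁻¹ ^ h ≤ ‖d ω‖ ∧ ‖d ω‖ ≤ exp E ∧ |s ω| ≤ exp E ∧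
      ‖P ω - φ ω - s ω • d ω‖ ≤ exp E * 2⁻¹ ^ n) :
    Hc p (fun ω => flo h (P ω)) W + Hc p (fun ω => fl n (s ω)) (fun ω => (flo n (P ω), W ω)) ≤
      h * log 2 + (m + 2) * E + (m + 1) * log (m + 5) + log (2 * m + 9) + CE m / 10 := by
  have hx : 1 ≤ exp E := one_le_exp hE
  have hm : (0 : ℝ) ≤ m := by positivity
  have hdiff : ∀ ω ω', p ω ≠ 0 → p ω' ≠ 0 → W ω' = W ω →
      ‖P ω' - P ω - (s ω' - s ω) • d ω‖ ≤ 2 * (exp E * 2⁻¹ ^ n) := fun ω ω' hω hω' e => by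
    have h1 := (H ω' hω').2.2.2
    rw [hd ω' ω hω' hω e, hφ ω' ω hω' hω e] at h1
    exact diff_le (H ω hω).2.2.2 h1
  have hpos : ∀ ω, p ω ≠ 0 → 0 < ‖d ω‖ := fun ω hω => lt_of_lt_of_le (by positivity) (H ω hω).1
  have key := two_cnt (f := fun ω => flo h (P ω)) (g := W) (f' := fun ω => fl n (s ω))
    (g' := fun ω => (flo n (P ω), W ω)) (fun ω => ‖d ω‖)
    (K := 2 ^ h * (exp E * (m + 5)) ^ (m + 1) * exp (CE m / 10)) (K' := exp E * (2 * m + 9)) hp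
    (by positivity) (by positivity) hpos ?_ ?_
  · rw [log_mul (by positivity) (by positivity), log_mul (by positivity) (by positivity), log_pow,
      log_pow, log_exp, log_mul (by positivity) (by positivity),
      log_mul (by positivity) (by positivity), log_exp] at key
    push_cast at key
    linarith
  · intro ω hω
    obtain ⟨h1, h2, h3, -⟩ := H ω hω
    have h0 := hpos ω hω
    have hc := T.t4.plate (p := p) h 1 P W (ℝ ∙ d ω) (2 * exp E * ‖d ω‖ + 2 * (exp E * 2⁻¹ ^ n))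
      (2 * (exp E * 2⁻¹ ^ n)) ω (by positivity) (by positivity)
      (finrank_span_le_card ({d ω} : Set (Eu m)) |>.trans (by simp)) fun ω' hω' e => by
        have h4 := hdiff ω ω' hω hω' e
        refine ⟨?_, (la.prj_le _ _ _ (Submodule.smul_mem _ _
          (Submodule.mem_span_singleton_self _))).trans h4⟩
        have h5 := norm_add_le (P ω' - P ω - (s ω' - s ω) • d ω) ((s ω' - s ω) • d ω)
        rw [sub_add_cancel, norm_smul, Real.norm_eq_abs] at h5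
        have h6 : |s ω' - s ω| ≤ 2 * exp E := by
          linarith [abs_sub (s ω') (s ω), (H ω' hω').2.2.1]
        have h7 := mul_le_mul_of_nonneg_right h6 h0.le
        linarith
    refine cnt_mono hc ?_
    have hu : 1 ≤ ‖d ω‖ * 2 ^ h := by
      have := mul_le_mul_of_nonneg_right h1 (show (0 : ℝ) ≤ 2 ^ h by positivity)
      rwa [← mul_pow, inv_mul_cancel₀ two_ne_zero, one_pow] at this
    have hy : 2 * (exp E * 2⁻¹ ^ n) * 2 ^ h ≤ 2 * exp E := by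
      have h4 : (2⁻¹ : ℝ) ^ n ≤ 2⁻¹ ^ h := pow_le_pow_of_le_one (by norm_num) (by norm_num) hn
      have h5 := mul_le_mul_of_nonneg_right h4 (show (0 : ℝ) ≤ 2 ^ h by positivity)
      rw [← mul_pow, inv_mul_cancel₀ two_ne_zero, one_pow] at h5
      nlinarith
    obtain ⟨n1, n2⟩ := num1 hx hu hy hm
    have n3 : (2 * exp E * ‖d ω‖ + 2 * (exp E * 2⁻¹ ^ n)) * 2 ^ h + m + 1 ≤
        ‖d ω‖ * 2 ^ h * (exp E * (m + 5)) := by linarith
    calc _ ≤ (‖d ω‖ * 2 ^ h * (exp E * (m + 5))) ^ 1 * (exp E * (m + 5)) ^ m *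
          exp (CE m / 10) := by gcongr
      _ = _ := by ring
  · intro ω hω
    obtain ⟨h1, h2, h3, -⟩ := H ω hω
    have h0 := hpos ω hω
    have hc := ev.cnt1 (p := p) n s (fun ω => (flo n (P ω), W ω)) ((m + 1 + 2 * exp E) / ‖d ω‖) ω
      (by positivity) fun ω' hω' e => by
        obtain ⟨e1', e2'⟩ := Prod.ext_iff.1 e
        have h4 := hdiff ω ω' hω hω' e2'
        have h5 := geo1.same_norm e1'
        have h6 := norm_sub_le (P ω' - P ω) (P ω' - P ω - (s ω' - s ω) • d ω)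
        rw [sub_sub_cancel, norm_smul, Real.norm_eq_abs] at h6
        have h7 := mul_le_mul_of_nonneg_right (sqrt_le_succ m)
          (show (0 : ℝ) ≤ 2⁻¹ ^ n by positivity)
        rw [div_mul_eq_mul_div, le_div_iff₀ h0]
        linarith
    refine cnt_mono hc ?_
    rw [le_div_iff₀ h0, add_mul, mul_assoc, div_mul_cancel₀ _ h0.ne']
    nlinarith

theorem key (T : Tools) {p : Ω → ℝ} {X φ d : Ω → Eu m} {Q : Ω → Submodule ℝ (Eu m)} {c : Ω → β}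
    {Z : Ω → γ} {s : Ω → ℝ} {h n : ℕ} {E : ℝ} (hp : IsP p) (hE : 0 ≤ E) (hn : h ≤ n)
    (hQ : Det p c Q) (hd : Det p c d) (hφ : Det p (fun ω => (Z ω, c ω)) φ)
    (H : ∀ ω, p ω ≠ 0 → 2⁻¹ ^ h ≤ ‖d ω‖ ∧ ‖d ω‖ ≤ exp E ∧ |s ω| ≤ exp E ∧
      ‖prj (Q ω) (X ω) - φ ω - s ω • d ω‖ ≤ exp E * 2⁻¹ ^ n)
    (hs : n * log 2 - E ≤ Hc p (fun ω => fl n (s ω)) fun ω => (Z ω, c ω)) :
    Hc p (fun ω => flo n (prj (Q ω ⊔ (ℝ ∙ d ω)) (X ω)))
        (fun ω => (flo h (prj (Q ω) (X ω)), c ω)) + ((n : ℝ) - h) * log 2 ≤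
      Hc p (fun ω => flo n (prj (Q ω) (X ω))) (fun ω => (flo h (prj (Q ω) (X ω)), c ω)) +
        (2 * m + 3) * E + C0 m := by
  have hx : 1 ≤ exp E := one_le_exp hE
  have hm : (0 : ℝ) ≤ m := by positivity
  have hd' : Det p (fun ω => (Z ω, c ω)) d := (Det.snd p Z c).trans hd
  have a1 := stepA T (P := fun ω => prj (Q ω) (X ω)) hp hE hn hd' hφ H
  have a2 := e1.tri (fun ω => fl n (s ω)) (fun ω => flo n (prj (Q ω) (X ω)))
    (fun ω => (Z ω, c ω)) hp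
  have a3 := e1.tri (fun ω => flo n (prj (Q ω) (X ω))) (fun ω => flo h (prj (Q ω) (X ω)))
    (fun ω => (Z ω, c ω)) hp
  have a4 := e1.tri (fun ω => flo n (prj (Q ω) (X ω)))
    (fun ω => flo n (prj (Q ω ⊔ (ℝ ∙ d ω)) (X ω)))
    (fun ω => (flo h (prj (Q ω) (X ω)), Z ω, c ω)) hp
  have a5 : Hc p (fun ω => flo n (prj (Q ω) (X ω)))
      (fun ω => (flo n (prj (Q ω ⊔ (ℝ ∙ d ω)) (X ω)), flo h (prj (Q ω) (X ω)), Z ω, c ω)) ≤
      Hc p (fun ω => flo n (prj (Q ω) (X ω)))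
        (fun ω => (flo n (prj (Q ω ⊔ (ℝ ∙ d ω)) (X ω)), flo h (prj (Q ω) (X ω)), c ω)) :=
    e1.hc_mono hp (fun a b _ _ e => by
      simp only [Prod.mk.injEq] at e ⊢; exact ⟨e.1, e.2.1, e.2.2.2⟩) (Det.fst _ _ _)
  have a6 := T.t3.nearA n (fun ω => prj (Q ω ⊔ (ℝ ∙ d ω)) (X ω))
    (fun ω => (flo h (prj (Q ω) (X ω)), Z ω, c ω)) (2 * exp E) hp (by linarith)
    fun ω ω' hω hω' e => by
      have e' : (Z ω, c ω) = (Z ω', c ω') := (Prod.ext_iff.1 e).2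
      have h1 := (H ω hω).2.2.2
      rw [hd' ω ω' hω hω' e', hφ ω ω' hω hω' e'] at h1
      have h2 := diff_le (H ω' hω').2.2.2 h1
      have h3 := hQ ω ω' hω hω' (Prod.ext_iff.1 e').2
      show ‖prj (Q ω ⊔ (ℝ ∙ d ω)) (X ω) - prj (Q ω' ⊔ (ℝ ∙ d ω')) (X ω')‖ ≤ _
      rw [← prj_sup (Q ω), ← prj_sup (Q ω') _ (X ω'), hd' ω ω' hω hω' e']
      rw [h3] at h2 ⊢
      rw [← la.prj_sub, mul_assoc]
      exact (la.prj_le _ _ _ (Submodule.mem_sup_right (Submodule.smul_mem _ _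
        (Submodule.mem_span_singleton_self _)))).trans h2
  have a7 := e1.symm (fun ω => flo n (prj (Q ω) (X ω)))
    (fun ω => flo n (prj (Q ω ⊔ (ℝ ∙ d ω)) (X ω))) (fun ω => (flo h (prj (Q ω) (X ω)), c ω)) hp
  have a8 := ev.near n (fun ω => prj (Q ω ⊔ (ℝ ∙ d ω)) (X ω))
    (fun ω => (flo n (prj (Q ω) (X ω)), flo h (prj (Q ω) (X ω)), c ω)) 1 hp le_rfl
    fun ω ω' hω hω' e => by
      have e' : c ω = c ω' := (Prod.ext_iff.1 (Prod.ext_iff.1 e).2).2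
      have h1 : ‖prj (Q ω) (X ω) - prj (Q ω') (X ω')‖ ≤ √m * 2⁻¹ ^ n :=
        geo1.same_norm (Prod.ext_iff.1 e).1
      show ‖prj (Q ω ⊔ (ℝ ∙ d ω)) (X ω) - prj (Q ω' ⊔ (ℝ ∙ d ω')) (X ω')‖ ≤ _
      rw [← prj_sup (Q ω), ← prj_sup (Q ω') _ (X ω'), hd ω ω' hω hω' e']
      rw [hQ ω ω' hω hω' e'] at h1 ⊢
      rw [← la.prj_sub]
      refine (la.prj_norm _ _).trans (h1.trans (mul_le_mul_of_nonneg_right ?_ (by positivity)))
      linarith [sqrt_le_succ m]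
  rw [log_mul two_ne_zero (by positivity), log_exp] at a6
  rw [log_one] at a8
  have := CE_nonneg m
  unfold C0
  linarith

end EnlX

theorem sEnl (T : Tools) (B : Base) : SEnl := by
  intro m σ hc q hNG κ hκ
  obtain ⟨e, he, hU⟩ := ef_use hNG hκ
  filter_upwards [hU, B.fullG m σ hc q (e / 10) (by positivity), B.win m σ hc q e he,
    ef_lin (A := 2 * m + 3) (by positivity) (EnlX.C0 m + 2 * CE m) (half_pos he)]
    with x hU hF hW hL
  intro Ω Tt Θ γ _ D Q Z φ d s h n hE hG hhn hnL hd hφ H hs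
  have hL0 : (0 : ℝ) ≤ x.2 := by positivity
  have hn : h ≤ n := by
    have : (h : ℝ) ≤ n := by nlinarith
    exact_mod_cast this
  obtain ⟨k, rfl⟩ := Nat.exists_eq_add_of_le hn
  have hp := hE.1.isP
  have F := hF D Q hE hG
  have hQ' : Det D.p D.c fun ω => Q ω ⊔ (ℝ ∙ d ω) := fun a b ha hb e' => by
    show Q a ⊔ (ℝ ∙ d a) = Q b ⊔ (ℝ ∙ d b)
    rw [hG.1 a b ha hb e', hd a b ha hb e']
  have a1 := EnlX.key T (X := D.X) hp hE.1.nonneg hn hG.1 hd hφ (fun ω hω => (H ω hω).2) hs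
  have a2 := (B.win0 D x.2 h k x.1 hE.1 hnL).2.2.1 _ hQ'
  have a3 := F.full.xl h (h + k) hn hnL
  have a4 := F.yw h (h + k) hn hnL
  have a5 := F.ylu h h le_rfl (hn.trans hnL)
  have a6 := e1.tri (fun ω => flo (h + k) (D.X ω))
    (fun ω => flo (h + k) (prj (Q ω ⊔ (ℝ ∙ d ω)) (D.X ω))) (fun ω => (D.ln h ω, D.c ω)) hp
  have a7 := e1.tri (fun ω => flo (h + k) (prj (Q ω ⊔ (ℝ ∙ d ω)) (D.X ω)))
    (fun ω => flo h (prj (Q ω) (D.X ω))) (fun ω => (D.ln h ω, D.c ω)) hp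
  have a8 : Hc D.p (fun ω => flo (h + k) (prj (Q ω ⊔ (ℝ ∙ d ω)) (D.X ω)))
      (fun ω => (flo h (prj (Q ω) (D.X ω)), D.ln h ω, D.c ω)) ≤
      Hc D.p (fun ω => flo (h + k) (prj (Q ω ⊔ (ℝ ∙ d ω)) (D.X ω)))
        (fun ω => (flo h (prj (Q ω) (D.X ω)), D.c ω)) :=
    e1.hc_mono hp (fun a b _ _ e' => by
      simp only [Prod.mk.injEq] at e' ⊢; exact ⟨e'.1, e'.2.2⟩) (Det.fst _ _ _)
  refine hU k (e * x.2) (by push_cast at hhn; linarith) le_rfl (D.win h k)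
    (fun ω => Q ω ⊔ (ℝ ∙ d ω)) (hW D Q h k hnL hE hG).1 ⟨fun a b ha hb e' => hQ' a b ha hb ?_,
      fun ω hω => ?_, ?_⟩
  · obtain ⟨e1', e2'⟩ := Prod.ext_iff.1 e'
    exact Prod.ext e1' (Prod.ext_iff.1 e2').1
  · rw [EnlX.rank_sup (H ω hω).1 (lt_of_lt_of_le (by positivity) (H ω hω).2.1), hG.2.1 ω hω]
  · refine le_trans ?_ a2
    have h0 := mul_nonneg he.le hL0
    push_cast at a1 a3 a4 a5 ⊢
    linarith

end Vale.Agent.P127
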