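import Vale.Agent.P127.Num

/-! The final count and the planiness along the kernel direction. -/

namespace Vale.Agent.P127

open Vale.Agent.P118
open scoped RealInnerProductSpace
open Real Classical Module

namespace FinX

theorem exists_dir (m : ℕ) : ∃ e : Submodule ℝ (Eu m) → Eu m, ∀ V, ‖e V‖ ≤ 1 ∧
    (finrank ℝ V ≤ 1 → ∀ x, x = prj V x + ⟪e V, x⟫ • e V) := by
  have : ∀ V : Submodule ℝ (Eu m), ∃ e : Eu m, ‖e‖ ≤ 1 ∧
      (finrank ℝ V ≤ 1 → ∀ x, x = prj V x + ⟪e, x⟫ • e) := by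
    intro V
    by_cases h : finrank ℝ V ≤ 1
    · obtain ⟨v, hv⟩ := finrank_le_one_iff.1 h
      have hV : V = ℝ ∙ (v : Eu m) := by
        refine le_antisymm (fun w hw => ?_) ((Submodule.span_singleton_le_iff_mem _ _).2 v.2)
        obtain ⟨c, hc⟩ := hv ⟨w, hw⟩
        exact Submodule.mem_span_singleton.2 ⟨c, congrArg Subtype.val hc⟩
      generalize (v : Eu m) = u at hV
      subst hV
      refine ⟨‖u‖⁻¹ • u, ?_, fun _ x => ?_⟩
      · rw [norm_smul, norm_inv, norm_norm]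
        exact inv_mul_le_one
      · rw [prj, Submodule.starProjection_singleton, inner_smul_left, smul_smul]
        simp only [RCLike.ofReal_real_eq_id, id_eq, conj_trivial]
        rw [show ‖u‖⁻¹ * ⟪u, x⟫ * ‖u‖⁻¹ = ⟪u, x⟫ / ‖u‖ ^ 2 by ring, sub_add_cancel]
    · exact ⟨0, by simp, fun h' => absurd h' h⟩
  choose e he using this
  exact ⟨e, he⟩

theorem half_pow_le {i j : ℕ} (h : i ≤ j) : (2⁻¹ : ℝ) ^ j ≤ 2⁻¹ ^ i :=
  pow_le_pow_of_le_one (by norm_num) (by norm_num) h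

theorem inner_sub_le {m : ℕ} {e : Eu m} (he : ‖e‖ ≤ 1) (x y : Eu m) :
    |⟪e, x⟫ - ⟪e, y⟫| ≤ ‖x - y‖ := by
  rw [← inner_sub_right]
  exact (abs_real_inner_le_norm _ _).trans (mul_le_of_le_one_left (norm_nonneg _) he)

theorem fin {Ω Tt Θ μ : Type} [Fintype Ω] {m L s j b : ℕ} {σ E e' : ℝ} (T : Tools) (kau : SKau)
    {D : Cf Ω Tt Θ m} {M : Ω → μ} {V : Ω → Submodule ℝ (Eu m)} (ok : D.OK L E)
    (Fl : D.Full σ L e') (hM : Det D.p D.c M) (hV : Det D.p (fun ω => (M ω, D.T ω)) V)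
    (hr : ∀ ω, D.p ω ≠ 0 → finrank ℝ (V ω) ≤ 1) (hMT : Hc D.p M D.T ≤ s * log 2 + E) (hj : j ≤ b)
    (hb : b ≤ L)
    (H : Hc D.p (fun ω => flo j (prj (V ω) (D.v ω))) (fun ω => (flo b (D.X ω), D.c ω)) ≤ E) :
    σ * j * log 2 ≤ s * log 2 + 2 * e' + 3 * E + log (j + 1) +
      (2 * log (m + 1) + 20 + 2 * (m * log (√m + 1) + CE m) + 2 * log (2 * √m + 3)) := by
  obtain ⟨e, he⟩ := exists_dir m
  have hp := ok.isP
  have hS : (0 : ℝ) ≤ √m := sqrt_nonneg _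
  have hcV : Det D.p D.c V := (hM.pair (D.det_T D.p)).trans hV
  have hv : ∀ ω ω', D.p ω ≠ 0 → D.p ω' ≠ 0 → V ω = V ω' →
      flo j (prj (V ω) (D.v ω)) = flo j (prj (V ω') (D.v ω')) →
      fl j ⟪e (V ω), D.v ω⟫ = fl j ⟪e (V ω'), D.v ω'⟫ →
      ‖D.v ω - D.v ω'‖ ≤ (√m + 1) * 2⁻¹ ^ j := by
    intro ω ω' h1 h2 k1 k2 k3
    have e1 := geo1.same_norm k2
    have e2 := fl_same k3
    have e3 : D.v ω - D.v ω' = (prj (V ω) (D.v ω) - prj (V ω') (D.v ω')) +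
        (⟪e (V ω), D.v ω⟫ - ⟪e (V ω'), D.v ω'⟫) • e (V ω) := by
      nth_rewrite 1 [(he _).2 (hr ω h1) (D.v ω), (he _).2 (hr ω' h2) (D.v ω')]
      rw [sub_smul, ← k1]
      abel
    have e4 : ‖(⟪e (V ω), D.v ω⟫ - ⟪e (V ω'), D.v ω'⟫) • e (V ω)‖ ≤ 2⁻¹ ^ j := by
      rw [norm_smul, Real.norm_eq_abs]
      exact (mul_le_of_le_one_right (abs_nonneg _) (he _).1).trans e2
    rw [e3]
    refine (norm_add_le _ _).trans ?_
    linarith
  set u₁ : Ω → ℝ := fun ω => ⟪e (V ω), D.v ω⟫ with hu₁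
  set u₂ : Ω → ℝ := fun ω => ⟪e (V ω), D.a ω⟫ with hu₂
  set Pv : Ω → Eu m := fun ω => flo j (prj (V ω) (D.v ω)) with hPv
  have K := kau D.p u₁ u₂ D.t (fun ω => ((M ω, D.T ω), Pv ω)) (fun ω => (D.c ω, Pv ω)) j 0
    (m + 1) hp (by linarith [(Nat.cast_nonneg m : (0 : ℝ) ≤ m)])
    (fun ω hω => by
      obtain ⟨_, b2, b3, b4⟩ := ok.box ω hω
      refine ⟨(abs_real_inner_le_norm _ _).trans
        ((mul_le_of_le_one_left (norm_nonneg _) (he _).1).trans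
          (b2.norm_le.trans (sqrt_le_succ m))), ?_⟩
      rw [abs_of_nonneg b3, pow_zero]
      exact b4.le)
    ((Det.fst _ _ _).trans ok.det)
    (((Det.fst _ _ _).trans (hM.pair (D.det_T D.p))).pair (Det.snd _ _ _))
  -- the second coordinate
  have a1 := e1.tri (fun ω => fl j (u₂ ω)) (fun ω => flo j (D.v ω))
    (fun ω => (fl j (u₁ ω), (M ω, D.T ω), Pv ω)) hp
  have a2 := e1.tri (fun ω => fl j (u₂ ω)) (fun ω => flo j (D.a ω))
    (fun ω => (flo j (D.v ω), fl j (u₁ ω), (M ω, D.T ω), Pv ω)) hp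
  have a3 := T.t3.nearA j D.v (fun ω => (fl j (u₁ ω), (M ω, D.T ω), Pv ω)) (√m + 1) hp
    (by linarith) fun ω ω' h1 h2 k => hv ω ω' h1 h2
      (hV ω ω' h1 h2 (Prod.ext_iff.1 (Prod.ext_iff.1 k).2).1)
      (Prod.ext_iff.1 (Prod.ext_iff.1 k).2).2 (Prod.ext_iff.1 k).1
  have a4 : Hc D.p (fun ω => flo j (D.a ω))
      (fun ω => (flo j (D.v ω), fl j (u₁ ω), (M ω, D.T ω), Pv ω)) ≤ E :=
    le_trans (e1.hc_mono (g' := fun ω => (flo j (D.v ω), D.T ω)) hp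
      (fun ω ω' _ _ k => Prod.ext (Prod.ext_iff.1 k).1
      (congrArg (fun x => x.2.2.1.2) k)) (Det.fst _ _ _)) (ok.stk j (hj.trans hb))
  have a5 := T.t3.near1 j u₂
    (fun ω => (flo j (D.a ω), flo j (D.v ω), fl j (u₁ ω), (M ω, D.T ω), Pv ω)) (√m) hp hS
    fun ω ω' h1 h2 k => by
      have k1 : V ω = V ω' := hV ω ω' h1 h2 (congrArg (fun x => x.2.2.2.1) k)
      simp only [hu₂]
      rw [← k1]
      exact (inner_sub_le (he _).1 _ _).trans (geo1.same_norm (Prod.ext_iff.1 k).1)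
  -- the time
  have b1 := Fl.tl j (hj.trans hb)
  have b2 := e1.tri (fun ω => fl j (D.t ω)) M (fun ω => (D.l ω, D.T ω)) hp
  have b3 : Hc D.p M (fun ω => (D.l ω, D.T ω)) ≤ Hc D.p M D.T :=
    e1.hc_mono hp (Det.snd _ _ _) (Det.fst _ _ _)
  have b4 : Hc D.p (fun ω => fl j (D.t ω)) (fun ω => (M ω, D.l ω, D.T ω)) ≤
      Hc D.p (fun ω => fl j (D.t ω))
        (fun ω => ((fl j (u₁ ω), fl j (u₂ ω)), (M ω, D.T ω), Pv ω)) := by
    refine e1.hc_mono hp (fun ω ω' h1 h2 k => ?_) (Det.fst _ _ _)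
    have k0 : (M ω, D.T ω) = (M ω', D.T ω') :=
      Prod.ext (Prod.ext_iff.1 k).1 (congrArg (fun x => x.2.2) k)
    have k1 : V ω = V ω' := hV ω ω' h1 h2 k0
    have k2 : D.a ω = D.a ω' := congrArg (fun x => x.2.1.1) k
    have k3 : D.v ω = D.v ω' := congrArg (fun x => x.2.1.2) k
    simp only [hu₁, hu₂, hPv]
    rw [k0, k1, k2, k3]
  -- the direction
  have c1 := Fl.dl j b hj hb
  have c2 := e1.tri (fun ω => flo j (D.v ω)) Pv (fun ω => (flo b (D.X ω), D.c ω)) hp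
  have c3 := e1.tri (fun ω => flo j (D.v ω)) (fun ω => fl j (u₂ ω + D.t ω * u₁ ω))
    (fun ω => (Pv ω, flo b (D.X ω), D.c ω)) hp
  have c4 := e1.tri (fun ω => flo j (D.v ω)) (fun ω => fl j (u₁ ω))
    (fun ω => (fl j (u₂ ω + D.t ω * u₁ ω), Pv ω, flo b (D.X ω), D.c ω)) hp
  have c5 := T.t3.near1 j (fun ω => u₂ ω + D.t ω * u₁ ω)
    (fun ω => (Pv ω, flo b (D.X ω), D.c ω)) (√m) hp hS fun ω ω' h1 h2 k => by
      have k1 : V ω = V ω' := hcV ω ω' h1 h2 (congrArg (fun x => x.2.2) k)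
      have k2 : ∀ ω, u₂ ω + D.t ω * u₁ ω = ⟪e (V ω), D.X ω⟫ := fun ω => by
        simp only [hu₁, hu₂, Cf.X, inner_add_right, inner_smul_right]
      rw [k2, k2, ← k1]
      refine (inner_sub_le (he _).1 _ _).trans
        ((geo1.same_norm (congrArg (fun x => x.2.1) k)).trans ?_)
      exact mul_le_mul_of_nonneg_left (half_pow_le hj) hS
  have c6 : Hc D.p (fun ω => fl j (u₁ ω))
      (fun ω => (fl j (u₂ ω + D.t ω * u₁ ω), Pv ω, flo b (D.X ω), D.c ω)) ≤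
      Hc D.p (fun ω => fl j (u₁ ω))
        (fun ω => (fl j (u₂ ω + D.t ω * u₁ ω), D.c ω, Pv ω)) :=
    e1.hc_mono hp (fun ω ω' _ _ k => Prod.ext (Prod.ext_iff.1 k).1
      (Prod.ext (congrArg (fun x => x.2.2.2) k) (congrArg (fun x => x.2.1) k))) (Det.fst _ _ _)
  have c7 := T.t3.nearA j D.v
    (fun ω => (fl j (u₁ ω), fl j (u₂ ω + D.t ω * u₁ ω), Pv ω, flo b (D.X ω), D.c ω)) (√m + 1) hp
    (by linarith) fun ω ω' h1 h2 k => hv ω ω' h1 h2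
      (hcV ω ω' h1 h2 (congrArg (fun x => x.2.2.2.2) k))
      (congrArg (fun x => x.2.2.1) k) (Prod.ext_iff.1 k).1
  simp only [Nat.cast_zero, zero_mul, add_zero] at K
  linarith

theorem plu_geo {ch : Chart 3 1 2 2} (h1 : P1 ch) {F α : Eu 2} {d : Eu 3} {j b b₁ : ℕ}
    (hF : ‖F‖ ≤ 2) (hα : 2⁻¹ ^ b₁ < ‖α‖) (hj : j + b₁ ≤ b) (hd : ‖d‖ ≤ √3)
    (k1 : ‖ch.pi F d‖ ≤ 2⁻¹ ^ b) (k2 : ‖ch.app α (ch.Pw d)‖ ≤ 2⁻¹ ^ b) :
    ‖prj (ℝ ∙ flo j (uu ch F α)) d‖ ≤ 7 * 2⁻¹ ^ j := by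
  have hα0 : 0 < ‖α‖ := lt_trans (by positivity) hα
  have hα1 : α ≠ 0 := norm_pos_iff.1 hα0
  rw [norm_one, h1] at k2
  set dm := ⟪ch.Pw d, nn α⟫ with hdm
  have e1 : ch.pi F (d - dm • uu ch F α) = ch.pi F d := by
    rw [ch.pi_sub, ch.pi_smul, uu, ch.pi_sub, ch.pi_iw, ch.pi_iy, sub_self, smul_zero, sub_zero]
  have e2 : ch.Pw (d - dm • uu ch F α) = (⟪α, ch.Pw d⟫ / ‖α‖ ^ 2) • α := by
    rw [map_sub, map_smul, uu, map_sub, ch.Pw_iw, ch.Pw_iy, sub_zero, sub_eq_iff_eq_add]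
    exact nn_dec hα1 _
  have e3 : ‖ch.Pw (d - dm • uu ch F α)‖ ≤ 2⁻¹ ^ j := by
    rw [e2, norm_smul, Real.norm_eq_abs, abs_div, abs_of_pos (by positivity : 0 < ‖α‖ ^ 2),
      show |⟪α, ch.Pw d⟫| / ‖α‖ ^ 2 * ‖α‖ = |⟪α, ch.Pw d⟫| / ‖α‖ by field_simp,
      div_le_iff₀ hα0]
    calc _ ≤ (2⁻¹ : ℝ) ^ (j + b₁) := k2.trans (half_pow_le hj)
      _ = 2⁻¹ ^ j * 2⁻¹ ^ b₁ := pow_add _ _ _
      _ ≤ _ := mul_le_mul_of_nonneg_left hα.le (by positivity)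
  have e4 := ch.norm_le hF (d - dm • uu ch F α)
  rw [e1] at e4
  have e5 : (2⁻¹ : ℝ) ^ b ≤ 2⁻¹ ^ j := half_pow_le (by omega)
  have e6 : ‖prj (ℝ ∙ flo j (uu ch F α)) (uu ch F α)‖ ≤ √3 * 2⁻¹ ^ j :=
    (la.prj_le _ _ _ (Submodule.mem_span_singleton_self _)).trans
      (by exact_mod_cast geo1.norm_sub_flo j (uu ch F α))
  have e7 : |dm| ≤ √3 :=
    (abs_real_inner_le_norm _ _).trans
      ((mul_le_of_le_one_right (norm_nonneg _) (norm_nn_le α)).trans ((ch.Pw_le d).trans hd))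
  have e8 : ‖dm • prj (ℝ ∙ flo j (uu ch F α)) (uu ch F α)‖ ≤ 3 * 2⁻¹ ^ j := by
    rw [norm_smul, Real.norm_eq_abs]
    calc _ ≤ √3 * (√3 * 2⁻¹ ^ j) := mul_le_mul e7 e6 (norm_nonneg _) (sqrt_nonneg _)
      _ = _ := by rw [← mul_assoc, mul_self_sqrt (by norm_num)]
  have e9 : prj (ℝ ∙ flo j (uu ch F α)) d = prj (ℝ ∙ flo j (uu ch F α)) (d - dm • uu ch F α) +
      dm • prj (ℝ ∙ flo j (uu ch F α)) (uu ch F α) := by
    rw [← la.prj_smul, ← la.prj_add, sub_add_cancel]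
  rw [e9]
  refine (norm_add_le _ _).trans ?_
  linarith [la.prj_norm (ℝ ∙ flo j (uu ch F α)) (d - dm • uu ch F α)]

theorem plu {Ω Tt Θ : Type} [Fintype Ω] {L b b₁ j : ℕ} {σ E e' κ : ℝ} (T : Tools)
    {ch : Chart 3 1 2 2} (h1 : P1 ch) {D : Cf Ω Tt Θ 3} {Q : Ω → Submodule ℝ (Eu 3)}
    {F α : Ω → Eu 2} (P : D.PC ch σ Q F L E) (C : D.FullC ch σ Q F L e')
    (A : D.Com ch F α L b κ E) (hb₁ : κ * L ≤ b₁) (hj : j + b₁ ≤ b) (hb : 2 * b ≤ L) :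
    Hc D.p (fun ω => flo j (prj (ℝ ∙ flo j (uu ch (F ω) (α ω))) (D.v ω)))
      (fun ω => (flo b (D.X ω), D.c ω)) ≤ e' + 4 * E + (4 * log 2 + 3 * log 7 + 2 * CE 3) := by
  have hp := P.ok.isP
  have s3 : √3 ≤ (2 : ℝ) := by rw [sqrt_le_left (by norm_num)]; norm_num
  have a1 := e1.tri (fun ω => flo j (prj (ℝ ∙ flo j (uu ch (F ω) (α ω))) (D.v ω)))
    (fun ω => flo b (D.z ch F ω)) (fun ω => (flo b (D.X ω), D.c ω)) hp
  have a2 := e1.tri (fun ω => flo j (prj (ℝ ∙ flo j (uu ch (F ω) (α ω))) (D.v ω)))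
    (fun ω => flo b (ch.app (α ω) (ch.Pw (D.v ω))))
    (fun ω => (flo b (D.z ch F ω), flo b (D.X ω), D.c ω)) hp
  have a3 := C.zx b hb
  have a4 : Hc D.p (fun ω => flo b (ch.app (α ω) (ch.Pw (D.v ω))))
      (fun ω => (flo b (D.z ch F ω), flo b (D.X ω), D.c ω)) ≤ E :=
    le_trans (e1.hc_mono hp (Det.snd _ _ _) (Det.fst _ _ _)) A.so
  have a5 := T.t3.nearE j (fun ω => prj (ℝ ∙ flo j (uu ch (F ω) (α ω))) (D.v ω))
    (fun ω => (flo b (ch.app (α ω) (ch.Pw (D.v ω))), flo b (D.z ch F ω), flo b (D.X ω), D.c ω))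
    (fun ω => 2⁻¹ ^ b₁ < ‖α ω‖) 7 2 hp (by norm_num) (by norm_num)
    (fun ω hω => (la.prj_norm _ _).trans
      (le_trans (by exact_mod_cast (P.ok.box ω hω).2.1.norm_le) s3))
    (fun ω ω' j1 j2 ev _ k => by
      have k0 : D.c ω = D.c ω' := congrArg (fun x => x.2.2.2) k
      have kF := P.det ω ω' j1 j2 k0
      have kα := A.det ω ω' j1 j2 k0
      have k1 := geo1.same_norm (congrArg (fun x => x.2.1) k)
      have k2 := geo1.same_norm (Prod.ext_iff.1 k).1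
      simp only [Cf.z] at k1
      rw [← kF, ← ch.pi_sub] at k1
      rw [← kα, ← map_sub, ← map_sub] at k2
      rw [← kF, ← kα, ← la.prj_sub]
      exact plu_geo h1 (P.rep ω j1).1 ev hj
        (by exact_mod_cast (P.ok.box ω j1).2.1.norm_sub_le (P.ok.box ω' j2).2.1)
        (by simpa using k1) (by simpa using k2))
  have a6 := A.mac b₁ hb₁ (by omega)
  have a7 : Pr D.p (fun ω => ¬2⁻¹ ^ b₁ < ‖α ω‖) ≤ Pr D.p (fun ω => ‖α ω‖ ≤ 2⁻¹ ^ b₁) :=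
    e1.pr_mono hp fun ω _ h => not_lt.1 h
  have a8 := e1.pr_le_one (fun ω => ¬2⁻¹ ^ b₁ < ‖α ω‖) hp
  have a9 := e1.pr_nonneg (fun ω => ¬2⁻¹ ^ b₁ < ‖α ω‖) hp
  have hL : (j : ℝ) * log 2 ≤ L :=
    (mul_le_of_le_one_right (Nat.cast_nonneg j) log_two_le_one).trans
      (by exact_mod_cast (by omega : j ≤ L))
  have b1 := mul_le_mul_of_nonneg_left hL a9
  have b2 := mul_le_mul_of_nonneg_right a7 (Nat.cast_nonneg L : (0 : ℝ) ≤ L)
  have b3 := mul_le_mul_of_nonneg_right a8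
    (add_nonneg (mul_nonneg (by norm_num : (0 : ℝ) ≤ 3) log_two_pos.le) (CE_nonneg 3))
  push_cast at a5
  nlinarith

end FinX

open FinX in
theorem sFin (T : Tools) (B : Base) (kau : SKau) : SFin := by
  intro m σ ctx ζ hζ
  filter_upwards [B.full m σ ctx (ζ / 6) (by positivity), ef_log (show 0 < ζ / 3 by positivity),
    ef_lin (A := 3) (by norm_num)
      (2 * log (m + 1) + 20 + 2 * (m * log (√m + 1) + CE m) + 2 * log (2 * √m + 3))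
      (show 0 < ζ / 3 by positivity)] with x hF k1 k2
  intro Ω Tt Θ μ _ D M V s j b hE hM hV hr hMT hj hb H
  have h := fin T kau hE.1 (hF D hE) hM hV hr hMT hj hb H
  have k3 : log (j + 1) ≤ log (x.2 + 1) :=
    log_le_log (by positivity) (by exact_mod_cast Nat.succ_le_succ (hj.trans hb))
  linarith

open FinX in
theorem sPlu (T : Tools) (B : Base) : SPlu := by
  intro σ ctx ch h1 κ ζ _ hζ
  filter_upwards [B.fullC 3 σ ctx ch (ζ / 2) (by positivity),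
    ef_lin (A := 4) (by norm_num) (4 * log 2 + 3 * log 7 + 2 * CE 3) (half_pos hζ)] with x hF k1
  intro Ω Tt Θ _ D Q F α b b₁ j P A hb₁ hj hb
  have h := plu T h1 P (hF D Q F P) A hb₁ hj hb
  linarith

end Vale.Agent.P127
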