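import Vale.Agent.P127.Num

/-! Windows of admissible models, entropies of extremal models at all levels. -/

namespace Vale.Agent.P127

open Vale.Agent.P118
open scoped RealInnerProductSpace
open Real Classical Module

namespace FullX

variable {Ω Tt Θ : Type} [Fintype Ω] {m L i n : ℕ} {D : Cf Ω Tt Θ m} {σ E : ℝ}

theorem scale (i n : ℕ) : (2 : ℝ) ^ i * 2⁻¹ ^ (i + n) = 2⁻¹ ^ n := by
  rw [pow_add, ← mul_assoc, ← mul_pow]; norm_num

theorem big (m n : ℕ) : √m * 2⁻¹ ^ n ≤ ((m : ℝ) + 1) * 2⁻¹ ^ n :=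
  mul_le_mul_of_nonneg_right (sqrt_le_succ m) (by positivity)

theorem nsm (i : ℕ) (x : Eu m) : ‖(2 : ℝ) ^ i • x‖ = 2 ^ i * ‖x‖ := by
  rw [norm_smul, Real.norm_eq_abs, abs_of_pos (by positivity)]

/-- transfer between two variables which differ by a dilation -/
theorem tr {β : Type} {p : Ω → ℝ} (hp : IsP p) (A B : Ω → Eu m) (G : Ω → β)
    (h : ∀ ω ω', p ω ≠ 0 → p ω' ≠ 0 → G ω = G ω' →
      ‖A ω - A ω' - (2 : ℝ) ^ i • (B ω - B ω')‖ ≤ 4 * (√m * 2⁻¹ ^ n)) :
    (Det p G (fun ω => flo (i + n) (B ω)) → Hc p (fun ω => flo n (A ω)) G ≤ CE m / 10) ∧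
    (Det p G (fun ω => flo n (A ω)) → Hc p (fun ω => flo (i + n) (B ω)) G ≤ CE m / 10) := by
  have h2 : (0 : ℝ) < 2 ^ i := by positivity
  constructor
  · intro hd
    have := ev.near n A G 1 hp le_rfl fun ω ω' a b e => by
      have b1 := mul_le_mul_of_nonneg_left (geo1.same_norm (hd _ _ a b e)) h2.le
      have b2 := norm_le_norm_add_norm_sub' (A ω - A ω') ((2 : ℝ) ^ i • (B ω - B ω'))
      rw [nsm] at b2
      rw [mul_left_comm, scale] at b1
      linarith [h ω ω' a b e, big m n]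
    simpa using this
  · intro hd
    have := ev.near (i + n) B G 1 hp le_rfl fun ω ω' a b e => by
      have b1 := geo1.same_norm (hd _ _ a b e)
      have b2 := norm_le_norm_add_norm_sub (A ω - A ω') ((2 : ℝ) ^ i • (B ω - B ω'))
      rw [nsm] at b2
      refine le_of_mul_le_mul_left ?_ h2
      rw [mul_left_comm, scale]
      linarith [h ω ω' a b e, big m n]
    simpa using this

theorem wx (h : D.OK L E) (i n : ℕ) {ω : Ω} (hω : D.p ω ≠ 0) : ‖(D.win i n).X ω -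
    (2 : ℝ) ^ i • (D.X ω - (flo i (D.a ω) + D.t ω • flo i (D.v ω)))‖ ≤ 2 * (√m * 2⁻¹ ^ n) := by
  obtain ⟨-, -, a, b⟩ := h.box ω hω
  have e : (D.win i n).X ω - (2 : ℝ) ^ i • (D.X ω - (flo i (D.a ω) + D.t ω • flo i (D.v ω))) =
      (zm i n (D.a ω) - (2 : ℝ) ^ i • (D.a ω - flo i (D.a ω))) +
        D.t ω • (zm i n (D.v ω) - (2 : ℝ) ^ i • (D.v ω - flo i (D.v ω))) := by
    simp only [Cf.X, Cf.win]
    module
  have b1 : ‖D.t ω • (zm i n (D.v ω) - (2 : ℝ) ^ i • (D.v ω - flo i (D.v ω)))‖ ≤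
      1 * (√m * 2⁻¹ ^ n) := by
    rw [norm_smul, Real.norm_eq_abs, abs_of_nonneg a]
    exact mul_le_mul b.le (zm_near _ _ _) (norm_nonneg _) zero_le_one
  rw [e]
  linarith [norm_add_le (zm i n (D.a ω) - (2 : ℝ) ^ i • (D.a ω - flo i (D.a ω)))
    (D.t ω • (zm i n (D.v ω) - (2 : ℝ) ^ i • (D.v ω - flo i (D.v ω)))), zm_near i n (D.a ω)]

theorem wxx (h : D.OK L E) (i n : ℕ) {ω ω' : Ω} (a : D.p ω ≠ 0) (b : D.p ω' ≠ 0)
    (e : (D.ln i ω, D.c ω) = (D.ln i ω', D.c ω')) :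
    ‖(D.win i n).X ω - (D.win i n).X ω' - (2 : ℝ) ^ i • (D.X ω - D.X ω')‖ ≤
      4 * (√m * 2⁻¹ ^ n) := by
  have e1 : flo i (D.a ω) = flo i (D.a ω') := congrArg (·.1.1) e
  have e2 : flo i (D.v ω) = flo i (D.v ω') := congrArg (·.1.2) e
  have e3 := h.det _ _ a b (congrArg (·.2) e)
  have b1 := wx h i n a
  have b2 := wx h i n b
  rw [← e1, ← e2, ← e3] at b2
  generalize flo i (D.a ω) + D.t ω • flo i (D.v ω) = u at b1 b2
  have e4 : (D.win i n).X ω - (D.win i n).X ω' - (2 : ℝ) ^ i • (D.X ω - D.X ω') =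
      ((D.win i n).X ω - (2 : ℝ) ^ i • (D.X ω - u)) -
        ((D.win i n).X ω' - (2 : ℝ) ^ i • (D.X ω' - u)) := by module
  rw [e4]
  linarith [norm_sub_le ((D.win i n).X ω - (2 : ℝ) ^ i • (D.X ω - u))
    ((D.win i n).X ω' - (2 : ℝ) ^ i • (D.X ω' - u))]

omit [Fintype Ω] in
theorem dc (D : Cf Ω Tt Θ m) (i n : ℕ) : Det D.p (fun ω => (D.ln i ω, D.c ω)) (D.win i n).c :=
  Det.comp _ (fun ω => (D.ln i ω, D.c ω)) fun u => (u.2.1, u.2.2, u.1)

omit [Fintype Ω] in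
theorem dc' (D : Cf Ω Tt Θ m) (i n : ℕ) : Det D.p (D.win i n).c fun ω => (D.ln i ω, D.c ω) :=
  Det.comp _ (D.win i n).c fun u => (u.2.2, u.1, u.2.1)

theorem ok (bas : SBas) (h : D.OK L E) (hn : i + n ≤ L) : (D.win i n).OK n (3 * E) := by
  obtain ⟨b1, b2, -, b4, -⟩ := bas D L E h
  have hp := h.isP
  have h0 := h.nonneg
  refine ⟨hp, fun ω a => ⟨zm_box _ _ _, zm_box _ _ _, (h.box ω a).2.2⟩,
    fun ω _ => ⟨zm_lat _ _ _, zm_lat _ _ _⟩,
    ((dc' D i n).trans (Det.snd _ _ _)).trans h.det, ?_, ?_, fun k hk => ?_⟩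
  · have h1 := b2 (i + n) hn
    have h2 := e1.tri (fun ω => flo (i + n) (D.v ω)) (D.ln i) D.c hp
    have h3 : Hc D.p (D.ln i) D.c ≤ Hc D.p (D.ln i) D.T :=
      e1.hc_mono hp (D.det_T _) (Det.fst _ _ _)
    have h4 : Hc D.p (fun ω => flo (i + n) (D.v ω)) (fun ω => (D.ln i ω, D.c ω)) ≤
        Hc (D.win i n).p (D.win i n).v (D.win i n).c :=
      e1.hc_mono hp (dc D i n) fun ω ω' _ _ e => by
        have e1 : zm i n (D.v ω) = zm i n (D.v ω') := congrArg (·.1) e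
        have e2 : flo i (D.v ω) = flo i (D.v ω') := congrArg (·.2.1.2) e
        rw [zm_det, zm_det, e1, e2]
    have h5 := b1 i (by omega)
    push_cast at h1
    linarith
  · refine (b4 n (by omega)).trans (e1.hc_mono hp ?_ (Det.fst _ _ _))
    exact Det.comp _ (fun ω => (D.l ω, D.T ω)) fun u => (u.2, flo i u.1.1, flo i u.1.2)
  · refine le_trans (e1.hc_mono hp (fun ω ω' _ _ e => ?_) fun ω ω' _ _ e => ?_)
      ((h.stk (i + k) (by omega)).trans (by linarith))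
    · have e1 : flo k (zm i n (D.v ω)) = flo k (zm i n (D.v ω')) := congrArg (·.1) e
      have e2 : flo i (D.v ω) = flo i (D.v ω') := congrArg (·.2.2.2) e
      have e3 : D.T ω = D.T ω' := congrArg (·.2.1) e
      rw [zm_flo i hk, zm_flo i hk] at e1
      rw [zm_det, zm_det, e1, e2, e3]
    · have e1 : flo (i + k) (D.a ω) = flo (i + k) (D.a ω') := congrArg (·.1) e
      show flo k (zm i n (D.a ω)) = flo k (zm i n (D.a ω'))
      rw [zm_flo i hk, zm_flo i hk, zm, zm, e1, flo_of_flo (Nat.le_add_right i k) e1]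

theorem two (h : D.OK L E) (i n : ℕ) :
    |Hc D.p (fun ω => flo n ((D.win i n).X ω)) (D.win i n).c -
      Hc D.p (fun ω => flo (i + n) (D.X ω)) fun ω => (D.ln i ω, D.c ω)| ≤ CE m := by
  have hp := h.isP
  have e : Hc D.p (fun ω => flo n ((D.win i n).X ω)) (D.win i n).c =
      Hc D.p (fun ω => flo n ((D.win i n).X ω)) fun ω => (D.ln i ω, D.c ω) :=
    e1.hc_congr hp (dc' D i n) (dc D i n) (Det.fst _ _ _) (Det.fst _ _ _)
  have h1 := e1.tri (fun ω => flo n ((D.win i n).X ω)) (fun ω => flo (i + n) (D.X ω))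
    (fun ω => (D.ln i ω, D.c ω)) hp
  have h2 := e1.tri (fun ω => flo (i + n) (D.X ω)) (fun ω => flo n ((D.win i n).X ω))
    (fun ω => (D.ln i ω, D.c ω)) hp
  have h3 := (tr hp (D.win i n).X D.X (fun ω => (flo (i + n) (D.X ω), D.ln i ω, D.c ω))
    fun _ _ a b e => wxx h i n a b (congrArg (·.2) e)).1 (Det.fst _ _ _)
  have h4 := (tr hp (D.win i n).X D.X (fun ω => (flo n ((D.win i n).X ω), D.ln i ω, D.c ω))
    fun _ _ a b e => wxx h i n a b (congrArg (·.2) e)).2 (Det.fst _ _ _)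
  have := CE_nonneg m
  rw [e, abs_le]
  constructor <;> linarith

theorem three (h : D.OK L E) (i n : ℕ) (R : Ω → Submodule ℝ (Eu m)) (hR : Det D.p D.c R) :
    Hc D.p (fun ω => flo (i + n) (D.X ω))
        (fun ω => (flo (i + n) (prj (R ω) (D.X ω)), D.ln i ω, D.c ω)) - 2 * CE m ≤
      Hc D.p (fun ω => flo n ((D.win i n).X ω))
        fun ω => (flo n (prj (R ω) ((D.win i n).X ω)), (D.win i n).c ω) := by
  have hp := h.isP
  have h1 := e1.tri (fun ω => flo (i + n) (D.X ω)) (fun ω => flo n (prj (R ω) ((D.win i n).X ω)))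
    (fun ω => (flo (i + n) (prj (R ω) (D.X ω)), D.ln i ω, D.c ω)) hp
  have h2 := (tr hp (fun ω => prj (R ω) ((D.win i n).X ω)) (fun ω => prj (R ω) (D.X ω))
    (fun ω => (flo (i + n) (prj (R ω) (D.X ω)), D.ln i ω, D.c ω)) fun ω ω' a b e => by
      rw [← hR _ _ a b (congrArg (·.2.2) e), ← la.prj_sub, ← la.prj_sub, ← la.prj_smul,
        ← la.prj_sub]
      exact (la.prj_norm _ _).trans (wxx h i n a b (congrArg (·.2) e))).1 (Det.fst _ _ _)
  have h3 := e1.tri (fun ω => flo (i + n) (D.X ω)) (fun ω => flo n ((D.win i n).X ω))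
    (fun ω => (flo n (prj (R ω) ((D.win i n).X ω)), flo (i + n) (prj (R ω) (D.X ω)), D.ln i ω,
      D.c ω)) hp
  have h4 := (tr hp (D.win i n).X D.X (fun ω => (flo n ((D.win i n).X ω),
    flo n (prj (R ω) ((D.win i n).X ω)), flo (i + n) (prj (R ω) (D.X ω)), D.ln i ω, D.c ω))
    fun _ _ a b e => wxx h i n a b (congrArg (·.2.2.2) e)).2 (Det.fst _ _ _)
  have h5 : Hc D.p (fun ω => flo n ((D.win i n).X ω))
      (fun ω => (flo n (prj (R ω) ((D.win i n).X ω)), flo (i + n) (prj (R ω) (D.X ω)), D.ln i ω,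
        D.c ω)) ≤ Hc D.p (fun ω => flo n ((D.win i n).X ω))
        fun ω => (flo n (prj (R ω) ((D.win i n).X ω)), (D.win i n).c ω) :=
    e1.hc_mono hp (fun ω ω' a b e => Prod.ext (congrArg (·.1) e)
      (dc D i n ω ω' a b (congrArg (·.2.2) e))) (Det.fst _ _ _)
  have := CE_nonneg m
  linarith

theorem full (bas : SBas) {E₁ : ℝ} (h : D.Ext σ L E) (h1 : E ≤ E₁) (h2 : CE m ≤ E₁)
    (xl : ∀ i j, i ≤ j → j ≤ L → (m - σ) * ((j : ℝ) - i) * log 2 - E₁ ≤
      Hc D.p (fun ω => flo j (D.X ω)) fun ω => (D.ln i ω, D.c ω)) : D.Full σ L (5 * E₁) := by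
  obtain ⟨b1, b2, b3, b4, b5, -⟩ := bas D L E h.1
  have hp := h.1.isP
  have h0 := h.1.nonneg
  have xu : ∀ i ≤ L, Hc D.p (fun ω => flo i (D.X ω)) D.c ≤ (m - σ) * i * log 2 + 3 * E₁ :=
    fun i hi => by
      have := e1.dp (f := fun ω => flo L (D.X ω)) (f' := fun ω => flo i (D.X ω))
        (g := fun ω => (D.ln i ω, D.c ω)) (k := D.c) hp
        (fun _ _ _ _ e => flo_of_flo hi (congrArg (·.1) e)) (Det.snd _ _ _)
      linarith [h.2, xl i L hi le_rfl, b5 i]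
  have x0 : ∀ i ≤ L, (m - σ) * i * log 2 - E₁ ≤ Hc D.p (fun ω => flo i (D.X ω)) D.c :=
    fun i hi => by
      have := xl 0 i (Nat.zero_le _) hi
      rw [Nat.cast_zero, sub_zero] at this
      exact this.trans (e1.hc_mono hp (Det.snd _ _ _) (Det.fst _ _ _))
  refine ⟨h.1.mono (by linarith), fun i hi => by linarith [xu i hi],
    fun i hi => by linarith [x0 i hi], fun i j a b => by linarith [xl i j a b],
    fun i _ => by linarith [b5 i], fun i hi => by linarith [b1 i hi],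
    fun i hi => by linarith [b2 i hi], by linarith, fun i hi => by linarith [b4 i hi],
    fun i j a b => ?_, fun i hi => ?_⟩
  · have c1 := e1.symm (fun ω => flo i (D.v ω)) (fun ω => flo j (D.X ω)) D.c hp
    have c2 : Hc D.p (fun ω => flo j (D.X ω)) (fun ω => (D.ln i ω, D.c ω)) ≤
        Hc D.p (fun ω => flo j (D.X ω)) fun ω => (flo i (D.v ω), D.c ω) :=
      e1.hc_mono hp (Det.comp _ (fun ω => (D.ln i ω, D.c ω)) fun u => (u.1.2, u.2)) (Det.fst _ _ _)
    linarith [xu j b, xl i j a b, b2 i (a.trans b)]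
  · have c1 := e1.symm (D.ln i) (fun ω => flo i (D.X ω)) D.c hp
    have c2 : Hc D.p (D.ln i) D.c ≤ Hc D.p (D.ln i) D.T :=
      e1.hc_mono hp (D.det_T _) (Det.fst _ _ _)
    linarith [x0 i hi, b5 i, b1 i hi]

end FullX

open FullX in
theorem sWin0 (T : Tools) (bas : SBas) : SWin0 := by
  have _ := T
  intro Ω Tt Θ _ m D L i n E h hn
  exact ⟨ok bas h hn, two h i n, three h i n, fun ω a => by linarith [wx h i n a, big m n]⟩

open FullX in
theorem sFull (T : Tools) (bas : SBas) : SFull := by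
  have _ := T
  intro m σ hσ ζ hζ
  obtain ⟨e, he, h1⟩ := ef_use (hσ.lb (ζ / 10) (by positivity))
    (show 0 < ζ / 5 / (m + 1) by positivity)
  filter_upwards [h1, ef_lin (show (0 : ℝ) ≤ 3 by norm_num) 0 he,
    ef_small (show 0 < ζ / 5 by positivity), ef_const (CE m) (show 0 < ζ / 10 by positivity)]
    with x h1 h2 h3 h4
  intro Ω Tt Θ _ D h
  have n0 : (0 : ℝ) ≤ x.2 := by positivity
  have n1 : 0 ≤ ζ * x.2 := by positivity
  have l0 := log_two_pos
  have l1 := log_two_le_one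
  rw [show ζ * x.2 = 5 * (ζ / 5 * x.2) by ring]
  refine full bas h h3 (by linarith) fun i j a b => ?_
  obtain ⟨n, rfl⟩ := Nat.exists_eq_add_of_le a
  rw [Nat.cast_add, add_sub_cancel_left]
  have n2 : (0 : ℝ) ≤ n := by positivity
  have n3 : n * log 2 ≤ n := mul_le_of_le_one_right n2 l1
  by_cases hn : ζ / 5 / (m + 1) * x.2 ≤ n
  · have c1 := h1 n (3 * x.1) hn (by linarith) (D.win i n) (ok bas h.1 b)
    have c2 := (abs_le.1 (two h.1 i n)).2
    have c3 : (n : ℝ) ≤ x.2 := by exact_mod_cast (show n ≤ x.2 by omega)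
    have c4 := mul_le_mul_of_nonneg_left (n3.trans c3) (show 0 ≤ ζ / 10 by positivity)
    have c5 : Hc (D.win i n).p (fun ω => flo n ((D.win i n).X ω)) (D.win i n).c =
      Hc D.p (fun ω => flo n ((D.win i n).X ω)) (D.win i n).c := rfl
    linarith
  · have c1 := e1.hc_nonneg (fun ω => flo (i + n) (D.X ω)) (fun ω => (D.ln i ω, D.c ω)) h.1.isP
    have c2 : ((m : ℝ) + 1) * n ≤ ζ / 5 * x.2 := by
      have := mul_le_mul_of_nonneg_left (not_le.1 hn).le (show (0 : ℝ) ≤ m + 1 by positivity)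
      rwa [← mul_assoc, mul_div_cancel₀ _ (by positivity)] at this
    have c3 := mul_le_mul (show (m : ℝ) - σ ≤ m + 1 by linarith [hσ.pos]) n3 (by positivity)
      (by positivity)
    linarith

end Vale.Agent.P127
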