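import Vale.Agent.P127.Num

namespace Vale.Agent.P127

open Vale.Agent.P118
open scoped RealInnerProductSpace
open Real Classical Module

namespace FullCX

/-- the constant -/
noncomputable def KK (m : ℕ) : ℝ := 2 * m * log (4 * (m + 1)) + CE m

theorem one_le_a (m : ℕ) : (1 : ℝ) ≤ 4 * (m + 1) := by
  have : (0 : ℝ) ≤ m := by positivity
  linarith

theorem KK_nonneg (m : ℕ) : 0 ≤ KK m := by
  have := log_nonneg (one_le_a m)
  have := CE_nonneg m
  unfold KK
  positivity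

theorem same {n m i : ℕ} (h : n ≤ m) {x y : Eu n} (e : flo i x = flo i y) :
    ‖x - y‖ ≤ (m + 1) * 2⁻¹ ^ i := by
  have h1 : (n : ℝ) ≤ m := by exact_mod_cast h
  refine (geo1.same_norm e).trans (mul_le_mul_of_nonneg_right ?_ (by positivity))
  linarith [sqrt_le_succ n]

variable {Ω Tt Θ γ : Type} [Fintype Ω] {m p q r L : ℕ}

theorem near (T : Tools) {n : ℕ} {P : Ω → ℝ} (h : n ≤ m) (i : ℕ) (Y : Ω → Eu n) (G : Ω → γ)
    (hp : IsP P) (hY : ∀ ω ω', P ω ≠ 0 → P ω' ≠ 0 → G ω = G ω' →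
      ‖Y ω - Y ω'‖ ≤ 4 * ((m + 1) * 2⁻¹ ^ i)) : Hc P (fun ω => flo i (Y ω)) G ≤ KK m := by
  have h1 := T.t3.nearA i Y G (4 * (m + 1)) hp (one_le_a m) fun ω ω' a b c => by
    rw [mul_assoc]; exact hY ω ω' a b c
  have h2 : (n : ℝ) ≤ m := by exact_mod_cast h
  have h3 := log_nonneg (one_le_a m)
  have h4 := CE_mono h
  have h5 : (0 : ℝ) ≤ m := by positivity
  unfold KK
  nlinarith

variable {D : Cf Ω Tt Θ m} {σ E E' : ℝ} {Q : Ω → Submodule ℝ (Eu m)} {ch : Chart m p q r}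
  {F : Ω → Eu r}

theorem full_mono (h : D.Full σ L E) (hE : E ≤ E') : D.Full σ L E' :=
  ⟨h.ok.mono hE, fun i hi => by linarith [h.xu i hi], fun i hi => by linarith [h.x0 i hi],
    fun i j a b => by linarith [h.xl i j a b], fun i hi => by linarith [h.xn i hi],
    fun i hi => by linarith [h.lu i hi], fun i hi => by linarith [h.vl i hi],
    by linarith [h.inf], fun i hi => by linarith [h.tl i hi],
    fun i j a b => by linarith [h.dl i j a b], fun i hi => by linarith [h.du i hi]⟩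

theorem fullG_mono (h : D.FullG σ Q q L E) (hE : E ≤ E') : D.FullG σ Q q L E' :=
  ⟨full_mono h.full hE, h.gr.mono hE, fun i hi => by linarith [h.yu i hi],
    fun i hi => by linarith [h.y0 i hi], fun i j a b => by linarith [h.yw i j a b],
    fun i j a b => by linarith [h.yl i j a b], fun i j a b => by linarith [h.ylu i j a b]⟩

theorem p_le (ch : Chart m p q r) : p ≤ m := by have := ch.dim; omega

theorem q_le (ch : Chart m p q r) : q ≤ m := by have := ch.dim; omega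

theorem nearY (T : Tools) (h : D.PC ch σ Q F L E) (i : ℕ) (U : Ω → Eu m) {G : Ω → γ}
    (hc : Det D.p G D.c) (hU : Det D.p G fun ω => flo i (prj (Q ω) (U ω))) :
    Hc D.p (fun ω => flo i (ch.pi (F ω) (U ω))) G ≤ KK m := by
  refine near T (p_le ch) i _ G h.ok.isP fun ω ω' a b c => ?_
  have e1 := hU ω ω' a b c
  have e2 := h.gr.1 ω ω' a b (hc ω ω' a b c)
  have e3 := h.det ω ω' a b (hc ω ω' a b c)
  dsimp only at e1
  rw [← e2] at e1
  have e4 := same le_rfl e1
  have e5 := (h.rep ω a).2.pi_le (h.rep ω a).1 (U ω - U ω')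
  rw [la.prj_sub, ch.pi_sub] at e5
  have e6 : (0 : ℝ) ≤ (m + 1) * 2⁻¹ ^ i := by positivity
  rw [← e3]
  linarith

theorem prj_le (h : D.PC ch σ Q F L E) {i : ℕ} {U : Ω → Eu m} {ω ω' : Ω} (a : D.p ω ≠ 0)
    (b : D.p ω' ≠ 0) (c : D.c ω = D.c ω')
    (e : flo i (ch.pi (F ω) (U ω)) = flo i (ch.pi (F ω') (U ω'))) :
    ‖prj (Q ω) (U ω - U ω')‖ ≤ (m + 1) * 2⁻¹ ^ i := by
  rw [← h.det ω ω' a b c] at e
  have e4 := same (p_le ch) e
  have e5 := (h.rep ω a).2.prj_le (U ω - U ω')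
  rw [ch.pi_sub] at e5
  linarith

theorem nearP (T : Tools) (h : D.PC ch σ Q F L E) (i : ℕ) (U : Ω → Eu m) {G : Ω → γ}
    (hc : Det D.p G D.c) (hU : Det D.p G fun ω => flo i (ch.pi (F ω) (U ω))) :
    Hc D.p (fun ω => flo i (prj (Q ω) (U ω))) G ≤ KK m := by
  refine near T le_rfl i _ G h.ok.isP fun ω ω' a b c => ?_
  have e1 := prj_le h a b (hc ω ω' a b c) (hU ω ω' a b c)
  have e6 : (0 : ℝ) ≤ (m + 1) * 2⁻¹ ^ i := by positivity
  rw [← h.gr.1 ω ω' a b (hc ω ω' a b c), ← la.prj_sub]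
  linarith

theorem nearX (T : Tools) (h : D.PC ch σ Q F L E) (i : ℕ) {G : Ω → γ}
    (hc : Det D.p G D.c) (hy : Det D.p G fun ω => flo i (D.y ch F ω))
    (hw : Det D.p G fun ω => flo i (D.w ch ω)) :
    Hc D.p (fun ω => flo i (D.X ω)) G ≤ KK m := by
  refine near T le_rfl i _ G h.ok.isP fun ω ω' a b c => ?_
  have e1 := same (p_le ch) (hy ω ω' a b c)
  have e2 := same (q_le ch) (hw ω ω' a b c)
  have e3 := ch.norm_le (h.rep ω a).1 (D.X ω - D.X ω')
  unfold Cf.y at e1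
  unfold Cf.w at e2
  rw [← h.det ω ω' a b (hc ω ω' a b c)] at e1
  rw [ch.pi_sub, map_sub] at e3
  linarith

omit [Fintype Ω] in
theorem det_flo {n i j : ℕ} {P : Ω → ℝ} {G : Ω → γ} {Y : Ω → Eu n} (hij : i ≤ j)
    (h : Det P G fun ω => flo j (Y ω)) : Det P G fun ω => flo i (Y ω) :=
  fun a b ha hb e => flo_of_flo hij (h a b ha hb e)

theorem plateX (T : Tools) (h : D.PC ch σ Q F L E) {i : ℕ} (hi : i ≤ L) :
    Hc D.p (fun ω => flo L (D.X ω))
      (fun ω => (flo i (D.X ω), flo L (prj (Q ω) (D.X ω)), D.c ω)) ≤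
      q * ((L : ℝ) - i) * log 2 + KK m := by
  have h1 := T.t4.plateH i L q D.X
    (fun ω => (flo i (D.X ω), flo L (prj (Q ω) (D.X ω)), D.c ω)) Q (4 * (m + 1)) h.ok.isP hi
    (one_le_a m) (fun ω hω => (h.gr.2.1 ω hω).le) fun ω ω' a b c => by
      obtain ⟨c1, c2⟩ := Prod.ext_iff.1 c
      obtain ⟨c2, c3⟩ := Prod.ext_iff.1 c2
      have e1 := same le_rfl c1
      dsimp only at c2 c3
      rw [h.gr.1 ω' ω b a c3] at c2
      have e2 := same le_rfl c2
      have e6 : (0 : ℝ) ≤ (m + 1) * 2⁻¹ ^ i := by positivity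
      have e7 : (0 : ℝ) ≤ (m + 1) * 2⁻¹ ^ L := by positivity
      rw [la.prj_sub]
      constructor <;> linarith
  unfold KK
  linarith

theorem plateV (T : Tools) (h : D.PC ch σ Q F L E) (i : ℕ) :
    Hc D.p (fun ω => flo i (D.v ω)) (fun ω => (flo i (D.z ch F ω), D.c ω)) ≤
      q * i * log 2 + KK m := by
  have h1 := T.t4.plateH 0 i q D.v (fun ω => (flo i (D.z ch F ω), D.c ω)) Q (4 * (m + 1))
    h.ok.isP (Nat.zero_le i) (one_le_a m) (fun ω hω => (h.gr.2.1 ω hω).le) fun ω ω' a b c => by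
      obtain ⟨c1, c2⟩ := Prod.ext_iff.1 c
      have e1 := prj_le h (U := D.v) b a c2 c1
      rw [h.gr.1 ω' ω b a c2] at e1
      have e2 := (h.ok.box ω' b).2.1.norm_sub_le (h.ok.box ω a).2.1
      have e3 := sqrt_le_succ m
      have e4 : (0 : ℝ) ≤ m := by positivity
      have e6 : (0 : ℝ) ≤ (m + 1) * 2⁻¹ ^ i := by positivity
      rw [pow_zero]
      constructor <;> linarith
  unfold KK
  simp only [Nat.cast_zero, sub_zero] at h1
  linarith

theorem main (T : Tools) (h : D.PC ch σ Q F L E) (g : D.FullG σ Q q L E)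
    (hE : 3 * E + 3 * KK m ≤ E') : D.FullC ch σ Q F L E' := by
  have hp := h.ok.isP
  have h0 := h.ok.nonneg
  have hK := KK_nonneg m
  have hm : (m : ℝ) = p + q := by exact_mod_cast ch.dim
  have hq : (m : ℝ) - q - σ = p - σ := by linarith
  have up : ∀ {γ : Type} (i : ℕ) (U : Ω → Eu m) (G : Ω → γ), Det D.p G D.c →
      Hc D.p (fun ω => flo i (ch.pi (F ω) (U ω))) G ≤
        Hc D.p (fun ω => flo i (prj (Q ω) (U ω))) G + KK m := fun i U G hG =>
    (e1.tri _ _ G hp).trans (add_le_add le_rfl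
      (nearY T h i U ((Det.snd _ _ _).trans hG) (Det.fst _ _ _)))
  have low : ∀ {γ : Type} (i : ℕ) (G : Ω → γ), Det D.p G D.c →
      Hc D.p (fun ω => flo i (prj (Q ω) (D.X ω))) G ≤
        Hc D.p (fun ω => flo i (D.y ch F ω)) G + KK m := fun i G hG =>
    (e1.tri _ _ G hp).trans (add_le_add le_rfl
      (nearP T h i D.X ((Det.snd _ _ _).trans hG) (Det.fst _ _ _)))
  have yu : ∀ i ≤ L, Hc D.p (fun ω => flo i (D.y ch F ω)) D.c ≤
      (p - σ) * i * log 2 + E + KK m := fun i hi => by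
    have h1 := g.yu i hi
    rw [hq] at h1
    exact (up i D.X D.c (Det.refl _ _)).trans (by linarith)
  have y0 : ∀ i ≤ L, (p - σ) * i * log 2 - E - KK m ≤
      Hc D.p (fun ω => flo i (D.y ch F ω)) D.c := fun i hi => by
    have h1 := g.y0 i hi
    rw [hq] at h1
    linarith [low i D.c (Det.refl _ _)]
  have yl : ∀ i j, i ≤ j → j ≤ L → (p - σ) * ((j : ℝ) - i) * log 2 - E - KK m ≤
      Hc D.p (fun ω => flo j (D.y ch F ω)) fun ω => (D.ln i ω, D.c ω) := fun i j a b => by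
    have h1 := g.yl i j a b
    rw [hq] at h1
    linarith [low j (fun ω => (D.ln i ω, D.c ω)) (Det.snd _ _ _)]
  have ylu : ∀ i j, i ≤ j → j ≤ L → Hc D.p (fun ω => flo j (D.y ch F ω))
      (fun ω => (D.ln i ω, D.c ω)) ≤ (p - σ) * ((j : ℝ) - i) * log 2 + E + KK m :=
    fun i j a b => by
      have h1 := g.ylu i j a b
      rw [hq] at h1
      exact (up j D.X (fun ω => (D.ln i ω, D.c ω)) (Det.snd _ _ _)).trans (by linarith)
  have zx : ∀ i, 2 * i ≤ L → Hc D.p (fun ω => flo i (D.z ch F ω))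
      (fun ω => (flo i (D.X ω), D.c ω)) ≤ E + KK m := fun i hi =>
    (up i D.v _ (Det.snd _ _ _)).trans (add_le_add (h.pl i hi) le_rfl)
  refine ⟨h.mono (by linarith), fullG_mono g (by linarith), fun i hi => by linarith [yu i hi],
    fun i hi => by linarith [y0 i hi], fun i j a b => ?_, fun i j a b => by linarith [yl i j a b],
    fun i j a b => by linarith [ylu i j a b], fun i j a b => ?_, fun i j a b => ?_,
    fun i hi => by linarith [zx i hi], fun i hi => ?_, fun i hi => ?_, fun i j a b => ?_,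
    fun i hi => ?_⟩
  · have h1 := g.yw i j a b
    rw [hq] at h1
    have h2 := up j D.X (fun ω => (flo i (D.y ch F ω), D.c ω)) (Det.snd _ _ _)
    have h3 := e1.tri (fun ω => flo j (prj (Q ω) (D.X ω))) (fun ω => flo i (prj (Q ω) (D.X ω)))
      (fun ω => (flo i (D.y ch F ω), D.c ω)) hp
    have h4 := nearP T h i D.X (G := fun ω => (flo i (D.y ch F ω), D.c ω)) (Det.snd _ _ _)
      (Det.fst _ _ _)
    have h5 : Hc D.p (fun ω => flo j (prj (Q ω) (D.X ω)))
        (fun ω => (flo i (prj (Q ω) (D.X ω)), flo i (D.y ch F ω), D.c ω)) ≤ _ :=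
      (e1.hc_mono hp ((Det.fst _ _ _).pair ((Det.snd _ _ _).trans (Det.snd _ _ _)))
        (Det.fst _ _ _)).trans h1
    exact h2.trans (by linarith)
  · have h1 := e1.tri (fun ω => flo i (D.X ω)) (fun ω => flo i (D.w ch ω))
      (fun ω => (flo j (D.y ch F ω), D.c ω)) hp
    have h2 := nearX T h i (G := fun ω => (flo i (D.w ch ω), flo j (D.y ch F ω), D.c ω))
      ((Det.snd _ _ _).trans (Det.snd _ _ _)) (det_flo a ((Det.snd _ _ _).trans (Det.fst _ _ _)))
      (Det.fst _ _ _)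
    have h3 := e1.tri (fun ω => flo i (D.X ω)) (fun ω => flo j (D.y ch F ω))
      (fun ω => (flo L (prj (Q ω) (D.X ω)), D.c ω)) hp
    have h4 : Hc D.p (fun ω => flo j (D.y ch F ω))
        (fun ω => (flo L (prj (Q ω) (D.X ω)), D.c ω)) ≤ KK m :=
      nearY T h j D.X (Det.snd _ _ _) (det_flo b (Det.fst _ _ _))
    have h5 : Hc D.p (fun ω => flo i (D.X ω))
        (fun ω => (flo j (D.y ch F ω), flo L (prj (Q ω) (D.X ω)), D.c ω)) ≤
        Hc D.p (fun ω => flo i (D.X ω)) fun ω => (flo j (D.y ch F ω), D.c ω) :=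
      e1.hc_mono hp ((Det.fst _ _ _).pair ((Det.snd _ _ _).trans (Det.snd _ _ _))) (Det.fst _ _ _)
    have h6 := e1.tri (fun ω => flo L (D.X ω)) (fun ω => flo i (D.X ω))
      (fun ω => (flo L (prj (Q ω) (D.X ω)), D.c ω)) hp
    have h7 := plateX T h (a.trans b)
    have h8 := h.gr.2.2
    linarith
  · have h1 := e1.tri (fun ω => flo j (D.X ω)) (fun ω => flo j (D.y ch F ω))
      (fun ω => (D.ln i ω, D.c ω)) hp
    have h2 := e1.tri (fun ω => flo j (D.X ω)) (fun ω => flo j (D.w ch ω))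
      (fun ω => (flo j (D.y ch F ω), D.ln i ω, D.c ω)) hp
    have h3 := nearX T h j
      (G := fun ω => (flo j (D.w ch ω), flo j (D.y ch F ω), D.ln i ω, D.c ω))
      (((Det.snd _ _ _).trans (Det.snd _ _ _)).trans (Det.snd _ _ _))
      ((Det.snd _ _ _).trans (Det.fst _ _ _)) (Det.fst _ _ _)
    have h4 := g.full.xl i j a b
    have h5 := ylu i j a b
    rw [hm] at h4
    linarith
  · have h1 := e1.tri (fun ω => flo i (D.z ch F ω)) (fun ω => flo i (D.X ω))
      (fun ω => (flo i (D.y ch F ω), flo i (D.w ch ω), D.c ω)) hp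
    have h2 := nearX T h i (G := fun ω => (flo i (D.y ch F ω), flo i (D.w ch ω), D.c ω))
      ((Det.snd _ _ _).trans (Det.snd _ _ _)) (Det.fst _ _ _)
      ((Det.snd _ _ _).trans (Det.fst _ _ _))
    have h3 : Hc D.p (fun ω => flo i (D.z ch F ω))
        (fun ω => (flo i (D.X ω), flo i (D.y ch F ω), flo i (D.w ch ω), D.c ω)) ≤ _ :=
      (e1.hc_mono hp ((Det.fst _ _ _).pair
        (((Det.snd _ _ _).trans (Det.snd _ _ _)).trans (Det.snd _ _ _))) (Det.fst _ _ _)).trans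
        (zx i hi)
    linarith
  · have h1 := e1.tri (fun ω => flo i (D.v ω)) (fun ω => flo i (D.z ch F ω)) D.c hp
    have h2 := plateV T h i
    have h3 := g.full.vl i hi
    rw [hm] at h3
    linarith
  · have h1 := e1.symm (D.ln i) (fun ω => flo j (D.y ch F ω)) D.c hp
    have h2 : Hc D.p (fun ω => flo i (D.v ω)) D.c ≤ Hc D.p (D.ln i) D.c :=
      e1.hc_mono hp (Det.refl _ _) ((Det.fst _ _ _).trans (Det.comp _ (D.ln i) Prod.snd))
    have h3 := g.full.vl i (a.trans b)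
    have h4 := yu j b
    have h5 := yl i j a b
    rw [hm] at h3
    linarith
  · have h1 := e1.symm (D.ln i) (fun ω => flo i (D.y ch F ω)) D.c hp
    have h2 : Hc D.p (D.ln i) D.c ≤ Hc D.p (D.ln i) D.T :=
      e1.hc_mono hp (D.det_T _) (Det.fst _ _ _)
    have h3 := g.full.lu i hi
    have h4 := y0 i hi
    have h5 := ylu i i le_rfl hi
    rw [hm] at h3
    rw [sub_self] at h5
    linarith

end FullCX

theorem sFullC (T : Tools) (bas : SBas) (fg : SFullG) : SFullC := by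
  have _ : SBas := bas
  intro m σ hσ p q r ch ζ hζ
  filter_upwards [fg m σ hσ q (ζ / 4) (by positivity), ef_small (show 0 < ζ / 4 by positivity),
    ef_const (3 * FullCX.KK m) (show 0 < ζ / 4 by positivity)] with x h1 h2 h3 Ω Tt Θ _ D Q F h
  exact FullCX.main T (h.mono h2) (h1 D Q h.ext h.gr) (by linarith)

end Vale.Agent.P127
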