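import Vale.Agent.P127.Num

/-! Sticky Kakeya sets in four dimensions: entropies modulo the grains, windows. -/

namespace Vale.Agent.P127

open Vale.Agent.P118
open scoped RealInnerProductSpace
open Real Classical Module

namespace FullGX

theorem chain {Ω α α' γ : Type} [Fintype Ω] {p : Ω → ℝ} {f : Ω → α} {f' : Ω → α'} (k : Ω → γ)
    (hp : IsP p) (h : Det p f' f) :
    Hc p f' (fun ω => (f ω, k ω)) ≤ Hc p f' k - Hc p f k := by
  have h1 := e1.chain f f' k hp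
  have h2 : Hc p (fun ω => (f ω, f' ω)) k ≤ Hc p f' k :=
    e1.hc_mono hp (Det.refl _ _) (((Det.fst _ _ _).trans h).pair (Det.fst _ _ _))
  linarith

theorem dflo {Ω : Type} {m i j : ℕ} (p : Ω → ℝ) (X : Ω → Eu m) (h : i ≤ j) :
    Det p (fun ω => flo j (X ω)) fun ω => flo i (X ω) := fun _ _ _ _ e => flo_of_flo h e

/-- the constant of the plate count -/
noncomputable def C (m : ℕ) : ℝ := 2 * m * log (2 * (m + 1)) + CE m

theorem CE_le (m : ℕ) : CE m ≤ C m := by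
  have hm : (0 : ℝ) ≤ m := by positivity
  have := log_nonneg (show (1 : ℝ) ≤ 2 * (m + 1) by linarith)
  exact le_add_of_nonneg_left (by positivity)

variable {Ω Tt Θ : Type} [Fintype Ω] {m L q : ℕ} {D : Cf Ω Tt Θ m} {E σ : ℝ}
  {Q : Ω → Submodule ℝ (Eu m)}

theorem plate (T : Tools) (h : D.OK L E) (hG : D.Gr Q q L E) {β : Type} (g : Ω → β) {i j : ℕ}
    (hij : i ≤ j) (h1 : Det D.p g D.c) (h2 : Det D.p g fun ω => flo j (prj (Q ω) (D.X ω)))
    (h3 : ∀ ω ω', D.p ω ≠ 0 → D.p ω' ≠ 0 → g ω' = g ω →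
      ‖D.X ω' - D.X ω‖ ≤ 4 * √m * 2⁻¹ ^ i) :
    Hc D.p (fun ω => flo j (D.X ω)) g ≤ q * ((j : ℝ) - i) * log 2 + C m := by
  have hm : (0 : ℝ) ≤ m := by positivity
  rw [C, ← add_assoc]
  refine T.t4.plateH i j q D.X g Q (2 * (m + 1)) h.isP hij (by linarith)
    (fun ω hω => (hG.2.1 ω hω).le) fun ω ω' hω hω' e => ⟨(h3 ω ω' hω hω' e).trans
      (mul_le_mul_of_nonneg_right (by linarith [sqrt_le_half m]) (by positivity)), ?_⟩
  have h4 := geo1.same_norm (h2 ω' ω hω' hω e)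
  rw [hG.1 ω' ω hω' hω (h1 ω' ω hω' hω e), ← la.prj_sub] at h4
  exact h4.trans (mul_le_mul_of_nonneg_right (by linarith [sqrt_le_succ m]) (by positivity))

theorem near (h : D.OK L E) {i : ℕ} {ω ω' : Ω} (hω : D.p ω ≠ 0) (hω' : D.p ω' ≠ 0)
    (h1 : D.ln i ω' = D.ln i ω) (h2 : D.c ω' = D.c ω) : ‖D.X ω' - D.X ω‖ ≤ 4 * √m * 2⁻¹ ^ i := by
  obtain ⟨h3, h4⟩ := Prod.ext_iff.1 h1
  have h5 := geo1.same_norm (show flo i _ = flo i _ from h3)
  have h6 := geo1.same_norm (show flo i _ = flo i _ from h4)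
  obtain ⟨-, -, h7, h8⟩ := h.box ω hω
  have h9 : D.X ω' - D.X ω = (D.a ω' - D.a ω) + D.t ω • (D.v ω' - D.v ω) := by
    simp only [Cf.X, h.det ω' ω hω' hω h2, smul_sub]
    abel
  have h10 : ‖D.t ω • (D.v ω' - D.v ω)‖ ≤ ‖D.v ω' - D.v ω‖ := by
    rw [norm_smul, Real.norm_eq_abs, abs_of_nonneg h7]
    exact mul_le_of_le_one_left (norm_nonneg _) h8.le
  have h11 : 0 ≤ √m * (2⁻¹ : ℝ) ^ i := by positivity
  rw [h9]
  linarith [norm_add_le (D.a ω' - D.a ω) (D.t ω • (D.v ω' - D.v ω))]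

theorem yu (T : Tools) (bas : SBas) (hF : D.Full σ L E) (hG : D.Gr Q q L E) {i : ℕ} (hi : i ≤ L) :
    Hc D.p (fun ω => flo i (prj (Q ω) (D.X ω))) D.c ≤
      (m - q - σ) * i * log 2 + 2 * E + 2 * C m := by
  have hp := hF.ok.isP
  have h1 := e1.symm (fun ω => flo i (prj (Q ω) (D.X ω))) (fun ω => flo i (D.X ω)) D.c hp
  have h2 := ((bas D L E hF.ok).2.2.2.2.2 i Q hG.1).2
  have h3 := hF.xu i hi
  have h4 : Hc D.p (fun ω => flo i (D.X ω)) (fun ω => (flo L (prj (Q ω) (D.X ω)), D.c ω)) ≤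
      Hc D.p (fun ω => flo i (D.X ω)) fun ω => (flo i (prj (Q ω) (D.X ω)), D.c ω) :=
    e1.hc_mono hp (((Det.fst _ _ _).trans (dflo _ _ hi)).pair (Det.snd _ _ _)) (Det.fst _ _ _)
  have h5 := e1.tri (fun ω => flo L (D.X ω)) (fun ω => flo i (D.X ω))
    (fun ω => (flo L (prj (Q ω) (D.X ω)), D.c ω)) hp
  have h6 := plate T hF.ok hG
    (fun ω => (flo i (D.X ω), flo L (prj (Q ω) (D.X ω)), D.c ω)) hi
    ((Det.snd _ _ _).trans (Det.snd _ _ _)) ((Det.snd _ _ _).trans (Det.fst _ _ _))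
    fun ω ω' _ _ e => by
      have h7 := geo1.same_norm (show flo i _ = flo i _ from (Prod.ext_iff.1 e).1)
      have h8 : 0 ≤ √m * (2⁻¹ : ℝ) ^ i := by positivity
      linarith
  linarith [hG.2.2, CE_le m]

theorem y0 (T : Tools) (hF : D.Full σ L E) (hG : D.Gr Q q L E) {i : ℕ} (hi : i ≤ L) :
    (m - q - σ) * i * log 2 - E - C m ≤ Hc D.p (fun ω => flo i (prj (Q ω) (D.X ω))) D.c := by
  have h1 := e1.tri (fun ω => flo i (D.X ω)) (fun ω => flo i (prj (Q ω) (D.X ω))) D.c hF.ok.isP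
  have h2 := plate T hF.ok hG (fun ω => (flo i (prj (Q ω) (D.X ω)), D.c ω)) (Nat.zero_le i)
    (Det.snd _ _ _) (Det.fst _ _ _) fun ω ω' hω hω' _ => by
      linarith [norm_sub_le (D.X ω') (D.X ω), hF.ok.norm_X hω, hF.ok.norm_X hω',
        pow_zero (2⁻¹ : ℝ)]
  push_cast at h2
  linarith [hF.x0 i hi]

theorem yw (T : Tools) (bas : SBas) (hF : D.Full σ L E) (hG : D.Gr Q q L E) {i j : ℕ}
    (hij : i ≤ j) (hj : j ≤ L) : Hc D.p (fun ω => flo j (prj (Q ω) (D.X ω)))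
      (fun ω => (flo i (prj (Q ω) (D.X ω)), D.c ω)) ≤
      (m - q - σ) * ((j : ℝ) - i) * log 2 + 3 * E + 3 * C m := by
  linarith [chain D.c hF.ok.isP (dflo D.p (fun ω => prj (Q ω) (D.X ω)) hij), yu T bas hF hG hj,
    y0 T hF hG (hij.trans hj)]

theorem all (T : Tools) (bas : SBas) {E' : ℝ} (hF : D.Full σ L E) (hF' : D.Full σ L E')
    (hG : D.Gr Q q L E) (hE : 3 * E + 4 * C m ≤ E') : D.FullG σ Q q L E' := by
  have hp := hF.ok.isP
  have h0 := hF.ok.nonneg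
  have hC := CE_le m
  have hC' := CE_nonneg m
  refine ⟨hF', hG.mono (by linarith), fun i hi => by linarith [yu T bas hF hG hi],
    fun i hi => by linarith [y0 T hF hG hi], fun i j hij hj => by linarith [yw T bas hF hG hij hj],
    fun i j hij hj => ?_, fun i j hij hj => ?_⟩
  · have h1 := e1.tri (fun ω => flo j (D.X ω)) (fun ω => flo j (prj (Q ω) (D.X ω)))
      (fun ω => (D.ln i ω, D.c ω)) hp
    have h2 := plate T hF.ok hG (fun ω => (flo j (prj (Q ω) (D.X ω)), D.ln i ω, D.c ω)) hij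
      ((Det.snd _ _ _).trans (Det.snd _ _ _)) (Det.fst _ _ _) fun ω ω' hω hω' e =>
        near hF.ok hω hω' (Prod.ext_iff.1 (Prod.ext_iff.1 e).2).1
          (Prod.ext_iff.1 (Prod.ext_iff.1 e).2).2
    linarith [hF.xl i j hij hj]
  · have h1 := e1.tri (fun ω => flo j (prj (Q ω) (D.X ω))) (fun ω => flo i (prj (Q ω) (D.X ω)))
      (fun ω => (D.ln i ω, D.c ω)) hp
    have h2 := ((bas D L E hF.ok).2.2.2.2.2 i Q hG.1).1
    have h3 : Hc D.p (fun ω => flo j (prj (Q ω) (D.X ω)))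
        (fun ω => (flo i (prj (Q ω) (D.X ω)), D.ln i ω, D.c ω)) ≤
        Hc D.p (fun ω => flo j (prj (Q ω) (D.X ω)))
          fun ω => (flo i (prj (Q ω) (D.X ω)), D.c ω) :=
      e1.hc_mono hp ((Det.fst _ _ _).pair ((Det.snd _ _ _).trans (Det.snd _ _ _))) (Det.fst _ _ _)
    linarith [yw T bas hF hG hij hj]

theorem win (w0 : SWin0) {E' : ℝ} (hF : D.FullG σ Q q L E) {i n : ℕ} (hi : i + n ≤ L)
    (hE : 3 * E + 2 * CE m ≤ E') : (D.win i n).Ext σ n E' ∧ (D.win i n).Gr Q q n E' := by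
  have hp := hF.full.ok.isP
  have h0 := hF.full.ok.nonneg
  have hC := CE_nonneg m
  have hi' : i ≤ i + n := Nat.le_add_right _ _
  obtain ⟨h1, h2, h3, -⟩ := w0 D L i n E hF.full.ok hi
  refine ⟨⟨h1.mono (by linarith), ?_⟩, fun a b ha hb e => hF.gr.1 a b ha hb ?_, hF.gr.2.1, ?_⟩
  · have h4 := e1.tri (fun ω => flo (i + n) (D.X ω)) (fun ω => flo i (D.X ω))
      (fun ω => (D.ln i ω, D.c ω)) hp
    have h5 : Hc D.p (fun ω => flo (i + n) (D.X ω)) (fun ω => (flo i (D.X ω), D.ln i ω, D.c ω)) ≤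
        Hc D.p (fun ω => flo (i + n) (D.X ω)) fun ω => (flo i (D.X ω), D.c ω) :=
      e1.hc_mono hp ((Det.fst _ _ _).pair ((Det.snd _ _ _).trans (Det.snd _ _ _))) (Det.fst _ _ _)
    have h6 := chain D.c hp (dflo D.p D.X hi')
    have h7 := hF.full.xu _ hi
    push_cast at h7
    have h8 : Hc D.p (fun ω => flo n ((D.win i n).X ω)) (D.win i n).c ≤
        (m - σ) * n * log 2 + E' := by
      linarith [(abs_le.1 h2).2, hF.full.xn i (hi'.trans hi), hF.full.x0 i (hi'.trans hi)]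
    exact h8
  · obtain ⟨h4, h5⟩ := Prod.ext_iff.1 e
    exact Prod.ext h4 (Prod.ext_iff.1 h5).1
  · refine le_trans ?_ (h3 Q hF.gr.1)
    have h4 := e1.tri (fun ω => flo (i + n) (D.X ω)) (fun ω => flo (i + n) (prj (Q ω) (D.X ω)))
      (fun ω => (D.ln i ω, D.c ω)) hp
    have h5 := hF.full.xl i _ hi' hi
    have h6 := hF.ylu i _ hi' hi
    push_cast at h5 h6
    linarith

end FullGX

theorem sFullG (T : Tools) (bas : SBas) (full : SFull) : SFullG := by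
  intro m σ hc q ζ hζ
  have h6 : 0 < ζ / 6 := by positivity
  filter_upwards [full m σ hc ζ hζ, full m σ hc _ h6, ef_small h6,
    ef_const (4 * FullGX.C m) (half_pos hζ)] with x h1 h2 h3 h4 Ω Tt Θ _ D Q hE hG
  exact FullGX.all T bas (h2 D hE) (h1 D hE) (hG.mono h3) (by linarith)

theorem sWin (T : Tools) (w0 : SWin0) (fg : SFullG) : SWin := by
  have _ := T
  intro m σ hc q ζ hζ
  filter_upwards [fg m σ hc q _ (show 0 < ζ / 6 by positivity), ef_const (2 * CE m) (half_pos hζ)]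
    with x h1 h2 Ω Tt Θ _ D Q i n hi hE hG
  exact FullGX.win w0 (h1 D Q hE hG) hi (by linarith)

end Vale.Agent.P127
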