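import Vale.Agent.P118.OEL1
import Vale.Agent.P118.OEL2
import Vale.Agent.P118.OEL3
import Vale.Agent.P118.OEV
import Vale.Agent.P118.OScale
import Vale.Agent.P118.OCost
import Vale.Agent.P118.OCP
import Vale.Agent.P118.OGC
import Vale.Agent.P118.OS2a
import Vale.Agent.P118.OLA
import Vale.Agent.P118.OS2b
import Vale.Agent.P118.OS2
import Vale.Agent.P118.OS1a
import Vale.Agent.P118.OS1b
import Vale.Agent.P118.OS1c
import Vale.Agent.P118.OS1d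
import Vale.Agent.P118.OS1e
import Vale.Agent.P118.OSP1
import Vale.Agent.P118.OSP2
import Vale.Agent.P118.OSP3
import Vale.Agent.P118.OSP4
import Vale.Agent.P118.OSP5
import Vale.Agent.P118.OSP
import Vale.Agent.P118.OTrip
import Vale.Agent.P118.ORed
import Vale.Agent.P118.OKau
import Vale.Agent.P118.OKauC
import Vale.Agent.P118.OLocG
import Vale.Agent.P118.OCh
import Vale.Agent.P118.ONf
import Vale.Agent.P118.OGd
import Vale.Agent.P118.OFG1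
import Vale.Agent.P118.OFin
import Vale.Agent.P118.OFG2
import Vale.Agent.P118.OF
import Vale.Agent.P118.OOne2

/-! The incidence estimate of P118 for all exponents below `m + 1`. -/

namespace Vale.Agent.P127.FurX

open Vale.Agent.P118
open scoped RealInnerProductSpace ENNReal
open MeasureTheory Real Classical Module

def FinS : Prop :=
  ∀ {Ω α β : Type} [Fintype Ω] {n : ℕ} (m v : ℕ) (p : Ω → ℝ) (W : Ω → Eu (n + 1)) (Yr : Ω → α)
    (Zf : Ω → β) (θ : β → Eu n) (V : β → Submodule ℝ (Eu n)) (A : Ω → Eu n) (c : α → β → Eu n)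
    (b : Eu (n + 1) × α → ℝ) (σ τ ρ s₀ Φ X : ℝ), IsP p → 0 < τ → τ ≤ 1 / 2 → 0 ≤ σ →
    σ + τ ≤ m + 1 → 0 < ρ → ρ ≤ 1 → 0 ≤ X → 0 ≤ s₀ →
    (∀ ω, p ω ≠ 0 → flo v (W ω) = W ω ∧ ‖W ω‖ ≤ n + 1 ∧ ‖θ (Zf ω)‖ ≤ 1 ∧
      ‖A ω - dev (θ (Zf ω)) (W ω) - c (Yr ω) (Zf ω)‖ ≤ 12 * (n + 1) * 2⁻¹ ^ v) →
    Hc p (fun ω => flo v (prj (V (Zf ω)) (A ω))) Zf ≤ X →
    Ex p (fun ω => finrank ℝ (V (Zf ω))) ≤ σ + τ / 4 →
    (∀ ω, p ω ≠ 0 → Cnt p W Yr ω (exp (Φ + X))) →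
    Φ - X ≤ Hc p W (fun ω => (Yr ω, Zf ω)) → SubP b →
    (∀ (k : Eu (n + 1) × α) (V' : Submodule ℝ (Eu (n + 1))), finrank ℝ V' ≤ m + 1 →
      Pr p (fun ω => (W ω, Yr ω) = k ∧ ‖prj V' (cons 1 (θ (Zf ω)))‖ ≤ ρ) ≤ s₀ * b k) →
    (σ + τ) * v * log 2 - X ≤ Φ →
    ((τ / (4 * (m + 1))) ^ 2 - s₀) * (τ / 2 * v * log 2) ≤
      10 * X + (n + 1) * log ρ⁻¹ + 10 * CE (n + 1)

def FG2S : Prop :=
  ∀ {Ω : Type} [Fintype Ω] {n : ℕ} (D : FD Ω n) (m L l J p v : ℕ) (σ t M ρ s₀ τ ε ζ : ℝ)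
    (F : ℕ → ℕ) (V : ((Eu (n + 1) × Eu n × Eu n) × Fin (2 ^ (l * v)) × Fin (2 ^ (l * v)) ×
      Fin (2 ^ (l * v))) × Eu n → Submodule ℝ (Eu n)),
    D.Stg m L l J p v σ t M ρ s₀ τ ε F → σ + τ ≤ m + 1 → 0 < ρ → ρ ≤ 1 →
    (n + 1) * 2⁻¹ ^ (l * v) ≤ ρ / 2 → 0 ≤ ζ → ζ ≤ τ / 4 → IsK D.p (D.loc (l * p) (l * v)).k1 →
    Hc (D.loc (l * p) (l * v)).p1 (fun z => flo (l * v) (prj (V ((D.loc (l * p) (l * v)).Zf z))
      ((D.loc (l * p) (l * v)).A z.1))) (D.loc (l * p) (l * v)).Zf ≤ ζ * (l * v : ℕ) →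
    Ex (D.loc (l * p) (l * v)).p1 (fun z => finrank ℝ (V ((D.loc (l * p) (l * v)).Zf z))) ≤
      σ + ζ →
    σ * (l * v : ℕ) * log 2 - ζ * (l * v : ℕ) ≤ Hc (D.loc (l * p) (l * v)).p1
      (fun z => (D.loc (l * p) (l * v)).A z.1) (D.loc (l * p) (l * v)).Zf →
    ((τ / (4 * (m + 1))) ^ 2 - s₀) * (τ / 2 * (l * v : ℕ) * log 2) ≤
      10 * (ζ * (l * v : ℕ) + 2 * XX n l J v M τ ε) + (n + 1) * log (2 / ρ) + 10 * CE (n + 1)

def FS : Prop :=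
  ∀ (n m : ℕ) (τ : ℝ), m + 1 ≤ n → 0 < τ → τ ≤ 1 / 2 → ∃ (e : ℝ) (L₀ : ℕ), 0 < e ∧
    ∀ {Ω : Type} [Fintype Ω] (D : FD Ω n) (L : ℕ) (σ t M ρ s₀ : ℝ), L₀ ≤ L → 0 ≤ σ →
      σ + τ ≤ m + 1 → σ + 2 * τ ≤ t → M ≤ (2 : ℝ) ^ (e * L) → (2 : ℝ) ^ (-e * L) ≤ ρ → ρ ≤ 1 →
      0 ≤ s₀ → s₀ ≤ e → ¬D.OK m L σ t M ρ s₀


open OFinX

theorem finS' (e1 : EL1) (e2 : EL2) (e3 : EL3) (ev : EV) (la : LA) : FinS := by
  intro Ω α β _ n m v p W Yr Zf θ V A c b σ τ ρ s₀ Φ X hp t0 t1 s0 s1 r0 r1 x0 _ hs hB hV hC hL hb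
    hsl hΦ
  have _ := ev
  choose V' v1 v2 v3 using fun k => la.lift (V k) (θ k)
  obtain ⟨B, hBd⟩ : ∃ B : Ω → Eu n, B = fun ω => flo v (prj (V (Zf ω)) (A ω)) := ⟨_, rfl⟩
  rw [← hBd] at hB
  have hq := e3.isP_res (fun ω => (W ω, Yr ω)) hp
  have h1 : Hc p W Yr ≤ Φ + X := (e2.count' hp hC).trans_eq (log_exp _)
  have h2 := e1.tri W B (fun ω => (Yr ω, Zf ω)) hp
  have h3 : Hc p B (fun ω => (Yr ω, Zf ω)) ≤ Hc p B Zf :=
    e1.hc_mono hp (Det.snd _ _ _) (Det.fst _ _ _)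
  have h4 : Hc p W (fun ω => (B ω, Yr ω, Zf ω)) ≤ Hc p W fun ω => ((Zf ω, B ω), Yr ω) :=
    e1.hc_mono hp (Det.comp p (fun ω => (B ω, Yr ω, Zf ω)) fun a => ((a.2.2, a.1), a.2.1))
      (Det.fst _ _ _)
  have h5 := two_copies e1 e2 e3 hp W Yr fun ω => (Zf ω, B ω)
  obtain ⟨E, hE⟩ : ∃ E : Ω → Prop, E = fun ω => ¬ σ + τ / 2 ≤ finrank ℝ (V (Zf ω)) := ⟨_, rfl⟩
  obtain ⟨G, hG⟩ : ∃ G : Ω × Ω → Prop,
    G = fun z => E z.2 ∧ ρ ≤ ‖prj (V' (Zf z.1)) (cons 1 (θ (Zf z.2)))‖ ∧ E z.1 := ⟨_, rfl⟩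
  obtain ⟨Λ, hΛ⟩ : ∃ Λ, Λ = (σ + τ / 2) * v * log 2 + (n + 1) * log ρ⁻¹ + CE (n + 1) := ⟨_, rfl⟩
  have h6 := e2.count (f := fun z : Ω × Ω => W z.1)
    (g := fun z => (((Zf z.1, B z.1), (Zf z.2, B z.2)), Yr z.1))
    (N := fun z => exp (Φ + X - (Φ + X - Λ) * if G z then 1 else 0)) hq fun z hz S hS => by
      obtain ⟨z1, z2, z3⟩ := e3.res_ne hz
      split_ifs with g
      · rw [mul_one, sub_sub_cancel, hΛ]
        rw [hG, hE] at g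
        refine card_le la r0 r1 (v2 _) (norm_cons (hs _ z2).2.2.1) g.2.1 (c := W z.1) ?_ S
          fun u hu => ?_
        · have : (finrank ℝ (V' (Zf z.2)) : ℝ) ≤ finrank ℝ (V (Zf z.2)) + 1 := by
            exact_mod_cast v1 _
          linarith [not_le.1 g.1]
        obtain ⟨y, hy, e, rfl⟩ := hS u hu
        obtain ⟨y1, y2, y3⟩ := e3.res_ne hy
        simp only [Prod.mk.injEq, hBd] at e z3 y3
        obtain ⟨⟨⟨a1, a2⟩, a3, a4⟩, a5⟩ := e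
        have c1 := hs _ y1; have c2 := hs _ y2; have c3 := hs _ z1; have c4 := hs _ z2
        refine ⟨c1.1, (norm_sub_le _ _).trans (by linarith [c1.2.1, c3.2.1]),
          (v3 _ _).trans ?_, (v3 _ _).trans ?_⟩
        · rw [a1, a5] at c1; rw [a1] at a2
          exact close la a2 c3.2.2.2 c1.2.2.2
        · rw [a3, ← y3.2, a5, z3.2] at c2; rw [a3] at a4
          dsimp only
          rw [y3.1, z3.1]
          exact close la a4 c4.2.2.2 c2.2.2.2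
      · rw [mul_zero, sub_zero]
        refine hC _ z1 S fun a ha => ?_
        obtain ⟨y, hy, e, rfl⟩ := hS a ha
        exact ⟨y.1, (e3.res_ne hy).1, (Prod.ext_iff.1 e).2, rfl⟩
  simp only [log_exp] at h6
  rw [e1.ex_sub, e1.ex_const _ hq, e1.ex_mul, ← e1.pr_eq_ex] at h6
  have g0 := e1.pr_nonneg G hq
  have g1 := e1.pr_le_one G hq
  have hm : (0 : ℝ) ≤ m := by positivity
  have h7 : τ / (4 * (m + 1)) ≤ Pr p E := by
    have a1 := e1.markov (f := fun ω => finrank ℝ (V (Zf ω))) (c := σ + τ / 2) hp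
      (fun _ _ => by positivity) (by linarith)
    have a2 : Ex p (fun ω => finrank ℝ (V (Zf ω))) / (σ + τ / 2) ≤ 1 - τ / (4 * (m + 1)) := by
      rw [div_le_iff₀ (by linarith)]
      have : τ / (4 * (m + 1)) * (σ + τ / 2) ≤ τ / 4 := by
        rw [div_mul_eq_mul_div, div_le_div_iff₀ (by positivity) (by positivity)]
        nlinarith
      linarith
    rw [hE, e1.pr_not _ hp]; linarith
  have h8 : Pr (res p fun ω => (W ω, Yr ω))
      (fun z => E z.1 ∧ ‖prj (V' (Zf z.1)) (cons 1 (θ (Zf z.2)))‖ ≤ ρ) ≤ s₀ := by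
    rw [res, e3.pr_ext]
    refine (e1.ex_mono (g := fun ω => s₀ * (b (W ω, Yr ω) /
      Pr p fun ω' => (W ω', Yr ω') = (W ω, Yr ω))) hp fun ω _ => ?_).trans ?_
    · rw [fib, e2.pr_cnd, ← mul_div_assoc]
      refine div_le_div_of_nonneg_right ?_ (e1.pr_nonneg _ hp)
      by_cases g : E ω
      · refine (e1.pr_mono hp fun _ _ h => ⟨h.1, h.2.2⟩).trans (hsl _ (V' (Zf ω)) ?_)
        rw [hE] at g
        have g2 : (finrank ℝ (V (Zf ω)) : ℝ) < (m + 1 : ℕ) := by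
          push_cast; linarith [not_le.1 g]
        have := v1 (Zf ω)
        have := Nat.cast_lt.1 g2
        omega
      · simp only [g, false_and, and_false, Pr, Finset.filter_false, Finset.sum_empty]
        exact mul_nonneg ‹_› (hb.1 _)
    · rw [e1.ex_mul]
      exact mul_le_of_le_one_right ‹_› (ex_div_le p (fun ω => (W ω, Yr ω)) hb)
  have h9 : (τ / (4 * (m + 1))) ^ 2 - s₀ ≤ Pr (res p fun ω => (W ω, Yr ω)) G := by
    have a1 := e3.res_sq (fun ω => (W ω, Yr ω)) E hp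
    have a2 := e1.pr_or G
      (fun z => E z.1 ∧ ‖prj (V' (Zf z.1)) (cons 1 (θ (Zf z.2)))‖ ≤ ρ) hq
    have a3 := e1.pr_mono (E := fun z => E z.1 ∧ E z.2) (E' := fun z => G z ∨
      E z.1 ∧ ‖prj (V' (Zf z.1)) (cons 1 (θ (Zf z.2)))‖ ≤ ρ) hq fun z _ h => by
        rw [hG]
        exact (le_total ρ _).imp (fun a => ⟨h.2, a, h.1⟩) fun a => ⟨h.1, a⟩
    have a4 := pow_le_pow_left₀ (by positivity) h7 2
    linarith
  have l2 := log_nonneg (one_le_two (α := ℝ))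
  have l3 : 0 ≤ (n + 1 : ℝ) * log ρ⁻¹ :=
    mul_nonneg (by positivity) (log_nonneg ((one_le_inv₀ r0).2 r1))
  have l4 := CE_nonneg (n + 1)
  generalize Pr (res p fun ω => (W ω, Yr ω)) G = g at *
  have k1 := mul_le_mul_of_nonneg_right h9 (show 0 ≤ τ / 2 * v * log 2 by positivity)
  have k2 : (τ / 2 * v * log 2 - ((n + 1) * log ρ⁻¹ + CE (n + 1))) * g ≤ (Φ + X - Λ) * g :=
    mul_le_mul_of_nonneg_right (by rw [hΛ]; linarith) g0
  have k3 := mul_le_of_le_one_right (add_nonneg l3 l4) g1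
  linarith


section
open OFG2X
variable {Ω : Type} [Fintype Ω] {n : ℕ}

theorem fin' (e1 : EL1) (e3 : EL3) (la : LA) (lg : LocG) (fi : FinS) (D : FD Ω n)
    {m L P V : ℕ} {σ t M ρ s₀ τ Φ X : ℝ} (ok : D.OK m L σ t M ρ s₀) (hL : P + V + V ≤ L)
    (hV : n + 1 ≤ V) (hK : IsK D.p (D.loc P V).k1)
    (U : ((Eu (n + 1) × Eu n × Eu n) × Fin (2 ^ V) × Fin (2 ^ V) × Fin (2 ^ V)) × Eu n →
      Submodule ℝ (Eu n)) (hτ : 0 < τ) (hτ1 : τ ≤ 1 / 2) (hσ : 0 ≤ σ) (hσ1 : σ + τ ≤ m + 1)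
    (hρ : 0 < ρ) (hρ1 : ρ ≤ 1) (hρ2 : (n + 1) * 2⁻¹ ^ V ≤ ρ / 2) (hX : 0 ≤ X) (hs : 0 ≤ s₀)
    (hA : Hc (D.loc P V).p1 (fun z => flo V (prj (U ((D.loc P V).Zf z)) ((D.loc P V).A z.1)))
      (D.loc P V).Zf ≤ X)
    (hB : Ex (D.loc P V).p1 (fun z => finrank ℝ (U ((D.loc P V).Zf z))) ≤ σ + τ / 4)
    (hC : ∀ ω, D.p ω ≠ 0 → Cnt D.p (fun ω => flo (P + V + V) (D.Y ω))
      (fun ω => flo (P + V) (D.Y ω)) ω (exp (Φ + X)))
    (hD : Φ - X ≤ Hc (D.loc P V).p1 (fun z => zm (P + V) V (D.Y z.1))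
      fun z => (flo (P + V) (D.Y z.1), (D.loc P V).Zf z))
    (hE : (σ + τ) * V * log 2 - X ≤ Φ) :
    ((τ / (4 * (m + 1))) ^ 2 - s₀) * (τ / 2 * V * log 2) ≤
      10 * X + (n + 1) * log (2 / ρ) + 10 * CE (n + 1) := by
  rw [← inv_div ρ 2]
  refine fi m V (D.loc P V).p1 (fun z => zm (P + V) V (D.Y z.1)) (fun z => flo (P + V) (D.Y z.1))
    (D.loc P V).Zf (fun k => k.1.1.2.1) U (fun z => (D.loc P V).A z.1)
    (fun yr k => (2 : ℝ) ^ (P + V) • dev k.1.1.2.1 (yr - k.1.1.1) - (2 : ℝ) ^ (P + V) • k.1.1.2.2)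
    (bk D.Z D.b fun y => (zm (P + V) V y, flo (P + V) y))
    σ τ (ρ / 2) s₀ Φ X (e3.isP_ext ok.isP hK) hτ hτ1 hσ hσ1 (half_pos hρ) (by linarith) hX hs
    (fun z hz => ?_) hA hB (fun z hz => cnt (hC z.1 (ext_ne hz).1)) hD ?_ (fun k V' hV' => ?_) hE
  · have hω := ok.sup (ext_ne hz).1
    have a1 := lg.zlat (P + V) V (D.Y z.1)
    push_cast at a1
    exact ⟨a1.1, a1.2, lg.th0 _ _ hV hω.1, lg.apx D L _ _ z.1 hL hω⟩
  · exact subP _ _ _ ok.b_nonneg ok.b_sum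
  · refine le_of_eq_of_le ?_ (slab e1 la D ok hρ2
      (fun y => (zm (P + V) V y, flo (P + V) y)) k V' hV')
    exact (e3.fst (fun _ => ()) (fun _ => ()) ok.isP hK).2.2.1 fun ω =>
      (zm (P + V) V (D.Y ω), flo (P + V) (D.Y ω)) = k ∧ ‖prj V' (cons 1 (flo V (D.Θ ω)))‖ ≤ ρ / 2

end

theorem fG2' (e1 : EL1) (e2 : EL2) (e3 : EL3) (ev : EV) (la : LA) (rd : Red) (lg : LocG)
    (hch : ChStmt) (fi : FinS) : FG2S := by
  intro Ω _ n D m L l J p v σ t M ρ s₀ τ ε ζ F V h hσ hρ hρ1 hρ2 hζ hζτ hK hA hB hC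
  have _ := e2
  obtain ⟨⟨c1, -, -⟩, -, c2⟩ := hch D m L l J p v σ t M ρ s₀ τ ε F h
  have hR : l * (p + v) = l * p + l * v := mul_add _ _ _
  have hQ : l * (p + 2 * v) = l * p + l * v + l * v := by ring
  have hJ := h.trip.1
  have hL : l * p + l * v + l * v ≤ L := by
    rw [← hQ]
    exact (Nat.mul_le_mul_left l hJ).trans h.lo
  have hV : n + 1 ≤ l * v := h.l_big.trans (Nat.le_mul_of_pos_right l h.v_pos)
  have hs : ∀ ω, D.p ω ≠ 0 → D.Sup L ω := fun ω hω => h.ok.sup hω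
  have hX := le_XX (n := n) (l := l) (J := J) (v := v) h.ok.one_le h.τ_pos h.ε_nonneg
  have he := er_nonneg (n := n) (l := l) (J := J) h.ok.one_le
  have hε := h.ε_nonneg
  have h0 : 0 ≤ ε * v * l := by positivity
  have h1 : 0 ≤ ζ * (l * v : ℕ) := by positivity
  have hl : (0 : ℝ) ≤ l := by positivity
  have hCE := CE_nonneg (n + 1)
  have hlog := log_two_le_one
  have hlog' := half_le_log_two
  rw [hR, hQ] at c2
  have c3 := OFG2X.low e1 e3 ev lg D h.ok.isP hs hL hK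
  have c4 := h.trip.2 (p + v) (Or.inr (Or.inl rfl)) (p + 2 * v) (by omega) hJ
  refine fin' e1 e3 la lg fi D (Φ := l * ((F (p + 2 * v) : ℝ) - F (p + v)) * log 2) h.ok hL hV
    hK V h.τ_pos h.τ_le h.σ_nonneg hσ hρ hρ1 hρ2 (by linarith) h.s_nonneg (by linarith)
    (by linarith) (fun ω hω S hS => ?_) ?_ ?_
  · have a1 := rd.cnt D l J (p + v) (p + 2 * v) F ω h.ok.b_nonneg h.typed (by omega) hJ hω
    rw [hR, hQ] at a1
    refine (a1 S hS).trans ?_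
    rw [two_rpow_eq]
    refine exp_le_exp.2 ?_
    have a2 : l * log 2 ≤ l := mul_le_of_le_one_right hl hlog
    linarith
  · have a1 : l * (Gs σ F (p + 2 * v) - Gs σ F (p + v)) * log 2
        = l * ((F (p + 2 * v) : ℝ) - F (p + v)) * log 2 - σ * (l * v : ℕ) * log 2 := by
      unfold Gs
      push_cast
      ring
    linarith
  · unfold Gs at c4
    push_cast at c4
    have a1 : l * ((σ + τ) * v - ε * v) * log 2 ≤ l * ((F (p + 2 * v) : ℝ) - F (p + v)) * log 2 := by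
      refine mul_le_mul_of_nonneg_right (mul_le_mul_of_nonneg_left ?_ hl) (by linarith)
      linarith
    have a2 : ε * v * l * log 2 ≤ ε * v * l := mul_le_of_le_one_right h0 hlog
    have a3 : l * ((σ + τ) * v - ε * v) * log 2
        = (σ + τ) * (l * v : ℕ) * log 2 - ε * v * l * log 2 := by
      push_cast
      ring
    linarith


open OFX in
theorem fS' (e1 : EL1) (e2 : EL2) (rd : Red) (tr : TripStmt) (sp : SPStmt) (f1 : FG1Stmt)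
    (f2 : FG2S) : FS := by
  intro n m τ hmn hτ hτ2
  have _e := e1
  obtain ⟨c, hc⟩ : ∃ c : ℝ, c = τ / (4 * (m + 1)) := ⟨_, rfl⟩
  have hc0 : 0 < c := by rw [hc]; positivity
  have hl2 : 0 < log 2 := log_pos one_lt_two
  obtain ⟨δ, hδ⟩ : ∃ δ : ℝ, δ = c ^ 2 * τ * log 2 / 16 := ⟨_, rfl⟩
  have hδ0 : 0 < δ := by rw [hδ]; positivity
  obtain ⟨ζ, hζ0, hζ1, hζ2⟩ : ∃ ζ : ℝ, 0 < ζ ∧ ζ ≤ τ / 4 ∧ ζ ≤ δ / 10 :=
    ⟨min (τ / 4) (δ / 10), by positivity, min_le_left _ _, min_le_right _ _⟩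
  obtain ⟨a₁, v₀, ha₁, hsp⟩ := sp n τ ζ hτ (by linarith) hζ0
  obtain ⟨a₂, ha₂, ha₂1, ha₂2⟩ : ∃ a : ℝ, 0 < a ∧ a ≤ a₁ / 100 ∧ a ≤ δ / 20 :=
    ⟨min (a₁ / 100) (δ / 20), by positivity, min_le_left _ _, min_le_right _ _⟩
  obtain ⟨A, hA⟩ : ∃ A : ℝ, A = 10 * n / τ + 100 := ⟨_, rfl⟩
  have hA0 : 0 < A := by rw [hA]; positivity
  obtain ⟨ε, hε0, hε⟩ : ∃ ε : ℝ, 0 < ε ∧ A * (2 * ε) = a₂ :=
    ⟨a₂ / (2 * A), by positivity, by field_simp⟩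
  obtain ⟨c₁, J₀, hc₁, htr⟩ := tr (2 * n + 3) τ ε (by positivity) hτ hε0
  obtain ⟨J₁, hJ₁⟩ := exists_nat_ge (9 * ((n : ℝ) + 2) / (ε * c₁))
  obtain ⟨J, hJ0, hJ1, hJ2⟩ : ∃ J : ℕ, J₀ ≤ J ∧ 1 ≤ J ∧ 9 * ((n : ℝ) + 2) ≤ ε * c₁ * J := by
    refine ⟨J₀ + J₁ + 1, by omega, by omega, ?_⟩
    rw [div_le_iff₀' (by positivity)] at hJ₁
    refine hJ₁.trans (mul_le_mul_of_nonneg_left ?_ (by positivity))
    exact_mod_cast (by omega : J₁ ≤ J₀ + J₁ + 1)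
  have hJr : (1 : ℝ) ≤ J := by exact_mod_cast hJ1
  obtain ⟨K, hK⟩ : ∃ K : ℝ, K = 4 * ((n : ℝ) + 4) ^ J := ⟨_, rfl⟩
  have hn0 : (0 : ℝ) ≤ n := by positivity
  have hK1 : 1 ≤ K := by
    have := one_le_pow₀ (show (1 : ℝ) ≤ n + 4 by linarith) (n := J)
    linarith
  obtain ⟨e, he0, he1, he2, he3, he4, he5⟩ : ∃ e : ℝ, 0 < e ∧ e ≤ 1 / (4 * J) ∧ e ≤ ε * c₁ / 6 ∧
      e ≤ c ^ 2 / (4 * K) ∧ e ≤ δ * c₁ / (4 * (n + 1)) ∧ e ≤ c₁ / 4 :=
    ⟨min (1 / (4 * J)) (min (ε * c₁ / 6) (min (c ^ 2 / (4 * K))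
      (min (δ * c₁ / (4 * (n + 1))) (c₁ / 4)))), by positivity, min_le_left _ _,
      (min_le_right _ _).trans (min_le_left _ _),
      (min_le_right _ _).trans ((min_le_right _ _).trans (min_le_left _ _)),
      (min_le_right _ _).trans ((min_le_right _ _).trans
        ((min_le_right _ _).trans (min_le_left _ _))),
      (min_le_right _ _).trans ((min_le_right _ _).trans
        ((min_le_right _ _).trans (min_le_right _ _)))⟩
  rw [le_div_iff₀ (by positivity)] at he1 he3 he4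
  have hCE := CE_nonneg (n + 1)
  obtain ⟨C₀, hC₀⟩ : ∃ C : ℝ, C = log (2 * K) + log (J + 1) + 20 * CE (n + 1) + (n + 2) * J :=
    ⟨_, rfl⟩
  have hC0 : 0 ≤ C₀ := by
    have h1 := log_nonneg (show 1 ≤ 2 * K by linarith)
    have h2 := log_nonneg (show (1 : ℝ) ≤ J + 1 by linarith)
    rw [hC₀]
    positivity
  obtain ⟨R, hR1, hR2, hR3, hR4⟩ : ∃ R : ℝ, 8 * ((n : ℝ) + 1) ≤ R ∧ (v₀ : ℝ) ≤ R ∧
      3 * C₀ ≤ ε * R ∧ 2 * ((n + 1) + 10 * CE (n + 1)) ≤ δ * R := by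
    have h1 : 0 ≤ 3 * C₀ / ε := by positivity
    have h2 : 0 ≤ 2 * ((n + 1) + 10 * CE (n + 1)) / δ := by positivity
    have h3 : (0 : ℝ) ≤ v₀ := by positivity
    refine ⟨8 * (n + 1) + v₀ + 3 * C₀ / ε + 2 * ((n + 1) + 10 * CE (n + 1)) / δ, by linarith,
      by linarith, ?_, ?_⟩
    · rw [← div_le_iff₀' hε0]; linarith
    · rw [← div_le_iff₀' hδ0]; linarith
  have hR0 : 0 < R := by linarith
  obtain ⟨l₀, hl₀⟩ := exists_nat_ge ((n + 1) + 8 * (exp (CE (n + 1)) + J) + R / c₁)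
  refine ⟨e, l₀ * J, he0, fun {Ω} _ D L σ t M ρ s₀ hL hσ0 hσ ht hM hρ hρ1 hs0 hs hD => ?_⟩
  obtain ⟨l, hl⟩ : ∃ l, l = L / J := ⟨_, rfl⟩
  have hll : l₀ ≤ l := by rw [hl]; exact (Nat.le_div_iff_mul_le hJ1).2 hL
  have hlo : l * J ≤ L := by rw [hl]; exact Nat.div_mul_le_self L J
  have hhi : L ≤ l * J + J := by rw [hl]; exact (Nat.lt_div_mul_add hJ1).le
  have hlr : (l₀ : ℝ) ≤ l := by exact_mod_cast hll
  have hq1 : 0 < R / c₁ := by positivity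
  have hq2 : 0 < exp (CE (n + 1)) + J := by positivity
  have hl1 : (n : ℝ) + 1 ≤ l := by linarith only [hl₀, hlr, hq1, hq2]
  have hl2' : 8 * (exp (CE (n + 1)) + J) ≤ l := by linarith only [hl₀, hlr, hq1, hn0]
  have hl3 : R ≤ c₁ * l := by
    rw [← div_le_iff₀' hc₁]; linarith only [hl₀, hlr, hq2, hn0]
  have hl0 : (0 : ℝ) ≤ l := by positivity
  have hL2 : (L : ℝ) ≤ 2 * (l * J) := by
    have h1 : (L : ℝ) ≤ l * J + J := by exact_mod_cast hhi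
    have h2 : (J : ℝ) ≤ l * J := le_mul_of_one_le_left (by positivity) (by linarith only [hl1, hn0])
    linarith only [h1, h2]
  have heL : e * L ≤ 2 * (e * (l * J)) := by
    linarith only [mul_le_mul_of_nonneg_left hL2 he0.le]
  have heL0 : 0 ≤ e * L := by positivity
  have hσn : σ ≤ n := by
    have h1 : (m : ℝ) + 1 ≤ n := by exact_mod_cast hmn
    linarith only [h1, hσ, hτ]
  have hM1 := hD.one_le
  obtain ⟨F, hF, hFt, hP⟩ := rd.typ D m L l J σ t M ρ s₀ hD hlo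
    (typ_num hq2.le hM (by linarith only [mul_le_mul_of_nonneg_right he1 hl0, heL]) hl2')
  have hG : ∀ j ≤ J, 2 * τ * j - 2 ≤ Gs σ F j := fun j hj => by
    have h1 := hFt j hj
    have h2 := mul_le_mul_of_nonneg_right ht (show (0 : ℝ) ≤ j by positivity)
    unfold Gs
    linarith only [h1, h2]
  obtain ⟨p, v, hv, hT⟩ := htr J hJ0 (Gs σ F) (gs_step hF hσ0 hσn) (by
    have h1 : (F 0 : ℝ) ≤ 1 := by exact_mod_cast hF.1
    unfold Gs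
    push_cast
    linarith only [h1]) hG
  have hv1 : 1 ≤ v := by
    have h1 : (0 : ℝ) < v := lt_of_lt_of_le (by positivity) hv
    exact_mod_cast h1
  rw [← hK] at hP
  have hS : (D.restrict fun ω => D.Y ω ∈ D.Xs l J F).Stg m L l J p v σ t (K * M) ρ (K * s₀) τ ε
      F :=
    { ok := rd.restrict D m L σ t M ρ s₀ K _ hD hK1 hs0 hP
      typed := fun ω hω =>
        (e2.cnd_ne (p := D.p) (E := fun ω => D.Y ω ∈ D.Xs l J F) (ω := ω) hω).2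
      n_pos := by omega
      l_big := by exact_mod_cast hl1
      lo := hlo
      hi := hhi
      σ_nonneg := hσ0
      σ_le := hσn
      τ_pos := hτ
      τ_le := hτ2
      ε_nonneg := hε0.le
      s_nonneg := by positivity
      G_low := fun j hj => le_trans (by
        have : 0 ≤ 2 * τ * j := by positivity
        linarith only [this]) (hG j hj)
      trip := hT
      v_pos := hv1 }
  obtain ⟨V, hV⟩ : ∃ V : ℝ, V = ((l * v : ℕ) : ℝ) := ⟨_, rfl⟩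
  have hVe : V = v * l := by rw [hV]; push_cast; ring
  have hV1 : c₁ * (l * J) ≤ V := by
    have := mul_le_mul_of_nonneg_right hv hl0
    rw [hVe]
    linarith only [this]
  have hV2 : R ≤ V := by
    have : c₁ * l ≤ c₁ * (l * J) :=
      mul_le_mul_of_nonneg_left (le_mul_of_one_le_right hl0 hJr) hc₁.le
    exact hl3.trans (this.trans hV1)
  have hlJ : (0 : ℝ) ≤ l * J := by positivity
  have her := er_num hK1 hM1 hM heL0 heL he2 hJ2 hε0 hV1 hV2 hC₀ hR3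
  have hXX : XX n l J v (2 * (K * M)) τ ε ≤ a₂ * V := by
    unfold XX
    rw [← hA, ← hε, mul_assoc ε, ← hVe, mul_assoc A]
    exact mul_le_mul_of_nonneg_left (by linarith only [her]) hA0.le
  have hV0 : 0 < V := hR0.trans_le hV2
  obtain ⟨E, hS2, hOK⟩ := f1 _ m L l J p v σ t (K * M) ρ (K * s₀) τ ε (a₁ * V) F hS (by
    linarith only [mul_le_mul_of_nonneg_right ha₂1 hV0.le, hXX])
  rw [hV] at hOK
  obtain ⟨hk, W, w1, w2, w3⟩ := hsp _ σ (by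
    have h1 : (v₀ : ℝ) ≤ ((l * v : ℕ) : ℝ) := hV ▸ hR2.trans hV2
    exact_mod_cast h1) hσ0 hOK
  have hρ' : (2 : ℝ) ^ (-(e * L)) ≤ ρ := by rwa [neg_mul] at hρ
  have hρ0 : 0 < ρ := lt_of_lt_of_le (by positivity) hρ'
  have h7 := mul_le_mul_of_nonneg_right he5 hlJ
  have key := f2 _ m L l J p v σ t _ ρ _ τ ε ζ F W hS2 hσ hρ0 hρ1
    (rho_num hρ' (by rw [← hV]; linarith only [h7, heL, hV1]) (hV ▸ hR1.trans hV2)) hζ0.le hζ1 hk w1 w2 w3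
  rw [← hc, ← hV] at key
  exact fin_num key hδ hδ0 hτ hV0 (by linarith only [hK1]) hs he3 hζ2 hXX ha₂2
    (log_rho hρ' heL0) hn0 heL he4 hlJ hV1 hV2 hR4

theorem s1S (hd : S1dStmt) (he : S1eStmt) : S1Stmt := by
  intro τ γ hτ hγ
  obtain ⟨N, h, ξ, v₀, hξ, H⟩ := hd τ (γ / 2) hτ (half_pos hγ)
  refine ⟨N, h, ξ, max v₀ ⌈2 / γ⌉₊, hξ, fun v hv Ω _ lam x hl h1 h2 => ?_⟩
  obtain ⟨lv, hlv⟩ := H v (le_of_max_le_left hv) lam x hl h1 h2
  refine ⟨fun b => Fin.cases 0 (lv b.1) b.2, ?_⟩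
  have h3 := (he lam x (fun b => Fin.cases 0 (lv b.1) b.2) hl).2
  simp only [Fin.cases_succ] at h3
  have h4 : 2 / γ ≤ v := (Nat.le_ceil _).trans (by exact_mod_cast le_of_max_le_right hv)
  rw [div_le_iff₀ hγ] at h4
  have h5 := log_pos (show (1 : ℝ) < 2 by norm_num)
  nlinarith

theorem el2' : EL2 := el2 el1
theorem el3' : EL3 := el3 el1 el2'
theorem eV' : EV := eV el1 el2' el3'
theorem costR' : CostR := costR el1 el2' el3' eV' (scaleS el1 el2' el3' eV')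
theorem sP1' : SP1Stmt := sP1 el1 el2' el3' eV' lA
theorem sP2' : SP2Stmt := sP2 el1 el2' el3' sP1'
theorem s1' : S1Stmt := s1S
  (s1d el1 el2' el3' s1a (s1b el1 el2' el3' eV') (s1c el1 el2' el3')) (s1e el1 el2' el3')
theorem sP' : SPStmt := sP el1 sP1' (sP4 el1 el2' el3' eV' s1' sP1' sP2')
  (sP5 el1 el2' el3' eV' lA costR'
    (s2S el1 el2' el3' eV' costR' (s2a el1 el2' el3' eV') (s2b el1 el2' el3' eV' lA)) sP1' sP2'
    (sP3 el1 el2' el3' eV' costR' (cP costR') (gC el1 el2' el3' eV') sP1' sP2'))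
theorem red' : Red := red el1 el2'
theorem kauC' : KauC := kauC el1 el2' (kau el1 el2' red')
theorem ch' : ChStmt := ch el1 el2' eV' kauC' locG
theorem fS0 : FS := fS' el1 el2' red' tripS sP'
  (fG1 el1 el2' red' locG (nf el1 el2' eV' red' kauC' locG ch') (gd el1 el2' eV' kauC' locG ch'))
  (fG2' el1 el2' el3' eV' lA red' locG ch' (finS' el1 el2' el3' eV' lA))

theorem one2' : One2Stmt := one2 el1 el2' lA

end Vale.Agent.P127.FurX
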