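import Vale.Agent.P127.Num

/-! Sticky Kakeya sets in four dimensions: the induction on the grain dimension. -/

namespace Vale.Agent.P127

open Vale.Agent.P118
open Real Classical Module

theorem co_lat {r : ℕ} (k : Fin r) (N : ℕ) (x : Eu r) (h : flo N x = x) (h' : InC x) :
    flo N (co k x) = co k x ∧ InC (co k x) := by
  refine ⟨?_, fun _ => h' k⟩
  ext j
  exact congrArg (fun y : Eu r => y k) h

theorem lb3 (ch1 : SCh1) (ch2 : SCh2) (lip : SLip) (k1 : SK1) (k2 : SK2) (afc : SAfc)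
    (af1 : SAf1) (af2 : SAf2) (dc : SDc) (com : SCom) (q1 : SQ1) (q2 : SQ2) (ng1 : SNg1)
    (ng0 : SNg0) (ngm : SNgm) (lb : SLb) : LB 3 0 := by
  refine lb 3 fun σ hc => ?_
  have n3 : NG 3 σ 3 := ngm 3 σ hc
  have n2 : NG 3 σ 2 := by
    obtain ⟨ch, hP, hcov⟩ := ch2
    refine ng1 3 σ hc ch hcov (fun j => ?_) n3
    have hl := lip 3 σ hc (ch j) n3
    obtain ⟨η, h0, h1, hq⟩ := af2 (ch j) σ fun k => by
      obtain ⟨η, h0, -, hq⟩ := afc 3 σ hc (ch j) (co k) le_rfl (co_lat k) hl (k2 σ hc _ (hP j) hl k)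
      exact ⟨η, h0, hq⟩
    have ha := af1 (ch j) σ η h0 h1 hl hq
    have hd := dc 3 σ hc (ch j) n3
    exact q2 σ hc _ (hP j) _ (half_pos h0) (by linarith) ha hd
      (com 3 σ hc _ _ (half_pos h0) (by linarith) ha hd)
  have n1 : NG 3 σ 1 := by
    obtain ⟨ch, hQ, hcov⟩ := ch1
    refine ng1 3 σ hc ch hcov (fun j => ?_) n2
    have hl := lip 3 σ hc (ch j) n2
    obtain ⟨η, h0, h1, hq⟩ := afc 3 σ hc (ch j) id one_le_two (fun _ _ h h' => ⟨h, h'⟩) hl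
      (k1 3 σ hc _ (hQ j) hl)
    exact q1 3 σ hc _ (hQ j) (com 3 σ hc _ _ (half_pos h0) (by linarith)
      (af1 (ch j) σ η h0 h1 hl hq) (dc 3 σ hc (ch j) n2))
  exact ng0 3 σ hc n1

end Vale.Agent.P127
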