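import Vale.Agent.P127.Num

/-! Sticky Kakeya sets in four dimensions: the slope entropy when the grains are lines. -/

namespace Vale.Agent.P127

open Vale.Agent.P118
open scoped RealInnerProductSpace
open Real Classical Module

namespace K1X

variable {Ω Tt Θ : Type} [Fintype Ω] {m p L : ℕ} {D : Cf Ω Tt Θ m} {ch : Chart m p 1 p}
  {F : Ω → Eu p} {s b : ℕ} {E : ℝ}

theorem isP2 (h : D.OK L E) : IsP (D.p2 ch F s) := e3.isP_res _ h.isP

theorem isP4 (h : D.OK L E) : IsP (D.p4 ch F s) := e3.isP_res _ (isP2 h)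

theorem mp1 (T : Tools) (h : D.OK L E) : MP (D.p4 ch F s) (fun z => z.1.2) D.p :=
  T.t1.mp_comp (T.t1.mp_fst (D.G2 F s) (isP2 h)) (T.t1.mp_snd (D.G1 ch F s) h.isP)

theorem mp2 (T : Tools) (h : D.OK L E) : MP (D.p4 ch F s) (fun z => z.2.2) D.p :=
  T.t1.mp_comp (T.t1.mp_snd (D.G2 F s) (isP2 h)) (T.t1.mp_snd (D.G1 ch F s) h.isP)

theorem sup2 (h : D.OK L E) (hF : Det D.p D.c F) {z : Ω × Ω} (hz : D.p2 ch F s z ≠ 0) :
    D.p z.2 ≠ 0 ∧ D.Wd F s z.1 = D.Wd F s z.2 := by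
  obtain ⟨h1, h2, h3⟩ := e3.res_ne (p := D.p) (g := D.G1 ch F s) hz
  exact ⟨h2, h.det_Wd hF s _ _ h1 h2 (congrArg (fun u => u.2.1) h3)⟩

theorem sup4 (h : D.OK L E) (hF : Det D.p D.c F) {z : (Ω × Ω) × Ω × Ω}
    (hz : D.p4 ch F s z ≠ 0) : D.p z.1.2 ≠ 0 ∧ D.Wd F s z.1.1 = D.Wd F s z.1.2 ∧
      D.Wd F s z.2.2 = D.Wd F s z.1.2 ∧ D.ln s z.2.2 = D.ln s z.1.2 := by
  obtain ⟨h1, h2, h3⟩ := e3.res_ne (p := D.p2 ch F s) (g := D.G2 F s) hz
  obtain ⟨h4, h5⟩ := sup2 h hF h1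
  have h6 : D.Wd F s z.1.1 = D.Wd F s z.2.1 := congrArg (fun u => u.2.1) h3
  have h7 : D.ln s z.1.2 = D.ln s z.2.2 := congrArg (fun u => u.2.2) h3
  exact ⟨h4, h5, by rw [← (sup2 h hF h2).2, ← h6, h5], h7.symm⟩

theorem time (h : D.OK L E) (hF : Det D.p D.c F) :
    2 * Hc (D.p2 ch F s) (fun z => D.tb s z.2) (D.G2 F s) ≤
      Hc (D.p4 ch F s) (fun z => (D.tb s z.1.2, D.tb s z.2.2)) fun z => D.Wd F s z.1.2 := by
  have h1 := e3.res_pair (D.G2 F s) (fun z => D.tb s z.2) (fun z => D.tb s z.2)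
    (isP2 (ch := ch) (F := F) (s := s) h)
  have h2 : Hc (D.p4 ch F s) (fun z => (D.tb s z.1.2, D.tb s z.2.2)) (fun z => D.G2 F s z.1) ≤
      Hc (D.p4 ch F s) (fun z => (D.tb s z.1.2, D.tb s z.2.2)) fun z => D.Wd F s z.1.2 := by
    refine e1.hc_mono (isP4 h) (fun x y hx hy e => ?_) (Det.fst _ _ _)
    have h3 : D.Wd F s x.1.1 = D.Wd F s y.1.1 := congrArg (fun u => u.2.1) e
    show D.Wd F s x.1.2 = D.Wd F s y.1.2
    rw [← (sup4 h hF hx).2.1, h3, (sup4 h hF hy).2.1]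
  have h3 : Hc (D.p4 ch F s) (fun z => (D.tb s z.1.2, D.tb s z.2.2)) (fun z => D.G2 F s z.1) =
    _ := h1
  linarith

theorem sep (T : Tools) (h : D.OK L E) (hb : b ≤ s) {e : ℝ}
    (ha : s * log 2 - e ≤ Hc (D.p2 ch F s) (fun z => D.tb s z.2) (D.G2 F s)) :
    Pr (D.p4 ch F s) (fun z => |D.tb s z.2.2 - D.tb s z.1.2| ≤ 2⁻¹ ^ b) * (b * log 2) ≤
      e + 10 := by
  have hp := isP2 (ch := ch) (F := F) (s := s) h
  have h1 : Hc (D.p4 ch F s) (fun z => fl s (D.tb s z.2.2)) (fun z => z.1) = _ :=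
    (T.t1.ci0 (D.G2 F s) (fun z => fl s (D.tb s z.2)) (fun z => z) hp
      fun _ _ _ _ e => congrArg (D.G2 F s) e).1
  have h2 : Hc (D.p2 ch F s) (fun z => D.tb s z.2) (D.G2 F s) ≤
      Hc (D.p2 ch F s) (fun z => fl s (D.tb s z.2)) (D.G2 F s) := by
    refine e1.hc_mono hp (Det.refl _ _) fun x y _ _ e => ?_
    have h3 : fl s (D.tb s x.2) = fl s (D.tb s y.2) := (Prod.ext_iff.1 e).1
    exact (D.tb_lat F s x.2).1.symm.trans (by rw [h3]; exact (D.tb_lat F s y.2).1)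
  have h4 : ∀ z : (Ω × Ω) × Ω × Ω, |D.tb s z.2.2 - D.tb s z.1.2| ≤ 2⁻¹ ^ 0 := fun z => by
    obtain ⟨-, h4, h5, -⟩ := D.tb_lat F s z.1.2
    obtain ⟨-, h6, h7, -⟩ := D.tb_lat F s z.2.2
    rw [pow_zero, abs_le]; constructor <;> linarith
  have h5 : ((s : ℝ) - (0 : ℕ)) * log 2 - e ≤
      Hc (D.p4 ch F s) (fun z => fl s (D.tb s z.2.2)) fun z => z.1 := by
    rw [h1, Nat.cast_zero, sub_zero]; exact ha.trans h2
  have h3 := T.t2.tsep (p := D.p4 ch F s) (fun z => D.tb s z.1.2) (fun z => D.tb s z.2.2)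
    (fun z => z.1) s 0 b e (isP4 h) (by omega)
    (fun x y _ _ (e : x.1 = y.1) => by simp only [e]) (fun z _ => h4 z) h5
  rwa [zero_add] at h3

/-- the direction of the common line is free given the two other lines -/
theorem dirn (T : Tools) (h : D.OK L E) (hF : Det D.p D.c F) :
    Hc D.p (fun ω => flo s (D.v ω)) (D.G1 ch F s) +
      Hc (D.p2 ch F s) (fun z => D.ln (s + s) z.2) (D.G2 F s) ≤
    Hc (D.p4 ch F s) (fun z => flo s (D.v z.1.1)) (D.U4 s) +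
      Hc (D.p4 ch F s) (fun z => D.KK ch F s z.2.2) (fun z => (D.c z.1.2, D.ln (s + s) z.1.2)) +
      Hc D.p (D.ln (s + s)) fun ω => (D.ln s ω, D.KK ch F s ω) := by
  have hp2 := isP2 (ch := ch) (F := F) (s := s) h
  have hp := isP4 (ch := ch) (F := F) (s := s) h
  have h1 := e1.symm (fun z => flo s (D.v z.1.1)) (fun z => D.ln (s + s) z.2.2)
    (fun z => (D.c z.1.2, D.ln (s + s) z.1.2)) hp
  have h2 : Hc (D.p4 ch F s) (fun z => flo s (D.v z.1.1))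
      (fun z => (D.ln (s + s) z.2.2, D.c z.1.2, D.ln (s + s) z.1.2)) ≤
      Hc (D.p4 ch F s) (fun z => flo s (D.v z.1.1)) (D.U4 s) :=
    e1.hc_mono hp (fun _ _ _ _ e => congrArg (fun u => (u.2.1, u.2.2, u.1)) e) (Det.fst _ _ _)
  have h3 : Hc (D.p4 ch F s) (fun z => flo s (D.v z.1.1))
      (fun z => (D.c z.1.2, D.ln (s + s) z.1.2)) = _ :=
    T.t1.mp (fun z : Ω × Ω => flo s (D.v z.1)) (fun z => (D.c z.2, D.ln (s + s) z.2))
      (T.t1.mp_fst (D.G2 F s) hp2)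
  have h4 : _ ≤ Hc (D.p2 ch F s) (fun z => flo s (D.v z.1))
      (fun z => (D.c z.2, D.ln (s + s) z.2)) :=
    (T.t1.ci_le (D.G1 ch F s) (fun ω => flo s (D.v ω)) _ h.isP).2
      fun x y _ _ (e : x.2 = y.2) => by simp only [e]
  have h5 : _ ≤ Hc (D.p4 ch F s) (fun z => D.ln (s + s) z.2.2)
      (fun z => (flo s (D.v z.1.1), D.c z.1.2, D.ln (s + s) z.1.2)) :=
    (T.t1.ci_le (D.G2 F s) (fun z => D.ln (s + s) z.2) _ hp2).1
      fun x y _ _ (e : x.1 = y.1) => by simp only [e]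
  have h6 := e1.tri (fun z => D.ln (s + s) z.2.2) (fun z => D.KK ch F s z.2.2)
    (fun z => (D.c z.1.2, D.ln (s + s) z.1.2)) hp
  have h7 : Hc (D.p4 ch F s) (fun z => D.ln (s + s) z.2.2)
      (fun z => (D.KK ch F s z.2.2, D.c z.1.2, D.ln (s + s) z.1.2)) ≤
      Hc (D.p4 ch F s) (fun z => D.ln (s + s) z.2.2)
        fun z => (D.ln s z.2.2, D.KK ch F s z.2.2) := by
    refine e1.hc_mono hp (fun x y hx hy e => ?_) (Det.fst _ _ _)
    obtain ⟨h8, h9⟩ := Prod.ext_iff.1 e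
    obtain ⟨h10, h11⟩ := Prod.ext_iff.1 (Prod.ext_iff.1 h9).2
    refine Prod.ext ?_ h8
    show D.ln s x.2.2 = D.ln s y.2.2
    rw [(sup4 h hF hx).2.2.2, (sup4 h hF hy).2.2.2]
    exact Prod.ext (flo_of_flo (Nat.le_add_right s s) h10) (flo_of_flo (Nat.le_add_right s s) h11)
  have h8 := T.t1.mp (D.ln (s + s)) (fun ω => (D.ln s ω, D.KK ch F s ω))
    (mp2 (ch := ch) (F := F) (s := s) T h)
  linarith

theorem slope (T : Tools) (h : D.OK L E) (hF : Det D.p D.c F) :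
    Hc (D.p4 ch F s) (fun z => slp s b (D.tb s z.1.2) (D.tb s z.2.2) (zm s s (F z.1.2))
        (zm s s (F z.2.2))) (fun z => ((D.tb s z.1.2, zm s s (F z.1.2)), D.Wd F s z.1.2)) +
      Hc (D.p4 ch F s) (fun z => flo s (D.v z.1.1)) (D.U4 s) ≤
    Hc D.p (fun ω => (D.tb s ω, zm s s (F ω))) (D.Wd F s) +
      Hc (D.p4 ch F s) (fun z => slp s b (D.tb s z.1.2) (D.tb s z.2.2) (zm s s (F z.1.2))
        (zm s s (F z.2.2))) (D.U4 s) +
      Hc (D.p4 ch F s) (fun z => flo s (D.v z.1.1)) fun z => (D.tb s z.2.2, D.U4 s z) := by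
  have hp := isP4 (ch := ch) (F := F) (s := s) h
  obtain ⟨S, hS⟩ : ∃ S : (Ω × Ω) × Ω × Ω → Eu p, S = fun z => slp s b (D.tb s z.1.2)
    (D.tb s z.2.2) (zm s s (F z.1.2)) (zm s s (F z.2.2)) := ⟨_, rfl⟩
  rw [← hS]
  have h1 := e1.chain S (fun z => D.tb s z.2.2)
    (fun z => ((D.tb s z.1.2, zm s s (F z.1.2)), D.Wd F s z.1.2)) hp
  have h2 : Hc (D.p4 ch F s) (fun z => (S z, D.tb s z.2.2))
      (fun z => ((D.tb s z.1.2, zm s s (F z.1.2)), D.Wd F s z.1.2)) ≤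
      Hc (D.p4 ch F s) (fun z => (D.tb s z.2.2, zm s s (F z.2.2))) fun z => D.Wd F s z.2.2 := by
    refine e1.hc_mono hp (fun x y hx hy e => ?_) fun x y _ _ e => ?_
    · show D.Wd F s x.2.2 = D.Wd F s y.2.2
      rw [(sup4 h hF hx).2.2.1, (sup4 h hF hy).2.2.1]
      exact (Prod.ext_iff.1 e).2
    · simp only [Prod.mk.injEq] at e
      obtain ⟨⟨h3, h4⟩, ⟨h5, h6⟩, -⟩ := e
      simp only [hS, h3, h4, h5, h6]
  have h3 := T.t1.mp (fun ω => (D.tb s ω, zm s s (F ω))) (D.Wd F s)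
    (mp2 (ch := ch) (F := F) (s := s) T h)
  have h4 : Hc (D.p4 ch F s) (fun z => D.tb s z.2.2) (fun z => (S z, D.U4 s z)) ≤
      Hc (D.p4 ch F s) (fun z => D.tb s z.2.2)
        fun z => (S z, (D.tb s z.1.2, zm s s (F z.1.2)), D.Wd F s z.1.2) := by
    refine e1.hc_mono hp (fun x y hx hy e => ?_) (Det.fst _ _ _)
    obtain ⟨h5, h6⟩ := Prod.ext_iff.1 e
    have h7 : D.c x.1.2 = D.c y.1.2 := (Prod.ext_iff.1 h6).1
    have h8 := (sup4 h hF hx).1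
    have h9 := (sup4 h hF hy).1
    refine Prod.ext h5 (Prod.ext (Prod.ext (h.det_tb s _ _ h8 h9 h7) ?_)
      (h.det_Wd hF s _ _ h8 h9 h7))
    exact congrArg (zm s s) (hF _ _ h8 h9 h7)
  have h5 := e1.tri (fun z => D.tb s z.2.2) S (D.U4 s) hp
  have h6 := e1.tri (fun z => flo s (D.v z.1.1)) (fun z => D.tb s z.2.2) (D.U4 s) hp
  linarith

end K1X

theorem sK1 (T : Tools) (B : Base) (tb : STb) (a : SK1a) (b : SK1b) (c : SK1c) : SK1 := by
  have _ := B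
  intro m σ hc p ch hQ hL κ ζ hκ hζ
  have hz : 0 < ζ / 10 := by positivity
  obtain ⟨e, he, hc'⟩ := ef_use1 (c ch σ hQ _ hz)
  obtain ⟨u, hu, hu1, hu2, hu3⟩ : ∃ u : ℝ, 0 < u ∧ u ≤ e ∧ u ≤ e * κ / 4 ∧ u ≤ ζ / 10 :=
    ⟨min e (min (e * κ / 4) (ζ / 10)), by positivity, min_le_left _ _,
      (min_le_right _ _).trans (min_le_left _ _), (min_le_right _ _).trans (min_le_right _ _)⟩
  filter_upwards [hc', a m σ hc ch hL κ u hκ hu, b m σ hc ch hL κ _ hκ hz, tb ch σ hL _ hz,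
    ef_small he, ef_const 10 (show 0 < e * κ / 4 by positivity)]
    with x h1 h2 h3 h4 h5 h6 Ω Tt Θ _ D Q F hP s k hk hks hs
  have hO := hP.ok
  have hL0 : (0 : ℝ) ≤ x.2 := by positivity
  have hk0 : (0 : ℝ) ≤ k := by positivity
  obtain ⟨a1, a2, a3⟩ := h2 D Q F hP s k hk hks hs
  obtain ⟨b1, b2⟩ := h3 D Q F hP s k hk hks hs
  obtain ⟨-, -, t3⟩ := h4 D Q F hP s hs
  have v1 := mul_le_mul_of_nonneg_right hu1 hL0
  have v2 := mul_le_mul_of_nonneg_right hu2 hL0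
  have v3 := mul_le_mul_of_nonneg_right hu3 hL0
  have s1 := K1X.sep T hO hks a1
  have s2 : Pr (D.p4 ch F s) (fun z => |D.tb s z.2.2 - D.tb s z.1.2| ≤ 2⁻¹ ^ k) * x.2 ≤
      e * x.2 := by
    have s3 := e1.pr_nonneg (fun z => |D.tb s z.2.2 - D.tb s z.1.2| ≤ 2⁻¹ ^ k)
      (K1X.isP4 (ch := ch) (F := F) (s := s) hO)
    have s4 : κ * x.2 / 2 ≤ k * log 2 := by
      linarith [mul_le_mul_of_nonneg_left half_le_log_two hk0]
    have s5 := mul_le_mul_of_nonneg_left s4 s3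
    refine le_of_mul_le_mul_left ?_ hκ
    linarith
  obtain ⟨c1, c2, c3⟩ := h1 _ le_rfl D Q F (hP.mono h5) s k hks hs (a3.trans v1) s2
  refine ⟨_, inferInstance, D.p4 ch F s, fun z => z.1.2, fun z => z.2.2, K1X.mp1 T hO,
    K1X.mp2 T hO, fun z hz => (K1X.sup4 hO hP.det hz).2.2.1, ?_, ?_⟩
  · have := K1X.time (ch := ch) (s := s) hO hP.det
    have h7 := mul_nonneg hζ.le hL0
    linarith
  · have d1 := K1X.dirn (ch := ch) (s := s) T hO hP.det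
    have d2 := K1X.slope (ch := ch) (s := s) (b := k) T hO hP.det
    have hm : (m : ℝ) = p + 1 := by exact_mod_cast ch.dim
    have h7 := mul_nonneg hζ.le hL0
    have h8 := mul_le_mul_of_nonneg_left log_two_le_one hk0
    have h9 := mul_le_mul_of_nonneg_left h8 (show (0 : ℝ) ≤ p by positivity)
    have h10 : (0 : ℝ) ≤ p * k := by positivity
    rw [hm] at c2
    simp only [id] at *
    linarith

end Vale.Agent.P127
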