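import Vale.Agent.P127.Num

/-! Two lines through the same point: first estimates. -/

namespace Vale.Agent.P127

open Vale.Agent.P118
open scoped RealInnerProductSpace
open Real Classical Module

namespace K1aX

variable {Ω Tt Θ : Type} [Fintype Ω] {m p r L : ℕ} {D : Cf Ω Tt Θ m} {ch : Chart m p 1 r}
  {Q : Ω → Submodule ℝ (Eu m)} {F : Ω → Eu r} {σ E : ℝ} {s : ℕ}

theorem two (H : D.FullC ch σ Q F L E) (hs : 4 * s ≤ L) :
    σ * s * log 2 - 2 * E ≤ Hc D.p (fun ω => flo s (D.v ω)) (D.G1 ch F s) := by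
  have hp := H.pc.ok.isP
  have h1 := H.fg.full.dl s (s + s) (by omega) (by omega)
  have h2 := H.zx (s + s) (by omega)
  have h3 := e1.tri (fun ω => flo s (D.v ω)) (fun ω => flo (s + s) (D.z ch F ω))
    (fun ω => (flo (s + s) (D.X ω), D.c ω)) hp
  have h4 : Hc D.p (fun ω => flo s (D.v ω))
      (fun ω => (flo (s + s) (D.z ch F ω), flo (s + s) (D.X ω), D.c ω)) ≤
      Hc D.p (fun ω => flo s (D.v ω)) (D.G1 ch F s) :=
    e1.hc_mono hp (Det.comp _ _ fun u : Eu p × Eu m × Θ × Tt => (u.2.1, u.2.2, u.1)) (Det.fst _ _ _)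
  linarith

theorem supp {z : Ω × Ω} (hz : D.p2 ch F s z ≠ 0) : D.p z.1 ≠ 0 ∧ D.p z.2 ≠ 0 ∧
    flo (s + s) (D.X z.1) = flo (s + s) (D.X z.2) ∧ D.c z.1 = D.c z.2 ∧
    flo (s + s) (D.z ch F z.1) = flo (s + s) (D.z ch F z.2) := by
  obtain ⟨a, b, c⟩ := e3.res_ne hz
  exact ⟨a, b, congrArg (·.1) c, congrArg (·.2.1) c, congrArg (·.2.2) c⟩

theorem three (H : D.PC ch σ Q F L E) {b k : ℕ} (hb : b ≤ s) (hk : k ≤ b)
    (h2 : √p + 3 ≤ 2 ^ k) : Pr (D.p2 ch F s) (fun z => |D.mu ch z| ≤ 2⁻¹ ^ b) ≤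
      Pr (D.p2 ch F s) fun z => ‖D.v z.2 - D.v z.1‖ ≤ 2⁻¹ ^ (b - k) := by
  refine e1.pr_mono (e3.isP_res _ H.ok.isP) fun z hz h => ?_
  obtain ⟨a1, a2, -, a4, a5⟩ := supp hz
  have b1 := ch.norm_le (H.rep _ a1).1 (D.v z.2 - D.v z.1)
  have b2 := geo1.same_norm a5.symm
  unfold Cf.z at b2
  rw [← H.det _ _ a1 a2 a4, ← ch.pi_sub] at b2
  rw [norm_one] at b1
  have b3 : (2⁻¹ : ℝ) ^ (s + s) ≤ 2⁻¹ ^ b :=
    pow_le_pow_of_le_one (by norm_num) (by norm_num) (by omega)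
  have b4 : (2⁻¹ : ℝ) ^ (b - k) = 2 ^ k * 2⁻¹ ^ b := by
    obtain ⟨j, rfl⟩ := Nat.exists_eq_add_of_le hk
    rw [Nat.add_sub_cancel_left, pow_add, ← mul_assoc, ← mul_pow]; norm_num
  have b5 := mul_le_mul_of_nonneg_left b3 (sqrt_nonneg p)
  have b6 := mul_le_mul_of_nonneg_right h2 (show (0 : ℝ) ≤ 2⁻¹ ^ b by positivity)
  unfold Cf.mu at h
  rw [b4]; linarith

theorem t0_mem (h : D.OK L E) {ω : Ω} (hω : D.p ω ≠ 0) (s : ℕ) :
    |(fl s (D.t ω) : ℝ) / 2 ^ s| ≤ 1 ∧ |D.t ω - (fl s (D.t ω) : ℝ) / 2 ^ s| ≤ 2⁻¹ ^ s := by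
  obtain ⟨-, -, a, b⟩ := h.box ω hω
  have c := fl_le s (D.t ω)
  have d : (0 : ℝ) ≤ fl s (D.t ω) := by exact_mod_cast (fl_mem (i := s) a b).1
  have e : (0 : ℝ) ≤ (fl s (D.t ω) : ℝ) / 2 ^ s := by positivity
  exact ⟨by rw [abs_of_nonneg e]; linarith, by rw [abs_of_nonneg (by linarith)]; linarith⟩

theorem nsm {t a b : ℝ} {x : Eu m} (h1 : |t| ≤ a) (h2 : ‖x‖ ≤ b) : ‖t • x‖ ≤ a * b := by
  rw [norm_smul, Real.norm_eq_abs]
  exact mul_le_mul h1 h2 (norm_nonneg _) ((abs_nonneg _).trans h1)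

theorem big (m s : ℕ) : 4 * (√m * 2⁻¹ ^ s) ≤ 4 * ((m : ℝ) + 1) * 2⁻¹ ^ s := by
  have := mul_le_mul_of_nonneg_right (sqrt_le_succ m) (show (0 : ℝ) ≤ 2⁻¹ ^ s by positivity)
  linarith

theorem one_le (m : ℕ) : (1 : ℝ) ≤ 4 * ((m : ℝ) + 1) := by
  have : (0 : ℝ) ≤ m := by positivity
  linarith

/-- the line given its starting point -/
theorem ln_up (T : Tools) (H : D.FullC ch σ Q F L E) (hs : 4 * s ≤ L) :
    Hc D.p (D.ln s) (fun ω => (flo s (D.X0 s ω), D.Wd F s ω)) ≤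
      σ * s * log 2 + 2 * E + 2 * (m * log (4 * ((m : ℝ) + 1)) + CE m) := by
  have ok := H.pc.ok
  have hp := ok.isP
  have n0 : 0 ≤ √m * 2⁻¹ ^ s := by positivity
  have h1 := e1.symm (D.ln s) (fun ω => flo s (D.X0 s ω)) (D.Wd F s) hp
  have h2 : Hc D.p (D.ln s) (D.Wd F s) ≤ Hc D.p (D.ln s) D.T :=
    e1.hc_mono hp (Det.comp _ (D.Wd F s) fun u => u.2.2) (Det.fst _ _ _)
  have h3 := H.fg.full.lu s (by omega)
  have h4 := T.t3.nearA s (D.X0 s) (fun ω => (D.ln s ω, D.Wd F s ω)) _ hp (one_le m)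
    fun ω ω' a _ e => by
      have e1 : flo s (D.a ω) = flo s (D.a ω') := congrArg (·.1.1) e
      have e2 : flo s (D.v ω) = flo s (D.v ω') := congrArg (·.1.2) e
      have e3 : fl s (D.t ω) = fl s (D.t ω') := congrArg (·.2.1) e
      have e4 : D.X0 s ω - D.X0 s ω' =
          D.a ω - D.a ω' + ((fl s (D.t ω) : ℝ) / 2 ^ s) • (D.v ω - D.v ω') := by
        unfold Cf.X0; rw [← e3, smul_sub]; abel
      have b1 := nsm (t0_mem ok a s).1 (geo1.same_norm e2)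
      rw [e4]
      linarith [norm_add_le (D.a ω - D.a ω') (((fl s (D.t ω) : ℝ) / 2 ^ s) • (D.v ω - D.v ω')),
        geo1.same_norm e1, big m s]
  have h5 : Hc D.p (fun ω => flo s (D.X0 s ω)) D.c ≤ Hc D.p (fun ω => flo s (D.X0 s ω)) (D.Wd F s) :=
    e1.hc_mono hp (ok.det_Wd H.pc.det s) (Det.fst _ _ _)
  have h6 := T.t3.closeD s D.X (D.X0 s) (fun _ => 0) D.c _ hp (one_le m) (fun _ _ _ _ _ => rfl)
    fun ω a => by
      have e4 : D.X ω - D.X0 s ω - 0 = (D.t ω - (fl s (D.t ω) : ℝ) / 2 ^ s) • D.v ω := by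
        unfold Cf.X0 Cf.X; rw [sub_smul]; abel
      have b1 := nsm (t0_mem ok a s).2 (ok.box ω a).2.1.norm_le
      rw [e4]
      linarith [big m s]
  have h7 := H.fg.full.x0 s (by omega)
  linarith

theorem x0_near (ok : D.OK L E) {z : Ω × Ω} (hz : D.p2 ch F s z ≠ 0) :
    ‖D.X0 s z.2 - D.X0 s z.1‖ ≤ 2 * (√m * 2⁻¹ ^ s) := by
  obtain ⟨a1, a2, a3, a4, -⟩ := supp hz
  have e0 := ok.det _ _ a1 a2 a4
  have e4 : D.X0 s z.2 - D.X0 s z.1 = D.X z.2 - D.X z.1 -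
      (D.t z.1 - (fl s (D.t z.1) : ℝ) / 2 ^ s) • (D.v z.2 - D.v z.1) := by
    unfold Cf.X0 Cf.X; rw [← e0, sub_smul, smul_sub, smul_sub]; abel
  have b1 := nsm (t0_mem ok a1 s).2 ((ok.box _ a2).2.1.norm_sub_le (ok.box _ a1).2.1)
  have b2 := geo1.same_norm a3.symm
  have b3 : (2⁻¹ : ℝ) ^ (s + s) ≤ 2⁻¹ ^ s :=
    pow_le_pow_of_le_one (by norm_num) (by norm_num) (by omega)
  have b5 := mul_le_mul_of_nonneg_left b3 (sqrt_nonneg m)
  rw [e4]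
  linarith [norm_sub_le (D.X z.2 - D.X z.1)
    ((D.t z.1 - (fl s (D.t z.1) : ℝ) / 2 ^ s) • (D.v z.2 - D.v z.1))]

theorem one (T : Tools) (H : D.FullC ch σ Q F L E) (hs : 4 * s ≤ L)
    (ht : s * log 2 - E ≤ Hc D.p (D.tb s) fun ω => (D.l ω, D.Wd F s ω)) :
    s * log 2 - 5 * E - 3 * (m * log (4 * ((m : ℝ) + 1)) + CE m) ≤
      Hc (D.p2 ch F s) (fun z => D.tb s z.2) (D.G2 F s) := by
  have ok := H.pc.ok
  have hp := ok.isP
  have hP : IsP (D.p2 ch F s) := e3.isP_res _ hp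
  have eτ : ∀ z, D.p2 ch F s z ≠ 0 → D.tb s z.1 = D.tb s z.2 := fun z hz =>
    ok.det_tb s _ _ (supp hz).1 (supp hz).2.1 (supp hz).2.2.2.1
  have eW : ∀ z, D.p2 ch F s z ≠ 0 → D.Wd F s z.1 = D.Wd F s z.2 := fun z hz =>
    ok.det_Wd H.pc.det s _ _ (supp hz).1 (supp hz).2.1 (supp hz).2.2.2.1
  have h1 := e1.symm (fun z : Ω × Ω => D.tb s z.2) (fun z => D.ln s z.2)
    (fun z => (D.l z.1, D.Wd F s z.1)) hP
  have h2 : Hc (D.p2 ch F s) (fun z => D.tb s z.2) (fun z => (D.ln s z.2, D.l z.1, D.Wd F s z.1)) ≤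
      Hc (D.p2 ch F s) (fun z => D.tb s z.2) (D.G2 F s) :=
    e1.hc_mono hP (Det.comp _ (fun z : Ω × Ω => (D.ln s z.2, D.l z.1, D.Wd F s z.1))
      fun u => (u.2.1, u.2.2, u.1)) (Det.fst _ _ _)
  have h3 : Hc (D.p2 ch F s) (fun z => D.tb s z.1) (fun z => (D.l z.1, D.Wd F s z.1)) ≤
      Hc (D.p2 ch F s) (fun z => D.tb s z.2) (fun z => (D.l z.1, D.Wd F s z.1)) :=
    e1.hc_mono hP (Det.refl _ _) fun z z' a b e => by
      rw [eτ z a, eτ z' b]; exact congrArg (·.1) e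
  have h4 : Hc (D.p2 ch F s) (fun z => D.tb s z.1) (fun z => (D.l z.1, D.Wd F s z.1)) = _ :=
    T.t1.mp (D.tb s) (fun ω => (D.l ω, D.Wd F s ω)) (T.t1.mp_fst (D.G1 ch F s) hp)
  have h5 : Hc D.p (D.ln s) (D.G1 ch F s) ≤ Hc (D.p2 ch F s) (fun z => D.ln s z.2)
      fun z => (D.tb s z.2, D.l z.1, D.Wd F s z.1) :=
    (T.t1.ci_le (D.G1 ch F s) (D.ln s) _ hp).1 fun z z' a b e => by
      rw [← eτ z a, ← eτ z' b, e]
  have h6 : Hc D.p (fun ω => flo s (D.v ω)) (D.G1 ch F s) ≤ Hc D.p (D.ln s) (D.G1 ch F s) :=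
    e1.hc_mono hp (Det.refl _ _) fun _ _ _ _ e => congrArg (·.1.2) e
  have h7 := two H hs
  have h8 := e1.tri (fun z : Ω × Ω => D.ln s z.2) (fun z => flo s (D.X0 s z.2))
    (fun z => (D.l z.1, D.Wd F s z.1)) hP
  have h9 := T.t3.nearA s (fun z : Ω × Ω => D.X0 s z.2) (fun z => (D.l z.1, D.Wd F s z.1)) _ hP
    (one_le m) fun z z' a b e => by
      have e1 : D.a z.1 = D.a z'.1 := congrArg (·.1.1) e
      have e2 : D.v z.1 = D.v z'.1 := congrArg (·.1.2) e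
      have e3 : fl s (D.t z.1) = fl s (D.t z'.1) := congrArg (·.2.1) e
      have e4 : D.X0 s z.1 = D.X0 s z'.1 := by unfold Cf.X0; rw [e1, e2, e3]
      have b1 := x0_near ok a
      have b2 := x0_near ok b
      rw [← e4, norm_sub_rev] at b2
      linarith [norm_sub_le_norm_sub_add_norm_sub (D.X0 s z.2) (D.X0 s z.1) (D.X0 s z'.2), big m s]
  have h10 : Hc (D.p2 ch F s) (fun z => D.ln s z.2)
      (fun z => (flo s (D.X0 s z.2), D.l z.1, D.Wd F s z.1)) ≤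
      Hc (D.p2 ch F s) (fun z => D.ln s z.2) fun z => (flo s (D.X0 s z.2), D.Wd F s z.2) :=
    e1.hc_mono hP (fun z z' a b e => by
      rw [← eW z a, ← eW z' b]
      exact Prod.ext (congrArg (·.1) e) (congrArg (·.2.2) e)) (Det.fst _ _ _)
  have h11 : Hc (D.p2 ch F s) (fun z => D.ln s z.2)
      (fun z => (flo s (D.X0 s z.2), D.Wd F s z.2)) = _ :=
    T.t1.mp (D.ln s) (fun ω => (flo s (D.X0 s ω), D.Wd F s ω)) (T.t1.mp_snd (D.G1 ch F s) hp)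
  have h12 := ln_up T H hs
  linarith

end K1aX

open K1aX in
theorem sK1a (T : Tools) (B : Base) (tb : STb) : SK1a := by
  intro m σ hσ p r ch hL κ ζ hκ hζ
  obtain ⟨e, he, h1⟩ := ef_use1 (B.sep m σ hσ (κ / 2) ζ (half_pos hκ) hζ)
  obtain ⟨k, hk⟩ := pow_unbounded_of_one_lt (√p + 3) (one_lt_two (α := ℝ))
  have he' : 0 < min e (ζ / 10) := lt_min he (by positivity)
  filter_upwards [h1, B.fullC m σ hσ ch _ he', tb ch σ hL _ he', ef_const k (half_pos hκ),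
    ef_const (3 * (m * log (4 * ((m : ℝ) + 1)) + CE m)) (half_pos hζ)] with x h1 h2 h3 h4 h5
  intro Ω Tt Θ _ D Q F hD s b hb hbs hs
  have H := h2 D Q F hD
  have n0 : (0 : ℝ) ≤ x.2 := by positivity
  have n1 := mul_le_mul_of_nonneg_right (min_le_left e (ζ / 10)) n0
  have n2 := mul_le_mul_of_nonneg_right (min_le_right e (ζ / 10)) n0
  have n3 := H.pc.ok.nonneg
  have n4 : 0 ≤ κ * x.2 := by positivity
  have hkb : k ≤ b := by
    have : (k : ℝ) ≤ b := by linarith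
    exact_mod_cast this
  refine ⟨by linarith [one T H hs (h3 D Q F hD s hs).2.1], by linarith [two H hs], ?_⟩
  refine (mul_le_mul_of_nonneg_right (three H.pc hbs hkb hk.le) n0).trans ?_
  exact h1 _ n1 D (fun ω => flo (s + s) (D.z ch F ω)) (b - k) (s + s) H.pc.ext
    (by rw [Nat.cast_sub hkb]; linarith) (by omega) (by omega) (H.zx (s + s) (by omega))

end Vale.Agent.P127
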