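import Vale.Agent.P127.Num

/-! Sticky Kakeya sets in four dimensions: entropy of the lines in a slab. -/

namespace Vale.Agent.P127

open Vale.Agent.P118
open scoped RealInnerProductSpace
open Real Classical Module

namespace K1bX

theorem pair_le {Ω α β γ : Type} [Fintype Ω] {p : Ω → ℝ} (f : Ω → α) (g : Ω → β) (k : Ω → γ)
    (hp : IsP p) : Hc p (fun ω => (f ω, g ω)) k ≤ Hc p f k + Hc p g k := by
  rw [e1.chain f g k hp]
  linarith [e1.hc_mono (f := g) (f' := g) hp (Det.snd p f k) (Det.fst _ _ _)]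

theorem half_pos (s : ℕ) : (0 : ℝ) < 2⁻¹ ^ s := by positivity

theorem half_le (s : ℕ) : (2⁻¹ : ℝ) ^ s ≤ 1 := pow_le_one₀ (by norm_num) (by norm_num)

theorem pi_flo {m p q r : ℕ} (ch : Chart m p q r) {F : Eu r} (hF : ‖F‖ ≤ 2) (s : ℕ) (x : Eu m) :
    ‖ch.pi (flo s F) x‖ ≤ (3 + √r) * ‖x‖ := by
  have h1 := geo1.norm_sub_flo s F
  have h2 : √r * 2⁻¹ ^ s ≤ √r * 1 := mul_le_mul_of_nonneg_left (half_le s) (sqrt_nonneg _)
  have h3 : ‖flo s F‖ ≤ 2 + √r := by linarith [norm_sub_norm_le (flo s F) F, norm_sub_rev F (flo s F)]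
  have h4 := (ch.app_Pw_le (flo s F) x).trans (mul_le_mul_of_nonneg_right h3 (norm_nonneg x))
  unfold Chart.pi
  linarith [norm_add_le (ch.Py x) (ch.app (flo s F) (ch.Pw x)), ch.Py_le x]

theorem geoY {m p q r : ℕ} (ch : Chart m p q r) {F G : Eu r} {x x' v v' : Eu m} {d ε : ℝ}
    (h1 : ‖F - G‖ ≤ √r * ε) (h2 : |d| ≤ ε) (h3 : ‖ch.pi G x - ch.pi G x'‖ ≤ √p * (ε * ε))
    (h4 : ‖ch.pi G v - ch.pi G v'‖ ≤ √p * ε) (h5 : ‖ch.Pw x - ch.Pw x'‖ ≤ √q * ε)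
    (h6 : ‖v - v'‖ ≤ √m) :
    ‖ch.pi F (x + d • v) - ch.pi F (x' + d • v')‖ ≤
      (2 * √p + √r * √q + √r * √m) * (ε * ε) := by
  have h0 : 0 ≤ ε := (abs_nonneg _).trans h2
  have e : ch.pi F (x + d • v) - ch.pi F (x' + d • v') = (ch.pi G x - ch.pi G x') +
      d • (ch.pi G v - ch.pi G v') + ch.app (F - G) (ch.Pw x - ch.Pw x') +
      d • ch.app (F - G) (ch.Pw (v - v')) := by
    simp only [Chart.pi, map_add, map_sub, map_smul, LinearMap.sub_apply]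
    module
  have a1 : ‖d • (ch.pi G v - ch.pi G v')‖ ≤ ε * (√p * ε) := by
    rw [norm_smul, Real.norm_eq_abs]; exact mul_le_mul h2 h4 (norm_nonneg _) h0
  have a2 : ‖ch.app (F - G) (ch.Pw x - ch.Pw x')‖ ≤ (√r * ε) * (√q * ε) :=
    (ch.app_le _ _).trans (mul_le_mul h1 h5 (norm_nonneg _) (by positivity))
  have a3 : ‖d • ch.app (F - G) (ch.Pw (v - v'))‖ ≤ ε * ((√r * ε) * √m) := by
    rw [norm_smul, Real.norm_eq_abs]
    exact mul_le_mul h2 ((ch.app_Pw_le _ _).trans (mul_le_mul h1 h6 (norm_nonneg _)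
      (by positivity))) (norm_nonneg _) h0
  rw [e]
  refine (norm_add_le _ _).trans ?_
  linarith [norm_add₃_le (a := ch.pi G x - ch.pi G x') (b := d • (ch.pi G v - ch.pi G v'))
    (c := ch.app (F - G) (ch.Pw x - ch.Pw x'))]

theorem geoT {u u' μ μ' τ τ' ε β M : ℝ} (h0 : 0 < ε) (h1 : ε ≤ 1) (hβ : 0 < β)
    (a1 : |u + ε * τ * μ| ≤ 2 * M * (ε * ε)) (a2 : |u' + ε * τ' * μ'| ≤ 2 * M * (ε * ε))
    (a3 : |u - u'| ≤ 2 * M * (ε * ε)) (a4 : |μ - μ'| ≤ M * (ε * ε)) (a5 : |τ'| ≤ 1)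
    (a6 : β⁻¹ < |μ|) : |τ - τ'| ≤ 7 * M * β * ε := by
  have hM : 0 ≤ M * ε := nonneg_of_mul_nonneg_left (a := M * ε) (b := ε)
    (by linarith [abs_nonneg (μ - μ')]) h0
  have b1 : ε * |τ * μ - τ' * μ'| ≤ ε * (6 * M * ε) := by
    rw [← abs_of_pos h0, ← abs_mul, abs_of_pos h0, abs_le]
    have c1 := abs_le.1 a1
    have c2 := abs_le.1 a2
    have c3 := abs_le.1 a3
    constructor <;> linarith [c1.1, c1.2, c2.1, c2.2, c3.1, c3.2]
  have b2 := le_of_mul_le_mul_left b1 h0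
  have b3 : |τ' * (μ - μ')| ≤ M * ε := by
    rw [abs_mul]
    have := mul_le_mul a5 a4 (abs_nonneg _) zero_le_one
    have := mul_le_mul_of_nonneg_left h1 hM
    linarith
  have b4 : |τ - τ'| * |μ| ≤ 7 * M * ε := by
    rw [← abs_mul, show (τ - τ') * μ = (τ * μ - τ' * μ') - τ' * (μ - μ') by ring]
    linarith [abs_sub (τ * μ - τ' * μ') (τ' * (μ - μ'))]
  have b5 := (mul_le_mul_of_nonneg_left a6.le (abs_nonneg (τ - τ'))).trans b4
  rw [← div_eq_mul_inv, div_le_iff₀ hβ] at b5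
  linarith

variable {Ω Tt Θ : Type} [Fintype Ω] {m p r L : ℕ} {D : Cf Ω Tt Θ m} {σ E : ℝ}
  {Q : Ω → Submodule ℝ (Eu m)} {ch : Chart m p 1 r} {F : Ω → Eu r}

omit [Fintype Ω] in
theorem X_eq (D : Cf Ω Tt Θ m) (s : ℕ) (ω : Ω) :
    D.X ω = D.X0 s ω + (D.t ω - (fl s (D.t ω) : ℝ) / 2 ^ s) • D.v ω := by
  unfold Cf.X Cf.X0; module

theorem d_le (s : ℕ) (t : ℝ) : |t - (fl s t : ℝ) / 2 ^ s| ≤ 2⁻¹ ^ s := by
  have := fl_le s t
  rw [abs_le]; constructor <;> linarith [half_pos s]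

theorem X0_near (h : D.OK L E) {s j : ℕ} {ω ω' : Ω} (hω : D.p ω ≠ 0) (h1 : D.ln j ω = D.ln j ω')
    (h2 : fl s (D.t ω) = fl s (D.t ω')) :
    ‖D.X0 s ω - D.X0 s ω'‖ ≤ 2 * √m * 2⁻¹ ^ j ∧ ‖D.v ω - D.v ω'‖ ≤ √m * 2⁻¹ ^ j := by
  obtain ⟨_, _, h3, h4⟩ := h.box ω hω
  have a1 := geo1.same_norm (congrArg Prod.fst h1)
  have a2 := geo1.same_norm (congrArg Prod.snd h1)
  have a3 : (0 : ℝ) ≤ (fl s (D.t ω) : ℝ) / 2 ^ s :=
    div_nonneg (by exact_mod_cast (fl_mem h3 h4).1) (by positivity)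
  have a4 : ‖((fl s (D.t ω) : ℝ) / 2 ^ s) • (D.v ω - D.v ω')‖ ≤ 1 * (√m * 2⁻¹ ^ j) := by
    rw [norm_smul, Real.norm_eq_abs, abs_of_nonneg a3]
    exact mul_le_mul ((fl_le s _).1.trans h4.le) a2 (norm_nonneg _) zero_le_one
  have e : D.X0 s ω - D.X0 s ω' =
      (D.a ω - D.a ω') + ((fl s (D.t ω) : ℝ) / 2 ^ s) • (D.v ω - D.v ω') := by
    unfold Cf.X0; rw [← h2]; module
  rw [e]
  exact ⟨(norm_add_le _ _).trans (by linarith), a2⟩

omit [Fintype Ω] in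
theorem det_ln (D : Cf Ω Tt Θ m) (p' : Ω → ℝ) (s : ℕ) : Det p' (D.ln (s + s)) (D.ln s) :=
  fun _ _ _ _ h => Prod.ext (flo_of_flo (Nat.le_add_right s s) (congrArg Prod.fst h))
    (flo_of_flo (Nat.le_add_right s s) (congrArg Prod.snd h))

/-- the constant -/
noncomputable def ca (m p r : ℕ) : ℝ := 10 * (√m + 1) * (√p + 1) * (√r + 1)

theorem ca_ge (m p r : ℕ) : 1 ≤ ca m p r ∧ (3 + √r) * (2 * √m) ≤ ca m p r ∧
    2 * √p + √r * √(1 : ℕ) + √r * √m ≤ ca m p r := by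
  have h1 := sqrt_nonneg (m : ℝ)
  have h2 := sqrt_nonneg (p : ℝ)
  have h3 := sqrt_nonneg (r : ℝ)
  have h4 := mul_nonneg h1 h2
  have h5 := mul_nonneg h1 h3
  have h6 := mul_nonneg h2 h3
  have h7 := mul_nonneg h4 h3
  rw [Nat.cast_one, sqrt_one]
  unfold ca
  refine ⟨by linarith, by linarith, by linarith⟩

theorem slab (T : Tools) (h : D.PC ch σ Q F L E) (s : ℕ) :
    Hc D.p (D.KK ch F s) (fun ω => (D.ln (s + s) ω, D.ln s ω, D.Wd F s ω)) ≤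
      2 * (p * log (ca m p r) + CE p) + ((1 : ℕ) * log (ca m p r) + CE 1) := by
  have hp := h.ok.isP
  obtain ⟨c1, c2, -⟩ := ca_ge m p r
  have s0 := sqrt_nonneg (m : ℝ)
  have r0 := sqrt_nonneg (r : ℝ)
  have key : ∀ ω ω', D.p ω ≠ 0 → (D.ln (s + s) ω, D.ln s ω, D.Wd F s ω) =
      (D.ln (s + s) ω', D.ln s ω', D.Wd F s ω') → flo s (F ω') = flo s (F ω) ∧
      ‖D.X0 s ω - D.X0 s ω'‖ ≤ 2 * √m * 2⁻¹ ^ (s + s) ∧
      ‖D.v ω - D.v ω'‖ ≤ 2 * √m * 2⁻¹ ^ s ∧ ‖D.X0 s ω - D.X0 s ω'‖ ≤ 2 * √m * 2⁻¹ ^ s := by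
    intro ω ω' hω e
    obtain ⟨a1, -⟩ := X0_near h.ok (s := s) hω (congrArg (·.1) e) (congrArg (·.2.2.1) e)
    obtain ⟨a2, a3⟩ := X0_near h.ok (s := s) hω (congrArg (·.2.1) e) (congrArg (·.2.2.1) e)
    exact ⟨(congrArg (·.2.2.2.1) e).symm, a1, by linarith [mul_nonneg s0 (half_pos s).le], a2⟩
  have pl : ∀ ω, D.p ω ≠ 0 → ∀ (x : Eu m) (j : ℕ), ‖x‖ ≤ 2 * √m * 2⁻¹ ^ j →
      ‖ch.pi (flo s (F ω)) x‖ ≤ ca m p r * 2⁻¹ ^ j := fun ω hω x j hx => by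
    have a1 := (pi_flo ch (h.rep ω hω).1 s x).trans
      (mul_le_mul_of_nonneg_left hx (by positivity))
    linarith [mul_le_mul_of_nonneg_right c2 (half_pos j).le]
  have k1 := T.t3.nearA (s + s) (fun ω => ch.pi (flo s (F ω)) (D.X0 s ω)) _ _ hp c1
    fun ω ω' hω _ e => by
      obtain ⟨a1, a2, -⟩ := key ω ω' hω e
      rw [a1, ← ch.pi_sub]; exact pl ω hω _ _ a2
  have k2 := T.t3.nearA s (fun ω => ch.pi (flo s (F ω)) (D.v ω)) _ _ hp c1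
    fun ω ω' hω _ e => by
      obtain ⟨a1, -, a2, -⟩ := key ω ω' hω e
      rw [a1, ← ch.pi_sub]; exact pl ω hω _ _ a2
  have k3 := T.t3.nearA s (fun ω => ch.Pw (D.X0 s ω)) _ _ hp c1
    fun ω ω' hω _ e => by
      obtain ⟨-, -, -, a2⟩ := key ω ω' hω e
      rw [← map_sub]
      refine ((ch.Pw_le _).trans a2).trans (mul_le_mul_of_nonneg_right ?_ (half_pos s).le)
      nlinarith
  refine (e1.hc_mono (f' := fun ω => (D.KK ch F s ω).1) hp (Det.refl _ _)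
    fun a b _ _ e => Prod.ext (congrArg (·.1) e) (congrArg (·.2.2.2) e)).trans ?_
  refine (pair_le _ _ _ hp).trans ?_
  linarith [pair_le (fun ω => flo s (ch.pi (flo s (F ω)) (D.v ω)))
    (fun ω => flo s (ch.Pw (D.X0 s ω))) (fun ω => (D.ln (s + s) ω, D.ln s ω, D.Wd F s ω)) hp]

theorem ypos (T : Tools) (h : D.PC ch σ Q F L E) (s : ℕ) :
    Hc D.p (fun ω => flo (s + s) (D.y ch F ω)) (fun ω => (D.KK ch F s ω, D.ln s ω, D.c ω)) ≤
      p * log (ca m p r) + CE p := by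
  obtain ⟨c1, -, c3⟩ := ca_ge m p r
  refine T.t3.nearA (s + s) _ _ _ h.ok.isP c1 fun ω ω' hω hω' e => ?_
  have ec : D.c ω = D.c ω' := congrArg (·.2.2) e
  have eF := h.det ω ω' hω hω' ec
  have et := h.ok.det ω ω' hω hω' ec
  have a1 := geo1.same_norm (congrArg (·.1.1.1) e)
  have a2 := geo1.same_norm (congrArg (·.1.1.2.1) e)
  have a3 := geo1.same_norm (congrArg (·.1.1.2.2) e)
  rw [← eF] at a1 a2
  rw [pow_add] at a1 ⊢
  unfold Cf.y
  rw [X_eq D s ω, X_eq D s ω', ← eF, ← et]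
  exact (geoY ch (geo1.norm_sub_flo s (F ω)) (d_le s _) a1 a2 a3
    ((h.ok.box ω hω).2.1.norm_sub_le (h.ok.box ω' hω').2.1)).trans
      (mul_le_mul_of_nonneg_right c3 (by positivity))

theorem part2 (T : Tools) (h : D.FullC ch σ Q F L E) {s : ℕ} (hs : 4 * s ≤ L) :
    Hc D.p (D.ln (s + s)) (fun ω => (D.ln s ω, D.KK ch F s ω)) ≤ (1 + σ) * s * log 2 + 3 * E +
      (3 * (p * log (ca m p r) + CE p) + ((1 : ℕ) * log (ca m p r) + CE 1)) := by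
  have hp := h.pc.ok.isP
  have hf := h.fg.full
  have a1 := e1.symm (D.ln (s + s)) (D.KK ch F s) (fun ω => (D.ln s ω, D.Wd F s ω)) hp
  have a2 : Hc D.p (D.ln (s + s)) (fun ω => (D.ln s ω, D.KK ch F s ω)) ≤
      Hc D.p (D.ln (s + s)) (fun ω => (D.KK ch F s ω, D.ln s ω, D.Wd F s ω)) :=
    e1.hc_mono hp (fun a b _ _ e => Prod.ext (congrArg (·.2) e)
      (Prod.ext (congrArg (·.1) e) (congrArg (·.2.2) e))) (Det.fst _ _ _)
  have a3 : Hc D.p (D.ln (s + s)) (fun ω => (D.ln s ω, D.Wd F s ω)) ≤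
      Hc D.p (D.ln (s + s)) (fun ω => (D.ln s ω, D.T ω)) :=
    e1.hc_mono hp (fun a b _ _ e => Prod.ext (congrArg (·.1) e) (congrArg (·.2.2.2) e))
      (Det.fst _ _ _)
  have a4 := e1.chain (D.ln s) (D.ln (s + s)) D.T hp
  have a5 : Hc D.p (fun ω => (D.ln s ω, D.ln (s + s) ω)) D.T ≤ Hc D.p (D.ln (s + s)) D.T :=
    e1.hc_mono hp (Det.refl _ _) ((Det.fst _ _ _).trans ((det_ln D _ s).pair (Det.refl _ _)))
  have a6 : Hc D.p (fun ω => flo s (D.v ω)) D.c ≤ Hc D.p (D.ln s) D.T :=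
    e1.hc_mono hp (D.det_T _) fun a b _ _ e => congrArg (·.1.2) e
  have a7 : Hc D.p (D.KK ch F s) (fun ω => (D.ln s ω, D.c ω)) ≤
      Hc D.p (D.KK ch F s) (fun ω => (D.ln s ω, D.Wd F s ω)) :=
    e1.hc_mono hp ((Det.fst _ _ _).pair ((Det.snd _ _ _).trans (h.pc.ok.det_Wd h.pc.det s)))
      (Det.fst _ _ _)
  have a8 := e1.tri (fun ω => flo (s + s) (D.y ch F ω)) (D.KK ch F s)
    (fun ω => (D.ln s ω, D.c ω)) hp
  have b1 := hf.lu (s + s) (by omega)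
  have b2 := hf.vl s (by omega)
  have b3 := h.yl s (s + s) (by omega) (by omega)
  have b4 := slab T h.pc s
  have b5 := ypos T h.pc s
  have hm : (m : ℝ) = p + 1 := by exact_mod_cast ch.dim
  push_cast at b1 b3
  rw [hm] at b1 b2
  linarith

theorem tau (T : Tools) (h : D.PC ch σ Q F L E) (s b : ℕ) :
    Hc (D.p2 ch F s) (fun z => D.tb s z.2) (fun z => (D.ln (s + s) z.2, D.G2 F s z)) ≤
      log 2 + (b * log 2 + log (14 * √m + 3)) +
        Pr (D.p2 ch F s) (fun z => |D.mu ch z| ≤ 2⁻¹ ^ b) * (s * log 2 + log 7) := by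
  have hp : IsP (D.p2 ch F s) := e3.isP_res _ h.ok.isP
  have s0 := sqrt_nonneg (m : ℝ)
  have tb1 : ∀ ω, |D.tb s ω| ≤ 1 := fun ω => by
    obtain ⟨-, a1, a2, -⟩ := D.tb_lat F s ω
    rw [abs_of_nonneg a1]; exact a2.le
  have co : ∀ x : Eu m, |ch.Pw x 0| ≤ ‖x‖ := fun x => (abs_coord_le _ _).trans (ch.Pw_le x)
  have key : ∀ z, D.p2 ch F s z ≠ 0 → D.p z.2 ≠ 0 ∧ D.t z.1 = D.t z.2 ∧
      |ch.Pw (D.X0 s z.2 - D.X0 s z.1) 0 + 2⁻¹ ^ s * D.tb s z.2 * D.mu ch z| ≤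
        2 * √m * (2⁻¹ ^ s * 2⁻¹ ^ s) := by
    intro z hz
    obtain ⟨h1, h2, h3⟩ := e3.res_ne hz
    have et := h.ok.det _ _ h1 h2 (congrArg (·.2.1) h3)
    have a1 := (co _).trans (geo1.same_norm (congrArg (·.1) h3).symm)
    have a2 := (co _).trans ((h.ok.box _ h2).2.1.norm_sub_le (h.ok.box _ h1).2.1)
    have a3 := mul_le_mul (D.tb_near s z.2) a2 (abs_nonneg _) (by positivity)
    have e : D.X0 s z.2 - D.X0 s z.1 = (D.X z.2 - D.X z.1) -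
        (D.t z.2 - (fl s (D.t z.2) : ℝ) / 2 ^ s) • (D.v z.2 - D.v z.1) := by
      rw [X_eq D s z.1, X_eq D s z.2, et]; module
    refine ⟨h2, et, ?_⟩
    rw [← abs_mul, pow_add, abs_le] at a3
    rw [pow_add, abs_le] at a1
    rw [e, map_sub, map_smul, PiLp.sub_apply, PiLp.smul_apply, smul_eq_mul, abs_le]
    unfold Cf.mu
    constructor <;> linarith [a1.1, a1.2, a3.1, a3.2]
  have k := T.t3.near1E s (fun z => D.tb s z.2) (fun z => (D.ln (s + s) z.2, D.G2 F s z))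
    (fun z => ¬ |D.mu ch z| ≤ 2⁻¹ ^ b) (7 * √m * 2 ^ b) 1 hp (by positivity) zero_le_one
    (fun z _ => tb1 _) fun z z' hz hz' hE _ e => by
      obtain ⟨a1, a2, a3⟩ := key z hz
      obtain ⟨-, b2, b3⟩ := key z' hz'
      have e0 : fl s (D.t z.1) = fl s (D.t z'.1) := congrArg (·.2.2.1.1) e
      have ea : D.a z.1 = D.a z'.1 := congrArg (·.2.1.1) e
      have ev : D.v z.1 = D.v z'.1 := congrArg (·.2.1.2) e
      have eX : D.X0 s z.1 = D.X0 s z'.1 := by unfold Cf.X0; rw [e0, ea, ev]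
      obtain ⟨c1, c2⟩ := X0_near h.ok (s := s) a1 (congrArg (·.1) e) (a2 ▸ b2 ▸ e0)
      rw [pow_add] at c1 c2
      refine geoT (half_pos s) (half_le s) (by positivity) a3 b3 ?_ ?_ (tb1 _)
        (by rw [← inv_pow]; exact not_le.1 hE)
      · rw [← PiLp.sub_apply, ← map_sub, eX, sub_sub_sub_cancel_right]
        exact (co _).trans c1
      · unfold Cf.mu
        rw [← PiLp.sub_apply, ← map_sub, ev, sub_sub_sub_cancel_right]
        exact (co _).trans c2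
  simp only [not_not] at k
  have k1 : log (2 * (7 * √m * 2 ^ b) + 3) ≤ b * log 2 + log (14 * √m + 3) := by
    rw [← log_pow, ← log_mul (by positivity) (by positivity)]
    refine log_le_log (by positivity) ?_
    linarith [one_le_pow₀ (M₀ := ℝ) (n := b) one_le_two]
  have k2 : Hc (D.p2 ch F s) (fun z => D.tb s z.2) (fun z => (D.ln (s + s) z.2, D.G2 F s z)) ≤
      Hc (D.p2 ch F s) (fun z => fl s (D.tb s z.2)) (fun z => (D.ln (s + s) z.2, D.G2 F s z)) :=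
    e1.hc_mono hp (Det.refl _ _) fun a b _ _ e => by
      have e' : fl s (D.tb s a.2) = fl s (D.tb s b.2) := congrArg (·.1) e
      rw [← (D.tb_lat F s a.2).1, e', (D.tb_lat F s b.2).1]
  norm_num at k ⊢
  linarith

theorem part1 (T : Tools) (h : D.FullC ch σ Q F L E) {s : ℕ} (hs : 4 * s ≤ L) :
    σ * s * log 2 - 3 * E ≤
      Hc (D.p2 ch F s) (fun z => D.ln (s + s) z.2) fun z => (D.tb s z.2, D.G2 F s z) := by
  have hp := h.pc.ok.isP
  have hf := h.fg.full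
  have a1 := T.t1.ci (D.G1 ch F s) (D.ln (s + s)) (D.ln s) (fun ω => ω) hp (Det.comp _ _ _)
  have a2 : Hc (D.p2 ch F s) (fun z => D.ln (s + s) z.2) (fun z => (D.ln s z.2, z.1)) ≤
      Hc (D.p2 ch F s) (fun z => D.ln (s + s) z.2) fun z => (D.tb s z.2, D.G2 F s z) := by
    refine e1.hc_mono (e3.isP_res _ hp) (fun a b ha hb e => ?_) (Det.fst _ _ _)
    have k : ∀ z, D.p2 ch F s z ≠ 0 → D.tb s z.2 = D.tb s z.1 := fun z hz => by
      obtain ⟨h1, h2, h3⟩ := e3.res_ne hz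
      exact (h.pc.ok.det_tb s _ _ h1 h2 (congrArg (·.2.1) h3)).symm
    have e1 : a.1 = b.1 := congrArg (·.2) e
    have e2 : D.ln s a.2 = D.ln s b.2 := congrArg (·.1) e
    simp only [Cf.G2, k a ha, k b hb, e1, e2]
  have a3 := e1.chain (D.ln s) (D.ln (s + s)) (D.G1 ch F s) hp
  have a4 := e1.tri (fun ω => flo (s + s) (D.v ω)) (fun ω => flo (s + s) (D.z ch F ω))
    (fun ω => (flo (s + s) (D.X ω), D.c ω)) hp
  have a5 : Hc D.p (fun ω => flo (s + s) (D.v ω))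
      (fun ω => (flo (s + s) (D.z ch F ω), flo (s + s) (D.X ω), D.c ω)) ≤
      Hc D.p (fun ω => (D.ln s ω, D.ln (s + s) ω)) (D.G1 ch F s) :=
    e1.hc_mono hp (fun a b _ _ e => Prod.ext (congrArg (·.2.1) e)
      (Prod.ext (congrArg (·.2.2) e) (congrArg (·.1) e))) fun a b _ _ e => congrArg (·.1.2.2) e
  have a6 : Hc D.p (D.ln s) (D.G1 ch F s) ≤ Hc D.p (D.ln s) fun ω => (flo s (D.X ω), D.c ω) :=
    e1.hc_mono hp (fun a b _ _ e => Prod.ext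
      (flo_of_flo (Nat.le_add_right s s) (congrArg (·.1) e)) (congrArg (·.2.1) e)) (Det.fst _ _ _)
  have b1 := hf.dl (s + s) (s + s) le_rfl (by omega)
  have b2 := h.zx (s + s) (by omega)
  have b3 := hf.du s (by omega)
  push_cast at b1
  unfold Cf.p2 at a2 ⊢
  linarith

end K1bX

open K1bX in
theorem sK1b (T : Tools) (B : Base) (a : SK1a) : SK1b := by
  intro m σ hc p r ch hl κ ζ hκ hζ
  have h8 : 0 < ζ / 8 := by positivity
  filter_upwards [B.fullC m σ hc ch _ h8, a m σ hc ch hl κ _ hκ h8,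
    ef_const (3 * (p * log (ca m p r) + CE p) + ((1 : ℕ) * log (ca m p r) + CE 1)) h8,
    ef_const (log 2 + log (14 * √m + 3) + log 7) h8] with x h1 h2 h3 h4 Ω Tt Θ _ D Q F h s b
    hb hbs hs
  have hF := h1 D Q F h
  obtain ⟨a1, -, a3⟩ := h2 D Q F h s b hb hbs hs
  have hL : (0 : ℝ) ≤ ζ * x.2 := by positivity
  refine ⟨?_, by linarith [part2 T hF hs]⟩
  have hp : IsP (D.p2 ch F s) := e3.isP_res _ h.ok.isP
  have b1 := e1.symm (fun z => D.ln (s + s) z.2) (fun z => D.tb s z.2) (D.G2 F s) hp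
  have b2 := part1 T hF hs
  have b3 := tau T h s b
  have p0 := e1.pr_nonneg (fun z => |D.mu ch z| ≤ 2⁻¹ ^ b) hp
  have p1 := e1.pr_le_one (fun z => |D.mu ch z| ≤ 2⁻¹ ^ b) hp
  have c1 : (s : ℝ) * log 2 ≤ x.2 := by
    have : (s : ℝ) ≤ x.2 := by exact_mod_cast (by omega : s ≤ x.2)
    linarith [mul_le_mul_of_nonneg_left log_two_le_one (Nat.cast_nonneg (α := ℝ) s)]
  have c2 := mul_le_mul_of_nonneg_left c1 p0
  have c3 := mul_le_mul_of_nonneg_right p1 (log_nonneg (by norm_num : (1 : ℝ) ≤ 7))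
  linarith

end Vale.Agent.P127
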