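import Vale.Agent.P127.Num

/-! Sticky Kakeya sets in four dimensions: geometry of two lines meeting the same line. -/

namespace Vale.Agent.P127

open Vale.Agent.P118
open scoped RealInnerProductSpace
open Real Classical Module

namespace K1cX

theorem pi_le' {m p q r : ℕ} (ch : Chart m p q r) (G : Eu r) (x : Eu m) :
    ‖ch.pi G x‖ ≤ (1 + ‖G‖) * ‖x‖ := by
  have h1 := ch.app_Pw_le G x
  unfold Chart.pi
  linarith [norm_add_le (ch.Py x) (ch.app G (ch.Pw x)), ch.Py_le x]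

theorem pi_le4 {m p q r : ℕ} (ch : Chart m p q r) {G : Eu r} {x : Eu m} {M a : ℝ} (hM : 1 ≤ M)
    (hG : ‖G‖ ≤ 2 + M) (hx : ‖x‖ ≤ a) : ‖ch.pi G x‖ ≤ 4 * M * a :=
  (pi_le' ch G x).trans (mul_le_mul (by linarith) hx (norm_nonneg _) (by linarith))

theorem pw_le {m p r : ℕ} (ch : Chart m p 1 r) (x : Eu m) : |ch.Pw x 0| ≤ ‖x‖ :=
  (abs_coord_le _ _).trans (ch.Pw_le x)

theorem flo_zero {n : ℕ} (s : ℕ) : flo s (0 : Eu n) = 0 := by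
  ext k; simp [flo_apply, fl]

theorem nsm {n : ℕ} {c a b : ℝ} {x : Eu n} (hc : |c| ≤ a) (hx : ‖x‖ ≤ b) : ‖c • x‖ ≤ a * b := by
  rw [norm_smul, Real.norm_eq_abs]
  exact mul_le_mul hc hx (norm_nonneg _) ((abs_nonneg _).trans hc)

theorem amul {c d a b : ℝ} (hc : |c| ≤ a) (hd : |d| ≤ b) : |c * d| ≤ a * b := by
  rw [abs_mul]
  exact mul_le_mul hc hd (abs_nonneg _) ((abs_nonneg _).trans hc)

/-- two lines through the same point -/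
theorem geoP {m p : ℕ} (ch : Chart m p 1 p) (hQ : Q1 ch) {M ε θ τ : ℝ} (hM : 1 ≤ M) (h0 : 0 < ε)
    (h1 : ε ≤ 1) {F Fb f : Eu p} {dX dv : Eu m} (hFb : ‖Fb‖ ≤ 2 + M) (hf : ‖f‖ ≤ M)
    (hFf : ‖F - Fb - ε • f‖ ≤ M * (ε * ε)) (hdv : ‖dv‖ ≤ M) (hdX : ‖dX‖ ≤ M * (ε * ε))
    (hz : ‖ch.pi F dv‖ ≤ M * (ε * ε)) (hθ : |θ - ε * τ| ≤ ε * ε) (hτ : |τ| ≤ 1) :
    ‖ch.pi Fb dv + (ε * ch.Pw dv 0) • f‖ ≤ 2 * M ^ 2 * (ε * ε) ∧
    |ch.Pw (dX - θ • dv) 0 + ε * ch.Pw dv 0 * τ| ≤ 2 * M * (ε * ε) ∧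
    ‖ch.pi Fb (dX - θ • dv)‖ ≤ 10 * M ^ 2 * (ε * ε) := by
  have hμ : |ch.Pw dv 0| ≤ M := (pw_le ch dv).trans hdv
  have he : 0 < ε * ε := by positivity
  have hMM : M * (ε * ε) ≤ M ^ 2 * (ε * ε) := by
    refine mul_le_mul_of_nonneg_right ?_ he.le
    nlinarith
  have a1 : ‖ch.pi Fb dv + (ε * ch.Pw dv 0) • f‖ ≤ 2 * M ^ 2 * (ε * ε) := by
    have e : ch.pi Fb dv + (ε * ch.Pw dv 0) • f =
        ch.pi F dv - ch.Pw dv 0 • (F - Fb - ε • f) := by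
      have e1 := ch.pi_sub_pi F Fb dv
      rw [hQ] at e1
      rw [smul_sub (ch.Pw dv 0) (F - Fb), ← e1, smul_smul, mul_comm ε]; abel
    rw [e]
    have := nsm hμ hFf
    linarith [norm_sub_le (ch.pi F dv) (ch.Pw dv 0 • (F - Fb - ε • f))]
  refine ⟨a1, ?_, ?_⟩
  · have e : ch.Pw (dX - θ • dv) 0 + ε * ch.Pw dv 0 * τ =
        ch.Pw dX 0 - (θ - ε * τ) * ch.Pw dv 0 := by
      simp only [map_sub, map_smul, PiLp.sub_apply, PiLp.smul_apply, smul_eq_mul]; ring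
    rw [e]
    have := amul hθ hμ
    linarith [abs_sub (ch.Pw dX 0) ((θ - ε * τ) * ch.Pw dv 0), pw_le ch dX]
  · have hθ' : |θ| ≤ 2 * ε := by
      have h2 := amul (abs_of_pos h0).le hτ
      have h3 := abs_add_le (θ - ε * τ) (ε * τ)
      rw [sub_add_cancel] at h3
      nlinarith
    have h4 : ‖ch.pi Fb dv‖ ≤ 3 * M ^ 2 * ε := by
      have h5 := nsm (amul (abs_of_pos h0).le hμ) hf
      have h6 := norm_sub_le (ch.pi Fb dv + (ε * ch.Pw dv 0) • f) ((ε * ch.Pw dv 0) • f)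
      rw [add_sub_cancel_right] at h6
      have h7 : M ^ 2 * (ε * ε) ≤ M ^ 2 * ε :=
        mul_le_mul_of_nonneg_left (by nlinarith) (by positivity)
      linarith
    rw [ch.pi_sub, ch.pi_smul]
    have h8 := nsm hθ' h4
    have h9 := pi_le4 ch hM hFb hdX
    linarith [norm_sub_le (ch.pi Fb dX) (θ • ch.pi Fb dv)]

/-- comparison of two slopes -/
theorem geoS {p : ℕ} {M ε β μ μ' d d' : ℝ} {f f' : Eu p} (hM : 1 ≤ M) (hε : 0 ≤ ε) (hβ : 0 < β)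
    (hβ1 : β ≤ 1) (h1 : β ≤ |μ|) (h2 : β ≤ |d|) (h3 : β ≤ |d'|) (hf : ‖f'‖ ≤ M)
    (hA : ‖μ • f - μ' • f'‖ ≤ 18 * M ^ 2 * ε) (hB : |μ * d - μ' * d'| ≤ 14 * M * ε) :
    ‖d⁻¹ • f - d'⁻¹ • f'‖ ≤ 32 * M ^ 2 * β⁻¹ ^ 3 * ε := by
  have hi : ∀ {x : ℝ}, β ≤ |x| → |x⁻¹| ≤ β⁻¹ := fun hx => by
    rw [abs_inv]; exact inv_anti₀ hβ hx
  have n1 : μ ≠ 0 := abs_pos.1 (hβ.trans_le h1)
  have n2 : d ≠ 0 := abs_pos.1 (hβ.trans_le h2)
  have n3 : d' ≠ 0 := abs_pos.1 (hβ.trans_le h3)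
  have e : d⁻¹ • f - d'⁻¹ • f' = (μ⁻¹ * d⁻¹) • (μ • f - μ' • f') -
      (μ⁻¹ * d⁻¹ * d'⁻¹ * (μ * d - μ' * d')) • f' := by
    rw [smul_sub, smul_smul, smul_smul, sub_sub, ← add_smul]
    congr 2 <;> field_simp
    ring
  rw [e]
  have h4 := nsm (amul (hi h1) (hi h2)) hA
  have h5 := nsm (amul (amul (amul (hi h1) (hi h2)) (hi h3)) hB) hf
  have h6 : 1 ≤ β⁻¹ := (one_le_inv₀ hβ).2 hβ1
  have h7 : β⁻¹ * β⁻¹ * (18 * M ^ 2 * ε) ≤ β⁻¹ * β⁻¹ * β⁻¹ * (18 * M ^ 2 * ε) :=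
    mul_le_mul_of_nonneg_right (le_mul_of_one_le_right (by positivity) h6) (by positivity)
  linarith [norm_sub_le ((μ⁻¹ * d⁻¹) • (μ • f - μ' • f'))
    ((μ⁻¹ * d⁻¹ * d'⁻¹ * (μ * d - μ' * d')) • f')]

variable {Ω Tt Θ : Type} [Fintype Ω] {m p L : ℕ} {D : Cf Ω Tt Θ m} {ch : Chart m p 1 p}
  {F : Ω → Eu p} {Q : Ω → Submodule ℝ (Eu m)} {σ E : ℝ} {s : ℕ}

theorem sqp (ch : Chart m p 1 p) : √p ≤ (m : ℝ) + 1 := by
  have h : (p : ℝ) ≤ m := by exact_mod_cast (by have := ch.dim; omega : p ≤ m)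
  linarith [sqrt_le_succ p]

theorem M1 (m : ℕ) : (1 : ℝ) ≤ (m : ℝ) + 1 := by
  linarith [(by positivity : (0 : ℝ) ≤ m)]

theorem eps1 (s : ℕ) : (2⁻¹ : ℝ) ^ s ≤ 1 := pow_le_one₀ (by norm_num) (by norm_num)

theorem same {n i : ℕ} {x y : Eu n} {M : ℝ} (hM : √n ≤ M) (h : flo i x = flo i y) :
    ‖x - y‖ ≤ M * 2⁻¹ ^ i :=
  (geo1.same_norm h).trans (mul_le_mul_of_nonneg_right hM (by positivity))

theorem fb_le (h : D.PC ch σ Q F L E) {w : Ω} (hw : D.p w ≠ 0) (s : ℕ) :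
    ‖flo s (F w)‖ ≤ 2 + ((m : ℝ) + 1) := by
  have h1 := (h.rep w hw).1
  have h2 : ‖flo s (F w) - F w‖ ≤ ((m : ℝ) + 1) * 2⁻¹ ^ s := same (sqp ch) (flo_idem _ _)
  have h3 := norm_add_le (flo s (F w) - F w) (F w)
  rw [sub_add_cancel] at h3
  have h4 := mul_le_mul_of_nonneg_left (eps1 s) (zero_le_one.trans (M1 m))
  linarith

/-- two lines in the same tube -/
theorem near (h : D.PC ch σ Q F L E) {w w' : Ω} (hw : D.p w ≠ 0) {j : ℕ}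
    (ht : fl s (D.t w') = fl s (D.t w)) (hl : D.ln j w' = D.ln j w) :
    ‖D.v w' - D.v w‖ ≤ ((m : ℝ) + 1) * 2⁻¹ ^ j ∧
      ‖D.X0 s w' - D.X0 s w‖ ≤ 2 * ((m : ℝ) + 1) * 2⁻¹ ^ j := by
  obtain ⟨h1, h2⟩ := Prod.ext_iff.1 hl
  have h3 := same (sqrt_le_succ m) (show flo j (D.a w') = flo j (D.a w) from h1)
  have h4 := same (sqrt_le_succ m) (show flo j (D.v w') = flo j (D.v w) from h2)
  refine ⟨h4, ?_⟩
  obtain ⟨-, -, b1, b2⟩ := h.ok.box w hw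
  have h5 : (0 : ℝ) ≤ fl s (D.t w) := by exact_mod_cast (fl_mem (i := s) b1 b2).1
  have h6 : |(fl s (D.t w) : ℝ) / 2 ^ s| ≤ 1 := by
    rw [abs_of_nonneg (by positivity)]; linarith [(fl_le s (D.t w)).1]
  have e : D.X0 s w' - D.X0 s w =
      (D.a w' - D.a w) + ((fl s (D.t w) : ℝ) / 2 ^ s) • (D.v w' - D.v w) := by
    unfold Cf.X0; rw [ht, smul_sub]; abel
  rw [e]
  linarith [norm_add_le (D.a w' - D.a w) (((fl s (D.t w) : ℝ) / 2 ^ s) • (D.v w' - D.v w)),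
    nsm h6 h4]

structure PF (D : Cf Ω Tt Θ m) (ch : Chart m p 1 p) (F : Ω → Eu p) (s : ℕ) (M ε : ℝ) (w w' : Ω) :
    Prop where
  n1 : D.p w ≠ 0
  n2 : D.p w' ≠ 0
  hc : D.c w = D.c w'
  ht : D.t w = D.t w'
  hF : F w = F w'
  a1 : ‖ch.pi (flo s (F w')) (D.v w' - D.v w) + (ε * D.mu ch (w, w')) • zm s s (F w')‖ ≤
    2 * M ^ 2 * (ε * ε)
  a2 : |ch.Pw (D.X0 s w' - D.X0 s w) 0 + ε * D.mu ch (w, w') * D.tb s w'| ≤ 2 * M * (ε * ε)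
  a3 : ‖ch.pi (F w') (D.v w' - D.v w)‖ ≤ M * (ε * ε)
  a4 : ‖ch.pi (flo s (F w')) (D.X0 s w' - D.X0 s w)‖ ≤ 10 * M ^ 2 * (ε * ε)

theorem pf (hQ : Q1 ch) (h : D.PC ch σ Q F L E) {z : Ω × Ω} (hz : D.p2 ch F s z ≠ 0) :
    PF D ch F s (m + 1) (2⁻¹ ^ s) z.1 z.2 := by
  obtain ⟨w, w'⟩ := z
  obtain ⟨n1, n2, hg⟩ := e3.res_ne hz
  obtain ⟨g1, g2⟩ := Prod.ext_iff.1 hg
  obtain ⟨g2, g3⟩ := Prod.ext_iff.1 g2
  have hc : D.c w = D.c w' := g2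
  have ht := h.ok.det w w' n1 n2 hc
  have hF := h.det w w' n1 n2 hc
  have hX := same (sqrt_le_succ m) (show flo (s + s) (D.X w') = flo (s + s) (D.X w) from g1.symm)
  have hZ := same (sqp ch)
    (show flo (s + s) (D.z ch F w') = flo (s + s) (D.z ch F w) from g3.symm)
  unfold Cf.z at hZ
  rw [hF, ← ch.pi_sub, pow_add] at hZ
  rw [pow_add] at hX
  have hf := (zm_close s s (F w')).trans (mul_le_mul_of_nonneg_right (sqp ch) (by positivity))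
  have hθ := D.tb_near s w'
  rw [pow_add] at hf hθ
  obtain ⟨-, l1, l2, -, l3⟩ := D.tb_lat F s w'
  obtain ⟨a1, a2, a4⟩ := geoP ch hQ (M1 m) (by positivity) (eps1 s) (fb_le h n2 s)
    (l3.norm_le.trans (sqp ch)) hf
    (((h.ok.box w' n2).2.1.norm_sub_le (h.ok.box w n1).2.1).trans (sqrt_le_succ m)) hX hZ hθ
    (by rw [abs_of_nonneg l1]; exact l2.le)
  have e : D.X w' - D.X w - (D.t w' - (fl s (D.t w') : ℝ) / 2 ^ s) • (D.v w' - D.v w) =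
      D.X0 s w' - D.X0 s w := by
    unfold Cf.X Cf.X0; rw [ht, sub_smul, smul_sub, smul_sub]; abel
  rw [e] at a2 a4
  exact ⟨n1, n2, hc, ht, hF, a1, a2, hZ, a4⟩

structure QF (D : Cf Ω Tt Θ m) (ch : Chart m p 1 p) (F : Ω → Eu p) (s : ℕ) (M ε : ℝ)
    (z : (Ω × Ω) × Ω × Ω) : Prop where
  p1 : PF D ch F s M ε z.1.1 z.1.2
  n2 : D.p z.2.2 ≠ 0
  hW : D.Wd F s z.2.2 = D.Wd F s z.1.2
  b1 : ‖ch.pi (flo s (F z.1.2)) (D.v z.2.2 - D.v z.1.2) +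
    (ε * D.mu ch z.1) • (zm s s (F z.2.2) - zm s s (F z.1.2))‖ ≤ 5 * M ^ 2 * (ε * ε)
  b2 : |ch.Pw (D.X0 s z.2.2 - D.X0 s z.1.2) 0 +
    ε * D.mu ch z.1 * (D.tb s z.2.2 - D.tb s z.1.2)| ≤ 5 * M * (ε * ε)
  k1 : ‖ch.pi (flo s (F z.1.2)) (D.X0 s z.2.2 - D.X0 s z.1.2)‖ ≤ 20 * M ^ 2 * (ε * ε)
  k2 : ‖D.v z.2.2 - D.v z.1.2‖ ≤ M * ε
  k3 : ‖D.X0 s z.2.2 - D.X0 s z.1.2‖ ≤ 2 * M * ε

omit [Fintype Ω] in
theorem wd_t {w w' : Ω} (h : D.Wd F s w = D.Wd F s w') : fl s (D.t w) = fl s (D.t w') :=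
  (Prod.ext_iff.1 h).1

omit [Fintype Ω] in
theorem wd_F {w w' : Ω} (h : D.Wd F s w = D.Wd F s w') : flo s (F w) = flo s (F w') :=
  (Prod.ext_iff.1 (Prod.ext_iff.1 h).2).1

theorem qf (hQ : Q1 ch) (h : D.PC ch σ Q F L E) {z : (Ω × Ω) × Ω × Ω} (hz : D.p4 ch F s z ≠ 0) :
    QF D ch F s (m + 1) (2⁻¹ ^ s) z := by
  obtain ⟨⟨w₁, u₁⟩, w₂, u₂⟩ := z
  obtain ⟨n1, n2, hg⟩ := e3.res_ne hz
  have P1 : PF D ch F s (m + 1) (2⁻¹ ^ s) w₁ u₁ := pf hQ h n1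
  have P2 : PF D ch F s (m + 1) (2⁻¹ ^ s) w₂ u₂ := pf hQ h n2
  obtain ⟨g1, g2⟩ := Prod.ext_iff.1 hg
  obtain ⟨g2, g3⟩ := Prod.ext_iff.1 g2
  obtain ⟨ga, gv⟩ := Prod.ext_iff.1 g1
  have ga : D.a w₁ = D.a w₂ := ga
  have gv : D.v w₁ = D.v w₂ := gv
  have g2 : D.Wd F s w₁ = D.Wd F s w₂ := g2
  have dW := h.ok.det_Wd h.det s
  have hW : D.Wd F s u₂ = D.Wd F s u₁ := by
    rw [← dW _ _ P1.n1 P1.n2 P1.hc, ← dW _ _ P2.n1 P2.n2 P2.hc, g2]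
  have hX : D.X0 s w₂ = D.X0 s w₁ := by unfold Cf.X0; rw [ga, gv, wd_t g2]
  obtain ⟨k2, k3⟩ := near h P1.n2 (wd_t hW) (show D.ln s u₂ = D.ln s u₁ from g3.symm)
  have a1 := P2.a1
  have a2 := P2.a2
  have a4 := P2.a4
  rw [wd_F hW, ← gv] at a1
  rw [hX] at a2 a4
  rw [wd_F hW] at a4
  have hμ : |D.mu ch (w₂, u₂) - D.mu ch (w₁, u₁)| ≤ ((m : ℝ) + 1) * 2⁻¹ ^ s := by
    refine le_trans (le_of_eq ?_) ((pw_le ch _).trans k2)
    simp only [Cf.mu, gv, map_sub, PiLp.sub_apply]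
    congr 1; ring
  obtain ⟨-, l1, l2, -, l3⟩ := D.tb_lat F s u₂
  have hε : |(2⁻¹ : ℝ) ^ s| ≤ 2⁻¹ ^ s := (abs_of_pos (by positivity)).le
  refine ⟨P1, P2.n2, hW, ?_, ?_, ?_, k2, k3⟩
  · have c1 := nsm (amul hε hμ) (l3.norm_le.trans (sqp ch))
    have e : ∀ (G : Eu p) (a b : ℝ) (f g : Eu p), ch.pi G (D.v u₂ - D.v u₁) +
        (2⁻¹ ^ s * a) • (g - f) = (ch.pi G (D.v u₂ - D.v w₁) + (2⁻¹ ^ s * b) • g) -
        (ch.pi G (D.v u₁ - D.v w₁) + (2⁻¹ ^ s * a) • f) - (2⁻¹ ^ s * (b - a)) • g := by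
      intro G a b f g
      simp only [ch.pi_sub, smul_sub, mul_sub, sub_smul]; abel
    dsimp only
    rw [e _ _ (D.mu ch (w₂, u₂))]
    refine (norm_sub_le _ _).trans ?_
    linarith [norm_sub_le_of_le a1 P1.a1]
  · have c1 := amul (amul hε hμ) (show |D.tb s u₂| ≤ 1 by rw [abs_of_nonneg l1]; exact l2.le)
    have c2 := P1.a2
    simp only [map_sub, PiLp.sub_apply, abs_le] at a2 c1 c2 ⊢
    constructor <;> linarith [a2.1, a2.2, c1.1, c1.2, c2.1, c2.2]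
  · have e : D.X0 s u₂ - D.X0 s u₁ = (D.X0 s u₂ - D.X0 s w₁) - (D.X0 s u₁ - D.X0 s w₁) := by abel
    dsimp only
    rw [e, ch.pi_sub]
    linarith [norm_sub_le_of_le a4 P1.a4]

/-- two quadruples with the same fine data -/
theorem cmp (hQ : Q1 ch) (h : D.PC ch σ Q F L E) {z y : (Ω × Ω) × Ω × Ω}
    (hz : D.p4 ch F s z ≠ 0) (hy : D.p4 ch F s y ≠ 0) (hU : D.U4 s z = D.U4 s y) :
    ‖D.mu ch z.1 • (zm s s (F z.2.2) - zm s s (F z.1.2)) -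
      D.mu ch y.1 • (zm s s (F y.2.2) - zm s s (F y.1.2))‖ ≤ 18 * ((m : ℝ) + 1) ^ 2 * 2⁻¹ ^ s ∧
    |D.mu ch z.1 * (D.tb s z.2.2 - D.tb s z.1.2) - D.mu ch y.1 * (D.tb s y.2.2 - D.tb s y.1.2)| ≤
      14 * ((m : ℝ) + 1) * 2⁻¹ ^ s := by
  have Z := qf hQ h hz
  have Y := qf hQ h hy
  obtain ⟨g1, g2⟩ := Prod.ext_iff.1 hU
  obtain ⟨g2, g3⟩ := Prod.ext_iff.1 g2
  have hW := h.ok.det_Wd h.det s _ _ Z.p1.n2 Y.p1.n2 g1
  obtain ⟨c1, c2⟩ := near (j := s + s) h Y.p1.n2 (wd_t hW) g2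
  obtain ⟨c3, c4⟩ := near (j := s + s) h Y.n2 (wd_t (Z.hW.trans (hW.trans Y.hW.symm))) g3
  rw [pow_add] at c1 c2 c3 c4
  have hε : (0 : ℝ) < 2⁻¹ ^ s := by positivity
  constructor
  · have b1 := Z.b1
    have b2 := Y.b1
    rw [wd_F hW] at b1
    have c5 := pi_le4 ch (M1 m) (fb_le h Y.p1.n2 s) (norm_sub_le_of_le c3 c1)
    refine le_of_mul_le_mul_left ?_ hε
    have e : ∀ (G : Eu p) (a b ε : ℝ) (f g : Eu p), ε • (a • f - b • g) =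
        (ch.pi G (D.v z.2.2 - D.v z.1.2) + (ε * a) • f) -
        (ch.pi G (D.v y.2.2 - D.v y.1.2) + (ε * b) • g) -
        ch.pi G (D.v z.2.2 - D.v y.2.2 - (D.v z.1.2 - D.v y.1.2)) := by
      intro G a b ε f g
      simp only [ch.pi_sub, smul_sub, smul_smul]; abel
    have c6 := norm_sub_le_of_le (norm_sub_le_of_le b1 b2) c5
    rw [← e, norm_smul, Real.norm_eq_abs, abs_of_pos hε] at c6
    linarith
  · have b1 := Z.b2
    have b2 := Y.b2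
    have c5 := (pw_le ch _).trans c2
    have c6 := (pw_le ch _).trans c4
    refine le_of_mul_le_mul_left ?_ hε
    rw [← abs_of_pos hε, ← abs_mul, abs_of_pos hε]
    simp only [map_sub, PiLp.sub_apply, abs_le] at b1 b2 c5 c6 ⊢
    constructor <;> linarith [b1.1, b1.2, b2.1, b2.2, c5.1, c5.2, c6.1, c6.2]

theorem isP2 (h : D.PC ch σ Q F L E) : IsP (D.p2 ch F s) := e3.isP_res _ h.ok.isP

theorem isP4 (h : D.PC ch σ Q F L E) : IsP (D.p4 ch F s) := e3.isP_res _ (isP2 h)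

theorem log_mul_pow {C : ℝ} (hC : 0 < C) (k : ℕ) : log (C * 2 ^ k) = log C + k * log 2 := by
  rw [log_mul hC.ne' (by positivity), log_pow]

theorem c1 (T : Tools) (hQ : Q1 ch) (h : D.PC ch σ Q F L E) (b : ℕ) :
    Hc (D.p4 ch F s) (fun z => slp s b (D.tb s z.1.2) (D.tb s z.2.2) (zm s s (F z.1.2))
      (zm s s (F z.2.2))) (D.U4 s) ≤
    log 2 + p * (log (32 * ((m : ℝ) + 1) ^ 2) + (3 * b : ℕ) * log 2) + CE p +
      (Pr (D.p2 ch F s) (fun z => |D.mu ch z| ≤ 2⁻¹ ^ b) +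
        Pr (D.p4 ch F s) (fun z => |D.tb s z.2.2 - D.tb s z.1.2| ≤ 2⁻¹ ^ b)) *
      (p * s * log 2 + p * (log (m + 1) + b * log 2) + CE p) := by
  have hM := M1 m
  have hb : (1 : ℝ) ≤ 2 ^ b := one_le_pow₀ one_le_two
  have hb3 : (1 : ℝ) ≤ 2 ^ (3 * b) := one_le_pow₀ one_le_two
  have hβ : (0 : ℝ) < 2⁻¹ ^ b := by positivity
  have hf : ∀ w w' : Ω, ‖zm s s (F w') - zm s s (F w)‖ ≤ (m : ℝ) + 1 := fun w w' =>
    ((zm_box _ _ _).norm_sub_le (zm_box _ _ _)).trans (sqp ch)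
  have key := T.t3.nearE s (fun z : (Ω × Ω) × Ω × Ω =>
      if 2⁻¹ ^ b ≤ |D.tb s z.2.2 - D.tb s z.1.2| then
        (D.tb s z.2.2 - D.tb s z.1.2)⁻¹ • (zm s s (F z.2.2) - zm s s (F z.1.2)) else 0) (D.U4 s)
    (fun z => ¬(|D.mu ch z.1| ≤ 2⁻¹ ^ b ∨ |D.tb s z.2.2 - D.tb s z.1.2| ≤ 2⁻¹ ^ b))
    (32 * ((m : ℝ) + 1) ^ 2 * 2 ^ (3 * b)) ((m + 1) * 2 ^ b) (isP4 h)
    (one_le_mul_of_one_le_of_one_le (by nlinarith) hb3) (one_le_mul_of_one_le_of_one_le hM hb)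
    (fun z _ => by
      split_ifs with hs
      · rw [mul_comm]
        refine nsm ?_ (hf _ _)
        rw [abs_inv, ← inv_inv ((2 : ℝ) ^ b), ← inv_pow]
        exact inv_anti₀ hβ hs
      · rw [norm_zero]; positivity)
    (fun z y hz hy ez ey hU => by
      push Not at ez ey
      obtain ⟨a1, a2⟩ := cmp hQ h hz hy hU
      rw [if_pos ez.2.le, if_pos ey.2.le]
      refine (geoS hM (by positivity) hβ (eps1 b) ez.1.le ez.2.le ey.2.le (hf _ _) a1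
        a2).trans_eq ?_
      rw [inv_pow (2 : ℝ) b, inv_inv, ← pow_mul, mul_comm b])
  rw [log_mul_pow (by positivity), log_mul_pow (by positivity)] at key
  have e : (fun z : (Ω × Ω) × Ω × Ω => slp s b (D.tb s z.1.2) (D.tb s z.2.2) (zm s s (F z.1.2))
      (zm s s (F z.2.2))) = fun z => flo s (if 2⁻¹ ^ b ≤ |D.tb s z.2.2 - D.tb s z.1.2| then
        (D.tb s z.2.2 - D.tb s z.1.2)⁻¹ • (zm s s (F z.2.2) - zm s s (F z.1.2)) else 0) := by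
    funext z
    rw [slp, apply_ite (flo s), flo_zero]
  rw [e]
  refine key.trans (add_le_add le_rfl (mul_le_mul_of_nonneg_right ?_ ?_))
  · rw [← T.t1.mp_pr (fun z => |D.mu ch z| ≤ 2⁻¹ ^ b) (T.t1.mp_fst (D.G2 F s) (isP2 h))]
    exact (e1.pr_mono (isP4 h) fun z _ hz => not_not.1 hz).trans (e1.pr_or _ _ (isP4 h))
  · have := log_nonneg hM
    have := CE_nonneg p
    have := log_two_pos
    positivity

theorem c2 (T : Tools) (hQ : Q1 ch) (h : D.PC ch σ Q F L E) (b : ℕ) :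
    Hc (D.p4 ch F s) (fun z => flo s (D.v z.1.1)) (fun z => (D.tb s z.2.2, D.U4 s z)) ≤
    log 2 + m * (log (45 * ((m : ℝ) + 1)) + b * log 2) + CE m +
      Pr (D.p4 ch F s) (fun z => |D.tb s z.2.2 - D.tb s z.1.2| ≤ 2⁻¹ ^ b) *
      (m * s * log 2 + m * log (m + 1) + CE m) := by
  have hM := M1 m
  have hb : (1 : ℝ) ≤ 2 ^ b := one_le_pow₀ one_le_two
  have key := T.t3.nearE s (fun z : (Ω × Ω) × Ω × Ω => D.v z.1.1)
    (fun z => (D.tb s z.2.2, D.U4 s z)) (fun z => ¬|D.tb s z.2.2 - D.tb s z.1.2| ≤ 2⁻¹ ^ b)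
    (45 * ((m : ℝ) + 1) * 2 ^ b) (m + 1) (isP4 h)
    (one_le_mul_of_one_le_of_one_le (by linarith) hb) hM
    (fun z hz => (h.ok.box _ (qf hQ h hz).p1.n1).2.1.norm_le.trans (sqrt_le_succ m))
    (fun z y hz hy ez _ hU => by
      obtain ⟨g0, hU⟩ := Prod.ext_iff.1 hU
      have g0 : D.tb s z.2.2 = D.tb s y.2.2 := g0
      obtain ⟨-, a2⟩ := cmp hQ h hz hy hU
      have Z := (qf hQ h hz).p1
      have Y := (qf hQ h hy).p1
      obtain ⟨g1, g2⟩ := Prod.ext_iff.1 hU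
      have g3 := h.ok.det_tb s _ _ Z.n2 Y.n2 g1
      have hW := h.ok.det_Wd h.det s _ _ Z.n2 Y.n2 g1
      have k1 := (near (j := s + s) h Y.n2 (wd_t hW) (Prod.ext_iff.1 g2).1).1
      rw [← g0, ← g3, ← sub_mul, abs_mul] at a2
      have a3 : |D.mu ch z.1 - D.mu ch y.1| ≤ 14 * ((m : ℝ) + 1) * 2⁻¹ ^ s * 2 ^ b := by
        rw [← div_le_iff₀ (by positivity), div_eq_mul_inv, ← inv_pow]
        exact (mul_le_mul_of_nonneg_left (not_le.1 ez).le (abs_nonneg _)).trans a2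
      have a4 := ch.norm_le (h.rep _ Y.n2).1 ((D.v z.1.2 - D.v z.1.1) - (D.v y.1.2 - D.v y.1.1))
      have z3 := Z.a3
      rw [h.det _ _ Z.n2 Y.n2 g1] at z3
      have a5 := norm_sub_le_of_le z3 Y.a3
      rw [← ch.pi_sub] at a5
      rw [norm_one, map_sub, PiLp.sub_apply] at a4
      have e : D.v z.1.1 - D.v y.1.1 = (D.v z.1.2 - D.v y.1.2) -
        ((D.v z.1.2 - D.v z.1.1) - (D.v y.1.2 - D.v y.1.1)) := by abel
      rw [pow_add] at k1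
      have a6 : ((m : ℝ) + 1) * (2⁻¹ ^ s * 2⁻¹ ^ s) ≤ ((m : ℝ) + 1) * (2⁻¹ ^ s * 2 ^ b) := by
        gcongr; exact (eps1 s).trans hb
      unfold Cf.mu at a3
      rw [e]
      linarith [norm_sub_le_of_le k1 a4])
  rw [log_mul_pow (by positivity)] at key
  refine key.trans (add_le_add le_rfl (mul_le_mul_of_nonneg_right ?_ ?_))
  · exact e1.pr_mono (isP4 h) fun z _ hz => not_not.1 hz
  · have := log_nonneg hM
    have := CE_nonneg m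
    have := log_two_pos
    positivity

theorem hc_pair {α β γ : Type} {q : Ω → ℝ} (hq : IsP q) (f : Ω → α) (g : Ω → β) (k : Ω → γ) :
    Hc q (fun ω => (f ω, g ω)) k ≤ Hc q f k + Hc q g k := by
  rw [e1.chain f g k hq]
  exact add_le_add le_rfl (e1.hc_mono hq (Det.snd _ _ _) (Det.fst _ _ _))

theorem c3 (T : Tools) (hQ : Q1 ch) (h : D.PC ch σ Q F L E) :
    Hc (D.p4 ch F s) (fun z => D.KK ch F s z.2.2) (fun z => (D.c z.1.2, D.ln (s + s) z.1.2)) ≤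
      p * log (48 * ((m : ℝ) + 1) ^ 2) + CE p + (p * log (12 * ((m : ℝ) + 1) ^ 2) + CE p +
      ((1 : ℕ) * log (6 * ((m : ℝ) + 1)) + CE 1)) := by
  have hM := M1 m
  have hP := isP4 (s := s) h
  have hε : ((m : ℝ) + 1) * (2⁻¹ ^ s * 2⁻¹ ^ s) ≤ ((m : ℝ) + 1) * 2⁻¹ ^ s := by
    gcongr; exact mul_le_of_le_one_left (by positivity) (eps1 s)
  have base : ∀ z y : (Ω × Ω) × Ω × Ω, D.p4 ch F s z ≠ 0 → D.p4 ch F s y ≠ 0 →
      (D.c z.1.2, D.ln (s + s) z.1.2) = (D.c y.1.2, D.ln (s + s) y.1.2) →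
      D.Wd F s z.1.2 = D.Wd F s y.1.2 ∧
      ‖D.v z.1.2 - D.v y.1.2‖ ≤ ((m : ℝ) + 1) * (2⁻¹ ^ s * 2⁻¹ ^ s) ∧
      ‖D.X0 s z.1.2 - D.X0 s y.1.2‖ ≤ 2 * ((m : ℝ) + 1) * (2⁻¹ ^ s * 2⁻¹ ^ s) := by
    intro z y hz hy hU
    obtain ⟨g1, g2⟩ := Prod.ext_iff.1 hU
    have hW := h.ok.det_Wd h.det s _ _ (qf hQ h hz).p1.n2 (qf hQ h hy).p1.n2 g1
    rw [← pow_add]
    exact ⟨hW, near h (qf hQ h hy).p1.n2 (wd_t hW) g2⟩
  have tri : ∀ {n : ℕ} (a b c d : Eu n), a - d = (a - b) - (d - c) + (b - c) := fun a b c d => by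
    abel
  refine (hc_pair hP _ _ _).trans ?_
  rw [e1.hc_det hP fun z y hz hy hU => (qf hQ h hz).hW.trans
    ((base z y hz hy hU).1.trans (qf hQ h hy).hW.symm), add_zero]
  refine (hc_pair hP _ _ _).trans (add_le_add ?_ ((hc_pair hP _ _ _).trans (add_le_add ?_ ?_)))
  · refine T.t3.nearA _ _ _ _ hP (by nlinarith) fun z y hz hy hU => ?_
    obtain ⟨hW, -, a2⟩ := base z y hz hy hU
    have Z := qf hQ h hz
    have Y := qf hQ h hy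
    have k1 := Z.k1
    rw [wd_F hW] at k1
    have a3 := pi_le4 ch hM (fb_le h Y.p1.n2 s) a2
    rw [wd_F Z.hW, wd_F Y.hW, wd_F hW, ← ch.pi_sub, tri _ (D.X0 s z.1.2) (D.X0 s y.1.2), ch.pi_add,
      ch.pi_sub, pow_add]
    linarith [norm_add_le_of_le (norm_sub_le_of_le k1 Y.k1) a3]
  · refine T.t3.nearA _ _ _ _ hP (by nlinarith) fun z y hz hy hU => ?_
    obtain ⟨hW, a2, -⟩ := base z y hz hy hU
    have Z := qf hQ h hz
    have Y := qf hQ h hy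
    rw [wd_F Z.hW, wd_F Y.hW, wd_F hW, ← ch.pi_sub, tri _ (D.v z.1.2) (D.v y.1.2)]
    linarith [pi_le4 ch hM (fb_le h Y.p1.n2 s)
      (norm_add_le_of_le (norm_sub_le_of_le Z.k2 Y.k2) (a2.trans hε))]
  · refine T.t3.nearA _ _ _ _ hP (by nlinarith) fun z y hz hy hU => ?_
    obtain ⟨-, -, a2⟩ := base z y hz hy hU
    rw [← map_sub, tri _ (D.X0 s z.1.2) (D.X0 s y.1.2)]
    linarith [(ch.Pw_le _).trans
      (norm_add_le_of_le (norm_sub_le_of_le (qf hQ h hz).k3 (qf hQ h hy).k3) a2)]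

theorem absorb {P E L K c : ℝ} (hP : 0 ≤ P) (hL : 1 ≤ L) (hPE : P * L ≤ E) (hK : 0 ≤ K)
    (hc : c ≤ K * L) : P * c ≤ K * E := by
  have h1 := mul_le_mul_of_nonneg_left hc hP
  have h2 := mul_le_mul_of_nonneg_left hPE hK
  have _ := hL
  linarith

end K1cX

open K1cX in
theorem sK1c (T : Tools) (B : Base) : SK1c := by
  have _ := B
  intro m p ch σ hQ ζ hζ
  have hl := log_nonneg (M1 m)
  have hp := CE_nonneg p
  have hm := CE_nonneg m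
  filter_upwards [ef_large 1,
    ef_lin (A := 2 * (2 * p + p * log (m + 1) + CE p)) (by positivity)
      (log 2 + p * log (32 * ((m : ℝ) + 1) ^ 2) + CE p) hζ,
    ef_lin (A := m + m * log (m + 1) + CE m) (by positivity)
      (log 2 + m * log (45 * ((m : ℝ) + 1)) + CE m) hζ,
    ef_const (p * log (48 * ((m : ℝ) + 1) ^ 2) + CE p + (p * log (12 * ((m : ℝ) + 1) ^ 2) + CE p +
      ((1 : ℕ) * log (6 * ((m : ℝ) + 1)) + CE 1))) hζ] with x hx x1 x2 x3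
  intro Ω Tt Θ _ D Q F h s b hb hs h1 h2
  have hL : (1 : ℝ) ≤ x.2 := by exact_mod_cast hx
  have hlg : ∀ k : ℕ, k ≤ s → (k : ℝ) * log 2 ≤ x.2 := fun k hk =>
    (mul_le_of_le_one_right (by positivity) log_two_le_one).trans
      (by exact_mod_cast (by omega : k ≤ x.2))
  have n2 := e1.pr_nonneg (fun z => |D.mu ch z| ≤ 2⁻¹ ^ b) (isP2 (s := s) h)
  have n4 := e1.pr_nonneg (fun z => |D.tb s z.2.2 - D.tb s z.1.2| ≤ 2⁻¹ ^ b) (isP4 (s := s) h)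
  have up : ∀ {K : ℝ}, 0 ≤ K → K ≤ K * x.2 := fun hK => le_mul_of_one_le_right hK hL
  refine ⟨(c1 T hQ h b).trans ?_, (c2 T hQ h b).trans ?_, (c3 T hQ h).trans x3⟩
  · have p0 : (0 : ℝ) ≤ p := by positivity
    have := absorb (E := 2 * x.1) (K := 2 * p + p * log (m + 1) + CE p)
      (c := p * s * log 2 + p * (log (m + 1) + b * log 2) + CE p) (add_nonneg n2 n4) hL
      (by linarith) (by positivity) (by
        linarith [mul_le_mul_of_nonneg_left (hlg s le_rfl) p0,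
          mul_le_mul_of_nonneg_left (hlg b hb) p0, up hp, up (mul_nonneg p0 hl)])
    have h3 : 0 ≤ p * (b * log 2) := by have := log_two_pos; positivity
    push_cast
    linarith
  · have m0 : (0 : ℝ) ≤ m := by positivity
    have := absorb (K := m + m * log (m + 1) + CE m) (c := m * s * log 2 + m * log (m + 1) + CE m)
      n4 hL h2 (by positivity) (by
        linarith [mul_le_mul_of_nonneg_left (hlg s le_rfl) m0, up hm, up (mul_nonneg m0 hl)])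
    linarith

end Vale.Agent.P127
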