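import Vale.Agent.P127.Num

/-! Sticky Kakeya sets in four dimensions: slopes of one coordinate for planar grains. -/

namespace Vale.Agent.P127

open Vale.Agent.P118
open scoped RealInnerProductSpace
open Real Classical Module

namespace K2X

variable {Ω Tt Θ : Type} [Fintype Ω] {D : Cf Ω Tt Θ 3} {ch : Chart 3 1 2 2} {F : Ω → Eu 2}
  {k : Fin 2} {s b L : ℕ} {E : ℝ}

omit [Fintype Ω] in
theorem slp_eq (D : Cf Ω Tt Θ 3) (F : Ω → Eu 2) (k : Fin 2) (s b : ℕ) (z : Ω × Ω) :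
    slp s b (D.tb s z.1) (D.tb s z.2) (co k (zm s s (F z.1))) (co k (zm s s (F z.2))) =
      WithLp.toLp 2 fun _ => ((fl s (D.th2 F k s b z) : ℝ) / 2 ^ s : ℝ) := by
  unfold slp Cf.th2
  split_ifs with h
  · ext j
    rw [flo_apply]
    simp [co]
  · ext j
    simp [fl]

omit [Fintype Ω] in
theorem th2_le (D : Cf Ω Tt Θ 3) (F : Ω → Eu 2) (k : Fin 2) (s b : ℕ) (z : Ω × Ω) :
    |D.th2 F k s b z| ≤ 2 ^ b := by
  unfold Cf.th2
  split_ifs with h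
  · have h0 : (0 : ℝ) < 2⁻¹ ^ b := by positivity
    have h1 : |zm s s (F z.2) k - zm s s (F z.1) k| ≤ 1 := by
      have a1 := zm_box s s (F z.2) k
      have a2 := zm_box s s (F z.1) k
      rw [abs_le]; constructor <;> linarith
    have h2 : |D.tb s z.2 - D.tb s z.1|⁻¹ ≤ 2 ^ b := by
      have h3 := inv_anti₀ h0 h
      rwa [inv_pow, inv_inv] at h3
    rw [abs_mul, abs_inv]
    calc _ ≤ (2 : ℝ) ^ b * 1 := mul_le_mul h2 h1 (abs_nonneg _) (by positivity)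
      _ = _ := mul_one _
  · rw [abs_zero]; positivity

theorem w_le (ok : D.OK L E) {ω : Ω} (hω : D.p ω ≠ 0) : |D.w ch ω k| ≤ 4 := by
  have h1 := abs_coord_le (D.w ch ω) k
  have h2 : ‖D.w ch ω‖ ≤ ‖D.X ω‖ := ch.Pw_le _
  have h3 := ok.norm_X hω
  have h4 := sqrt_le_half 3
  push_cast at h3 h4
  linarith

theorem wd_eq (tw : D.Two (D.M2 F s) L E) {z : Ω × Ω} (hz : D.pp (D.M2 F s) z ≠ 0) :
    D.Wd F s z.2 = D.Wd F s z.1 := by
  obtain ⟨-, -, -, -, h1, h2⟩ := tw.supp z hz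
  obtain ⟨h3, h4⟩ := Prod.ext_iff.1 h2
  exact Prod.ext h3 (Prod.ext h4 h1)

theorem det1 {α β : Type} (tw : D.Two (D.M2 F s) L E) {f : Ω → α} {g : Ω → β}
    (h : Det D.p f g) : Det (D.pp (D.M2 F s)) (fun z => f z.1) fun z => g z.1 :=
  fun a a' ha ha' e => h _ _ (tw.supp a ha).1 (tw.supp a' ha').1 e

theorem tau_low (ok : D.OK L E) : Hc D.p (D.tb s) (fun ω => (D.l ω, D.Wd F s ω)) ≤
    Hc D.p (D.tb s) fun ω => (D.l ω, D.T ω, D.M2 F s ω) :=
  e1.hc_mono ok.isP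
    (Det.comp D.p (fun ω => (D.l ω, D.Wd F s ω)) fun u => (u.1, u.2.2.2, u.2.1, u.2.2.1))
    (Det.fst _ _ _)

theorem pair_low (ok : D.OK L E) (tw : D.Two (D.M2 F s) L E) :
    2 * Hc D.p (D.tb s) (fun ω => (D.l ω, D.Wd F s ω)) ≤
      Hc (D.pp (D.M2 F s)) (fun z => (D.tb s z.1, D.tb s z.2)) fun z => D.Wd F s z.1 := by
  have h1 := tau_low (F := F) (s := s) ok
  have h2 := e3.res_pair (fun ω => (D.l ω, D.T ω, D.M2 F s ω)) (D.tb s) (D.tb s) ok.isP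
  have h3 : Hc (D.pp (D.M2 F s)) (fun z => (D.tb s z.1, D.tb s z.2))
      (fun z => (D.l z.1, D.T z.1, D.M2 F s z.1)) ≤
      Hc (D.pp (D.M2 F s)) (fun z => (D.tb s z.1, D.tb s z.2)) fun z => D.Wd F s z.1 :=
    e1.hc_mono tw.mp₁.1
      (Det.comp _ (fun z : Ω × Ω => (D.l z.1, D.T z.1, D.M2 F s z.1))
        fun u => (u.2.2.1, u.2.2.2, u.2.1)) (Det.fst _ _ _)
  have h4 : Hc (D.pp (D.M2 F s)) (fun z => (D.tb s z.1, D.tb s z.2))
      (fun z => (D.l z.1, D.T z.1, D.M2 F s z.1)) = _ := h2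
  linarith

theorem detG (ok : D.OK L E) (hF : Det D.p D.c F) (tw : D.Two (D.M2 F s) L E) :
    Det (D.pp (D.M2 F s)) (fun z => (D.th z.2, D.W2 ch F k s z)) (D.th2 F k s b) := by
  intro a a' ha ha' e
  obtain ⟨a1, a2, -, -, a3, -⟩ := tw.supp a ha
  obtain ⟨b1, b2, -, -, b3, -⟩ := tw.supp a' ha'
  obtain ⟨h1, h2⟩ := Prod.ext_iff.1 e
  have c1 : D.c a.1 = D.c a'.1 := (Prod.ext_iff.1 h2).1
  have c0 : D.T a.1 = D.T a'.1 := (Prod.ext_iff.1 c1).2
  have c2 : D.c a.2 = D.c a'.2 := Prod.ext h1 (by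
    show D.T a.2 = D.T a'.2
    rw [a3, b3, c0])
  unfold Cf.th2
  rw [ok.det_tb s _ _ a1 b1 c1, ok.det_tb s _ _ a2 b2 c2, hF _ _ a1 b1 c1, hF _ _ a2 b2 c2]

theorem detU (ok : D.OK L E) (hF : Det D.p D.c F) :
    Det D.p (fun ω => (D.l ω, D.c ω)) fun ω => ((fl s (D.w ch ω k), fl s (D.z ch F ω 0)),
      D.c ω, flo s (D.y ch F ω), fl s (D.w ch ω k.rev)) := by
  intro a a' ha ha' e
  have hX := ok.det_X a a' ha ha' e
  obtain ⟨h1, h2⟩ := Prod.ext_iff.1 e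
  have h3 : D.v a = D.v a' := (Prod.ext_iff.1 h1).2
  have h4 : D.c a = D.c a' := h2
  have h5 := hF a a' ha ha' h4
  simp only [Cf.w, Cf.z, Cf.y, hX, h3, h4, h5]

theorem theta_up (kau : SKau) (ok : D.OK L E) (hF : Det D.p D.c F) (tw : D.Two (D.M2 F s) L E)
    {σ e : ℝ}
    (a1 : s * log 2 - e ≤ Hc (D.pp (D.M2 F s)) (fun z => fl s (D.w ch z.1 k))
      (fun z => (D.th z.2, D.W2 ch F k s z)))
    (a2 : Hc (D.pp (D.M2 F s)) (fun z => fl s (D.z ch F z.1 0))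
      (fun z => (fl s (D.w ch z.1 k), D.W2 ch F k s z)) ≤ e)
    (a3 : Hc (D.pp (D.M2 F s)) (fun z => fl s (D.z ch F z.1 0 + D.th2 F k s b z * D.w ch z.1 k))
      (fun z => (D.th z.2, D.W2 ch F k s z)) ≤ (1 - σ) * s * log 2 + b * log 2 + e) :
    Hc (D.pp (D.M2 F s)) (fun z => fl s (D.th2 F k s b z))
      (fun z => ((fl s (D.w ch z.1 k), fl s (D.z ch F z.1 0)), D.W2 ch F k s z)) ≤
      (1 - σ) * s * log 2 + 2 * (b * log 2) + log (s + 1) + 2 * log 4 + 20 + 3 * e := by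
  have hp := tw.mp₁.1
  have h1 := kau (D.pp (D.M2 F s)) (fun z => D.w ch z.1 k) (fun z => D.z ch F z.1 0)
    (D.th2 F k s b) (D.W2 ch F k s) (fun z => (D.th z.2, D.W2 ch F k s z)) s b 4 hp (by norm_num)
    (fun z hz => ⟨w_le ok (tw.supp z hz).1, th2_le D F k s b z⟩) (detG ok hF tw) (Det.snd _ _ _)
  have h2 := e1.tri (fun z : Ω × Ω => fl s (D.w ch z.1 k))
    (fun z => fl s (D.z ch F z.1 0 + D.th2 F k s b z * D.w ch z.1 k))
    (fun z => (D.th z.2, D.W2 ch F k s z)) hp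
  linarith

theorem slope_up (T : Tools) (ok : D.OK L E) (hF : Det D.p D.c F) (tw : D.Two (D.M2 F s) L E) :
    Hc (D.pp (D.M2 F s)) (fun z => slp s b (D.tb s z.1) (D.tb s z.2) (co k (zm s s (F z.1)))
        (co k (zm s s (F z.2))))
      (fun z => ((D.tb s z.1, co k (zm s s (F z.1))), D.Wd F s z.1)) ≤
    Hc (D.pp (D.M2 F s)) (fun z => fl s (D.th2 F k s b z))
      (fun z => ((fl s (D.w ch z.1 k), fl s (D.z ch F z.1 0)), D.W2 ch F k s z)) +
    Hc D.p (fun ω => (D.tb s ω, zm s s (F ω))) (D.Wd F s) -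
    Hc D.p (D.tb s) (fun ω => (D.l ω, D.Wd F s ω)) := by
  have hp := tw.mp₁.1
  have d1 : Det D.p D.c fun ω => ((D.tb s ω, co k (zm s s (F ω))), D.Wd F s ω) :=
    ((ok.det_tb s).pair (hF.trans (Det.comp _ F fun u => co k (zm s s u)))).pair (ok.det_Wd hF s)
  have d2 : Det (D.pp (D.M2 F s))
      (fun z => ((fl s (D.w ch z.1 k), fl s (D.z ch F z.1 0)), D.W2 ch F k s z))
      fun z => ((D.tb s z.1, co k (zm s s (F z.1))), D.Wd F s z.1) :=
    (Det.comp _ (fun z : Ω × Ω => ((fl s (D.w ch z.1 k), fl s (D.z ch F z.1 0)), D.W2 ch F k s z))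
      fun u => u.2.1).trans (det1 tw d1)
  have h1 := e1.dp (f := fun z : Ω × Ω => (D.tb s z.2, co k (zm s s (F z.2))))
    (f' := fun z => slp s b (D.tb s z.1) (D.tb s z.2) (co k (zm s s (F z.1)))
      (co k (zm s s (F z.2)))) hp
    (Det.comp _ (fun z : Ω × Ω => ((D.tb s z.2, co k (zm s s (F z.2))),
      (D.tb s z.1, co k (zm s s (F z.1))), D.Wd F s z.1))
      fun u => slp s b u.2.1.1 u.1.1 u.2.1.2 u.1.2) d2
  have h2 : Hc (D.pp (D.M2 F s)) (fun z => slp s b (D.tb s z.1) (D.tb s z.2)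
      (co k (zm s s (F z.1))) (co k (zm s s (F z.2))))
      (fun z => ((fl s (D.w ch z.1 k), fl s (D.z ch F z.1 0)), D.W2 ch F k s z)) ≤
      Hc (D.pp (D.M2 F s)) (fun z => fl s (D.th2 F k s b z))
      (fun z => ((fl s (D.w ch z.1 k), fl s (D.z ch F z.1 0)), D.W2 ch F k s z)) :=
    e1.hc_mono hp (Det.refl _ _) fun a a' _ _ e => by
      have e' : fl s (D.th2 F k s b a) = fl s (D.th2 F k s b a') := (Prod.ext_iff.1 e).1
      simp only [slp_eq, e']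
  have h3 : Hc (D.pp (D.M2 F s)) (fun z => (D.tb s z.2, co k (zm s s (F z.2))))
      (fun z => ((D.tb s z.1, co k (zm s s (F z.1))), D.Wd F s z.1)) ≤
      Hc (D.pp (D.M2 F s)) (fun z => (D.tb s z.2, zm s s (F z.2))) fun z => D.Wd F s z.2 :=
    e1.hc_mono hp (fun a a' ha ha' e => by
        show D.Wd F s a.2 = D.Wd F s a'.2
        rw [wd_eq tw ha, wd_eq tw ha']; exact (Prod.ext_iff.1 e).2)
      (Det.comp _ (fun z : Ω × Ω => ((D.tb s z.2, zm s s (F z.2)),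
        (D.tb s z.1, co k (zm s s (F z.1))), D.Wd F s z.1)) fun u => (u.1.1, co k u.1.2))
  have h4 := T.t1.mp (fun ω => (D.tb s ω, zm s s (F ω))) (D.Wd F s) tw.mp₂
  have h5 : Hc (D.pp (D.M2 F s)) (fun z => D.tb s z.2) (fun z => (D.l z.1, D.c z.1)) ≤
      Hc (D.pp (D.M2 F s)) (fun z => (D.tb s z.2, co k (zm s s (F z.2))))
      (fun z => ((fl s (D.w ch z.1 k), fl s (D.z ch F z.1 0)), D.W2 ch F k s z)) :=
    e1.hc_mono hp (det1 tw (detU ok hF))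
      (Det.comp _ (fun z : Ω × Ω => ((D.tb s z.2, co k (zm s s (F z.2))), D.l z.1, D.c z.1))
        fun u => u.1.1)
  have h6 := tw.ci (D.tb s)
  have h7 := tau_low (F := F) (s := s) ok
  linarith

end K2X

theorem sK2 (T : Tools) (B : Base) (tb : STb) (a : SK2a) (kau : SKau) : SK2 := by
  intro σ hσ ch hP hL k κ ζ hκ hζ
  have hζ' : 0 < ζ / 7 := by positivity
  filter_upwards [tb ch σ hL _ hζ', a σ hσ ch hP hL k κ _ hκ hζ', ef_log hζ',
    ef_const (2 * log 4 + 20) hζ'] with x h1 h2 h3 h4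
  intro Ω Tt Θ _ D Q F hD s b hb1 hb2 hs
  obtain ⟨-, t2, t3⟩ := h1 D Q F hD s hs
  obtain ⟨a1, a2, a3⟩ := h2 D Q F hD s b hb1 hb2 hs
  have ok := hD.ok
  have tw : D.Two (D.M2 F s) x.2 x.1 := B.two D _ _ _ ok
    ((ok.det.trans (Det.comp _ D.t (fl s))).pair (hD.det.trans (Det.comp _ F (flo s))))
  have h0 : (0 : ℝ) ≤ ζ * x.2 := by positivity
  refine ⟨Ω × Ω, inferInstance, D.pp (D.M2 F s), Prod.fst, Prod.snd, tw.mp₁, tw.mp₂,
    fun z hz => K2X.wd_eq tw hz, ?_, ?_⟩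
  · have h5 := K2X.pair_low ok tw
    linarith
  · have h5 := K2X.slope_up (ch := ch) (k := k) (b := b) T ok hD.det tw
    have h6 := K2X.theta_up kau ok hD.det tw a1 a2 a3
    have h7 : log ((s : ℝ) + 1) ≤ log (x.2 + 1) := by
      have h8 : (s : ℝ) ≤ x.2 := by exact_mod_cast (by omega : s ≤ x.2)
      exact log_le_log (by positivity) (by linarith)
    have h8 : (b : ℝ) * log 2 ≤ b * 1 :=
      mul_le_mul_of_nonneg_left log_two_le_one (Nat.cast_nonneg b)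
    have h9 : (0 : ℝ) ≤ b := Nat.cast_nonneg b
    push_cast
    linarith

end Vale.Agent.P127
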