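import Vale.Agent.P127.Num

/-! Sticky Kakeya sets in four dimensions: the entropies for the Kaufman count. -/

namespace Vale.Agent.P127

open Vale.Agent.P118
open scoped RealInnerProductSpace
open Real Classical Module

namespace K2aX

theorem mul_le {a b A B : ℝ} (h : |a| ≤ A) (h' : |b| ≤ B) : |a * b| ≤ A * B := by
  rw [abs_mul]
  exact mul_le_mul h h' (abs_nonneg _) ((abs_nonneg _).trans h)

theorem alg {u dt dτ z f0 f1 g0 g1 w0 w1 p0 p1 : ℝ} (h1 : |dt - u * dτ| ≤ 2 * (u * u))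
    (h2 : |f0 - u * g0| ≤ 3 * (u * u)) (h3 : |f1 - u * g1| ≤ 3 * (u * u)) (h4 : |dt| ≤ u)
    (h5 : |f0| ≤ u) (h6 : |f1| ≤ u) (h7 : |z| ≤ 6) (h8 : |w0| ≤ 4) (h9 : |w1| ≤ 4)
    (h10 : |p0| ≤ 2) (h11 : |p1| ≤ 2) :
    |dt * z + (f0 * w0 + f1 * w1) + dt * (f0 * p0 + f1 * p1) -
      u * (dτ * z + (g0 * w0 + g1 * w1))| ≤ 40 * (u * u) := by
  have a1 := abs_le.1 (mul_le h1 h7)
  have a2 := abs_le.1 (mul_le h2 h8)
  have a3 := abs_le.1 (mul_le h3 h9)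
  have a4 := abs_le.1 (mul_le h4 (mul_le h5 h10))
  have a5 := abs_le.1 (mul_le h4 (mul_le h6 h11))
  rw [abs_le]
  constructor <;> nlinarith [a1.1, a1.2, a2.1, a2.2, a3.1, a3.2, a4.1, a4.2, a5.1, a5.2]

theorem sq3 : √((3 : ℕ) : ℝ) ≤ 2 := by
  rw [sqrt_le_left (by norm_num)]; norm_num

theorem sq2 : √((2 : ℕ) : ℝ) ≤ 3 / 2 := by
  rw [sqrt_le_left (by norm_num)]; norm_num

theorem inner_rev (x y : Eu 2) (k : Fin 2) :
    x k * y k + x k.rev * y k.rev = x 0 * y 0 + x 1 * y 1 := by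
  fin_cases k
  · rfl
  · exact add_comm _ _

theorem flo_rev {s : ℕ} {x y : Eu 2} (k : Fin 2) (h : fl s (x k) = fl s (y k))
    (h' : fl s (x k.rev) = fl s (y k.rev)) : flo s x = flo s y := by
  refine flo_eq_iff.2 fun j => ?_
  fin_cases k <;> fin_cases j
  · exact h
  · exact h'
  · exact h'
  · exact h

variable {Ω Tt Θ : Type} [Fintype Ω] {D : Cf Ω Tt Θ 3} {ch : Chart 3 1 2 2} {σ E e : ℝ}
  {Q : Ω → Submodule ℝ (Eu 3)} {F : Ω → Eu 2} {L s b : ℕ} {k : Fin 2}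

theorem bd (h : D.PC ch σ Q F L E) {a : Ω} (ha : D.p a ≠ 0) (j : Fin 2) :
    |D.w ch a j| ≤ 4 ∧ |D.z ch F a 0| ≤ 6 ∧ |ch.Pw (D.v a) j| ≤ 2 := by
  have h1 := h.ok.norm_X ha
  have h2 := (h.ok.box a ha).2.1.norm_le
  have h3 := ch.pi_le (h.rep a ha).1 (D.v a)
  refine ⟨(abs_coord_le _ _).trans ((ch.Pw_le _).trans ?_), (abs_coord_le _ _).trans ?_,
    (abs_coord_le _ _).trans ((ch.Pw_le _).trans ?_)⟩
  · linarith [sq3]
  · unfold Cf.z; linarith [sq3]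
  · linarith [sq3]

omit [Fintype Ω] in
theorem bd' (D : Cf Ω Tt Θ 3) (F : Ω → Eu 2) (s : ℕ) (a b : Ω) (j : Fin 2) :
    |D.tb s b - D.tb s a| ≤ 1 ∧ |zm s s (F b) j - zm s s (F a) j| ≤ 1 := by
  obtain ⟨-, h1, h2, -, h3⟩ := D.tb_lat F s a
  obtain ⟨-, h4, h5, -, h6⟩ := D.tb_lat F s b
  constructor <;> rw [abs_le] <;> constructor <;> linarith [h3 j, h6 j]

/-- the main term of the increment of `y` -/
noncomputable def pr (D : Cf Ω Tt Θ 3) (ch : Chart 3 1 2 2) (F : Ω → Eu 2) (k : Fin 2) (s : ℕ)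
    (z : Ω × Ω) : ℝ :=
  (D.tb s z.2 - D.tb s z.1) * D.z ch F z.1 0 +
    (zm s s (F z.2) k - zm s s (F z.1) k) * D.w ch z.1 k

theorem geo (hP : P1 ch) (h : D.PC ch σ Q F L E) (tw : D.Two (D.M2 F s) L E) {z : Ω × Ω}
    (hz : D.pp (D.M2 F s) z ≠ 0) (k : Fin 2) :
    |D.y ch F z.2 0 - D.y ch F z.1 0 - 2⁻¹ ^ s * (pr D ch F k s z +
      (zm s s (F z.2) k.rev - zm s s (F z.1) k.rev) * D.w ch z.1 k.rev)| ≤
      40 * (2⁻¹ ^ s * 2⁻¹ ^ s) := by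
  obtain ⟨ha, hb, e1, e2, -, e3⟩ := tw.supp z hz
  obtain ⟨e4, e5⟩ : fl s (D.t z.2) = fl s (D.t z.1) ∧ flo s (F z.2) = flo s (F z.1) :=
    Prod.ext_iff.1 e3
  have hX : D.X z.2 = D.X z.1 + (D.t z.2 - D.t z.1) • D.v z.1 := by
    unfold Cf.X; rw [e1, e2, sub_smul]; abel
  have hy : D.y ch F z.2 0 - D.y ch F z.1 0 = (D.t z.2 - D.t z.1) * D.z ch F z.1 0 +
      ((F z.2 0 - F z.1 0) * D.w ch z.1 0 + (F z.2 1 - F z.1 1) * D.w ch z.1 1) +
      (D.t z.2 - D.t z.1) * ((F z.2 0 - F z.1 0) * ch.Pw (D.v z.1) 0 +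
        (F z.2 1 - F z.1 1) * ch.Pw (D.v z.1) 1) := by
    simp only [Cf.y, Cf.z, Cf.w, Chart.pi, hX, map_add, map_smul, PiLp.add_apply, PiLp.smul_apply,
      hP _ _, inner_two, smul_eq_mul]
    ring
  have hr := inner_rev (zm s s (F z.2) - zm s s (F z.1)) (D.w ch z.1) k
  simp only [PiLp.sub_apply] at hr
  have hf : ∀ j, |F z.2 j - F z.1 j - 2⁻¹ ^ s * (zm s s (F z.2) j - zm s s (F z.1) j)| ≤
      3 * (2⁻¹ ^ s * 2⁻¹ ^ s) := fun j => by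
    have a1 := abs_le.1 ((abs_coord_le _ j).trans (zm_close s s (F z.1)))
    have a2 := abs_le.1 ((abs_coord_le _ j).trans (zm_close s s (F z.2)))
    rw [e5] at a2
    simp only [PiLp.sub_apply, PiLp.smul_apply, smul_eq_mul, pow_add] at a1 a2
    have a3 : √((2 : ℕ) : ℝ) * (2⁻¹ ^ s * 2⁻¹ ^ s) ≤ 3 / 2 * (2⁻¹ ^ s * 2⁻¹ ^ s) :=
      mul_le_mul_of_nonneg_right sq2 (by positivity)
    rw [abs_le]; constructor <;> linarith [a1.1, a1.2, a2.1, a2.2]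
  have ht : |D.t z.2 - D.t z.1 - 2⁻¹ ^ s * (D.tb s z.2 - D.tb s z.1)| ≤
      2 * (2⁻¹ ^ s * 2⁻¹ ^ s) := by
    have a1 := abs_le.1 (D.tb_near s z.1)
    have a2 := abs_le.1 (D.tb_near s z.2)
    rw [e4] at a2
    rw [pow_add] at a1 a2
    rw [abs_le]; constructor <;> linarith [a1.1, a1.2, a2.1, a2.2]
  rw [hy, pr, add_assoc ((D.tb s z.2 - D.tb s z.1) * _), hr]
  exact alg ht (hf 0) (hf 1) (fl_same e4) (geo1.same_coord e5 0) (geo1.same_coord e5 1)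
    (bd h ha 0).2.1 (bd h ha 0).1 (bd h ha 1).1 (bd h ha 0).2.2 (bd h ha 1).2.2

theorem cc (h : D.PC ch σ Q F L E) (tw : D.Two (D.M2 F s) L E) {z z' : Ω × Ω}
    (hz : D.pp (D.M2 F s) z ≠ 0) (hz' : D.pp (D.M2 F s) z' ≠ 0) (e1 : D.th z.2 = D.th z'.2)
    (e2 : D.c z.1 = D.c z'.1) : D.tb s z.1 = D.tb s z'.1 ∧ D.tb s z.2 = D.tb s z'.2 ∧
      F z.1 = F z'.1 ∧ F z.2 = F z'.2 ∧ D.T z.2 = D.T z'.2 := by
  obtain ⟨a1, a2, -, -, a3, -⟩ := tw.supp z hz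
  obtain ⟨b1, b2, -, -, b3, -⟩ := tw.supp z' hz'
  have e3 : D.T z.2 = D.T z'.2 := by rw [a3, b3]; exact (Prod.ext_iff.1 e2).2
  have e4 : D.c z.2 = D.c z'.2 := Prod.ext e1 e3
  exact ⟨h.ok.det_tb s _ _ a1 b1 e2, h.ok.det_tb s _ _ a2 b2 e4, h.det _ _ a1 b1 e2,
    h.det _ _ a2 b2 e4, e3⟩

/-- the conditioning of the statement -/
noncomputable abbrev GG (D : Cf Ω Tt Θ 3) (ch : Chart 3 1 2 2) (F : Ω → Eu 2) (k : Fin 2) (s : ℕ)
    (z : Ω × Ω) : Θ × (Θ × Tt) × Eu 1 × ℤ := (D.th z.2, D.W2 ch F k s z)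

omit [Fintype Ω] in
theorem gg {z z' : Ω × Ω} (e : GG D ch F k s z = GG D ch F k s z') : D.th z.2 = D.th z'.2 ∧
    D.c z.1 = D.c z'.1 ∧ flo s (D.y ch F z.1) = flo s (D.y ch F z'.1) ∧
    fl s (D.w ch z.1 k.rev) = fl s (D.w ch z'.1 k.rev) := by
  simpa only [GG, Cf.W2, Prod.mk.injEq] using e

omit [Fintype Ω] in
theorem gg' {z z' : Ω × Ω} (e1 : D.th z.2 = D.th z'.2) (e2 : D.c z.1 = D.c z'.1)
    (e3 : flo s (D.y ch F z.1) = flo s (D.y ch F z'.1))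
    (e4 : fl s (D.w ch z.1 k.rev) = fl s (D.w ch z'.1 k.rev)) :
    GG D ch F k s z = GG D ch F k s z' := by
  simp only [GG, Cf.W2, e1, e2, e3, e4]

theorem c1 {μ : Type} {M : Ω → μ} {z z' : Ω × Ω} : (D.two₁ M).c z = (D.two₁ M).c z' ↔
    D.th z.2 = D.th z'.2 ∧ D.c z.1 = D.c z'.1 := by
  simp only [Cf.c, Cf.two₁, Cf.lab, Prod.mk.injEq]
  tauto

theorem part1 (T : Tools) (h : D.PC ch σ Q F L E) (tw : D.Two (D.M2 F s) L E)
    (f1 : (D.two₁ (D.M2 F s)).FullC ch σ (fun z => Q z.1) (fun z => F z.1) L e) (hs : s ≤ L) :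
    s * log 2 - (e + log (4 * 4 + 3)) ≤
      Hc (D.pp (D.M2 F s)) (fun z => fl s (D.w ch z.1 k)) (GG D ch F k s) := by
  have hP := tw.mp₁.1
  have h1 : ((2 : ℕ) : ℝ) * s * log 2 - e ≤ Hc (D.pp (D.M2 F s)) (fun z => flo s (D.w ch z.1))
      fun z => (flo s (D.y ch F z.1), (D.two₁ (D.M2 F s)).c z) := f1.wl s s le_rfl hs
  have h2 := e1.tri (fun z => flo s (D.w ch z.1)) (fun z => fl s (D.w ch z.1 k.rev))
    (fun z => (flo s (D.y ch F z.1), (D.two₁ (D.M2 F s)).c z)) hP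
  have h3 := T.t3.tot1B s (fun z => D.w ch z.1 k.rev)
    (fun z => (flo s (D.y ch F z.1), (D.two₁ (D.M2 F s)).c z)) 4 hP (by norm_num)
    fun z hz => (bd h (tw.supp z hz).1 _).1
  have h4 : Hc (D.pp (D.M2 F s)) (fun z => flo s (D.w ch z.1))
      (fun z => (fl s (D.w ch z.1 k.rev), flo s (D.y ch F z.1), (D.two₁ (D.M2 F s)).c z)) ≤
      Hc (D.pp (D.M2 F s)) (fun z => fl s (D.w ch z.1 k)) (GG D ch F k s) := by
    refine e1.hc_mono hP (fun z z' _ _ e => ?_) fun z z' _ _ e => ?_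
    · simp only [Prod.mk.injEq, c1] at e
      exact gg' e.2.2.1 e.2.2.2 e.2.1 e.1
    · simp only [Prod.mk.injEq] at e
      exact flo_rev k e.1 e.2.1
  push_cast at h1
  linarith

theorem part2 (T : Tools) (tw : D.Two (D.M2 F s) L E) (f0 : D.FullC ch σ Q F L e)
    (hs : 2 * s ≤ L) : Hc (D.pp (D.M2 F s)) (fun z => fl s (D.z ch F z.1 0))
      (fun z => (fl s (D.w ch z.1 k), D.W2 ch F k s z)) ≤ e := by
  refine le_trans ?_ (f0.zy s hs)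
  rw [← T.t1.mp _ _ tw.mp₁]
  refine e1.hc_mono tw.mp₁.1 (fun z z' _ _ e => ?_) fun z z' _ _ e => ?_
  · simp only [Cf.W2, Prod.mk.injEq] at e ⊢
    exact ⟨e.2.2.1, flo_rev k e.1 e.2.2.2, e.2.1⟩
  · exact flo_eq_iff.1 (Prod.ext_iff.1 e).1 0

theorem algA {u Y Y' A A' B B' g : ℝ} (hu : 0 < u) (h1 : |Y - u * (A + g * B)| ≤ 40 * (u * u))
    (h2 : |Y' - u * (A' + g * B')| ≤ 40 * (u * u)) (h3 : |Y - Y'| ≤ 2 * (u * u)) (h4 : |g| ≤ 1)
    (h5 : |B - B'| ≤ u) : |A - A'| ≤ 83 * u := by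
  have a1 := abs_le.1 (mul_le h4 h5)
  have a2 := abs_le.1 h1
  have a3 := abs_le.1 h2
  have a4 := abs_le.1 h3
  have a5 := mul_le_mul_of_nonneg_left a1.1 hu.le
  have a6 := mul_le_mul_of_nonneg_left a1.2 hu.le
  rw [abs_le]
  constructor <;> refine le_of_mul_le_mul_left ?_ hu <;> nlinarith

theorem algB {u Y d z g w g' w' : ℝ} (hu : 0 < u) (hu1 : u ≤ 1)
    (h1 : |Y - u * (d * z + g * w + g' * w')| ≤ 40 * (u * u)) (h2 : |d| ≤ 1) (h3 : |z| ≤ 6)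
    (h4 : |g| ≤ 1) (h5 : |w| ≤ 4) (h6 : |g'| ≤ 1) (h7 : |w'| ≤ 4) : |Y| ≤ 54 * u := by
  have a1 := abs_le.1 (mul_le h2 h3)
  have a2 := abs_le.1 (mul_le h4 h5)
  have a3 := abs_le.1 (mul_le h6 h7)
  have a4 := abs_le.1 h1
  have a5 := mul_le_mul_of_nonneg_left hu1 hu.le
  have a6 := mul_le_mul_of_nonneg_left (show d * z + g * w + g' * w' ≤ 14 by linarith) hu.le
  have a7 := mul_le_mul_of_nonneg_left (show -14 ≤ d * z + g * w + g' * w' by linarith) hu.le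
  rw [abs_le]
  constructor <;> linarith

theorem stepA (T : Tools) (hP : P1 ch) (h : D.PC ch σ Q F L E) (tw : D.Two (D.M2 F s) L E)
    (f2 : (D.two₂ (D.M2 F s)).FullC ch σ (fun z => Q z.2) (fun z => F z.2) L e)
    (hs : s + s ≤ L) : Hc (D.pp (D.M2 F s)) (fun z => fl s (pr D ch F k s z))
      (fun z => (flo (s + s) (D.y ch F z.1), GG D ch F k s z)) ≤
      (1 - σ) * s * log 2 + e + (log (2 * 83 + 3) + log 109 + CE 1) := by
  have hp := tw.mp₁.1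
  have hu : (0 : ℝ) < 2⁻¹ ^ s := by positivity
  have h1 := e1.tri (fun z => fl s (pr D ch F k s z)) (fun z => flo (s + s) (D.y ch F z.2))
    (fun z => (flo (s + s) (D.y ch F z.1), GG D ch F k s z)) hp
  have h2 := T.t3.near1 s (pr D ch F k s) (fun z => (flo (s + s) (D.y ch F z.2),
      flo (s + s) (D.y ch F z.1), GG D ch F k s z)) 83 hp (by norm_num) fun z z' hz hz' e => by
    simp only [Prod.mk.injEq] at e
    obtain ⟨a1, a2, -, a4⟩ := gg (Prod.ext e.2.2.1 e.2.2.2)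
    obtain ⟨-, -, b3, b4, -⟩ := cc h tw hz hz' a1 a2
    have g1 := geo hP h tw hz k
    have g2 := geo hP h tw hz' k
    rw [← b3, ← b4] at g2
    refine algA hu g1 g2 ?_ (bd' D F s _ _ _).2 (fl_same a4)
    have d1 := abs_le.1 (geo1.same_coord e.1 0)
    have d2 := abs_le.1 (geo1.same_coord e.2.1 0)
    rw [pow_add] at d1 d2
    rw [abs_le]; constructor <;> linarith [d1.1, d1.2, d2.1, d2.2]
  have h3 : Hc (D.pp (D.M2 F s)) (fun z => flo (s + s) (D.y ch F z.2))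
      (fun z => (flo (s + s) (D.y ch F z.1), GG D ch F k s z)) ≤
      Hc (D.pp (D.M2 F s)) (fun z => flo (s + s) (D.y ch F z.2)) (GG D ch F k s) :=
    e1.hc_mono hp (Det.snd _ _ _) (Det.fst _ _ _)
  have h4 := e1.tri (fun z => flo (s + s) (D.y ch F z.2)) (fun z => flo s (D.y ch F z.2))
    (GG D ch F k s) hp
  have hy : ∀ z, D.pp (D.M2 F s) z ≠ 0 → |D.y ch F z.2 0 - D.y ch F z.1 0| ≤ 54 * 2⁻¹ ^ s :=
    fun z hz => algB hu (pow_le_one₀ (by norm_num) (by norm_num)) (geo hP h tw hz k)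
      (bd' D F s _ _ k).1 (bd h (tw.supp z hz).1 k).2.1 (bd' D F s _ _ _).2
      (bd h (tw.supp z hz).1 _).1 (bd' D F s _ _ _).2 (bd h (tw.supp z hz).1 _).1
  have h5 := T.t3.nearA s (fun z => D.y ch F z.2) (GG D ch F k s) 109 hp (by norm_num)
    fun z z' hz hz' e => by
      have d1 := abs_le.1 (geo1.same_coord (gg e).2.2.1 0)
      have d2 := abs_le.1 (hy z hz)
      have d3 := abs_le.1 (hy z' hz')
      rw [norm_one, PiLp.sub_apply, abs_le]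
      constructor <;> linarith [d1.1, d1.2, d2.1, d2.2, d3.1, d3.2]
  have h6 : Hc (D.pp (D.M2 F s)) (fun z => flo (s + s) (D.y ch F z.2))
      (fun z => (flo s (D.y ch F z.2), (D.two₂ (D.M2 F s)).c z)) ≤
      (((1 : ℕ) : ℝ) - σ) * (((s + s : ℕ) : ℝ) - s) * log 2 + e :=
    f2.yw s (s + s) (Nat.le_add_right _ _) hs
  have h7 : Hc (D.pp (D.M2 F s)) (fun z => flo (s + s) (D.y ch F z.2))
      (fun z => (flo s (D.y ch F z.2), GG D ch F k s z)) ≤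
      Hc (D.pp (D.M2 F s)) (fun z => flo (s + s) (D.y ch F z.2))
      (fun z => (flo s (D.y ch F z.2), (D.two₂ (D.M2 F s)).c z)) := by
    refine e1.hc_mono hp (fun z z' hz hz' e => ?_) (Det.fst _ _ _)
    obtain ⟨a1, a2, -, -⟩ := gg (Prod.ext_iff.1 e).2
    exact Prod.ext (Prod.ext_iff.1 e).1 (Prod.ext (Prod.ext (Prod.ext_iff.1 a2).1 a1)
      (cc h tw hz hz' a1 a2).2.2.2.2)
  push_cast at h5 h6
  rw [add_sub_cancel_right] at h6
  linarith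

theorem lnb (h : D.PC ch σ Q F L E) {a a' : Ω} (ha : D.p a ≠ 0) (ha' : D.p a' ≠ 0)
    (e1 : D.ln s a = D.ln s a') (e2 : D.c a = D.c a') (j : Fin 2) :
    |D.w ch a j - D.w ch a' j| ≤ 4 * 2⁻¹ ^ s ∧ |D.z ch F a 0 - D.z ch F a' 0| ≤ 6 * 2⁻¹ ^ s := by
  have hu : (0 : ℝ) ≤ 2⁻¹ ^ s := by positivity
  have h0 := mul_le_mul_of_nonneg_right sq3 hu
  have h1 := (geo1.same_norm (i := s) (x := D.a a) (y := D.a a') (Prod.ext_iff.1 e1).1).trans h0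
  have h2 := (geo1.same_norm (i := s) (x := D.v a) (y := D.v a') (Prod.ext_iff.1 e1).2).trans h0
  have h3 : D.X a - D.X a' = (D.a a - D.a a') + D.t a • (D.v a - D.v a') := by
    unfold Cf.X; rw [← h.ok.det _ _ ha ha' e2, smul_sub]; abel
  have h4 : ‖D.t a • (D.v a - D.v a')‖ ≤ 1 * (2 * 2⁻¹ ^ s) := by
    rw [norm_smul, Real.norm_eq_abs, abs_of_nonneg (h.ok.box a ha).2.2.1]
    exact mul_le_mul (h.ok.box a ha).2.2.2.le h2 (norm_nonneg _) zero_le_one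
  have h5 := ch.pi_le (h.rep a ha).1 (D.v a - D.v a')
  constructor
  · rw [← PiLp.sub_apply, Cf.w, Cf.w, ← map_sub, h3]
    refine (abs_coord_le _ _).trans ((ch.Pw_le _).trans ((norm_add_le _ _).trans ?_))
    linarith
  · rw [← PiLp.sub_apply, Cf.z, Cf.z, ← h.det _ _ ha ha' e2, ← ch.pi_sub]
    refine (abs_coord_le _ _).trans ?_
    linarith

theorem stepB (T : Tools) (h : D.PC ch σ Q F L E) (tw : D.Two (D.M2 F s) L E)
    (f1 : (D.two₁ (D.M2 F s)).FullC ch σ (fun z => Q z.1) (fun z => F z.1) L e)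
    (hs : s + s ≤ L) :
    Hc (D.pp (D.M2 F s)) (fun z => flo (s + s) (D.y ch F z.1)) (GG D ch F k s) -
      Hc (D.pp (D.M2 F s)) (fun z => flo (s + s) (D.y ch F z.1))
        (fun z => (fl s (pr D ch F k s z), GG D ch F k s z)) ≤
      3 * e + (log (2 * 10 + 3) + log (2 * 4 + 3)) := by
  have hp := tw.mp₁.1
  have h1 : Hc (D.pp (D.M2 F s)) (fun z => flo (s + s) (D.y ch F z.1))
      (fun z => (flo s (D.y ch F z.1), (D.two₁ (D.M2 F s)).c z)) ≤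
      (((1 : ℕ) : ℝ) - σ) * (((s + s : ℕ) : ℝ) - s) * log 2 + e :=
    f1.yw s (s + s) (Nat.le_add_right _ _) hs
  have h2 : Hc (D.pp (D.M2 F s)) (fun z => flo (s + s) (D.y ch F z.1)) (GG D ch F k s) ≤
      Hc (D.pp (D.M2 F s)) (fun z => flo (s + s) (D.y ch F z.1))
      (fun z => (flo s (D.y ch F z.1), (D.two₁ (D.M2 F s)).c z)) :=
    e1.hc_mono hp (fun z z' _ _ e => Prod.ext (gg e).2.2.1 (c1.2 ⟨(gg e).1, (gg e).2.1⟩))
      (Det.fst _ _ _)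
  obtain ⟨K, hK⟩ : ∃ K, K = fun z : Ω × Ω => (D.ln s z.1, (D.two₁ (D.M2 F s)).c z) := ⟨_, rfl⟩
  have hK' : ∀ {z z'}, K z = K z' → D.ln s z.1 = D.ln s z'.1 ∧ D.th z.2 = D.th z'.2 ∧
      D.c z.1 = D.c z'.1 := fun e => by
    rw [hK] at e
    exact ⟨(Prod.ext_iff.1 e).1, c1.1 (Prod.ext_iff.1 e).2⟩
  have h3 : (((1 : ℕ) : ℝ) - σ) * (((s + s : ℕ) : ℝ) - s) * log 2 - e ≤
      Hc (D.pp (D.M2 F s)) (fun z => flo (s + s) (D.y ch F z.1)) K :=
    hK ▸ f1.yl s (s + s) (Nat.le_add_right _ _) hs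
  have h4 : Hc (D.pp (D.M2 F s)) (fun z => flo s (D.y ch F z.1)) K ≤
      (((1 : ℕ) : ℝ) - σ) * ((s : ℝ) - s) * log 2 + e :=
    hK ▸ f1.ylu s s le_rfl (by omega)
  have h5 := e1.tri (fun z => flo (s + s) (D.y ch F z.1)) (fun z => flo s (D.y ch F z.1)) K hp
  have h6 := e1.tri (fun z => flo (s + s) (D.y ch F z.1)) (fun z => fl s (D.w ch z.1 k.rev))
    (fun z => (flo s (D.y ch F z.1), K z)) hp
  have h7 := e1.tri (fun z => flo (s + s) (D.y ch F z.1)) (fun z => fl s (pr D ch F k s z))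
    (fun z => (fl s (D.w ch z.1 k.rev), flo s (D.y ch F z.1), K z)) hp
  have h8 := T.t3.near1 s (fun z => D.w ch z.1 k.rev) (fun z => (flo s (D.y ch F z.1), K z)) 4 hp
    (by norm_num) fun z z' hz hz' e => by
      obtain ⟨a1, -, a2⟩ := hK' (Prod.ext_iff.1 e).2
      exact (lnb h (tw.supp z hz).1 (tw.supp z' hz').1 a1 a2 _).1
  have h9 := T.t3.near1 s (pr D ch F k s)
    (fun z => (fl s (D.w ch z.1 k.rev), flo s (D.y ch F z.1), K z)) 10 hp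
    (by norm_num) fun z z' hz hz' e => by
      obtain ⟨a1, a3, a2⟩ := hK' (Prod.ext_iff.1 (Prod.ext_iff.1 e).2).2
      obtain ⟨b1, b2, b3, b4, -⟩ := cc h tw hz hz' a3 a2
      obtain ⟨d1, d2⟩ := lnb h (tw.supp z hz).1 (tw.supp z' hz').1 a1 a2 k
      have d3 := abs_le.1 (mul_le (bd' D F s z.1 z.2 k).1 d2)
      have d4 := abs_le.1 (mul_le (bd' D F s z.1 z.2 k).2 d1)
      rw [pr, pr, ← b1, ← b2, ← b3, ← b4, abs_le]
      constructor <;> linarith [d3.1, d3.2, d4.1, d4.2]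
  have h10 : Hc (D.pp (D.M2 F s)) (fun z => flo (s + s) (D.y ch F z.1))
      (fun z => (fl s (pr D ch F k s z), fl s (D.w ch z.1 k.rev), flo s (D.y ch F z.1), K z)) ≤
      Hc (D.pp (D.M2 F s)) (fun z => flo (s + s) (D.y ch F z.1))
        (fun z => (fl s (pr D ch F k s z), GG D ch F k s z)) := by
    refine e1.hc_mono hp (fun z z' _ _ e => ?_) (Det.fst _ _ _)
    simp only [Prod.mk.injEq] at e
    obtain ⟨-, a3, a2⟩ := hK' e.2.2.2
    exact Prod.ext e.1 (gg' a3 a2 e.2.2.1 e.2.1)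
  rw [sub_self, mul_zero, zero_mul] at h4
  linarith

theorem log_pow_le (b : ℕ) {c d : ℝ} (hc : 0 < c) (hd : 0 ≤ d) :
    log (c * 2 ^ b + d) ≤ b * log 2 + log (c + d) := by
  have h1 : (1 : ℝ) ≤ 2 ^ b := one_le_pow₀ one_le_two
  rw [← log_pow, ← log_mul (by positivity) (by positivity)]
  exact log_le_log (by positivity) (by nlinarith)

theorem inv_le {d : ℝ} (h : 2⁻¹ ^ b ≤ |d|) : d ≠ 0 ∧ |d⁻¹| ≤ 2 ^ b := by
  have hu : (0 : ℝ) < 2⁻¹ ^ b := by positivity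
  refine ⟨abs_pos.1 (hu.trans_le h), ?_⟩
  have h1 := inv_anti₀ hu h
  rwa [← abs_inv, ← inv_pow, inv_inv] at h1

theorem prod_le {P x L c : ℝ} (h0 : 0 ≤ P) (h1 : P ≤ 1) (hc : 0 ≤ c) (h : x ≤ L + c) :
    P * x ≤ P * L + c := by
  nlinarith [mul_le_mul_of_nonneg_left h h0, mul_le_mul_of_nonneg_right h1 hc]

/-- the constant -/
noncomputable def K0 : ℝ := (log (2 * 83 + 3) + log 109 + CE 1) +
  (log (2 * 10 + 3) + log (2 * 4 + 3)) + log 2 + log (2 + 3) + log (40 + 3)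

theorem fin3 {A B C B' X X' u v e P l : ℝ} (h1 : A ≤ B + C) (h2 : B - B' = X - X')
    (h3 : B' ≤ u + e + (log (2 * 83 + 3) + log 109 + CE 1))
    (h4 : X - X' ≤ 3 * e + (log (2 * 10 + 3) + log (2 * 4 + 3)))
    (h5 : C ≤ log 2 + l + (P + log (40 + 3))) (h6 : l ≤ v + log (2 + 3)) :
    A ≤ u + v + (4 * e + K0 + P) := by
  unfold K0
  linarith

theorem part3 (T : Tools) (hP : P1 ch) (h : D.PC ch σ Q F L E) (tw : D.Two (D.M2 F s) L E)
    (f1 : (D.two₁ (D.M2 F s)).FullC ch σ (fun z => Q z.1) (fun z => F z.1) L e)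
    (f2 : (D.two₂ (D.M2 F s)).FullC ch σ (fun z => Q z.2) (fun z => F z.2) L e)
    (hb : b ≤ s) (hs : s + s ≤ L) :
    Hc (D.pp (D.M2 F s)) (fun z => fl s (D.z ch F z.1 0 + D.th2 F k s b z * D.w ch z.1 k))
      (GG D ch F k s) ≤ (1 - σ) * s * log 2 + b * log 2 + (4 * e + K0 +
      Pr (D.pp (D.M2 F s)) (fun z => ¬ 2⁻¹ ^ b ≤ |D.tb s z.2 - D.tb s z.1|) * L) := by
  have hp := tw.mp₁.1
  have hb1 : (1 : ℝ) ≤ 2 ^ b := one_le_pow₀ one_le_two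
  have h1 := e1.tri (fun z => fl s (D.z ch F z.1 0 + D.th2 F k s b z * D.w ch z.1 k))
    (fun z => fl s (pr D ch F k s z)) (GG D ch F k s) hp
  have h2 := e1.symm (fun z => fl s (pr D ch F k s z)) (fun z => flo (s + s) (D.y ch F z.1))
    (GG D ch F k s) hp
  have h3 := stepA (k := k) T hP h tw f2 hs
  have h4 := stepB (k := k) T h tw f1 hs
  have hq : ∀ z : Ω × Ω, 2⁻¹ ^ b ≤ |D.tb s z.2 - D.tb s z.1| →
      D.z ch F z.1 0 + D.th2 F k s b z * D.w ch z.1 k =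
        (D.tb s z.2 - D.tb s z.1)⁻¹ * pr D ch F k s z := fun z hz => by
    rw [Cf.th2, if_pos hz, pr, mul_add, inv_mul_cancel_left₀ (inv_le hz).1, mul_assoc]
  have h5 := T.t3.near1E s (fun z => D.z ch F z.1 0 + D.th2 F k s b z * D.w ch z.1 k)
    (fun z => (fl s (pr D ch F k s z), GG D ch F k s z))
    (fun z => 2⁻¹ ^ b ≤ |D.tb s z.2 - D.tb s z.1|) (2 ^ b) (10 * 2 ^ b) hp (by positivity)
    (by positivity) (fun z hz => ?_) fun z z' hz hz' a a' e => ?_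
  · have a1 := log_pow_le b (c := 2) (d := 3) (by norm_num) (by norm_num)
    have a2 := log_pow_le b (c := 40) (d := 3) (by norm_num) (by norm_num)
    have a3 : (4 : ℝ) * (10 * 2 ^ b) = 40 * 2 ^ b := by ring
    have a4 : ((s : ℝ) + b) * log 2 ≤ L * 1 := mul_le_mul
      (by exact_mod_cast (by omega : s + b ≤ L)) log_two_le_one log_two_pos.le (by positivity)
    have a5 := prod_le (e1.pr_nonneg (fun z : Ω × Ω => ¬ 2⁻¹ ^ b ≤ |D.tb s z.2 - D.tb s z.1|) hp)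
      (e1.pr_le_one _ hp) (log_nonneg (x := 40 + 3) (by norm_num))
      (show s * log 2 + log (4 * (10 * 2 ^ b) + 3) ≤ L + log (40 + 3) by rw [a3]; linarith)
    have a6 := h5.trans (add_le_add le_rfl a5)
    exact fin3 h1 h2 h3 h4 a6 a1
  · have a1 : |D.th2 F k s b z| ≤ 2 ^ b * 1 := by
      unfold Cf.th2
      split_ifs with a
      · exact mul_le (inv_le a).2 (bd' D F s _ _ k).2
      · simp
    have a2 := abs_le.1 (mul_le a1 (bd h (tw.supp z hz).1 k).1)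
    have a3 := abs_le.1 (bd h (tw.supp z hz).1 k).2.1
    rw [abs_le]; constructor <;> linarith [a2.1, a2.2, a3.1, a3.2]
  · obtain ⟨a1, a2, -, -⟩ := gg (Prod.ext_iff.1 e).2
    obtain ⟨b1, b2, -⟩ := cc h tw hz hz' a1 a2
    rw [hq z a, hq z' a', ← b1, ← b2, ← mul_sub]
    exact mul_le (inv_le a).2 (fl_same (Prod.ext_iff.1 e).1)

theorem rare (T : Tools) (h : D.PC ch σ Q F L E) (tw : D.Two (D.M2 F s) L E) (hb : b ≤ s)
    (ht : s * log 2 - e ≤ Hc D.p (D.tb s) (fun ω => (D.l ω, D.Wd F s ω))) :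
    Pr (D.pp (D.M2 F s)) (fun z => ¬ 2⁻¹ ^ b ≤ |D.tb s z.2 - D.tb s z.1|) * (b * log 2) ≤
      e + 10 := by
  have hp := tw.mp₁.1
  have h1 : Hc D.p (D.tb s) (fun ω => (D.l ω, D.Wd F s ω)) ≤
      Hc D.p (fun ω => fl s (D.tb s ω)) fun ω => (D.l ω, D.T ω, D.M2 F s ω) := by
    refine e1.hc_mono h.ok.isP (fun a a' _ _ e => ?_) fun a a' _ _ e => ?_
    · simp only [Cf.Wd, Cf.M2, Prod.mk.injEq] at e ⊢
      exact ⟨e.1, e.2.2.2, e.2.1, e.2.2.1⟩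
    · have e' : fl s (D.tb s a) = fl s (D.tb s a') := (Prod.ext_iff.1 e).1
      rw [← (D.tb_lat F s a).1, ← (D.tb_lat F s a').1, e']
  have h2 := T.t2.tsep (fun z => D.tb s z.1) (fun z => D.tb s z.2) (fun z => (D.l z.1, D.c z.1))
    s 0 b e hp (by omega) (fun z z' hz hz' e => h.ok.det_tb s _ _ (tw.supp z hz).1
      (tw.supp z' hz').1 (Prod.ext_iff.1 e).2) (fun z _ => by simpa using (bd' D F s _ _ 0).1)
    (by rw [tw.ci fun ω => fl s (D.tb s ω)]; push_cast; linarith)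
  refine le_trans (mul_le_mul_of_nonneg_right (e1.pr_mono hp fun z _ hz => ?_)
    (mul_nonneg (by positivity) log_two_pos.le)) h2
  rw [zero_add]
  exact (not_le.1 hz).le

theorem fin {P L b κ ζ : ℝ} (hκ : 0 < κ) (hP : 0 ≤ P) (hb : κ * L ≤ b) (hb0 : 0 ≤ b)
    (h : P * (b * log 2) ≤ ζ * κ / 16 * L + 10) : P * L ≤ ζ / 8 * L + 20 / κ := by
  have h1 := mul_le_mul_of_nonneg_left (mul_le_mul_of_nonneg_left half_le_log_two hb0) hP
  have h2 := mul_le_mul_of_nonneg_left hb hP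
  refine le_of_mul_le_mul_left ?_ hκ
  rw [mul_add, mul_div_cancel₀ _ hκ.ne']
  linarith

end K2aX

open K2aX in
theorem sK2a (T : Tools) (B : Base) (tb : STb) : SK2a := by
  intro σ hσ ch hP hL k κ ζ hκ hζ
  obtain ⟨e, he, hf⟩ := ef_use1 (B.fullC 3 σ hσ ch (ζ / 8) (by positivity))
  filter_upwards [hf, tb ch σ hL (ζ * κ / 16) (by positivity), ef_lin (A := 3) (by norm_num) 0 he,
    ef_const (log (4 * 4 + 3)) (half_pos hζ), ef_const (K0 + 20 / κ) (show 0 < ζ / 8 by positivity)]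
    with x h1 h2 h3 h4 h5
  intro Ω Tt Θ _ D Q F h s b hb hbs hs
  have h0 := h.ok.nonneg
  have hz : 0 ≤ ζ * x.2 := by positivity
  have tw := B.two D (D.M2 F s) x.2 x.1 h.ok fun a a' ha ha' e => by
    unfold Cf.M2; rw [h.ok.det a a' ha ha' e, h.det a a' ha ha' e]
  obtain ⟨-, p1, p2⟩ := tw.pc ch σ Q F h
  have f0 := h1 x.1 (by linarith) D Q F h
  have f1 := h1 (3 * x.1) (by linarith) _ _ _ p1
  have f2 := h1 (3 * x.1) (by linarith) _ _ _ p2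
  have a1 := part1 (k := k) T h tw f1 (by omega)
  have a2 := part2 (k := k) T tw f0 (by omega)
  have a3 := part3 (k := k) T hP h tw f1 f2 hbs (by omega)
  have a4 := fin hκ (e1.pr_nonneg _ tw.mp₁.1) hb (by positivity)
    (rare T h tw hbs (h2 D Q F h s hs).2.1)
  refine ⟨le_trans ?_ a1, a2.trans ?_, a3.trans ?_⟩ <;> linarith

end Vale.Agent.P127
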