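import Vale.Agent.P127.Num

/-! Sticky Kakeya sets in four dimensions: the Kaufman count. -/

namespace Vale.Agent.P127

open Vale.Agent.P118
open scoped RealInnerProductSpace
open Real Classical Module

namespace KauX

theorem scale (N : ℕ) {R : ℝ} (d : ℝ) : ∃ k ≤ N, (d ≤ 2 * R → d ≤ 2 * R * 2⁻¹ ^ k) ∧
    (k < N → R * 2⁻¹ ^ k < d) := by
  refine ⟨Nat.findGreatest (fun j => d ≤ 2 * R * 2⁻¹ ^ j) N, Nat.findGreatest_le N,
    fun h => Nat.findGreatest_spec (P := fun j => d ≤ 2 * R * 2⁻¹ ^ j) (Nat.zero_le N)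
      (by simpa using h), fun h => ?_⟩
  have := not_le.1 (Nat.findGreatest_is_greatest (P := fun j => d ≤ 2 * R * 2⁻¹ ^ j)
    (Nat.lt_succ_self _) h)
  rw [pow_succ] at this
  linarith

theorem slope {N b k : ℕ} {R θ θ' d₁ d₂ e₁ e₂ : ℝ} (hR : 1 ≤ R) (hk : k ≤ N) (h1 : |θ| ≤ 2 ^ b)
    (h2 : |θ'| ≤ 2 ^ b) (h3 : |d₂ + θ * d₁| ≤ 2⁻¹ ^ N) (h4 : |e₂ + θ' * e₁| ≤ 2⁻¹ ^ N)
    (h5 : |d₁ - e₁| ≤ 2 * 2⁻¹ ^ N) (h6 : |d₂ - e₂| ≤ 2 * 2⁻¹ ^ N)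
    (h7 : k < N → R * 2⁻¹ ^ k < |d₁|) : |θ' - θ| ≤ 6 * (2 ^ b * 2 ^ k) * 2⁻¹ ^ N := by
  have b1 : (1 : ℝ) ≤ 2 ^ b := one_le_pow₀ one_le_two
  have c : ∀ j : ℕ, (2 : ℝ) ^ j * 2⁻¹ ^ j = 1 := fun j => by
    rw [← mul_pow, mul_inv_cancel₀ two_ne_zero, one_pow]
  rcases hk.lt_or_eq with h | rfl
  · have a0 : (0 : ℝ) < 2⁻¹ ^ N := by positivity
    have a1 := mul_le_mul h2 h5 (abs_nonneg _) (by positivity)
    rw [← abs_mul] at a1
    have a2 := mul_le_mul_of_nonneg_right b1 a0.le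
    have a3 : |(θ' - θ) * d₁| ≤ 6 * (2 ^ b * 2⁻¹ ^ N) := by
      rw [abs_le] at a1 h3 h4 h6 ⊢
      constructor <;> linarith
    have a4 : (2⁻¹ : ℝ) ^ k ≤ |d₁| := (le_mul_of_one_le_left (by positivity) hR).trans (h7 h).le
    rw [abs_mul] at a3
    have a5 := mul_le_mul_of_nonneg_left ((mul_le_mul_of_nonneg_left a4 (abs_nonneg _)).trans a3)
      (show (0 : ℝ) ≤ 2 ^ k by positivity)
    rw [mul_left_comm, c, mul_one] at a5
    linarith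
  · rw [mul_assoc, mul_assoc, c]
    rw [abs_le] at h1 h2 ⊢
    constructor <;> linarith

theorem logs {N b k : ℕ} {R : ℝ} (hR : 1 ≤ R) (hk : k ≤ N) :
    log (2 * (4 * R * 2 ^ N * 2⁻¹ ^ k + 1) + 3) + log (2 * (6 * (2 ^ b * 2 ^ k)) + 3) ≤
      N * log 2 + b * log 2 + log R + 8 := by
  obtain ⟨j, rfl⟩ := Nat.exists_eq_add_of_le hk
  have c : (2 : ℝ) ^ (k + j) * 2⁻¹ ^ k = 2 ^ j := by
    rw [pow_add, inv_pow]
    field_simp
  have a1 : (1 : ℝ) ≤ R * 2 ^ j := one_le_mul_of_one_le_of_one_le hR (one_le_pow₀ one_le_two)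
  have a2 : (1 : ℝ) ≤ 2 ^ (b + k) := one_le_pow₀ one_le_two
  have a3 : log (2 * (4 * (R * 2 ^ j) + 1) + 3) ≤ log (2 ^ 4 * (R * 2 ^ j)) :=
    log_le_log (by linarith) (by linarith)
  have a4 : log (2 * (6 * 2 ^ (b + k)) + 3) ≤ log (2 ^ 4 * 2 ^ (b + k)) :=
    log_le_log (by linarith) (by linarith)
  rw [log_mul (by positivity) (by positivity), log_mul (by positivity) (by positivity), log_pow,
    log_pow] at a3
  rw [log_mul (by positivity) (by positivity), log_pow, log_pow] at a4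
  rw [mul_assoc (4 * R), c, mul_assoc 4, ← pow_add]
  push_cast at a3 a4 ⊢
  linarith [log_two_le_one]

end KauX

open KauX in
theorem sKau (T : Tools) : SKau := by
  intro Ω γ γ' _ p u₁ u₂ θ W G N b R hp hR hb hθ hW
  obtain ⟨g, hg⟩ : ∃ g : Ω → ℤ × γ', g = fun ω => (fl N (u₂ ω + θ ω * u₁ ω), G ω) := ⟨_, rfl⟩
  rw [← hg]
  have hq := e3.isP_res g hp
  have sup : ∀ z, res p g z ≠ 0 → p z.1 ≠ 0 ∧ p z.2 ≠ 0 ∧ θ z.1 = θ z.2 ∧ W z.1 = W z.2 ∧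
      |u₂ z.1 - u₂ z.2 + θ z.1 * (u₁ z.1 - u₁ z.2)| ≤ 2⁻¹ ^ N := fun z hz => by
    obtain ⟨h1, h2, h3⟩ := e3.res_ne hz
    rw [hg] at h3
    obtain ⟨h4, h5⟩ := Prod.ext_iff.1 h3
    have h6 := hθ _ _ h1 h2 h5
    have h7 := fl_same h4
    rw [← h6] at h7
    refine ⟨h1, h2, h6, hW _ _ h1 h2 h5, le_of_eq_of_le (congrArg _ ?_) h7⟩
    ring
  choose k k1 k2 k3 using fun z : Ω × Ω => scale N (R := R) |u₁ z.1 - u₁ z.2|
  have k4 : ∀ z, res p g z ≠ 0 → |u₁ z.1 - u₁ z.2| ≤ 2 * R * 2⁻¹ ^ k z := fun z hz => k2 z (by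
    have h1 := (hb _ (sup z hz).1).1
    have h2 := (hb _ (sup z hz).2.1).1
    rw [abs_le] at h1 h2 ⊢
    constructor <;> linarith)
  obtain ⟨C, hC⟩ : ∃ C : Ω → (ℤ × ℤ) × γ, C = fun ω => ((fl N (u₁ ω), fl N (u₂ ω)), W ω) := ⟨_, rfl⟩
  have hC' : ∀ a a', C a = C a' → |u₁ a - u₁ a'| ≤ 2⁻¹ ^ N ∧ |u₂ a - u₂ a'| ≤ 2⁻¹ ^ N ∧
      W a = W a' := fun a a' e => by
    rw [hC] at e
    obtain ⟨h1, h2⟩ := Prod.ext_iff.1 e
    exact ⟨fl_same (Prod.ext_iff.1 h1).1, fl_same (Prod.ext_iff.1 h1).2, h2⟩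
  rw [← hC]
  have l1 := T.t1.mp (fun ω => fl N (θ ω)) C (T.t1.mp_fst g hp)
  have l2 := (T.t1.ci_le g (fun ω => fl N (u₁ ω)) (fun z => (fl N (θ z.1), C z.1)) hp).1
    (Det.comp _ _ fun ω => (fl N (θ ω), C ω))
  have l3 := e1.chain (fun z : Ω × Ω => fl N (θ z.1)) (fun z => fl N (u₁ z.2)) (fun z => C z.1) hq
  have l4 : Hc (res p g) (fun z => (fl N (θ z.1), fl N (u₁ z.2))) (fun z => C z.1) ≤
      Hc (res p g) (fun z => (fl N (u₁ z.2), fl N (u₂ z.2), fl N (θ z.1))) (fun z => C z.1) :=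
    e1.hc_mono hq (Det.refl _ _) fun a a' _ _ e => by
      obtain ⟨h1, h2⟩ := Prod.ext_iff.1 (Prod.ext_iff.1 e).1
      exact Prod.ext (Prod.ext_iff.1 h2).2 h1
  have u1 := e1.tri (fun z : Ω × Ω => (fl N (u₁ z.2), fl N (u₂ z.2), fl N (θ z.1))) k
    (fun z => C z.1) hq
  have u2 := e1.chain (fun z : Ω × Ω => fl N (u₁ z.2)) (fun z => (fl N (u₂ z.2), fl N (θ z.1)))
    (fun z => (k z, C z.1)) hq
  have u3 := e1.chain (fun z : Ω × Ω => fl N (u₂ z.2)) (fun z => fl N (θ z.1))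
    (fun z => (fl N (u₁ z.2), k z, C z.1)) hq
  have u4 : Hc (res p g) k (fun z => C z.1) ≤ log (N + 1) := e2.count' hq fun z _ S hS => by
    have : S ⊆ Finset.range (N + 1) := fun a ha => by
      obtain ⟨z', -, -, rfl⟩ := hS a ha
      exact Finset.mem_range.2 (Nat.lt_succ_of_le (k1 z'))
    exact_mod_cast (Finset.card_le_card this).trans_eq (Finset.card_range _)
  have u5 := e2.count hq fun z hz => ev.cnt1 N (fun z : Ω × Ω => u₁ z.2) (fun z => (k z, C z.1))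
    (4 * R * 2 ^ N * 2⁻¹ ^ k z + 1) z (by positivity) fun z' hz' e => by
      obtain ⟨h1, h2⟩ := Prod.ext_iff.1 e
      have h3 := k4 z hz
      have h4 := k4 z' hz'
      have h5 := (hC' _ _ h2).1
      have h6 : (2 : ℝ) ^ N * 2⁻¹ ^ N = 1 := by
        rw [← mul_pow, mul_inv_cancel₀ two_ne_zero, one_pow]
      have h7 : (4 * R * 2 ^ N * 2⁻¹ ^ k z + 1) * 2⁻¹ ^ N = 4 * R * 2⁻¹ ^ k z + 2⁻¹ ^ N := by
        linear_combination 4 * R * 2⁻¹ ^ k z * h6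
      rw [show k z' = k z from h1] at h4
      rw [h7]
      rw [abs_le] at h3 h4 h5 ⊢
      constructor <;> linarith
  have u6 : Hc (res p g) (fun z => fl N (u₂ z.2)) (fun z => (fl N (u₁ z.2), k z, C z.1)) ≤
      Hc p (fun ω => fl N (u₂ ω)) fun ω => (fl N (u₁ ω), W ω) := by
    rw [← T.t1.mp _ _ (T.t1.mp_snd g hp)]
    refine e1.hc_mono hq (fun a a' ha ha' e => ?_) (Det.fst _ _ _)
    obtain ⟨h1, h2⟩ := Prod.ext_iff.1 e
    refine Prod.ext h1 ?_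
    exact (sup a ha).2.2.2.1.symm.trans ((hC' _ _ (Prod.ext_iff.1 h2).2).2.2.trans
      (sup a' ha').2.2.2.1)
  have u7 := e2.count hq fun z hz => ev.cnt1 N (fun z : Ω × Ω => θ z.1)
    (fun z => (fl N (u₂ z.2), fl N (u₁ z.2), k z, C z.1)) (6 * (2 ^ b * 2 ^ k z)) z
    (by positivity) fun z' hz' e => by
      obtain ⟨h1, h2⟩ := Prod.ext_iff.1 e
      obtain ⟨h3, h4⟩ := Prod.ext_iff.1 h2
      obtain ⟨h5, h6, -⟩ := hC' _ _ (Prod.ext_iff.1 h4).2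
      have h7 : |u₂ z'.2 - u₂ z.2| ≤ 2⁻¹ ^ N := fl_same h1
      have h8 : |u₁ z'.2 - u₁ z.2| ≤ 2⁻¹ ^ N := fl_same h3
      refine slope hR (k1 z) (hb _ (sup z hz).1).2 (hb _ (sup z' hz').1).2 (sup z hz).2.2.2.2
        (sup z' hz').2.2.2.2 ?_ ?_ (k3 z)
      · rw [abs_le] at h5 h8 ⊢
        constructor <;> linarith
      · rw [abs_le] at h6 h7 ⊢
        constructor <;> linarith
  have u8 := e1.ex_mono hq fun z _ => logs (b := b) hR (k1 z)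
  rw [e1.ex_add, e1.ex_const _ hq] at u8
  linarith [log_nonneg hR]

end Vale.Agent.P127
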