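import Vale.Agent.P127.Num

/-! Finer labels, and the basic entropies of a model. -/

namespace Vale.Agent.P127

open Vale.Agent.P118
open scoped RealInnerProductSpace
open Real Classical Module

namespace LabX

variable {Ω Tt Θ : Type} [Fintype Ω] {m L : ℕ} {D : Cf Ω Tt Θ m} {E : ℝ}

theorem near_X (h : D.OK L E) (i : ℕ) {ω ω' : Ω} (h1 : D.p ω ≠ 0) (h2 : D.p ω' ≠ 0)
    (e : (D.ln i ω, D.c ω) = (D.ln i ω', D.c ω')) :
    ‖D.X ω - D.X ω'‖ ≤ 1 * (5 * (m + 1)) * 2⁻¹ ^ i := by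
  obtain ⟨e1, e2⟩ := Prod.ext_iff.1 e
  obtain ⟨e3, e4⟩ := Prod.ext_iff.1 e1
  have a1 := geo1.same_norm (show flo i (D.a ω) = flo i (D.a ω') from e3)
  have a2 := geo1.same_norm (show flo i (D.v ω) = flo i (D.v ω') from e4)
  have a3 := h.det ω ω' h1 h2 e2
  obtain ⟨-, -, b1, b2⟩ := h.box ω' h2
  have a4 : D.X ω - D.X ω' = (D.a ω - D.a ω') + D.t ω' • (D.v ω - D.v ω') := by
    unfold Cf.X
    rw [a3, smul_sub]
    abel
  have a5 : ‖D.t ω' • (D.v ω - D.v ω')‖ ≤ 1 * (√m * 2⁻¹ ^ i) := by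
    rw [norm_smul, Real.norm_eq_abs, abs_of_nonneg b1]
    exact mul_le_mul b2.le a2 (norm_nonneg _) zero_le_one
  have a6 := norm_add_le (D.a ω - D.a ω') (D.t ω' • (D.v ω - D.v ω'))
  have a7 : (0 : ℝ) < 2⁻¹ ^ i := by positivity
  have a8 := mul_le_mul_of_nonneg_right (sqrt_le_succ m) a7.le
  have a9 : (0 : ℝ) ≤ (m + 1) * 2⁻¹ ^ i := by positivity
  rw [a4]
  linarith

theorem near_le {β : Type} {p : Ω → ℝ} (i : ℕ) (X : Ω → Eu m) (g : Ω → β) (hp : IsP p)
    (h : ∀ ω ω', p ω ≠ 0 → p ω' ≠ 0 → g ω = g ω' → ‖X ω - X ω'‖ ≤ 1 * (5 * (m + 1)) * 2⁻¹ ^ i) :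
    Hc p (fun ω => flo i (X ω)) g ≤ CE m := by
  have h1 := ev.near i X g 1 hp le_rfl h
  rw [log_one, mul_zero] at h1
  linarith [CE_nonneg m]

end LabX

theorem sLab (T : Tools) : SLab := by
  intro Ω Ω' Tt Θ Θ' _ _ m D p' pr th' L E E' hmp hk hE h
  have hp := hmp.1
  have tr : ∀ {α β : Type} {f : Ω → α} {g : Ω → β}, Det D.p f g →
      Det p' (fun z => f (pr z)) (fun z => g (pr z)) := fun hd a b ha hb e =>
    hd _ _ (T.t1.mp_ne hmp ha) (T.t1.mp_ne hmp hb) e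
  have mono : ∀ {α : Type} (f : Ω → α),
      Hc p' (fun z => f (pr z)) (D.lab p' pr th').c ≤ Hc D.p f D.c := fun f =>
    (e1.hc_mono hp hk (Det.fst _ _ _)).trans_eq (T.t1.mp f D.c hmp)
  have hE0 : 0 ≤ E' := by linarith [mono D.l]
  have hl := T.t1.mp D.l D.c hmp
  have ok : (D.lab p' pr th').OK L (E + E') := by
    refine ⟨hp, fun z hz => h.box _ (T.t1.mp_ne hmp hz), fun z hz => h.lat _ (T.t1.mp_ne hmp hz),
      hk.trans (tr h.det), ?_, ?_, fun i hi => ?_⟩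
    · have h1 := e1.dp (f := fun z => D.l (pr z)) (f' := fun z => D.v (pr z)) hp
        (fun a b _ _ e => congrArg (fun x => x.1.2) e) hk
      have h2 := T.t1.mp D.v D.c hmp
      have h3 := h.dir
      show _ ≤ Hc p' (fun z => D.v (pr z)) (D.lab p' pr th').c
      linarith
    · have h2 := T.t1.mp (fun ω => fl L (D.t ω)) D.T hmp
      have h3 := h.tim
      show _ ≤ Hc p' (fun z => fl L (D.t (pr z))) fun z => D.T (pr z)
      linarith
    · have h2 := T.t1.mp (fun ω => flo i (D.a ω)) (fun ω => (flo i (D.v ω), D.T ω)) hmp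
      have h3 := h.stk i hi
      show Hc p' (fun z => flo i (D.a (pr z))) (fun z => (flo i (D.v (pr z)), D.T (pr z))) ≤ _
      linarith
  have ext : ∀ σ, D.Ext σ L E → (D.lab p' pr th').Ext σ L (E + E') := by
    refine fun σ hx => ⟨ok, ?_⟩
    have h1 := mono fun ω => flo L (D.X ω)
    have h2 := hx.2
    show Hc p' (fun z => flo L (D.X (pr z))) (D.lab p' pr th').c ≤ _
    linarith
  have gr : ∀ Q q, D.Gr Q q L E → (D.lab p' pr th').Gr (fun z => Q (pr z)) q L (E + E') := by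
    refine fun Q q hg => ⟨hk.trans (tr hg.1), fun z hz => hg.2.1 _ (T.t1.mp_ne hmp hz), ?_⟩
    have d1 : Det D.p (fun ω => (D.l ω, D.c ω)) fun ω => flo L (D.X ω) :=
      h.det_X.trans (Det.comp _ _ _)
    have d2 : Det D.p (fun ω => (D.l ω, D.c ω)) fun ω => flo L (prj (Q ω) (D.X ω)) :=
      fun a b ha hb e => by
        show flo L (prj (Q a) (D.X a)) = flo L (prj (Q b) (D.X b))
        rw [h.det_X a b ha hb e, hg.1 a b ha hb (Prod.ext_iff.1 e).2]
    have h1 := T.t2.info (l := fun z => D.l (pr z)) (k := fun z => D.c (pr z)) hp (tr d1) (tr d2) hk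
    have h2 := T.t1.mp (fun ω => flo L (D.X ω))
      (fun ω => (flo L (prj (Q ω) (D.X ω)), D.c ω)) hmp
    have h3 := hg.2.2
    show _ ≤ Hc p' (fun z => flo L (D.X (pr z)))
      fun z => (flo L (prj (Q (pr z)) (D.X (pr z))), (D.lab p' pr th').c z)
    linarith
  refine ⟨ok, ext, gr, fun ch σ Q F hc => ⟨ext σ hc.ext, gr Q _ hc.gr, fun i hi => ?_,
    hk.trans (tr hc.det), fun z hz => hc.rep _ (T.t1.mp_ne hmp hz)⟩⟩
  have h1 : Hc p' (fun z => flo i (prj (Q (pr z)) (D.v (pr z))))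
      (fun z => (flo i (D.X (pr z)), (D.lab p' pr th').c z)) ≤
      Hc p' (fun z => flo i (prj (Q (pr z)) (D.v (pr z))))
        fun z => (flo i (D.X (pr z)), D.c (pr z)) :=
    e1.hc_mono hp ((Det.fst _ _ _).pair ((Det.snd _ _ _).trans hk)) (Det.fst _ _ _)
  have h2 := T.t1.mp (fun ω => flo i (prj (Q ω) (D.v ω))) (fun ω => (flo i (D.X ω), D.c ω)) hmp
  have h3 := hc.pl i hi
  show Hc p' (fun z => flo i (prj (Q (pr z)) (D.v (pr z))))
      (fun z => (flo i (D.X (pr z)), (D.lab p' pr th').c z)) ≤ _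
  linarith

theorem sBas (T : Tools) : SBas := by
  intro Ω Tt Θ _ m D L E h
  have hp := h.isP
  have lu : ∀ i ≤ L, Hc D.p (D.ln i) D.T ≤ m * i * log 2 + E := by
    intro i hi
    have h1 : Hc D.p (D.ln i) D.T ≤ Hc D.p (fun ω => (flo i (D.v ω), flo i (D.a ω))) D.T :=
      e1.hc_mono hp (Det.refl _ _) fun a b _ _ e =>
        Prod.ext (congrArg (fun x => x.1.2) e) (congrArg (fun x => x.1.1) e)
    rw [e1.chain (fun ω => flo i (D.v ω)) (fun ω => flo i (D.a ω)) D.T hp] at h1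
    have h2 := T.t4.cube i D.v D.T hp fun ω hω => (h.box ω hω).2.1
    linarith [h.stk i hi]
  have inf : Hc D.p D.l D.T - Hc D.p D.l D.c ≤ 2 * E := by
    have h1 : Hc D.p D.l D.T ≤ Hc D.p (D.ln L) D.T :=
      e1.hc_mono hp (Det.refl _ _) fun a b ha hb e => by
        obtain ⟨e3, e4⟩ := Prod.ext_iff.1 (Prod.ext_iff.1 e).1
        exact Prod.ext ((h.lat a ha).1.symm.trans (e3.trans (h.lat b hb).1))
          ((h.lat a ha).2.symm.trans (e4.trans (h.lat b hb).2))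
    have h2 : Hc D.p D.v D.c ≤ Hc D.p D.l D.c :=
      e1.hc_mono hp (Det.refl _ _) fun a b _ _ e => congrArg (fun x => x.1.2) e
    linarith [lu L le_rfl, h.dir]
  refine ⟨lu, fun i hi => ?_, inf, fun i hi => ?_,
    fun i => LabX.near_le i _ _ hp fun _ _ => LabX.near_X h i, fun i R hR => ⟨?_, ?_⟩⟩
  · have h1 := e1.tri D.v (fun ω => flo i (D.v ω)) D.c hp
    have h2 : Hc D.p D.v (fun ω => (flo i (D.v ω), D.c ω)) ≤
        Hc D.p (fun ω => flo L (D.v ω)) fun ω => (flo i (D.v ω), D.c ω) :=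
      e1.hc_mono hp (Det.refl _ _) fun a b ha hb e =>
        (h.lat a ha).2.symm.trans ((Prod.ext_iff.1 e).1.trans (h.lat b hb).2)
    have h3 := T.t4.sub i L D.v (fun ω => (flo i (D.v ω), D.c ω)) hp hi (Det.fst _ _ _)
    linarith [h.dir]
  · have h1 := e1.symm (fun ω => fl i (D.t ω)) D.l D.T hp
    have h2 : Hc D.p D.l D.c ≤ Hc D.p D.l fun ω => (fl i (D.t ω), D.T ω) :=
      e1.hc_mono hp ((h.det.trans (Det.comp _ _ (fl i))).pair (D.det_T _)) (Det.fst _ _ _)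
    have h3 := e1.tri (fun ω => fl L (D.t ω)) (fun ω => fl i (D.t ω)) D.T hp
    have h4 := T.t4.sub1 i L D.t (fun ω => (fl i (D.t ω), D.T ω)) hp hi (Det.fst _ _ _)
    linarith [h.tim]
  · refine LabX.near_le i _ _ hp fun a b ha hb e => ?_
    rw [hR a b ha hb (Prod.ext_iff.1 e).2, ← la.prj_sub]
    exact (la.prj_norm _ _).trans (LabX.near_X h i ha hb e)
  · refine LabX.near_le i _ _ hp fun a b ha hb e => ?_
    rw [hR a b ha hb (Prod.ext_iff.1 e).2, ← la.prj_sub]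
    refine (la.prj_norm _ _).trans ((geo1.same_norm (Prod.ext_iff.1 e).1).trans ?_)
    have a7 : (0 : ℝ) < 2⁻¹ ^ i := by positivity
    have a8 := mul_le_mul_of_nonneg_right (sqrt_le_succ m) a7.le
    have a9 : (0 : ℝ) ≤ (m + 1) * 2⁻¹ ^ i := by positivity
    linarith

end Vale.Agent.P127
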