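import Vale.Agent.P127.Num

/-! Sticky Kakeya sets in four dimensions: the slope of the grains is a function of the time. -/

namespace Vale.Agent.P127

open Vale.Agent.P118
open scoped RealInnerProductSpace
open Real Classical Module

namespace LipX

/-- a basis vector -/
noncomputable def ee {q : ℕ} (j : Fin q) : Eu q := EuclideanSpace.single j 1

/-- remove one coordinate -/
noncomputable def rm {q : ℕ} (j : Fin q) (w : Eu q) : Eu q := w - w j • ee j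

theorem norm_ee {q : ℕ} (j : Fin q) : ‖ee j‖ = 1 := by simp [ee]

theorem norm_sm {q : ℕ} (j : Fin q) (c : ℝ) : ‖c • ee j‖ = |c| := by
  rw [norm_smul, norm_ee, mul_one, Real.norm_eq_abs]

theorem norm_rm {q : ℕ} (j : Fin q) (w : Eu q) : ‖rm j w‖ ≤ 2 * ‖w‖ := by
  have h1 := norm_sub_le w (w j • ee j)
  rw [norm_sm] at h1
  unfold rm
  linarith [abs_coord_le w j]

theorem rm_mem {q : ℕ} (j : Fin q) (w : Eu q) : rm j w ∈ (ℝ ∙ ee j)ᗮ := by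
  rw [Submodule.mem_orthogonal_singleton_iff_inner_right]
  simp [rm, ee, inner_sub_right, inner_smul_right, EuclideanSpace.inner_single_left]

theorem rank_ee {q : ℕ} (j : Fin q) : 1 + finrank ℝ (ℝ ∙ ee j)ᗮ = q := by
  have h0 : ee j ≠ 0 := by
    intro h
    have h1 := norm_ee j
    rw [h, norm_zero] at h1
    exact zero_ne_one h1
  have h1 := Submodule.finrank_add_finrank_orthogonal (ℝ ∙ ee j)
  rwa [finrank_span_singleton h0, finrank_euclideanSpace_fin] at h1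

theorem scal (T : Tools) {Ω β : Type} [Fintype Ω] {q : ℕ} {p : Ω → ℝ} (s : ℕ) (j : Fin q)
    (w₁ w₂ : Ω → Eu q) (g : Ω → β) {a : ℝ} (hp : IsP p) (ha : 1 ≤ a) (hq : √q ≤ a)
    (h : ∀ ω, p ω ≠ 0 → ‖w₁ ω‖ ≤ a ∧ ‖w₂ ω - w₁ ω‖ ≤ a * 2⁻¹ ^ s) :
    Hc p (fun ω => flo s (w₂ ω)) g ≤ ((q : ℝ) - 1) * s * log 2 + 3 * q * log (4 * a) + 2 * CE q +
      Hc p (fun ω => fl s (w₁ ω j)) (fun ω => (flo s (rm j (w₁ ω)), g ω)) := by
  have h1 := e1.tri (fun ω => flo s (w₂ ω)) (fun ω => flo s (rm j (w₁ ω))) g hp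
  have h2 := e1.tri (fun ω => flo s (w₂ ω)) (fun ω => fl s (w₁ ω j))
    (fun ω => (flo s (rm j (w₁ ω)), g ω)) hp
  have h0 : (0 : ℝ) < 2⁻¹ ^ s := by positivity
  have h3 := T.t4.plateH 0 s (finrank ℝ (ℝ ∙ ee j)ᗮ) (fun ω => rm j (w₁ ω)) g
    (fun _ => (ℝ ∙ ee j)ᗮ) (4 * a) hp (Nat.zero_le _) (by linarith) (fun _ _ => le_rfl)
    fun ω ω' hω hω' _ => by
      refine ⟨?_, ?_⟩
      · have h5 := norm_sub_le (rm j (w₁ ω')) (rm j (w₁ ω))
        rw [pow_zero]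
        linarith [norm_rm j (w₁ ω'), norm_rm j (w₁ ω), (h ω hω).1, (h ω' hω').1]
      · rw [la.prj_mem _ _ (Submodule.sub_mem _ (rm_mem _ _) (rm_mem _ _)), norm_zero]
        positivity
  have h4 := T.t3.nearA s w₂ (fun ω => (fl s (w₁ ω j), flo s (rm j (w₁ ω)), g ω)) (4 * a) hp
    (by linarith) fun ω ω' hω hω' e => by
      have e1' := fl_same (Prod.ext_iff.1 e).1
      have e2' := geo1.same_norm (Prod.ext_iff.1 (Prod.ext_iff.1 e).2).1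
      have h5 : w₂ ω - w₂ ω' = (w₂ ω - w₁ ω) - (w₂ ω' - w₁ ω') +
          ((rm j (w₁ ω) - rm j (w₁ ω')) + (w₁ ω j - w₁ ω' j) • ee j) := by
        unfold rm; rw [sub_smul]; abel
      have h6 := norm_add_le (rm j (w₁ ω) - rm j (w₁ ω')) ((w₁ ω j - w₁ ω' j) • ee j)
      rw [norm_sm] at h6
      have h7 := norm_sub_le (w₂ ω - w₁ ω) (w₂ ω' - w₁ ω')
      have h8 := norm_add_le ((w₂ ω - w₁ ω) - (w₂ ω' - w₁ ω'))
        ((rm j (w₁ ω) - rm j (w₁ ω')) + (w₁ ω j - w₁ ω' j) • ee j)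
      rw [← h5] at h8
      have h9 := mul_le_mul_of_nonneg_right hq h0.le
      have h10 := mul_le_mul_of_nonneg_right ha h0.le
      dsimp only at e1' e2'
      linarith [(h ω hω).2, (h ω' hω').2]
  have h5 : (finrank ℝ (ℝ ∙ ee j)ᗮ : ℝ) = q - 1 := by
    have h6 : ((1 + finrank ℝ (ℝ ∙ ee j)ᗮ : ℕ) : ℝ) = q := by rw [rank_ee]
    push_cast at h6
    linarith
  rw [h5, Nat.cast_zero, sub_zero] at h3
  linarith

theorem rel {m p q r : ℕ} (ch : Chart m p q r) {Q : Submodule ℝ (Eu m)} {F₁ F₂ : Eu r}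
    (h : ch.Rep Q F₁) (h₁ : ‖F₁‖ ≤ 2) (h₂ : ‖F₂‖ ≤ 2) (X₁ X₂ : Eu m) (j : Fin q) (s : ℕ) :
    ‖prj Q X₁ - prj Q (ch.iy (flo s (ch.pi F₂ X₂) + ch.app (F₁ - F₂) (flo s (rm j (ch.Pw X₁))))) -
      ch.Pw X₁ j • prj Q (ch.iy (ch.app (F₁ - F₂) (ee j)))‖ ≤
      3 * ‖X₁ - X₂‖ + √p * 2⁻¹ ^ s + 4 * (√q * 2⁻¹ ^ s) := by
  rw [h.prj_eq X₁, ← la.prj_smul, ← la.prj_sub, ← la.prj_sub, ← map_smul, ← map_sub, ← map_sub]
  refine (la.prj_norm _ _).trans ((ch.iy_le _).trans ?_)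
  have h1 : ch.pi F₁ X₁ - (flo s (ch.pi F₂ X₂) + ch.app (F₁ - F₂) (flo s (rm j (ch.Pw X₁)))) -
      ch.Pw X₁ j • ch.app (F₁ - F₂) (ee j) =
      ch.pi F₂ (X₁ - X₂) + (ch.pi F₂ X₂ - flo s (ch.pi F₂ X₂)) +
        ch.app (F₁ - F₂) (rm j (ch.Pw X₁) - flo s (rm j (ch.Pw X₁))) := by
    have h2 := ch.pi_sub_pi F₁ F₂ X₁
    have h3 : ch.app (F₁ - F₂) (rm j (ch.Pw X₁)) =
        ch.app (F₁ - F₂) (ch.Pw X₁) - ch.Pw X₁ j • ch.app (F₁ - F₂) (ee j) := by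
      rw [rm, map_sub, map_smul]
    rw [map_sub (ch.app (F₁ - F₂)), h3, ← h2, ch.pi_sub]
    abel
  rw [h1]
  have h2 := ch.pi_le h₂ (X₁ - X₂)
  have h3 := geo1.norm_sub_flo s (ch.pi F₂ X₂)
  have h4 := ch.app_le (F₁ - F₂) (rm j (ch.Pw X₁) - flo s (rm j (ch.Pw X₁)))
  have h5 := geo1.norm_sub_flo s (rm j (ch.Pw X₁))
  have h6 : ‖F₁ - F₂‖ ≤ 4 := by linarith [norm_sub_le F₁ F₂]
  have h7 := mul_le_mul h6 h5 (norm_nonneg _) (by norm_num)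
  linarith [norm_add₃_le (a := ch.pi F₂ (X₁ - X₂)) (b := ch.pi F₂ X₂ - flo s (ch.pi F₂ X₂))
    (c := ch.app (F₁ - F₂) (rm j (ch.Pw X₁) - flo s (rm j (ch.Pw X₁))))]

theorem key (T : Tools) (B : Base) (enl : SEnl) {m : ℕ} {σ : ℝ} (hc : Ctx m σ) {p q r : ℕ}
    (ch : Chart m p q r) (hn : NG m σ (q + 1)) {κ u : ℝ} (hκ : 0 < κ) (hu : 0 < u) :
    ∀ᶠ x in EF, ∀ {Ω Tt Θ : Type} [Fintype Ω] (D : Cf Ω Tt Θ m) (Q : Ω → Submodule ℝ (Eu m))
      (F : Ω → Eu r), D.PC ch σ Q F x.2 x.1 → ∀ (s h : ℕ) (j : Fin q),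
      (h + 3 : ℕ) + κ * x.2 ≤ s → s ≤ x.2 → Pr (D.pp fun ω => fl s (D.t ω))
        (fun z => 2⁻¹ ^ h ≤ 2 * ‖ch.app (F z.1 - F z.2) (ee j)‖) ≤ u := by
  obtain ⟨e, he, hen⟩ := ef_use1 (enl m σ hc q hn κ hκ)
  obtain ⟨e₁, he₁, hcut⟩ := ef_use1 (B.cut m σ hc u e hu he)
  have hz : 0 < e * u / 2 := by positivity
  obtain ⟨e₂, he₂, hfc⟩ := ef_use1 (B.fullC m σ hc ch _ hz)
  filter_upwards [hen, hcut, hfc, ef_lin (A := 3) (by norm_num) 0 he₁,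
    ef_lin (A := 3) (by norm_num) 0 he₂,
    ef_const (3 * q * log (4 * (2 * (m + 1))) + 2 * CE q + log (4 * (2 * (m + 1)) + 3) + log 2) hz,
    ef_const (8 * (m + 1)) he] with x h1 h2 h3 l1 l2 l3 l4 Ω Tt Θ _ D Q F hP s h j hs hL
  set M : Ω → ℤ := fun ω => fl s (D.t ω) with hM
  set Ev : Ω × Ω → Prop := fun z => 2⁻¹ ^ h ≤ 2 * ‖ch.app (F z.1 - F z.2) (ee j)‖ with hEv
  by_contra hlt
  have hu' : u ≤ Pr (D.pp M) Ev := (not_le.1 hlt).le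
  have ok := hP.ok
  have tw := B.two D M x.2 x.1 ok fun a b ha hb e => congrArg (fl s) (ok.det a b ha hb e)
  obtain ⟨-, p1, p2⟩ := tw.pc ch σ Q F hP
  obtain ⟨c1, c2, -, -⟩ := h2 _ le_rfl (D.two₁ M) Ev hu' (p1.ext.mono (by linarith))
  have c3 := c2 _ q (p1.gr.mono (by linarith))
  have fc := (h3 _ le_rfl (D.two₂ M) _ _ (p2.mono (by linarith))).wl s s le_rfl hL
  have hp : IsP (D.pp M) := tw.mp₁.1
  have hm0 : (0 : ℝ) ≤ m := by positivity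
  have hsq := sqrt_le_succ m
  have hpm : √p ≤ (m : ℝ) + 1 := (sqrt_le_sqrt (by exact_mod_cast (by have := ch.dim; omega))).trans hsq
  have hqm : √q ≤ (m : ℝ) + 1 := (sqrt_le_sqrt (by exact_mod_cast (by have := ch.dim; omega))).trans hsq
  have h0 : (0 : ℝ) < 2⁻¹ ^ s := by positivity
  have hX : ∀ z, D.pp M z ≠ 0 → ‖D.X z.1 - D.X z.2‖ ≤ (m + 1) * 2⁻¹ ^ s := fun z hz => by
    obtain ⟨z1, -, z3, z4, -, z6⟩ := tw.supp z hz
    have h5 : D.X z.1 - D.X z.2 = (D.t z.1 - D.t z.2) • D.v z.1 := by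
      unfold Cf.X; rw [z3, z4, sub_smul]; abel
    rw [h5, norm_smul, Real.norm_eq_abs, mul_comm]
    exact mul_le_mul ((ok.box _ z1).2.1.norm_le.trans hsq) (fl_same z6.symm) (abs_nonneg _)
      (by positivity)
  have hw : ∀ z, D.pp M z ≠ 0 → ‖ch.Pw (D.X z.1)‖ ≤ 2 * (m + 1) := fun z hz => by
    linarith [ch.Pw_le (D.X z.1), ok.norm_X (tw.supp z hz).1]
  have hcc : ∀ a b, D.pp M a ≠ 0 → D.pp M b ≠ 0 → (D.two₁ M).c a = (D.two₁ M).c b →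
      Q a.1 = Q b.1 ∧ F a.1 = F b.1 ∧ F a.2 = F b.2 := fun a b ha hb e => by
    obtain ⟨a1, a2, -, -, a5, -⟩ := tw.supp a ha
    obtain ⟨b1, b2, -, -, b5, -⟩ := tw.supp b hb
    have e1 : D.T a.1 = D.T b.1 := (Prod.ext_iff.1 e).2
    have e2 : D.th a.1 = D.th b.1 := (Prod.ext_iff.1 (Prod.ext_iff.1 e).1).1
    have e3 : D.th a.2 = D.th b.2 := (Prod.ext_iff.1 (Prod.ext_iff.1 e).1).2
    have e4 : D.c a.1 = D.c b.1 := Prod.ext e2 e1
    have e5 : D.c a.2 = D.c b.2 := Prod.ext e3 (a5.trans (e1.trans b5.symm))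
    exact ⟨hP.gr.1 _ _ a1 b1 e4, hP.det _ _ a1 b1 e4, hP.det _ _ a2 b2 e5⟩
  have hne : ∀ z, ((D.two₁ M).cut Ev).p z ≠ 0 → D.pp M z ≠ 0 ∧ Ev z := fun z hz =>
    e2.cnd_ne (p := D.pp M) (E := Ev) hz
  have hex : 8 * ((m : ℝ) + 1) ≤ exp (e * x.2) := by linarith [add_one_le_exp (e * x.2)]
  refine h1 _ le_rfl ((D.two₁ M).cut Ev) (fun z => Q z.1)
    (fun z => (flo s (rm j (ch.Pw (D.X z.1))), flo s (ch.pi (F z.2) (D.X z.2))))
    (fun z => prj (Q z.1) (ch.iy (flo s (ch.pi (F z.2) (D.X z.2)) +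
      ch.app (F z.1 - F z.2) (flo s (rm j (ch.Pw (D.X z.1)))))))
    (fun z => prj (Q z.1) (ch.iy (ch.app (F z.1 - F z.2) (ee j))))
    (fun z => ch.Pw (D.X z.1) j) (h + 3) s c1 c3 hs hL (fun a b ha hb e => ?_)
    (fun a b ha hb e => ?_) (fun z hz => ?_) ?_
  · obtain ⟨e1, e2, e3⟩ := hcc a b (hne a ha).1 (hne b hb).1 e
    simp only [e1, e2, e3]
  · obtain ⟨e1, e2, e3⟩ := hcc a b (hne a ha).1 (hne b hb).1 (Prod.ext_iff.1 e).2
    have e4 : flo s (rm j (ch.Pw (D.X a.1))) = flo s (rm j (ch.Pw (D.X b.1))) :=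
      (Prod.ext_iff.1 (Prod.ext_iff.1 e).1).1
    have e5 : flo s (ch.pi (F a.2) (D.X a.2)) = flo s (ch.pi (F b.2) (D.X b.2)) :=
      (Prod.ext_iff.1 (Prod.ext_iff.1 e).1).2
    dsimp only
    rw [e4, e5, e1, e2, e3]
  · obtain ⟨hz1, hz2⟩ := hne z hz
    obtain ⟨z1, z2, -⟩ := tw.supp z hz1
    obtain ⟨f1, r1⟩ := hP.rep _ z1
    obtain ⟨f2, -⟩ := hP.rep _ z2
    refine ⟨prj_prj _ _, ?_, ?_, ?_, ?_⟩
    · have h5 := r1.pi_le f1 (ch.iy (ch.app (F z.1 - F z.2) (ee j)))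
      rw [ch.pi_iy] at h5
      have h6 : (2⁻¹ : ℝ) ^ h ≤ 2 * ‖ch.app (F z.1 - F z.2) (ee j)‖ := hz2
      have h7 : (0 : ℝ) < 2⁻¹ ^ h := by positivity
      rw [pow_add]
      linarith
    · have h5 := ch.app_le (F z.1 - F z.2) (ee j)
      rw [norm_ee] at h5
      have h6 := (la.prj_norm (Q z.1) _).trans (ch.iy_le (ch.app (F z.1 - F z.2) (ee j)))
      linarith [norm_sub_le (F z.1) (F z.2)]
    · linarith [abs_coord_le (ch.Pw (D.X z.1)) j, hw z hz1]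
    · refine (rel ch r1 f1 f2 (D.X z.1) (D.X z.2) j s).trans ?_
      have h5 := mul_le_mul_of_nonneg_right hpm h0.le
      have h6 := mul_le_mul_of_nonneg_right hqm h0.le
      have h7 := mul_le_mul_of_nonneg_right hex h0.le
      linarith [hX z hz1]
  · have h5 := scal T s j (fun z : Ω × Ω => ch.Pw (D.X z.1)) (fun z => ch.Pw (D.X z.2))
      (fun z => (flo s (ch.pi (F z.2) (D.X z.2)), (D.two₁ M).c z)) (a := 2 * (m + 1)) hp
      (by linarith) (by linarith) fun z hz => ⟨hw z hz, by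
        have h6 := ch.Pw_le (D.X z.2 - D.X z.1)
        rw [map_sub, norm_sub_rev (D.X z.2)] at h6
        have h7 : (0 : ℝ) ≤ (m + 1) * 2⁻¹ ^ s := by positivity
        linarith [hX z hz]⟩
    have h6 : q * s * log 2 - e * u / 2 * x.2 ≤ Hc (D.pp M) (fun z => flo s (ch.Pw (D.X z.2)))
        (fun z => (flo s (ch.pi (F z.2) (D.X z.2)), (D.two₁ M).c z)) := by
      refine fc.trans (e1.hc_mono hp (fun a b ha hb e => ?_) (Det.fst _ _ _))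
      have e1 : D.T a.2 = D.T b.2 := (Prod.ext_iff.1 (Prod.ext_iff.1 e).2).2
      refine Prod.ext (Prod.ext_iff.1 e).1 (Prod.ext (Prod.ext_iff.1 (Prod.ext_iff.1 e).2).1 ?_)
      exact (tw.supp a ha).2.2.2.2.1.symm.trans (e1.trans (tw.supp b hb).2.2.2.2.1)
    have h7 : Hc (D.pp M) (fun z => fl s (ch.Pw (D.X z.1) j))
        (fun z => (flo s (rm j (ch.Pw (D.X z.1))), flo s (ch.pi (F z.2) (D.X z.2)),
          (D.two₁ M).c z)) ≤ Hc (D.pp M) (fun z => fl s (ch.Pw (D.X z.1) j))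
        (fun z => ((flo s (rm j (ch.Pw (D.X z.1))), flo s (ch.pi (F z.2) (D.X z.2))),
          (D.two₁ M).c z)) :=
      e1.hc_mono hp (fun a b _ _ e => Prod.ext (Prod.ext (Prod.ext_iff.1 e).1
        (Prod.ext_iff.1 (Prod.ext_iff.1 e).2).1) (Prod.ext_iff.1 (Prod.ext_iff.1 e).2).2)
        (Det.fst _ _ _)
    have h8 := T.t2.evcap (f := fun z : Ω × Ω => fl s (ch.Pw (D.X z.1) j))
      (g := fun z => ((flo s (rm j (ch.Pw (D.X z.1))), flo s (ch.pi (F z.2) (D.X z.2))),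
          (D.two₁ M).c z)) Ev hp (hu.trans_le hu') fun z hz =>
        T.t3.cnt1B s _ _ (2 * (m + 1)) z (by positivity) hz fun z hz =>
          (abs_coord_le _ _).trans (hw z hz)
    refine le_trans ?_ h8
    have h9 : 0 ≤ log (4 * (2 * ((m : ℝ) + 1)) + 3) := log_nonneg (by linarith)
    have h10 : 0 ≤ e * x.2 := by positivity
    have h11 := mul_le_mul_of_nonneg_left hu' h10
    have h12 := (div_le_iff₀ (hu.trans_le hu')).2 (show s * log 2 + log (4 * (2 * ((m : ℝ) + 1)) + 3) -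
      Hc (D.pp M) (fun z => fl s (ch.Pw (D.X z.1) j))
        (fun z => ((flo s (rm j (ch.Pw (D.X z.1))), flo s (ch.pi (F z.2) (D.X z.2))),
          (D.two₁ M).c z)) + log 2 ≤ e * x.2 * Pr (D.pp M) Ev by linarith)
    dsimp only
    linarith

end LipX

theorem sLip (T : Tools) (B : Base) (enl : SEnl) : SLip := by
  intro m σ hc p q r ch hn ζ hζ
  have hκ : 0 < ζ / 4 / (r + 1) := by positivity
  have hu : 0 < ζ / 4 / (r + 1) / (q + 1) := by positivity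
  filter_upwards [LipX.key T B enl hc ch hn hκ hu,
    ef_lin (A := 2) zero_le_two (1 + 5 * r + 3 * CE r) (half_pos hζ)]
    with x hk hl Ω Tt Θ _ D Q F hP s hs
  have ok := hP.ok
  have hp := ok.isP
  have hE := ok.nonneg
  have hF : ∀ ω, D.p ω ≠ 0 → ‖F ω‖ ≤ 2 := fun ω hω => (hP.rep ω hω).1
  have hr : (0 : ℝ) ≤ r := by positivity
  have hL : (0 : ℝ) ≤ x.2 := by positivity
  have hC := CE_nonneg r
  have l1 := log_two_le_one
  have l2 := log_two_pos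
  have hκr : r * (ζ / 4 / (r + 1)) ≤ ζ / 4 := by
    rw [mul_div_assoc', div_le_iff₀ (by positivity)]; nlinarith
  obtain ⟨k, hk1, hk2⟩ : ∃ k : ℕ, 3 + ζ / 4 / (r + 1) * x.2 ≤ k ∧ r * k * log 2 ≤
      4 * r + ζ / 4 * x.2 := by
    refine ⟨⌈ζ / 4 / (r + 1) * x.2⌉₊ + 3, ?_, ?_⟩
    · push_cast; linarith [Nat.le_ceil (ζ / 4 / (r + 1) * x.2)]
    · have h1 := (Nat.ceil_lt_add_one (show 0 ≤ ζ / 4 / (r + 1) * x.2 by positivity)).le
      have h2 := mul_le_mul_of_nonneg_left h1 hr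
      have h3 := mul_le_mul_of_nonneg_right hκr hL
      have h4 := mul_le_mul_of_nonneg_left l1
        (show (0 : ℝ) ≤ r * (⌈ζ / 4 / (r + 1) * x.2⌉₊ + 3 : ℕ) by positivity)
      push_cast at h4 ⊢
      nlinarith
  have hr2 : r * log 2 ≤ r := by nlinarith
  have hz : 0 ≤ ζ / 4 * x.2 := by positivity
  by_cases hks : s ≤ k
  · have h1 := T.t3.totB s F (fun ω => (fl s (D.t ω), D.T ω)) 2 hp one_le_two hF
    have h2 : r * s * log 2 ≤ r * k * log 2 := by gcongr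
    linarith
  obtain ⟨h, rfl⟩ := Nat.exists_eq_add_of_le' (not_le.1 hks).le
  have tw := B.two D (fun ω => fl (h + k) (D.t ω)) x.2 x.1 ok
    fun a b ha hb e => congrArg (fl (h + k)) (ok.det a b ha hb e)
  have h1 := tw.lab (fun ω => flo (h + k) (F ω))
    fun a b ha hb e => congrArg (flo (h + k)) (hP.det a b ha hb e)
  have h2 := T.t3.far (h + k) h F (fun ω => (D.l ω, D.T ω, fl (h + k) (D.t ω))) 2 hp
    (Nat.le_add_right _ _) one_le_two hF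
  have hp' : IsP (D.pp fun ω => fl (h + k) (D.t ω)) := tw.mp₁.1
  have h3 : Pr (D.pp fun ω => fl (h + k) (D.t ω)) (fun z => 2⁻¹ ^ h ≤ ‖F z.2 - F z.1‖) ≤
      q * (ζ / 4 / (r + 1) / (q + 1)) := by
    have h4 := e1.pr_exists Finset.univ
      (fun (j : Fin q) (z : Ω × Ω) => 2⁻¹ ^ h ≤ 2 * ‖ch.app (F z.1 - F z.2) (LipX.ee j)‖) hp'
    refine (e1.pr_mono hp' fun z _ hz => ?_).trans (h4.trans ?_)
    · obtain ⟨j, hj⟩ := ch.app_ge (F z.1 - F z.2)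
      rw [norm_sub_rev] at hz
      exact ⟨j, Finset.mem_univ _, hz.trans hj⟩
    · refine (Finset.sum_le_sum fun j _ => hk D Q F hP (h + k) h j ?_ (by omega)).trans (by simp)
      push_cast; linarith
  have h4 : q * (ζ / 4 / (r + 1) / (q + 1)) ≤ ζ / 4 / (r + 1) := by
    rw [mul_div_assoc', div_le_iff₀ (by positivity)]; nlinarith
  have h5 := e1.pr_le_one (fun z => 2⁻¹ ^ h ≤ ‖F z.2 - F z.1‖) hp'
  have h6 := e1.pr_nonneg (fun z => 2⁻¹ ^ h ≤ ‖F z.2 - F z.1‖) hp'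
  change _ ≤ _ + Pr (D.pp fun ω => fl (h + k) (D.t ω)) _ * _ at h2
  generalize Pr (D.pp fun ω => fl (h + k) (D.t ω)) (fun z => 2⁻¹ ^ h ≤ ‖F z.2 - F z.1‖) = P at *
  have h7 : ((h + k : ℕ) : ℝ) ≤ x.2 := by exact_mod_cast (by omega : h + k ≤ x.2)
  have h8 : ((h + k : ℕ) : ℝ) * log 2 ≤ x.2 * 1 := by gcongr
  have h9 : P * r ≤ ζ / 4 := by nlinarith
  have h10 : P * r * ((h + k : ℕ) * log 2) ≤ ζ / 4 * (x.2 * 1) := by gcongr
  have h11 : P * (r * log 2 + CE r) ≤ 1 * (r * log 2 + CE r) := by gcongr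
  have h12 : ((h + k : ℕ) : ℝ) - h = k := by push_cast; ring
  rw [h12] at h2
  nlinarith

end Vale.Agent.P127
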