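import Vale.Agent.P127.Num

/-! Sticky Kakeya sets in four dimensions: the ends of the induction on the grain dimension. -/

namespace Vale.Agent.P127

open Vale.Agent.P118
open scoped RealInnerProductSpace
open Real Classical Module

theorem sNgm : SNgm := by
  intro m σ hc
  filter_upwards [ef_lin (A := 2) zero_le_two 1 (mul_pos hc.pos log_two_pos)]
    with x h1 Ω Tt Θ _ D Q hE hG
  have h2 := e1.hc_mono (f := fun ω => flo x.2 (D.X ω)) (f' := fun ω => flo x.2 (D.X ω))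
    (g := fun ω => (flo x.2 (prj (Q ω) (D.X ω)), D.c ω)) (g' := D.c) hE.1.isP (Det.snd _ _ _)
    (Det.fst _ _ _)
  have h3 := hG.2.2
  have h4 := hE.2
  nlinarith

namespace NgX

theorem prj_bot {m : ℕ} (x : Eu m) : prj ⊥ x = x := by simp [prj]

theorem cut_ne {Ω Tt Θ : Type} [Fintype Ω] {m : ℕ} {D : Cf Ω Tt Θ m} {Ev : Ω → Prop} {ω : Ω}
    (h : (D.cut Ev).p ω ≠ 0) : D.p ω ≠ 0 ∧ Ev ω := e2.cnd_ne (p := D.p) (E := Ev) h

end NgX

theorem sNg0 (T : Tools) (B : Base) (pl : SPl) : SNg0 := by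
  have _ := T
  intro m σ hc hn
  have hz : 0 < σ * log 2 / 10 := by have := hc.pos; have := log_two_pos; positivity
  filter_upwards [pl m σ hc 0 hn _ hz, B.full m σ hc _ hz, ef_large 10]
    with x h1 h2 h3 Ω Tt Θ _ D Q hE hG
  have hp := hE.1.isP
  have h4 := h1 D Q hE hG (x.2 / 2) (by omega)
  have h5 := (h2 D hE).dl (x.2 / 2) (x.2 / 2) le_rfl (by omega)
  have h6 : Hc D.p (fun ω => flo (x.2 / 2) (D.v ω)) (fun ω => (flo (x.2 / 2) (D.X ω), D.c ω)) ≤
      Hc D.p (fun ω => flo (x.2 / 2) (prj (Q ω) (D.v ω)))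
        (fun ω => (flo (x.2 / 2) (D.X ω), D.c ω)) := by
    refine e1.hc_mono hp (Det.refl _ _) fun a b ha hb e => ?_
    have h7 := (Prod.ext_iff.1 e).1
    simp only [Submodule.finrank_eq_zero.1 (hG.2.1 a ha), Submodule.finrank_eq_zero.1 (hG.2.1 b hb),
      NgX.prj_bot] at h7
    exact h7
  have h7 : (x.2 : ℝ) ≤ 3 * (x.2 / 2 : ℕ) := by exact_mod_cast (by omega : x.2 ≤ 3 * (x.2 / 2))
  have h8 : (10 : ℝ) ≤ x.2 := by exact_mod_cast h3
  have h9 := mul_le_mul_of_nonneg_left h7 hz.le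
  nlinarith

theorem sNg1 (T : Tools) (B : Base) (pl : SPl) : SNg1 := by
  have _ := T
  intro m σ hc p q r ch hcov hN hn
  obtain ⟨e, he, hN'⟩ := ef_use1 (Filter.eventually_all.2 hN)
  obtain ⟨e', he', hcut⟩ := ef_use1 (B.cut m σ hc (1 / 3) e (by norm_num) he)
  filter_upwards [hN', hcut, pl m σ hc q hn e' he', ef_small he']
    with x h1 h2 h3 h4 Ω Tt Θ _ D Q hE hG
  have hp := hE.1.isP
  choose! J F hF using hcov
  obtain ⟨j, hj⟩ : ∃ j, 1 / 3 ≤ Pr D.p fun ω => J (Q ω) = j := by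
    by_contra h
    push Not at h
    have h5 := e1.pr_exists (p := D.p) Finset.univ (fun j ω => J (Q ω) = j) hp
    have h6 : Pr D.p (fun ω => ∃ j ∈ Finset.univ, J (Q ω) = j) = 1 := by
      simp [Pr, hp.2]
    rw [h6, Fin.sum_univ_three] at h5
    linarith [h 0, h 1, h 2]
  obtain ⟨c1, c2, c3, -⟩ := h2 _ le_rfl D _ hj (hE.mono h4)
  refine h1 _ le_rfl j (D.cut fun ω => J (Q ω) = j) Q (fun ω => F (Q ω))
    ⟨c1, c2 Q q (hG.mono h4), c3 Q (h3 D Q hE hG), fun a b ha hb e => ?_, fun ω hω => ?_⟩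
  · rw [hG.1 a b (NgX.cut_ne ha).1 (NgX.cut_ne hb).1 e]
  · obtain ⟨h5, h6⟩ := NgX.cut_ne hω
    rw [← h6]
    exact hF _ (hG.2.1 ω h5)

theorem sLb : SLb := by
  intro m h
  let S : Set ℝ := {σ | 0 ≤ σ ∧ LB m σ}
  have hm : (m : ℝ) ∈ S := ⟨by positivity, fun γ hγ => Filter.Eventually.of_forall
    fun x Ω Tt Θ _ D hD => by
      have h1 := e1.hc_nonneg (fun ω => flo x.2 (D.X ω)) D.c hD.isP
      have h2 : 0 ≤ γ * x.2 * log 2 := by have := log_two_pos; positivity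
      nlinarith⟩
  have hb : BddBelow S := ⟨0, fun _ h => h.1⟩
  have hmono : ∀ {σ σ' γ γ' : ℝ} (L : ℕ), σ + γ ≤ σ' + γ' →
      (m - σ' - γ') * L * log 2 ≤ (m - σ - γ) * L * log 2 := fun L h => by
    have := log_two_pos
    gcongr ?_ * _ * _
    linarith
  have h0 : 0 ≤ sInf S := le_csInf ⟨_, hm⟩ fun _ h => h.1
  have hs : LB m (sInf S) := fun γ hγ => by
    obtain ⟨σ, hσ, h1⟩ := exists_lt_of_csInf_lt ⟨_, hm⟩ (show sInf S < sInf S + γ / 2 by linarith)
    filter_upwards [hσ.2 (γ / 2) (half_pos hγ)] with x hx Ω Tt Θ _ D hD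
    exact (hmono _ (by linarith)).trans (hx D hD)
  rcases h0.eq_or_lt with h1 | h1
  · rwa [← h1] at hs
  exfalso
  obtain ⟨e, he, hN⟩ := ef_use1 (h _ ⟨h1, csInf_le hb hm, hs⟩)
  have h2 : max 0 (sInf S - e) ∈ S := ⟨le_max_left _ _, fun γ hγ => by
    filter_upwards [hN, ef_small he] with x hx hx' Ω Tt Θ _ D hD
    by_contra hlt
    have hD' := hD.mono hx'
    refine hx _ le_rfl D (fun _ => ⊥) ⟨hD', ?_⟩ ⟨fun _ _ _ _ _ => rfl, fun _ _ => finrank_bot _ _, ?_⟩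
    · have h3 := hmono (σ := sInf S - e) (γ := 0) (σ' := max 0 (sInf S - e)) (γ' := γ) x.2
        (by linarith [le_max_right 0 (sInf S - e)])
      have h4 : e * x.2 * log 2 ≤ e * x.2 * 1 :=
        mul_le_mul_of_nonneg_left log_two_le_one (by positivity)
      have h5 := (not_le.1 hlt).le.trans h3
      nlinarith
    · have h3 := e1.hc_nonneg (fun ω => flo x.2 (D.X ω))
        (fun ω => (flo x.2 (prj ⊥ (D.X ω)), D.c ω)) hD.isP
      have h4 := hD'.nonneg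
      simp only [Nat.cast_zero, zero_mul]
      linarith⟩
  have h3 := csInf_le hb h2
  rcases le_max_iff.1 h3 with h4 | h4 <;> linarith

end Vale.Agent.P127
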