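import Vale.Agent.P127.Num

/-! Sticky Kakeya sets in four dimensions: planiness. -/

namespace Vale.Agent.P127

open Vale.Agent.P118
open scoped RealInnerProductSpace
open Real Classical Module

namespace PlX

variable {Ω Tt Θ : Type} [Fintype Ω] {m q L i : ℕ} {σ E e : ℝ} {D : Cf Ω Tt Θ m}

theorem lg (m : ℕ) {a : ℝ} (h0 : 0 < a) (ha : a ≤ 3 * (m + 1)) : m * log a ≤ CE m := by
  have m0 : (0 : ℝ) ≤ m := by positivity
  have h := mul_log_le_CE (m := m) h0 (by linarith) m0 (by linarith)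
  linarith [CE_nonneg m]

theorem geo {V : Submodule ℝ (Eu m)} {a v : Eu m} {t₁ t₂ : ℝ} (ht : |t₂ - t₁| ≤ 2⁻¹ ^ i) :
    ‖prj V (a + t₁ • v) - prj V (flo (i + i) (a + t₂ • v)) + (t₂ - t₁) • prj V (flo i v)‖ ≤
      2 * √m * 2⁻¹ ^ (i + i) := by
  have h : prj V (a + t₁ • v) - prj V (flo (i + i) (a + t₂ • v)) + (t₂ - t₁) • prj V (flo i v) =
      prj V ((a + t₂ • v - flo (i + i) (a + t₂ • v)) - (t₂ - t₁) • (v - flo i v)) := by
    rw [← la.prj_sub, ← la.prj_smul, ← la.prj_add]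
    exact congrArg (prj V) (by module)
  have h1 := geo1.norm_sub_flo (i + i) (a + t₂ • v)
  have h2 : ‖(t₂ - t₁) • (v - flo i v)‖ ≤ 2⁻¹ ^ i * (√m * 2⁻¹ ^ i) := by
    rw [norm_smul, Real.norm_eq_abs]
    exact mul_le_mul ht (geo1.norm_sub_flo i v) (norm_nonneg _) (by positivity)
  have h3 : (2⁻¹ : ℝ) ^ i * (√m * 2⁻¹ ^ i) = √m * 2⁻¹ ^ (i + i) := by rw [pow_add]; ring
  rw [h]
  refine ((la.prj_norm V _).trans (norm_sub_le _ _)).trans ?_
  linarith

theorem near (hD : D.OK L E) (tw : D.Two (fun ω => fl i (D.t ω)) L E) {z : Ω × Ω}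
    (hz : D.pp (fun ω => fl i (D.t ω)) z ≠ 0) : ‖D.X z.1 - D.X z.2‖ ≤ √m * 2⁻¹ ^ i := by
  obtain ⟨j1, -, j3, j4, -, j6⟩ := tw.supp z hz
  have h : D.X z.1 - D.X z.2 = (D.t z.1 - D.t z.2) • D.v z.1 := by
    unfold Cf.X; rw [j3, j4]; module
  rw [h, norm_smul, Real.norm_eq_abs, mul_comm]
  exact mul_le_mul (hD.box _ j1).2.1.norm_le (fl_same j6.symm) (abs_nonneg _) (sqrt_nonneg _)

theorem inf (T : Tools) (hD : D.OK L E) (tw : D.Two (fun ω => fl i (D.t ω)) L E)
    (hi : i + i ≤ L) (f1 : (D.one fun ω => fl i (D.t ω)).Full σ L e)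
    (f2 : (D.two₂ fun ω => fl i (D.t ω)).Full σ L e) :
    Hc (D.pp fun ω => fl i (D.t ω)) (fun z => D.ln i z.1) (fun z => (flo i (D.X z.1), D.c z.1)) -
      Hc (D.pp fun ω => fl i (D.t ω)) (fun z => D.ln i z.1)
        (fun z => (flo (i + i) (D.X z.2), flo i (D.X z.1), D.th z.2, D.c z.1)) ≤
      2 * e + 2 * CE m := by
  have hP := tw.mp₁.1
  have m0 : (0 : ℝ) ≤ m := by positivity
  have a1 : Hc (D.pp fun ω => fl i (D.t ω)) (fun z => D.ln i z.1)
      (fun z => (flo i (D.X z.1), D.c z.1)) ≤ σ * i * log 2 + e :=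
    f1.du i ((Nat.le_add_left i i).trans hi)
  have a2 : σ * i * log 2 - e ≤ Hc (D.pp fun ω => fl i (D.t ω)) (fun z => flo i (D.v z.2))
      fun z => (flo (i + i) (D.X z.2), (D.th z.1, D.th z.2), D.T z.2) :=
    f2.dl i (i + i) (Nat.le_add_left i i) hi
  have a3 := e1.tri (fun z : Ω × Ω => flo i (D.v z.2)) (fun z => flo i (D.X z.1))
    (fun z => (flo (i + i) (D.X z.2), (D.th z.1, D.th z.2), D.T z.2)) hP
  have a4 := T.t3.nearA i (fun z : Ω × Ω => D.X z.1)
    (fun z => (flo (i + i) (D.X z.2), (D.th z.1, D.th z.2), D.T z.2)) (3 * (m + 1)) hP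
    (by linarith) fun a b ha hb h => by
      have j1 := near hD tw ha
      have j2 := near hD tw hb
      have j3 := geo1.same_norm (flo_of_flo (Nat.le_add_left i i) (congrArg (·.1) h))
      have j4 : D.X a.1 - D.X b.1 =
          (D.X a.1 - D.X a.2) + (D.X a.2 - D.X b.2) - (D.X b.1 - D.X b.2) := by abel
      have j5 := mul_le_mul_of_nonneg_right (sqrt_le_succ m)
        (show (0 : ℝ) ≤ 2⁻¹ ^ i by positivity)
      rw [j4]
      linarith [norm_sub_le ((D.X a.1 - D.X a.2) + (D.X a.2 - D.X b.2)) (D.X b.1 - D.X b.2),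
        norm_add_le (D.X a.1 - D.X a.2) (D.X a.2 - D.X b.2)]
  have a5 : Hc (D.pp fun ω => fl i (D.t ω)) (fun z => flo i (D.v z.2))
      (fun z => (flo i (D.X z.1), flo (i + i) (D.X z.2), (D.th z.1, D.th z.2), D.T z.2)) ≤
      Hc (D.pp fun ω => fl i (D.t ω)) (fun z => D.ln i z.1)
        (fun z => (flo (i + i) (D.X z.2), flo i (D.X z.1), D.th z.2, D.c z.1)) := by
    refine e1.hc_mono hP (fun a b ha hb h => ?_) fun a b ha hb h => ?_
    · have j1 : D.T a.2 = D.T b.2 := congrArg (·.2.2.2) h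
      rw [(tw.supp a ha).2.2.2.2.1, (tw.supp b hb).2.2.2.2.1] at j1
      exact Prod.ext (congrArg (·.2.1) h) (Prod.ext (congrArg (·.1) h)
        (Prod.ext (congrArg (·.2.2.1.2) h) (Prod.ext (congrArg (·.2.2.1.1) h) j1)))
    · have j1 : flo i (D.v a.1) = flo i (D.v b.1) := congrArg (·.1.2) h
      simp only [(tw.supp a ha).2.2.2.1, (tw.supp b hb).2.2.2.1, j1]
  have a6 := lg m (show (0 : ℝ) < 3 * (m + 1) by positivity) le_rfl
  linarith

end PlX

open PlX in
theorem sPl (T : Tools) (B : Base) (sh : SSh) : SPl := by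
  intro m σ ctx q ng ζ hζ
  have m0 : (0 : ℝ) ≤ m := by positivity
  obtain ⟨e, he, H⟩ := ef_use1 (sh m σ ctx q ng (ζ / 2) (half_pos hζ))
  obtain ⟨e₁, he₁, H1⟩ := ef_use1 (B.full m σ ctx (e / 4) (by positivity))
  filter_upwards [H, H1, ef_lin zero_le_three 0 he₁, ef_lin zero_le_three (2 * CE m) (half_pos he),
    ef_const (2 * CE m) (half_pos hζ)] with x H H1 n1 n2 n3
  intro Ω Tt Θ _ D Q hE hG i hi
  obtain ⟨E, L⟩ := x
  dsimp only at *
  have hp := hE.1.isP
  have E0 := hE.1.nonneg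
  have c0 := lin_le_CE m
  have sq := sqrt_le_succ m
  have hi' : i + i ≤ L := by omega
  have tw := B.two D (fun ω => fl i (D.t ω)) L E hE.1 fun a b ha hb h =>
    congrArg (fl i) (hE.1.det a b ha hb h)
  obtain ⟨x1, -, x2⟩ := tw.ext σ hE
  have f1 := H1 (3 * E) (by linarith) _ x1
  have f2 := H1 (3 * E) (by linarith) _ x2
  have ex := add_one_le_exp (e * L)
  have key := H (e * L) le_rfl (D.one fun ω => fl i (D.t ω)) (fun z => Q z.1) (fun z => D.th z.2)
    (fun z => D.t z.2) (fun z => flo (i + i) (D.X z.2)) (fun z => flo i (D.X z.1))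
    (fun z => prj (Q z.1) (flo i (D.v z.1))) (fun z => prj (Q z.1) (flo (i + i) (D.X z.2)))
    (fun _ => True) i i (x1.mono (by linarith)) ((tw.gr Q q hG).1.mono (by linarith)) hi'
    (fun a b ha hb h => by
      obtain ⟨-, j1, -, -, j2, -⟩ := tw.supp a ha
      obtain ⟨-, l1, -, -, l2, -⟩ := tw.supp b hb
      exact hE.1.det _ _ j1 l1 (Prod.ext (congrArg (·.1) h)
        ((j2.trans (congrArg (·.2.2) h)).trans l2.symm)))
    (fun a b ha hb h => by
      have j1 : flo i (D.v a.1) = flo i (D.v b.1) := congrArg (·.1.2) h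
      simp only [j1, hG.1 _ _ (tw.supp a ha).1 (tw.supp b hb).1 (congrArg (·.2) h)])
    (fun a b ha hb h => by
      have j1 : flo (i + i) (D.X a.2) = flo (i + i) (D.X b.2) := congrArg (·.1) h
      simp only [j1, hG.1 _ _ (tw.supp a ha).1 (tw.supp b hb).1 (congrArg (·.2.2.2) h)])
    (by
      have a1 := tw.tim (i + i) hi'
      have a2 := T.t4.int i D.t D.T hp fun ω hω => (hE.1.box ω hω).2.2
      push_cast at a1
      exact le_trans (by linarith) a1)
    (((B.bas _ L _ x1.1).2.2.2.2.1 i).trans (by linarith))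
    ((inf T hE.1 tw hi' f1 f2).trans (by linarith))
    (fun z hz => by
      obtain ⟨j1, -, j3, j4, -, j6⟩ := tw.supp z hz
      refine ⟨fl_same j6, prj_prj _ _, ?_, fun _ => ?_⟩
      · linarith [la.prj_norm (Q z.1) (flo i (D.v z.1)), ((hE.1.box _ j1).2.1.flo i).norm_le]
      · have j7 : D.X z.2 = D.a z.1 + D.t z.2 • D.v z.1 := by unfold Cf.X; rw [j3, j4]
        simp only [j7]
        exact (geo (fl_same j6)).trans
          (mul_le_mul_of_nonneg_right (by linarith) (by positivity)))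
    (by simp only [Pr, not_true, Finset.filter_false, Finset.sum_empty, zero_mul]; linarith)
  have a1 := T.t1.mp (fun ω => flo i (prj (Q ω) (flo i (D.v ω))))
    (fun ω => (flo i (D.X ω), D.c ω)) tw.mp₁
  have a2 := T.t3.closeD i (fun ω => prj (Q ω) (D.v ω)) (fun ω => prj (Q ω) (flo i (D.v ω)))
    (fun _ => 0) (fun ω => (flo i (D.X ω), D.c ω)) (m + 1) hp (by linarith) (fun _ _ _ _ _ => rfl)
    fun ω _ => by
      rw [sub_zero, ← la.prj_sub]
      exact ((la.prj_norm _ _).trans (geo1.norm_sub_flo i _)).trans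
        (mul_le_mul_of_nonneg_right sq (by positivity))
  have a3 := lg m (show (0 : ℝ) < m + 1 by positivity) (by linarith)
  have a4 := a1.ge.trans key
  linarith

end Vale.Agent.P127
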