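import Vale.Agent.P127.Num

/-! Sticky Kakeya sets in four dimensions: plane grains are impossible. -/

namespace Vale.Agent.P127

open Vale.Agent.P118
open scoped RealInnerProductSpace
open Real Classical Module

namespace Q2X

theorem par {σ sg η κ₀ L : ℝ} {b : ℕ} (g0 : 0 < sg) (g1 : sg ≤ σ) (g2 : sg ≤ 1) (hη : 0 < η)
    (hη' : η ≤ 1 / 2) (hL : 0 ≤ κ₀ * L) (b1 : κ₀ * L ≤ b) (h8 : 100 ≤ sg * η * κ₀ / 1000 * L) :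
    ∃ j s h c : ℕ, 2 * j ≤ b ∧ 4 * s ≤ j ∧ 2 * h ≤ s ∧ 10 * c ≤ h ∧ (h : ℝ) ≤ η * s ∧
      sg * η * κ₀ / 1000 * L ≤ c ∧
      ¬σ * j * log 2 ≤ s * log 2 + σ * κ₀ * log 2 / 10 * L := by
  obtain ⟨j, j1, j2⟩ : ∃ j : ℕ, 2 * j ≤ b ∧ b ≤ 2 * j + 1 := ⟨b / 2, by omega, by omega⟩
  obtain ⟨s, s1, s2⟩ : ∃ s : ℕ, (s : ℝ) ≤ sg * j / 4 ∧ sg * j / 4 < s + 1 :=
    ⟨⌊sg * j / 4⌋₊, Nat.floor_le (by positivity), Nat.lt_floor_add_one _⟩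
  obtain ⟨h, t1, t2⟩ : ∃ h : ℕ, (h : ℝ) ≤ η * s ∧ η * s < h + 1 :=
    ⟨⌊η * s⌋₊, Nat.floor_le (by positivity), Nat.lt_floor_add_one _⟩
  obtain ⟨c, c1, c2⟩ : ∃ c : ℕ, 10 * c ≤ h ∧ h ≤ 10 * c + 9 := ⟨h / 10, by omega, by omega⟩
  have hj : (0 : ℝ) ≤ j := by positivity
  have hs : (0 : ℝ) ≤ s := by positivity
  have hl := log_two_pos
  have j3 : κ₀ * L ≤ 2 * j + 1 := b1.trans (by exact_mod_cast j2)
  refine ⟨j, s, h, c, j1, ?_, ?_, c1, t1, ?_, fun d6 => ?_⟩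
  · have : (4 * s : ℝ) ≤ j := by nlinarith
    exact_mod_cast this
  · have : (2 * h : ℝ) ≤ s := by nlinarith
    exact_mod_cast this
  · have u1 : (h : ℝ) ≤ 10 * c + 9 := by exact_mod_cast c2
    have u2 : sg * (κ₀ * L) ≤ sg * (2 * j + 1) := mul_le_mul_of_nonneg_left j3 g0.le
    have u3 : sg * (κ₀ * L) ≤ 8 * s + 9 := by linarith
    have u4 : η * (sg * (κ₀ * L)) ≤ η * (8 * s + 9) := mul_le_mul_of_nonneg_left u3 hη.le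
    linarith
  · have u1 : s * log 2 ≤ σ * j / 4 * log 2 := by
      refine mul_le_mul_of_nonneg_right (s1.trans ?_) hl.le
      gcongr
    have u2 : 100 ≤ κ₀ * L := by
      have : sg * η / 1000 * (κ₀ * L) ≤ 1 * (κ₀ * L) :=
        mul_le_mul_of_nonneg_right (by nlinarith) hL
      linarith
    have u3 : 0 < σ * log 2 := mul_pos (g0.trans_le g1) hl
    have u4 := mul_le_mul_of_nonneg_left j3 u3.le
    have u5 := mul_le_mul_of_nonneg_left u2 u3.le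
    linarith

end Q2X

theorem sQ2 (uc : SUc) (plu : SPlu) (fin : SFin) : SQ2 := by
  intro σ hc ch hP η hη hη' ha hd hcom
  obtain ⟨κ₀, hκ₀, hcom⟩ := hcom
  obtain ⟨sg, g0, g1, g2⟩ : ∃ sg : ℝ, 0 < sg ∧ sg ≤ σ ∧ sg ≤ 1 :=
    ⟨min σ 1, lt_min hc.pos one_pos, min_le_left _ _, min_le_right _ _⟩
  have hκ : 0 < sg * η * κ₀ / 1000 := by positivity
  have hl := log_two_pos
  have hσ := hc.pos
  obtain ⟨e₁, he₁, hfin⟩ := ef_use1 (fin 3 σ hc (σ * κ₀ * log 2 / 10) (by positivity))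
  obtain ⟨e₂, he₂, huc⟩ := ef_use1 (uc σ hc ch hP _ (e₁ / 2) hκ (half_pos he₁))
  obtain ⟨e₃, he₃, hplu⟩ := ef_use1 (plu σ hc ch hP _ e₁ hκ he₁)
  obtain ⟨e₄, he₄, hdc⟩ := ef_use1 (hd _ e₂ hκ he₂)
  obtain ⟨e, he, k1, k2, k3, k4⟩ : ∃ e : ℝ, 0 < e ∧ e ≤ e₁ / 2 ∧ e ≤ e₂ ∧ e ≤ e₃ ∧ e ≤ e₄ :=
    ⟨min (min (e₁ / 2) e₂) (min e₃ e₄), by positivity, (min_le_left _ _).trans (min_le_left _ _),
      (min_le_left _ _).trans (min_le_right _ _), (min_le_right _ _).trans (min_le_left _ _),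
      (min_le_right _ _).trans (min_le_right _ _)⟩
  filter_upwards [hfin, huc, hplu, hdc, hcom _ e hκ he, ha _ e hκ he, ef_small he,
    ef_const 100 hκ] with x h1 h2 h3 h4 h5 h6 h7 h8 Ω Tt Θ _ D Q F hD
  clear hfin huc hplu hdc hcom ha hd uc plu fin
  obtain ⟨E, L⟩ := x
  dsimp only at *
  have hL : (0 : ℝ) ≤ L := by positivity
  have m1 := mul_le_mul_of_nonneg_right k1 hL
  have m2 := mul_le_mul_of_nonneg_right k2 hL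
  have m3 := mul_le_mul_of_nonneg_right k3 hL
  have m4 := mul_le_mul_of_nonneg_right k4 hL
  have m5 : 0 ≤ e * L := by positivity
  obtain ⟨b, α, b1, b2, hC⟩ := h5 D Q F hD
  obtain ⟨j, s, h, c, j1, n1, n2, c1, t1, n3, hf⟩ := Q2X.par g0 g1 g2 hη hη' (by positivity) b1 h8
  have n4 : sg * η * κ₀ / 1000 * L ≤ h := n3.trans (by exact_mod_cast (by omega : c ≤ h))
  have n5 : sg * η * κ₀ / 1000 * L ≤ s := n4.trans (by exact_mod_cast (by omega : h ≤ s))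
  obtain ⟨M, F₀, α', hA⟩ := h6 D Q F hD s h n5 (by omega) t1
  have hD' := hD.mono h7
  have hp := hD.ok.isP
  have d1 := h4 _ m4 D Q F F₀ α' M s h hD' hA n4 n2 (by omega) h le_rfl
  have d2 := h2 _ le_rfl D Q F F₀ α α' M b c s h j (hD'.mono m2) (hC.mono m2) (hA.mono m2) d1 n3 c1
    n2 (by omega) b2
  have d3 := h3 _ m3 D Q F α b c j hD' hC n3 (by omega) (by omega)
  have d4 : Det D.p D.c fun ω => flo j (uu ch (F ω) (α ω)) := fun a b ha hb e => by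
    simp only [hD.det a b ha hb e, hC.det a b ha hb e]
  have d5 := e1.chain M (fun ω => flo j (uu ch (F ω) (α ω))) D.T hp
  have d6 : Det D.p (fun ω => ((M ω, flo j (uu ch (F ω) (α ω))), D.T ω))
      fun ω => ℝ ∙ flo j (uu ch (F ω) (α ω)) := fun a b _ _ e => by
    simp only [Prod.mk.injEq] at e
    simp only [e.1.2]
  have d7 : ∀ u : Eu 3, finrank ℝ (ℝ ∙ u) ≤ 1 := fun u => (finrank_span_le_card _).trans (by simp)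
  have d8 : Hc D.p (fun ω => (M ω, flo j (uu ch (F ω) (α ω)))) D.T ≤ s * log 2 + e₁ * L := by
    linarith [hA.ent]
  exact hf (h1 _ le_rfl D _ _ s j b (hD'.ext.mono (by linarith)) (hA.det.pair d4) d6
    (fun ω _ => d7 _) d8 (by omega) (by omega) d3)

namespace Q2X

theorem core {a₁ a₂ sn cs u β ε ϱ d g₁ : ℝ} (hβ : 0 < β) (hε : 5 * ε ≤ β) (h1 : β ≤ a₁)
    (h2 : β ≤ a₂) (hu0 : 0 ≤ u) (hu : u ^ 2 = 2 - 2 * cs) (hcs : 0 ≤ cs)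
    (hsc : sn ^ 2 + cs ^ 2 = 1) (hd : 0 ≤ d)
    (hk : 3 / 2 * (d * |sn|) * (a₁ + a₂) ≤ 2 * ϱ + 2 * d * ε * u) (hg : |g₁| ≤ ϱ + d * |sn| * a₂) :
    u * d * β ≤ 2 * ϱ ∧ |g₁| ≤ 4 * ϱ := by
  have hs := abs_nonneg sn
  have hs2 : |sn| ^ 2 = sn ^ 2 := sq_abs sn
  have h3 : u ≤ 3 / 2 * |sn| := by
    refine abs_le_of_sq_le_sq' ?_ (by positivity) |>.2
    nlinarith
  have h4 : 0 ≤ d * |sn| := by positivity
  have h5 : d * u ≤ 3 / 2 * (d * |sn|) := by nlinarith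
  have h6 : 2 * d * ε * u ≤ 2 / 5 * β * (3 / 2 * (d * |sn|)) := by
    have : ε * (d * u) ≤ β / 5 * (d * u) := mul_le_mul_of_nonneg_right (by linarith) (by positivity)
    nlinarith
  have h7 : d * |sn| * β ≤ d * |sn| * a₁ := mul_le_mul_of_nonneg_left h1 h4
  have h8 : d * |sn| * β ≤ d * |sn| * a₂ := mul_le_mul_of_nonneg_left h2 h4
  have h9 : 0 ≤ d * |sn| * β := by positivity
  refine ⟨?_, by nlinarith⟩
  have : d * u * β ≤ 3 / 2 * (d * |sn|) * β := mul_le_mul_of_nonneg_right h5 hβ.le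
  nlinarith

theorem half (α₁ α₂ α' G : Eu 2) (Δ β ε ϱ : ℝ) (hβ : 0 < β) (hε : 5 * ε ≤ β) (h1 : β ≤ ‖α₁‖)
    (h2 : β ≤ ‖α₂‖) (e1 : ‖α₁ - α'‖ ≤ ε) (e2 : ‖α₂ - α'‖ ≤ ε) (e3 : ‖G - Δ • α'‖ ≤ |Δ| * ε)
    (r1 : |⟪G, nn α₁⟫ + Δ * ⟪α₂, nn α₁⟫| ≤ ϱ) (r2 : |⟪G, nn α₂⟫ + Δ * ⟪α₁, nn α₂⟫| ≤ ϱ) :
    ‖nn α₂ - nn α₁‖ * |Δ| * β ≤ 2 * ϱ ∧ |⟪G, nn α₁⟫| ≤ 4 * ϱ := by
  have a1 : 0 < ‖α₁‖ := hβ.trans_le h1
  have a2 : 0 < ‖α₂‖ := hβ.trans_le h2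
  have n1 := norm_nn (norm_pos_iff.1 a1)
  have n2 := norm_nn (norm_pos_iff.1 a2)
  have e12 : ‖α₂ - α₁‖ ≤ 2 * ε := by
    have := norm_sub_le (α₂ - α') (α₁ - α')
    rw [sub_sub_sub_cancel_right] at this; linarith
  obtain ⟨sn, hsn⟩ : ∃ sn, sn = (α₁ 0 * α₂ 1 - α₁ 1 * α₂ 0) / (‖α₁‖ * ‖α₂‖) := ⟨_, rfl⟩
  have i1 : ⟪α₂, nn α₁⟫ = sn * ‖α₂‖ := by
    rw [inner_two, nn_zero, nn_one, hsn]; field_simp; ring
  have i2 : ⟪α₁, nn α₂⟫ = -(sn * ‖α₁‖) := by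
    rw [inner_two, nn_zero, nn_one, hsn]; field_simp; ring
  have i3 : ⟪nn α₂, nn α₁⟫ = ⟪α₂, α₁⟫ / (‖α₁‖ * ‖α₂‖) := by
    rw [inner_two, inner_two, nn_zero, nn_one, nn_zero, nn_one]; field_simp; ring
  have hε0 : 0 ≤ ε := (norm_nonneg _).trans e1
  have i4 : 0 ≤ ⟪α₂, α₁⟫ := by
    have h3 := norm_sub_sq_real α₂ α₁
    have h4 : ‖α₂ - α₁‖ ^ 2 ≤ (2 * ε) ^ 2 := pow_le_pow_left₀ (norm_nonneg _) e12 2
    nlinarith
  refine core (cs := ⟪nn α₂, nn α₁⟫) (sn := sn) hβ hε h1 h2 (norm_nonneg _) ?_ ?_ ?_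
    (abs_nonneg Δ) ?_ ?_
  · rw [norm_sub_sq_real, n1, n2]; ring
  · rw [i3]; positivity
  · rw [i3, hsn, inner_two]
    field_simp
    rw [norm_sq_two, norm_sq_two]; ring
  · obtain ⟨W, hW⟩ : ∃ W, W = (G - Δ • α') - (Δ / 2) • ((α₁ - α') + (α₂ - α')) := ⟨_, rfl⟩
    have w1 : ‖W‖ ≤ 2 * |Δ| * ε := by
      have h3 := norm_sub_le (G - Δ • α') ((Δ / 2) • ((α₁ - α') + (α₂ - α')))
      rw [← hW, norm_smul, Real.norm_eq_abs, abs_div, abs_two] at h3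
      have h4 := mul_le_mul_of_nonneg_left ((norm_add_le (α₁ - α') (α₂ - α')).trans
        (add_le_add e1 e2)) (show 0 ≤ |Δ| / 2 by positivity)
      linarith
    have w2 : G = W + (Δ / 2) • α₁ + (Δ / 2) • α₂ := by rw [hW]; module
    have w3 : (⟪G, nn α₁⟫ + Δ * ⟪α₂, nn α₁⟫) - (⟪G, nn α₂⟫ + Δ * ⟪α₁, nn α₂⟫) +
        ⟪W, nn α₂ - nn α₁⟫ = 3 / 2 * (Δ * sn) * (‖α₁‖ + ‖α₂‖) := by
      rw [w2]
      simp only [inner_add_left, real_inner_smul_left, inner_sub_right, inner_nn, i1, i2]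
      ring
    have w4 := (abs_real_inner_le_norm W (nn α₂ - nn α₁)).trans
      (mul_le_mul_of_nonneg_right w1 (norm_nonneg _))
    have w5 : |3 / 2 * (Δ * sn) * (‖α₁‖ + ‖α₂‖)| = 3 / 2 * (|Δ| * |sn|) * (‖α₁‖ + ‖α₂‖) := by
      rw [abs_mul, abs_mul, abs_mul, abs_of_pos (add_pos a1 a2), abs_of_pos (by norm_num)]
    rw [← w5, ← w3]
    refine (abs_add_le _ _).trans (add_le_add ((abs_sub _ _).trans (by linarith)) w4)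
  · have h3 := abs_sub (⟪G, nn α₁⟫ + Δ * ⟪α₂, nn α₁⟫) (Δ * ⟪α₂, nn α₁⟫)
    rw [add_sub_cancel_right, abs_mul Δ, i1, abs_mul sn, abs_of_pos a2] at h3
    rw [i1] at r1
    linarith

end Q2X

theorem sAlg : SAlg := by
  intro α₁ α₂ α' G Δ β ε ϱ hβ hε h1 h2 e1 e2 e3 r1 r2
  obtain ⟨k1, k2⟩ := Q2X.half α₁ α₂ α' G Δ β ε ϱ hβ hε h1 h2 e1 e2 e3 r1 r2
  exact ⟨k1, k2, (Q2X.half α₂ α₁ α' G Δ β ε ϱ hβ hε h2 h1 e2 e1 e3 r2 r1).2⟩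

end Vale.Agent.P127
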