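import Vale.Agent.P127.Num
import Vale.Agent.P127.Fur

/-! Sticky Kakeya sets in four dimensions: radial projections in entropy form. -/

namespace Vale.Agent.P127

open Vale.Agent.P118
open scoped RealInnerProductSpace
open Real Classical Module

namespace ReX

theorem big {c : ℝ} (hc : 0 < c) (A : ℝ) : ∃ L₀ : ℕ, ∀ L : ℕ, L₀ ≤ L → A ≤ (2 : ℝ) ^ (c * L) := by
  refine ⟨⌈2 * |A| / c⌉₊, fun L hL => ?_⟩
  have h1 : 2 * |A| / c ≤ L := (Nat.le_ceil _).trans (by exact_mod_cast hL)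
  rw [div_le_iff₀ hc] at h1
  have h2 := add_one_le_exp (c * L * log 2)
  have h3 := mul_le_mul_of_nonneg_left half_le_log_two (by positivity : 0 ≤ c * L)
  rw [two_rpow_eq]
  linarith [le_abs_self A]

variable {Ω Wt : Type} [Fintype Ω] {n N : ℕ} {p τ τ₁ τ₂ : Ω → ℝ} {f f₁ f₂ : Ω → Eu n}

theorem time_le (T : Tools) (hp : IsP p) (h : ∀ ω, p ω ≠ 0 → LatP N (τ ω) (f ω)) :
    Hn p τ ≤ N * log 2 := by
  have h1 : Hn p τ ≤ Hn p fun ω => fl N (τ ω) := e1.hn_mono hp fun a b ha hb e => by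
    rw [← (h a ha).1, ← (h b hb).1, show fl N (τ a) = fl N (τ b) from e]
  have h2 := T.t4.int N τ (fun _ => ()) hp fun ω hω => ⟨(h ω hω).2.1, (h ω hω).2.2.1⟩
  rw [e1.hc_const _ hp (Det.refl _ _)] at h2
  exact h1.trans h2

/-- the defect of a fibre -/
noncomputable def dd (N : ℕ) (p τ₁ τ₂ : Ω → ℝ) (f₁ f₂ : Ω → Eu n) : ℝ :=
  Hn p (fun ω => (τ₁ ω, f₁ ω)) + Hn p (fun ω => (τ₂ ω, f₂ ω)) -
    2 * Hn p (fun ω => (τ₁ ω, τ₂ ω)) + 2 * N * log 2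

theorem dd_ge (T : Tools) (hp : IsP p)
    (h : ∀ ω, p ω ≠ 0 → LatP N (τ₁ ω) (f₁ ω) ∧ LatP N (τ₂ ω) (f₂ ω)) :
    0 ≤ dd N p τ₁ τ₂ f₁ f₂ ∧ Hn p (fun ω => (τ₁ ω, f₁ ω)) ≤ N * log 2 + dd N p τ₁ τ₂ f₁ f₂ ∧
      Hn p (fun ω => (τ₂ ω, f₂ ω)) ≤ N * log 2 + dd N p τ₁ τ₂ f₁ f₂ ∧
      2 * N * log 2 - dd N p τ₁ τ₂ f₁ f₂ ≤ Hn p fun ω => (τ₁ ω, τ₂ ω) := by
  have h1 := time_le T hp fun ω hω => (h ω hω).1
  have h2 := time_le T hp fun ω hω => (h ω hω).2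
  have h3 := e1.hn_mono hp (Det.fst p τ₁ f₁)
  have h4 := e1.hn_mono hp (Det.fst p τ₂ f₂)
  have h5 := e1.hc_le τ₁ τ₂ hp
  unfold Hc at h5
  unfold dd
  refine ⟨?_, ?_, ?_, ?_⟩ <;> linarith

theorem ex_dd (hp : IsP p) (W : Ω → Wt) :
    Ex p (fun ω₀ => dd N (fib p W ω₀) τ₁ τ₂ f₁ f₂) = Hc p (fun ω => (τ₁ ω, f₁ ω)) W +
      Hc p (fun ω => (τ₂ ω, f₂ ω)) W - 2 * Hc p (fun ω => (τ₁ ω, τ₂ ω)) W + 2 * N * log 2 := by
  unfold dd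
  rw [e1.ex_add, e1.ex_sub, e1.ex_add, e1.ex_mul, e1.ex_const _ hp,
    ← e2.hc_fib (fun _ ω => (τ₁ ω, f₁ ω)) W hp, ← e2.hc_fib (fun _ ω => (τ₂ ω, f₂ ω)) W hp,
    ← e2.hc_fib (fun _ ω => (τ₁ ω, τ₂ ω)) W hp]

theorem light_fib {W : Ω → Wt} {ρ A s₀ : ℝ} (hp : IsP p) (hs : 0 ≤ s₀)
    (h : Light p W τ f ρ A s₀) {ω₀ : Ω} (h0 : p ω₀ ≠ 0) (β₀ β : Eu n) (hβ : ‖β‖ ≤ A) :
    Pr (fib p W ω₀) (fun ω => ‖f ω - β₀ - τ ω • β‖ ≤ ρ) ≤ s₀ := by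
  unfold fib
  rw [e2.pr_cnd]
  exact div_le_of_le_mul₀ (e1.pr_nonneg _ hp) hs (h ω₀ h0 β₀ β hβ)

/-- averaging a bound that holds whenever the defect is small -/
theorem avg {d g : Ω → ℝ} {M u E c : ℝ} (hp : IsP p) (hM : 0 ≤ M) (hu : 0 < u)
    (hd : ∀ ω, p ω ≠ 0 → 0 ≤ d ω) (hg : ∀ ω, p ω ≠ 0 → 0 ≤ g ω ∧ (d ω ≤ u → M ≤ g ω))
    (hE : Ex p d ≤ E) (hc : E ≤ c * u) : (1 - c) * M ≤ Ex p g := by
  have h0 : 0 ≤ M / u := by positivity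
  have h1 : Ex p (fun ω => M - M / u * d ω) ≤ Ex p g := e1.ex_mono hp fun ω hω => by
    have h2 := mul_nonneg h0 (hd ω hω)
    rcases le_total (d ω) u with h | h
    · linarith [(hg ω hω).2 h]
    · have h3 := mul_le_mul_of_nonneg_left h h0
      rw [div_mul_cancel₀ _ hu.ne'] at h3
      linarith [(hg ω hω).1]
  rw [e1.ex_sub, e1.ex_const _ hp, e1.ex_mul] at h1
  have h4 := mul_le_mul_of_nonneg_left (hE.trans hc) h0
  have h5 : M / u * (c * u) = c * M := by field_simp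
  linarith

end ReX

theorem sRe (T : Tools) (r0 : SRe0) : SRe := by
  intro n c hn hc
  obtain ⟨η, K, N₀, hη, hK, H⟩ := r0 n (c / 2) hn (half_pos hc)
  refine ⟨η, η / 2, K, hη, half_pos hη, hK, fun κ hκ hκ' => ?_⟩
  filter_upwards [ef_large N₀, ef_const 1 (mul_pos hκ hκ),
    ef_small (show 0 < c / 8 * η * κ by positivity)]
    with x x1 x2 x3 Ω Wt _ p W τ₁ τ₂ f₁ f₂ b hp b1 b2 hl a1 a2 a3 l1 l2
  have hN : (0 : ℝ) ≤ x.2 := by positivity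
  have hlg : 0 ≤ x.2 * log 2 := mul_nonneg hN log_two_pos.le
  rcases le_total 1 c with h1 | h1
  · refine le_trans ?_ (e1.hc_nonneg _ _ hp)
    rw [mul_assoc]
    exact mul_nonpos_of_nonpos_of_nonneg (by linarith) hlg
  have hN0 : (0 : ℝ) < x.2 := by
    rcases hN.eq_or_lt with h | h
    · rw [← h] at x2; linarith
    · exact h
  have hb : (0 : ℝ) < b := lt_of_lt_of_le (by positivity) b1
  have hs : √x.2 ≤ b := by
    refine le_trans (sqrt_le_iff.2 ⟨by positivity, ?_⟩) b1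
    nlinarith [mul_le_mul_of_nonneg_right x2 hN]
  have hb2 : (b : ℝ) ≤ η * x.2 := b2.trans (mul_le_mul_of_nonneg_right (by linarith) hN)
  have hf : ∀ ω₀ ω, fib p W ω₀ ω ≠ 0 → LatP x.2 (τ₁ ω) (f₁ ω) ∧ LatP x.2 (τ₂ ω) (f₂ ω) :=
    fun ω₀ ω h => hl ω (e2.cnd_ne h).1
  rw [e2.hc_fib' _ _ _ hp]
  refine le_trans ?_ (ReX.avg (d := fun ω₀ => ReX.dd x.2 (fib p W ω₀) τ₁ τ₂ f₁ f₂)
    (M := (1 - c / 2) * x.2 * log 2) (u := η * b) (E := 4 * x.1) (c := c / 2) hp ?_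
    (by positivity) (fun ω₀ h0 => (ReX.dd_ge T (e2.isP_fib W hp h0) (hf ω₀)).1)
    (fun ω₀ h0 => ⟨e1.hc_nonneg _ _ (e2.isP_fib W hp h0), fun hd => ?_⟩) ?_ ?_)
  · nlinarith [mul_nonneg (mul_self_nonneg c) hlg]
  · rw [mul_assoc]
    exact mul_nonneg (by linarith) hlg
  · obtain ⟨-, d1, d2, d3⟩ := ReX.dd_ge T (e2.isP_fib W hp h0) (hf ω₀)
    exact H x.2 x1 b hs hb2 _ τ₁ τ₂ f₁ f₂ (e2.isP_fib W hp h0) (hf ω₀) (by linarith) (by linarith)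
      (by linarith) fun β₀ β hβ => ⟨ReX.light_fib hp (exp_pos _).le l1 h0 β₀ β hβ,
        ReX.light_fib hp (exp_pos _).le l2 h0 β₀ β hβ⟩
  · rw [ReX.ex_dd hp]
    linarith
  · have h2 := mul_le_mul_of_nonneg_left b1 (show 0 ≤ c / 2 * η by positivity)
    nlinarith

theorem sHv : SHv := by
  intro n τ hn hτ hτ'
  obtain ⟨eF, LF, heF, hF⟩ := FurX.fS0 n 0 τ (by omega) hτ hτ'
  obtain ⟨C, hC⟩ : ∃ C, C = exp (CE (n + 1)) := ⟨_, rfl⟩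
  have hC1 : 1 ≤ C := hC ▸ one_le_exp (CE_nonneg _)
  obtain ⟨L1, h1⟩ := ReX.big (half_pos heF) C
  obtain ⟨L2, h2⟩ := ReX.big (half_pos heF) 8
  obtain ⟨L3, h3⟩ := ReX.big (half_pos one_pos) (20 * (n + 1))
  obtain ⟨e, he, he1, he2, he3⟩ : ∃ e : ℝ, 0 < e ∧ e ≤ eF / 2 ∧ e ≤ 1 / 2 ∧ e ≤ eF / C :=
    ⟨min (eF / 2) (min (1 / 2) (eF / C)), by positivity, min_le_left _ _,
      (min_le_right _ _).trans (min_le_left _ _), (min_le_right _ _).trans (min_le_right _ _)⟩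
  refine ⟨e, LF + L1 + L2 + L3 + n + 2, he, ?_⟩
  intro L P σ M ρ s₁ w hL hP hσ hσ' hw hM1 hM hρ hρ' hs hs'
  by_contra hcon
  have hmn : (1 : ℝ) ≤ n := by exact_mod_cast hn
  have hL0 : (0 : ℝ) ≤ L := by positivity
  have hx : (0 : ℝ) < 2 ^ (eF / 2 * L) := by positivity
  have hρ0 : 20 * (n + 1) * 2⁻¹ ^ L ≤ ρ := by
    refine le_trans ?_ hρ
    calc _ ≤ (2 : ℝ) ^ ((1 : ℝ) / 2 * L) * 2 ^ (-(L : ℝ)) := by
          rw [inv_two_pow_eq]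
          exact mul_le_mul_of_nonneg_right (h3 L (by omega)) (by positivity)
      _ ≤ _ := by
          rw [← rpow_add two_pos]
          exact rpow_le_rpow_of_exponent_le one_le_two (by nlinarith)
  have hp : (0 : ℝ) < (n + 1) * 2⁻¹ ^ L := by positivity
  obtain ⟨Ω, _, D, hD⟩ := FurX.one2' n 0 L P σ 1 _ _ s₁ w hP (by omega) hσ (by linarith) hM1 hs hρ0
    hw (not_lt.1 hcon)
  rw [← hC] at hD
  have h4 : (2 : ℝ) ^ (e * L) ≤ 2 ^ (eF / 2 * L) :=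
    rpow_le_rpow_of_exponent_le one_le_two (by nlinarith)
  have h5 : (2 : ℝ) ^ (eF * L) = 2 ^ (eF / 2 * L) * 2 ^ (eF / 2 * L) := by
    rw [← rpow_add two_pos]
    congr 1
    ring
  refine hF D L σ 1 _ _ _ (by omega) hσ (by push_cast; linarith) hσ' ?_ ?_ (by linarith)
    (by positivity) ?_ hD
  · rw [div_le_iff₀ hw, h5]
    calc C * M ≤ 2 ^ (eF / 2 * L) * (w * 2 ^ (eF / 2 * L)) :=
          mul_le_mul (h1 L (by omega)) (hM.trans (by gcongr)) (by linarith) hx.le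
      _ = _ := by ring
  · have h6 : ((2 : ℝ) ^ (eF / 2 * L))⁻¹ ≤ ρ := by
      refine le_trans ?_ hρ
      rw [neg_mul, rpow_neg zero_le_two]
      exact inv_anti₀ (by positivity) h4
    have h7 : ((2 : ℝ) ^ (eF / 2 * L))⁻¹ ≤ 8⁻¹ := inv_anti₀ (by norm_num) (h2 L (by omega))
    rw [neg_mul, rpow_neg zero_le_two, h5, mul_inv]
    calc _ ≤ ρ * 8⁻¹ := mul_le_mul h6 h7 (by positivity) (le_trans (by positivity) h6)
      _ = _ := by ring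
  · rw [div_le_iff₀ hw]
    rw [le_div_iff₀ (by linarith)] at he3
    calc C * s₁ ≤ C * (e * w) := by gcongr
      _ = e * C * w := by ring
      _ ≤ _ := by gcongr

end Vale.Agent.P127
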