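import Vale.Agent.P127.Num

/-! Radial projections: from the counting form to the entropy form. -/

namespace Vale.Agent.P127

open Vale.Agent.P118
open scoped RealInnerProductSpace
open Real Classical Module

namespace Re0X

variable {Ω α : Type} [Fintype Ω] {p : Ω → ℝ} {n : ℕ}

theorem pr_congr {E E' : Ω → Prop} (h : ∀ ω, E ω ↔ E' ω) : Pr p E = Pr p E' :=
  congrArg (Pr p) (funext fun ω => propext (h ω))

theorem pr_pos (hp : IsP p) {E : Ω → Prop} {ω : Ω} (h : p ω ≠ 0) (hE : E ω) : 0 < Pr p E :=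
  Finset.sum_pos' (fun a _ => hp.1 a)
    ⟨ω, Finset.mem_filter.2 ⟨Finset.mem_univ _, hE⟩, (hp.1 ω).lt_of_ne' h⟩

theorem push (p : Ω → ℝ) (f : Ω → α) (Z : Finset α) :
    ∑ x ∈ Z, Pr p (fun ω => f ω = x) = Pr p fun ω => f ω ∈ Z := by
  unfold Pr
  simp only [Finset.sum_filter]
  rw [Finset.sum_comm]
  refine Finset.sum_congr rfl fun ω _ => ?_
  rw [Finset.sum_ite_eq]

theorem cover (hp : IsP p) (E : Ω → Prop) (f : Ω → α) (Z : Finset α) (w : α → ℝ)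
    (hw : ∀ x ∈ Z, 0 ≤ w x)
    (h : ∀ ω, p ω ≠ 0 → E ω → f ω ∈ Z ∧ Pr p (fun ω' => E ω' ∧ f ω' = f ω) ≤ w (f ω)) :
    Pr p E ≤ ∑ x ∈ Z, w x := by
  refine (e1.pr_mono (E' := fun ω => ∃ x ∈ Z, E ω ∧ f ω = x) hp
    fun ω h1 h2 => ⟨f ω, (h ω h1 h2).1, h2, rfl⟩).trans
    ((e1.pr_exists Z (fun x ω => E ω ∧ f ω = x) hp).trans (Finset.sum_le_sum fun x hx => ?_))
  by_cases h1 : ∃ ω, p ω ≠ 0 ∧ E ω ∧ f ω = x
  · obtain ⟨ω, h2, h3, rfl⟩ := h1
    exact (h ω h2 h3).2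
  · refine (e1.pr_mono (E' := fun _ => False) hp fun ω h2 h3 => h1 ⟨ω, h2, h3⟩).trans ?_
    simpa [Pr] using hw x hx

/-- the law of `X` restricted to the times with small atoms -/
noncomputable def wt (p : Ω → ℝ) (N : ℕ) (M : ℝ) (X : Ω → ℝ × Eu n) (x : ℝ × Eu n) : ℝ :=
  if Pr p (fun ω => fl N (X ω).1 = fl N x.1) < M then Pr p fun ω => X ω = x else 0

theorem wt_nonneg (hp : IsP p) (N : ℕ) (M : ℝ) (X : Ω → ℝ × Eu n) (x : ℝ × Eu n) :
    0 ≤ wt p N M X x := by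
  unfold wt
  split_ifs
  · exact e1.pr_nonneg _ hp
  · exact le_rfl

theorem wt_sum (hp : IsP p) (N : ℕ) (M : ℝ) (X : Ω → ℝ × Eu n) (Z : Finset (ℝ × Eu n))
    (E : Ω → Prop) (h : ∀ ω, X ω ∈ Z → E ω) : ∑ x ∈ Z, wt p N M X x ≤ Pr p E := by
  refine le_trans (Finset.sum_le_sum fun x _ => ?_)
    ((push p X Z).trans_le (e1.pr_mono hp fun ω _ => h ω))
  unfold wt
  split_ifs
  · exact le_rfl
  · exact e1.pr_nonneg _ hp

theorem wt_frost (hp : IsP p) (i d : ℕ) {M : ℝ} (hM : 0 ≤ M) (X : Ω → ℝ × Eu n)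
    (Z : Finset (ℝ × Eu n)) (k : ℤ) (h : ∀ x ∈ Z, fl i x.1 = k) :
    ∑ x ∈ Z, wt p (i + d) M X x ≤ 2 ^ d * M := by
  unfold wt
  rw [← Finset.sum_filter, push]
  refine (cover hp _ (fun ω => fl (i + d) (X ω).1) (Finset.Ico (k * 2 ^ d) (k * 2 ^ d + 2 ^ d))
    (fun _ => M) (fun _ _ => hM) fun ω _ h2 => ?_).trans ?_
  · obtain ⟨h3, h4⟩ := Finset.mem_filter.1 h2
    refine ⟨?_, (e1.pr_mono hp fun ω' _ h5 => h5.2).trans h4.le⟩
    have h5 := h _ h3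
    rw [fl_div i d] at h5
    have h6 : (0 : ℤ) < 2 ^ d := by positivity
    have h7 := Int.ediv_mul_le (fl (i + d) (X ω).1) h6.ne'
    have h8 := Int.lt_ediv_add_one_mul_self (fl (i + d) (X ω).1) h6
    rw [h5] at h7 h8
    exact Finset.mem_Ico.2 ⟨h7, by linarith⟩
  · rw [Finset.sum_const, Int.card_Ico, add_sub_cancel_left, nsmul_eq_mul]
    have : ((2 : ℤ) ^ d).toNat = 2 ^ d := by
      rw [show ((2 : ℤ) ^ d) = ((2 ^ d : ℕ) : ℤ) by push_cast; rfl, Int.toNat_natCast]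
    rw [this]
    push_cast
    exact le_rfl

theorem scale (i d : ℕ) (b : ℝ) :
    2 ^ d * exp (b - ((i + d : ℕ) : ℝ) * log 2) = exp b * 2⁻¹ ^ i := by
  rw [exp_sub, exp_nat_mul, exp_log two_pos, pow_add, inv_pow]
  field_simp

theorem atom (T : Tools) (hp : IsP p) (t : Ω → ℝ) (N : ℕ) {e x : ℝ}
    (ht : ∀ ω, p ω ≠ 0 → 0 ≤ t ω ∧ t ω < 1) (he : 0 ≤ e) (hx : 0 < x)
    (hH : N * log 2 - e ≤ Hn p fun ω => fl N (t ω)) :
    Pr p (fun ω => ¬ Pr p (fun ω' => fl N (t ω') = fl N (t ω)) < exp (x - N * log 2)) ≤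
      (2 * e + 1) / x := by
  have h := e2.ldev (f := fun ω => fl N (t ω)) (g := fun _ => ()) (N := fun _ => exp (N * log 2))
    (Λ := N * log 2) hp (fun ω _ => T.t4.intC N t _ ω ht) he hx
    (by rw [e1.ex_const _ hp]; exact exp_le_exp.2 (by linarith))
    (by rw [e1.hc_const _ hp (Det.refl _ _)]; exact hH)
  refine le_trans (e1.pr_mono hp fun ω _ h1 => ?_) h
  refine (mul_le_of_le_one_right (exp_pos _).le (e1.pr_le_one _ hp)).trans ((not_lt.1 h1).trans ?_)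
  exact e1.pr_mono hp fun ω' _ h2 => ⟨h2, rfl⟩

/-- the good pairs -/
def G0 (p : Ω → ℝ) (X Y : Ω → ℝ × Eu n) (N b : ℕ) (ω : Ω) : Prop :=
  Pr p (fun ω' => X ω' = X ω ∧ Y ω' = Y ω) <
      exp b * (Pr p (fun ω' => X ω' = X ω) * Pr p fun ω' => Y ω' = Y ω) ∧
    Pr p (fun ω' => fl N (X ω').1 = fl N (X ω).1) < exp (b - N * log 2) ∧
    Pr p (fun ω' => fl N (Y ω').1 = fl N (Y ω).1) < exp (b - N * log 2) ∧
    2⁻¹ ^ b < |(Y ω).1 - (X ω).1|

theorem lat_det {N : ℕ} {X : Ω → ℝ × Eu n} (h : ∀ ω, p ω ≠ 0 → LatP N (X ω).1 (X ω).2) :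
    Det p (fun ω => fl N (X ω).1) fun ω => (X ω).1 := fun a b ha hb e => by
  have e' : fl N (X a).1 = fl N (X b).1 := e
  show (X a).1 = (X b).1
  rw [← (h a ha).1, ← (h b hb).1, e']

theorem probG0 (T : Tools) (hp : IsP p) (X Y : Ω → ℝ × Eu n) (N b : ℕ) {η : ℝ} (hη : 0 ≤ η)
    (hb : 0 < b) (hbN : b ≤ N) (hX : ∀ ω, p ω ≠ 0 → LatP N (X ω).1 (X ω).2)
    (hY : ∀ ω, p ω ≠ 0 → LatP N (Y ω).1 (Y ω).2) (h1 : Hn p X ≤ N * log 2 + η * b)
    (h2 : Hn p Y ≤ N * log 2 + η * b)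
    (h3 : 2 * N * log 2 - η * b ≤ Hn p fun ω => ((X ω).1, (Y ω).1)) :
    Pr p (fun ω => ¬ G0 p X Y N b ω) ≤ 9 * η + 23 / b := by
  have hb' : (0 : ℝ) < b := by exact_mod_cast hb
  have bX : ∀ ω, p ω ≠ 0 → 0 ≤ (X ω).1 ∧ (X ω).1 < 1 := fun ω h => ⟨(hX ω h).2.1, (hX ω h).2.2.1⟩
  have bY : ∀ ω, p ω ≠ 0 → 0 ≤ (Y ω).1 ∧ (Y ω).1 < 1 := fun ω h => ⟨(hY ω h).2.1, (hY ω h).2.2.1⟩
  have a1 := T.t2.pmi X Y hp hb'
  have m1 : (Hn p fun ω => ((X ω).1, (Y ω).1)) ≤ Hn p fun ω => (X ω, Y ω) :=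
    e1.hn_mono hp (Det.comp p (fun ω => (X ω, Y ω)) fun z => (z.1.1, z.2.1))
  have m2 : (Hn p fun ω => ((X ω).1, (Y ω).1)) ≤ Hn p fun ω => (fl N (Y ω).1, fl N (X ω).1) :=
    e1.hn_mono hp (((Det.snd _ _ _).trans (lat_det hX)).pair ((Det.fst _ _ _).trans (lat_det hY)))
  have m3 := T.t4.int N (fun ω => (X ω).1) (fun _ => ()) hp bX
  rw [e1.hc_const _ hp (Det.refl _ _)] at m3
  have m4 := T.t4.int N (fun ω => (Y ω).1) (fun ω => fl N (X ω).1) hp bY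
  have m5 : N * log 2 - η * b ≤ Hc p (fun ω => fl N (Y ω).1) fun ω => fl N (X ω).1 := by
    unfold Hc
    linarith
  have m6 := e1.hc_le (fun ω => fl N (Y ω).1) (fun ω => fl N (X ω).1) hp
  have he : 0 ≤ η * b := by positivity
  have a2 := atom T hp (fun ω => (X ω).1) N bX he hb' (by unfold Hc at m4; linarith)
  have a3 := atom T hp (fun ω => (Y ω).1) N bY he hb' (by linarith)
  have a4 := T.t2.tsep (fun ω => (X ω).1) (fun ω => (Y ω).1) (fun ω => fl N (X ω).1) N 0 b (η * b)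
    hp (by omega) (lat_det hX)
    (fun ω h => by
      rw [pow_zero, abs_le]
      constructor <;> linarith [bX ω h, bY ω h])
    (by rw [Nat.cast_zero, sub_zero]; exact m5)
  rw [zero_add] at a4
  have a5 : Pr p (fun ω => |(Y ω).1 - (X ω).1| ≤ 2⁻¹ ^ b) ≤ (2 * (η * b) + 20) / b := by
    rw [le_div_iff₀ hb']
    have h0 := e1.pr_nonneg (fun ω => |(Y ω).1 - (X ω).1| ≤ 2⁻¹ ^ b) hp
    have h4 := mul_le_mul_of_nonneg_left half_le_log_two (mul_nonneg h0 hb'.le)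
    linarith
  have a6 : (Hn p X - Hc p X Y + 1) / b ≤ (3 * (η * b) + 1) / b := by
    refine div_le_div_of_nonneg_right ?_ hb'.le
    unfold Hc
    linarith
  have a7 : (3 * (η * b) + 1) / b + ((2 * (η * b) + 1) / b + ((2 * (η * b) + 1) / b +
      (2 * (η * b) + 20) / b)) = 9 * η + 23 / b := by
    field_simp
    ring
  rw [← a7]
  refine le_trans (e1.pr_mono hp fun ω _ h => ?_) ((e1.pr_or _ _ hp).trans (add_le_add (a1.trans a6)
    ((e1.pr_or _ _ hp).trans (add_le_add a2 ((e1.pr_or _ _ hp).trans (add_le_add a3 a5))))))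
  by_contra h'
  simp only [not_or, not_not, not_le] at h'
  exact h ⟨h'.1, h'.2.1, h'.2.2.1, h'.2.2.2⟩

/-- the slope together with the coarse cell of the second point -/
noncomputable def SS (N b : ℕ) (x y : ℝ × Eu n) : Eu n × ℤ × Eu n :=
  (slp N b x.1 y.1 x.2 y.2, fl (2 * b) y.1, flo (2 * b) y.2)

theorem probA {β : Type} (hp : IsP p) (f : Ω → α) (g : Ω → β) {a u : ℝ} (ha : 0 < a)
    (h : Hc p f g ≤ (1 - u) * a) :
    Pr p (fun ω => ¬ Pr p (fun ω' => g ω' = g ω) <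
      exp a * Pr p fun ω' => (g ω', f ω') = (g ω, f ω)) ≤ 1 - u := by
  have hpos : ∀ ω, p ω ≠ 0 → 0 < Pr p fun ω' => f ω' = f ω ∧ g ω' = g ω :=
    fun ω hω => pr_pos hp hω ⟨rfl, rfl⟩
  have h1 := e1.markov (f := fun ω => log (Pr p (fun ω' => g ω' = g ω) /
      Pr p fun ω' => f ω' = f ω ∧ g ω' = g ω)) hp
    (fun ω hω => log_nonneg ((one_le_div (hpos ω hω)).2 (e1.pr_mono hp fun _ _ h => h.2))) ha
  rw [← e2.hc_eq f g hp] at h1
  refine le_trans (e1.pr_mono hp fun ω hω h2 => ?_) (h1.trans ((div_le_iff₀ ha).2 h))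
  rw [le_log_iff_exp_le (div_pos (pr_pos (E := fun ω' => g ω' = g ω) hp hω rfl) (hpos ω hω)),
    le_div_iff₀ (hpos ω hω)]
  refine le_trans (le_of_eq ?_) (not_lt.1 h2)
  rw [pr_congr (E' := fun ω' => (g ω', f ω') = (g ω, f ω)) fun ω' => by
    rw [Prod.mk.injEq, and_comm]]

theorem entS (T : Tools) (hp : IsP p) (X Y : Ω → ℝ × Eu n) (N b : ℕ)
    (hY : ∀ ω, p ω ≠ 0 → LatP N (Y ω).1 (Y ω).2) :
    Hc p (fun ω => SS N b (X ω) (Y ω)) X ≤
      Hc p (fun ω => slp N b (X ω).1 (Y ω).1 (X ω).2 (Y ω).2) X + 2 * (n + 1) * b * log 2 := by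
  unfold SS
  rw [e1.chain _ _ _ hp, e1.chain _ _ _ hp]
  have h1 := T.t4.int (2 * b) (fun ω => (Y ω).1)
    (fun ω => (slp N b (X ω).1 (Y ω).1 (X ω).2 (Y ω).2, X ω)) hp
    fun ω h => ⟨(hY ω h).2.1, (hY ω h).2.2.1⟩
  have h2 := T.t4.cube (2 * b) (fun ω => (Y ω).2)
    (fun ω => (fl (2 * b) (Y ω).1, slp N b (X ω).1 (Y ω).1 (X ω).2 (Y ω).2, X ω)) hp
    fun ω h => (hY ω h).2.2.2.2
  push_cast at h1 h2
  linarith

theorem tube {N b : ℕ} {x y y₀ : ℝ × Eu n} (h : SS N b x y = SS N b x y₀)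
    (h1 : 2⁻¹ ^ b < |y.1 - x.1|) (h2 : 2⁻¹ ^ b < |y₀.1 - x.1|) (h3 : |y.1 - x.1| ≤ 1) :
    fl (2 * b) y.1 = fl (2 * b) y₀.1 ∧ flo (2 * b) y.2 = flo (2 * b) y₀.2 ∧
      ‖y.2 - x.2 - (y.1 - x.1) • (y₀.1 - x.1)⁻¹ • (y₀.2 - x.2)‖ ≤ (n + 1) * 2⁻¹ ^ N := by
  obtain ⟨e, e'⟩ := Prod.ext_iff.1 h
  obtain ⟨e2, e3⟩ := Prod.ext_iff.1 e'
  refine ⟨e2, e3, ?_⟩
  have e4 : slp N b x.1 y.1 x.2 y.2 = slp N b x.1 y₀.1 x.2 y₀.2 := e
  unfold slp at e4
  rw [if_pos h1.le, if_pos h2.le] at e4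
  have h4 := geo1.same_norm e4
  have h0 : y.1 - x.1 ≠ 0 := abs_pos.1 (lt_trans (by positivity) h1)
  have e5 : y.2 - x.2 - (y.1 - x.1) • (y₀.1 - x.1)⁻¹ • (y₀.2 - x.2) = (y.1 - x.1) •
      ((y.1 - x.1)⁻¹ • (y.2 - x.2) - (y₀.1 - x.1)⁻¹ • (y₀.2 - x.2)) := by
    rw [smul_sub (y.1 - x.1), smul_inv_smul₀ h0]
  rw [e5, norm_smul, Real.norm_eq_abs]
  refine (mul_le_of_le_one_left (norm_nonneg _) h3).trans (h4.trans ?_)
  exact mul_le_mul_of_nonneg_right (sqrt_le_succ n) (by positivity)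

theorem heavy (hp : IsP p) (X Y : Ω → ℝ × Eu n) (N b : ℕ) {u a : ℝ} (hu : 0 ≤ u) {ω₀ : Ω}
    (h0 : p ω₀ ≠ 0) (Z : Finset (ℝ × Eu n))
    (hZ : ∀ ω, p ω ≠ 0 → X ω = X ω₀ → SS N b (X ω) (Y ω) = SS N b (X ω₀) (Y ω₀) →
      G0 p X Y N b ω → Y ω ∈ Z)
    (hA : Pr p (fun ω => X ω = X ω₀) <
      exp a * Pr p fun ω => (X ω, SS N b (X ω) (Y ω)) = (X ω₀, SS N b (X ω₀) (Y ω₀)))
    (hR : u * Pr p (fun ω => (X ω, SS N b (X ω) (Y ω)) = (X ω₀, SS N b (X ω₀) (Y ω₀))) ≤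
      Pr p fun ω => (X ω, SS N b (X ω) (Y ω)) = (X ω₀, SS N b (X ω₀) (Y ω₀)) ∧ G0 p X Y N b ω) :
    u ≤ exp a * exp b * ∑ x ∈ Z, wt p N (exp (b - N * log 2)) Y x := by
  have hP : 0 < Pr p fun ω => X ω = X ω₀ := pr_pos hp h0 rfl
  have h1 := cover hp
    (fun ω => (X ω, SS N b (X ω) (Y ω)) = (X ω₀, SS N b (X ω₀) (Y ω₀)) ∧ G0 p X Y N b ω) Y Z
    (fun x => exp b * Pr p (fun ω => X ω = X ω₀) * wt p N (exp (b - N * log 2)) Y x)
    (fun x _ => mul_nonneg (by positivity) (wt_nonneg hp _ _ _ _)) fun ω hω h => by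
      obtain ⟨e, e'⟩ := Prod.ext_iff.1 h.1
      have e0 : X ω = X ω₀ := e
      refine ⟨hZ ω hω e e' h.2, ?_⟩
      unfold wt
      rw [if_pos h.2.2.2.1, mul_assoc, ← e0]
      refine le_trans (e1.pr_mono hp fun ω' _ h' => ⟨?_, h'.2⟩) h.2.1.le
      exact (Prod.ext_iff.1 h'.1.1).1
  rw [← Finset.mul_sum] at h1
  refine le_of_mul_le_mul_right ?_ hP
  have h2 := mul_le_mul_of_nonneg_left hA.le hu
  have h3 := mul_le_mul_of_nonneg_left (hR.trans h1) (exp_pos a).le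
  linarith

end Re0X

open Re0X in
theorem sRe0 (T : Tools) (rq : SRq) : SRe0 := by
  intro n c hn hc
  obtain ⟨η', K, N₀, hη', hK, rq⟩ := rq n (c / 4) hn (by positivity)
  refine ⟨min η' (c / (1000 * (n + 1))), K, max N₀ ⌈(1500 / c) ^ 2⌉₊,
    lt_min hη' (by positivity), hK, ?_⟩
  intro N hN b hb1 hb2 Ω _ p τ₁ τ₂ f₁ f₂ hp hL h1 h2 h3 h4
  generalize hη : min η' (c / (1000 * (n + 1))) = η at hb2 h1 h2 h3 h4
  have η0 : 0 < η := hη ▸ lt_min hη' (by positivity)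
  have η1 : η ≤ η' := hη ▸ min_le_left _ _
  have η2 : η * (1000 * (n + 1)) ≤ c := (le_div_iff₀ (by positivity)).1 (hη ▸ min_le_right _ _)
  have hN0 : (0 : ℝ) ≤ N := by positivity
  have hn' : (1 : ℝ) ≤ n := by exact_mod_cast hn
  have hl := log_two_pos
  by_contra hcon
  rw [not_le] at hcon
  have hc1 : c < 1 := by
    by_contra h
    have := e1.hc_nonneg (fun ω => slp N b (τ₁ ω) (τ₂ ω) (f₁ ω) (f₂ ω)) (fun ω => (τ₁ ω, f₁ ω)) hp
    have h5 : 0 ≤ (c - 1) * N * log 2 := by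
      have := sub_nonneg.2 (not_lt.1 h)
      positivity
    linarith
  have hb3 : 1500 / c ≤ b := by
    refine le_trans (le_sqrt_of_sq_le ?_) hb1
    exact (Nat.le_ceil _).trans (by exact_mod_cast le_of_max_le_right hN)
  have hb4 : 1500 ≤ b * c := (div_le_iff₀ hc).1 hb3
  have hb0 : (0 : ℝ) < b := lt_of_lt_of_le (by positivity) hb3
  have η3 : η * 2000 ≤ c := by nlinarith
  have hb5 : 1000 * (n + 1) * b ≤ c * N := by
    have := mul_le_mul_of_nonneg_left hb2 (show (0 : ℝ) ≤ 1000 * (n + 1) by positivity)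
    have := mul_le_mul_of_nonneg_right η2 hN0
    linarith
  have hb6 : 2000 * b ≤ c * N := by nlinarith
  have hNp : (0 : ℝ) < N := by
    by_contra h
    have : (N : ℝ) = 0 := le_antisymm (not_lt.1 h) hN0
    rw [this] at hb6
    linarith
  have hbN : b ≤ N := by
    have : (b : ℝ) ≤ N := by nlinarith
    exact_mod_cast this
  set X : Ω → ℝ × Eu n := fun ω => (τ₁ ω, f₁ ω) with hX
  set Y : Ω → ℝ × Eu n := fun ω => (τ₂ ω, f₂ ω) with hY
  have LX : ∀ ω, p ω ≠ 0 → LatP N (X ω).1 (X ω).2 := fun ω h => (hL ω h).1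
  have LY : ∀ ω, p ω ≠ 0 → LatP N (Y ω).1 (Y ω).2 := fun ω h => (hL ω h).2
  have p0 := probG0 T hp X Y N b η0.le (by exact_mod_cast hb0) hbN LX LY h1 h2 h3
  have p0' : 9 * η + 23 / b ≤ c / 32 := by
    have : 23 / (b : ℝ) ≤ c / 64 := by
      rw [div_le_iff₀ hb0]
      linarith
    linarith
  have pA := probA hp (fun ω => SS N b (X ω) (Y ω)) X (a := (1 - c / 2) * N * log 2) (u := c / 4)
    (by have := sub_pos.2 (show c / 2 < 1 by linarith); positivity) (by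
      have h5 := entS T hp X Y N b LY
      have h6 : Hc p (fun ω => slp N b (X ω).1 (Y ω).1 (X ω).2 (Y ω).2) X <
        (1 - c) * N * log 2 := hcon
      have h7 := mul_le_mul_of_nonneg_right hb5 hl.le
      have h8 : 0 ≤ c * N * log 2 := by positivity
      have h9 : 0 ≤ c * (c * N * log 2) := by positivity
      linarith)
  have pR := T.t2.rare (fun ω => (X ω, SS N b (X ω) (Y ω))) (G0 p X Y N b) hp
    (show 0 ≤ c / 16 by positivity)
  obtain ⟨G, hG, pG⟩ : ∃ G : Ω → Prop, (∀ ω, G ω → G0 p X Y N b ω ∧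
      Pr p (fun ω' => X ω' = X ω) < exp ((1 - c / 2) * N * log 2) *
        Pr p (fun ω' => (X ω', SS N b (X ω') (Y ω')) = (X ω, SS N b (X ω) (Y ω))) ∧
      c / 16 * Pr p (fun ω' => (X ω', SS N b (X ω') (Y ω')) = (X ω, SS N b (X ω) (Y ω))) ≤
        Pr p fun ω' => (X ω', SS N b (X ω') (Y ω')) = (X ω, SS N b (X ω) (Y ω)) ∧
          G0 p X Y N b ω') ∧ c / 8 ≤ Pr p G := by
    have h5 := (e1.pr_or _ _ hp).trans (add_le_add (p0.trans p0')
      ((e1.pr_or _ _ hp).trans (add_le_add pA pR)))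
    have h6 := (sub_le_sub_left h5 1).trans_eq (e1.pr_not _ hp).symm
    refine ⟨_, fun ω h => ?_, le_trans (by linarith) h6⟩
    simp only [not_or, not_not, not_and, not_le] at h
    exact ⟨h.1, h.2.1, (h.2.2 h.1).le⟩
  have hM := (exp_pos (b - N * log 2)).le
  have he : (b : ℝ) ≤ exp b := by linarith [add_one_le_exp (b : ℝ)]
  have key := rq N (le_of_max_le_left hN) b hb1
    (hb2.trans (mul_le_mul_of_nonneg_right η1 hN0))
    ((Finset.univ.filter fun ω => p ω ≠ 0).image X) ((Finset.univ.filter fun ω => p ω ≠ 0).image Y)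
    (wt p N (exp (b - N * log 2)) X) (wt p N (exp (b - N * log 2)) Y)
    ((Finset.univ.filter fun ω => p ω ≠ 0 ∧ G ω).image fun ω => (X ω, Y ω))
    (wt_nonneg hp _ _ _) (wt_nonneg hp _ _ _)
    ((wt_sum hp _ _ _ _ (fun _ => True) fun _ _ => trivial).trans (e1.pr_le_one _ hp))
    ((wt_sum hp _ _ _ _ (fun _ => True) fun _ _ => trivial).trans (e1.pr_le_one _ hp))
    (fun q hq => by
      obtain ⟨ω, hω, rfl⟩ := Finset.mem_image.1 hq
      have h5 : ω ∈ Finset.univ.filter fun ω => p ω ≠ 0 :=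
        Finset.mem_filter.2 ⟨Finset.mem_univ _, (Finset.mem_filter.1 hω).2.1⟩
      exact Finset.mem_product.2 ⟨Finset.mem_image_of_mem _ h5, Finset.mem_image_of_mem _ h5⟩)
    (fun x hx => by
      rcases Finset.mem_union.1 hx with h | h
      · obtain ⟨ω, hω, rfl⟩ := Finset.mem_image.1 h
        have := LX ω (Finset.mem_filter.1 hω).2
        exact ⟨this.2.1, this.2.2.1, this.2.2.2.2⟩
      · obtain ⟨ω, hω, rfl⟩ := Finset.mem_image.1 h
        have := LY ω (Finset.mem_filter.1 hω).2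
        exact ⟨this.2.1, this.2.2.1, this.2.2.2.2⟩)
    (fun i hi k => by
      obtain ⟨d, rfl⟩ := Nat.exists_eq_add_of_le hi
      rw [← scale i d]
      exact ⟨wt_frost hp i d hM X _ k fun x hx => (Finset.mem_filter.1 hx).2,
        wt_frost hp i d hM Y _ k fun x hx => (Finset.mem_filter.1 hx).2⟩)
    (fun β₀ β hβ => by
      have h5 : (2 : ℝ) ^ (-η' * N) ≤ (2 : ℝ) ^ (-η * N) :=
        rpow_le_rpow_of_exponent_le one_le_two (by nlinarith)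
      exact ⟨(wt_sum hp _ _ _ _ _ fun ω h => (Finset.mem_filter.1 h).2.trans h5).trans
          (h4 β₀ β hβ).1,
        (wt_sum hp _ _ _ _ _ fun ω h => (Finset.mem_filter.1 h).2.trans h5).trans (h4 β₀ β hβ).2⟩)
    (fun q hq => by
      obtain ⟨ω₀, hω, rfl⟩ := Finset.mem_image.1 hq
      obtain ⟨g0, g1⟩ := (Finset.mem_filter.1 hω).2
      obtain ⟨g2, g3, g4⟩ := hG ω₀ g1
      refine ⟨g2.2.2.2.le, le_of_mul_le_mul_left (le_trans ?_ (heavy hp X Y N b (by positivity) g0 _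
        (fun ω h5 h6 h7 h8 => Finset.mem_filter.2 ⟨Finset.mem_image_of_mem _
          (Finset.mem_filter.2 ⟨Finset.mem_univ _, h5⟩), ?_⟩) g3 g4)) (by positivity)⟩
      · rw [two_rpow_eq, ← exp_add, ← exp_add]
        have h5 : (1 - c / 2) * N * log 2 + b + -(1 - c / 4) * N * log 2 ≤ -b := by
          have := mul_le_mul_of_nonneg_left half_le_log_two (show 0 ≤ c * N by positivity)
          linarith
        refine (exp_le_exp.2 h5).trans ?_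
        rw [exp_neg, inv_le_comm₀ (exp_pos _) (by positivity), inv_div, div_le_iff₀ hc]
        nlinarith
      · have h9 := h8.2.2.2
        rw [h6] at h7 h9
        refine tube h7 h9 g2.2.2.2 ?_
        have := LX ω₀ g0
        have := LY ω h5
        rw [abs_le]
        constructor <;> linarith [(LX ω₀ g0).2.1, (LX ω₀ g0).2.2.1, (LY ω h5).2.1, (LY ω h5).2.2.1])
  have fin := cover hp G (fun ω => (X ω, Y ω))
    ((Finset.univ.filter fun ω => p ω ≠ 0 ∧ G ω).image fun ω => (X ω, Y ω))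
    (fun q => exp b * (wt p N (exp (b - N * log 2)) X q.1 * wt p N (exp (b - N * log 2)) Y q.2))
    (fun q _ => mul_nonneg (exp_pos _).le (mul_nonneg (wt_nonneg hp _ _ _ _) (wt_nonneg hp _ _ _ _)))
    fun ω h5 h6 => by
      refine ⟨Finset.mem_image_of_mem _ (Finset.mem_filter.2 ⟨Finset.mem_univ _, h5, h6⟩), ?_⟩
      have g := (hG ω h6).1
      unfold wt
      rw [if_pos g.2.1, if_pos g.2.2.1]
      exact le_trans (e1.pr_mono hp fun ω' _ h' => Prod.ext_iff.1 h'.2) g.1.le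
  rw [← Finset.mul_sum] at fin
  have h5 := pG.trans (fin.trans (mul_le_mul_of_nonneg_left key (exp_pos _).le))
  rw [← exp_add, show (b : ℝ) + -2 * b = -b by ring, exp_neg, le_inv_comm₀ (by positivity)
    (exp_pos _), inv_div, le_div_iff₀ hc] at h5
  nlinarith

end Vale.Agent.P127
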