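import Vale.Agent.P127.Num

/-! From a null set of segments to a finite family of lines with marked times. -/

namespace Vale.Agent.P127

open Vale.Agent.P118
open scoped RealInnerProductSpace
open Real Classical Module

namespace RedBX

open MeasureTheory

theorem cover {K : Set (Eu 4)} {d : ℝ} (hd : 0 < d) (hK : Measure.hausdorffMeasure d K = 0)
    (L₀ : ℕ) : ∃ (U : ℕ → Set (Eu 4)) (J : ℕ → Finset ℕ), K ⊆ ⋃ j, U j ∧
      (∀ k, ((J k).card : ℝ) ≤ 2 ^ (d * (k + 1))) ∧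
      (∀ k, ∀ j ∈ J k, ∀ x ∈ U j, ∀ y ∈ U j, ‖x - y‖ ≤ 2⁻¹ ^ k) ∧
      ∀ j, (U j).Subsingleton ∨ ∃ k ≥ L₀, j ∈ J k := by
  rw [Measure.hausdorffMeasure_apply] at hK
  have h1 := (le_iSup₂ (f := fun (r : ENNReal) (_ : 0 < r) => ⨅ (t : ℕ → Set (Eu 4))
    (_ : K ⊆ ⋃ n, t n) (_ : ∀ n, Metric.ediam (t n) ≤ r),
      ∑' n, ⨆ _ : (t n).Nonempty, Metric.ediam (t n) ^ d) (ENNReal.ofReal (2⁻¹ ^ L₀))
    (ENNReal.ofReal_pos.2 (by positivity))).trans_lt (hK.trans_lt one_pos)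
  simp only [iInf_lt_iff] at h1
  obtain ⟨U, hU, hr, hs⟩ := h1
  have hle : ∀ k j, ENNReal.ofReal (2⁻¹ ^ (k + 1)) < Metric.ediam (U j) →
      ENNReal.ofReal ((2⁻¹ ^ (k + 1)) ^ d) ≤ ⨆ _ : (U j).Nonempty, Metric.ediam (U j) ^ d := by
    intro k j h
    have hn : (U j).Nonempty := by
      by_contra h0
      rw [Set.not_nonempty_iff_eq_empty.1 h0] at h
      simp at h
    rw [iSup_pos hn, ← ENNReal.ofReal_rpow_of_pos (by positivity)]
    exact ENNReal.rpow_le_rpow h.le hd.le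
  have hfin : ∀ k, {j | ENNReal.ofReal (2⁻¹ ^ (k + 1)) < Metric.ediam (U j) ∧
      Metric.ediam (U j) ≤ ENNReal.ofReal (2⁻¹ ^ k)}.Finite := fun k =>
    (ENNReal.finite_const_le_of_tsum_ne_top (hs.trans ENNReal.one_lt_top).ne
      (ENNReal.ofReal_pos.2 (by positivity : (0 : ℝ) < (2⁻¹ ^ (k + 1)) ^ d)).ne').subset
      fun j hj => hle k j hj.1
  refine ⟨U, fun k => (hfin k).toFinset, hU, fun k => ?_, fun k j hj x hx y hy => ?_, fun j => ?_⟩
  · have h2 := (Finset.card_nsmul_le_sum (hfin k).toFinset _ _ fun j hj =>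
      hle k j ((hfin k).mem_toFinset.1 hj).1).trans ((ENNReal.sum_le_tsum _).trans hs.le)
    rw [nsmul_eq_mul, ← ENNReal.ofReal_natCast, ← ENNReal.ofReal_mul (Nat.cast_nonneg _),
      ENNReal.ofReal_le_one] at h2
    have h3 : ((2⁻¹ : ℝ) ^ (k + 1)) ^ d = (2 ^ (d * (k + 1)))⁻¹ := by
      rw [inv_pow, Real.inv_rpow (by positivity), ← Real.rpow_natCast,
        ← Real.rpow_mul (by norm_num), mul_comm]
      push_cast
      rfl
    rwa [h3, ← div_eq_mul_inv, div_le_one (by positivity)] at h2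
  · have h2 := (Metric.edist_le_ediam_of_mem hx hy).trans ((hfin k).mem_toFinset.1 hj).2
    rwa [edist_le_ofReal (by positivity), dist_eq_norm] at h2
  · by_cases h0 : Metric.ediam (U j) = 0
    · exact Or.inl (Metric.ediam_eq_zero_iff.1 h0)
    right
    have hex : ∃ k, ENNReal.ofReal (2⁻¹ ^ (L₀ + k + 1)) < Metric.ediam (U j) := by
      have ht : Metric.ediam (U j) ≠ ⊤ := ne_top_of_le_ne_top ENNReal.ofReal_ne_top (hr j)
      obtain ⟨k, hk⟩ := exists_pow_lt_of_lt_one (ENNReal.toReal_pos h0 ht)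
        (by norm_num : (2⁻¹ : ℝ) < 1)
      refine ⟨k, (ENNReal.ofReal_lt_iff_lt_toReal (by positivity) ht).2 (lt_of_le_of_lt ?_ hk)⟩
      exact pow_le_pow_of_le_one (by norm_num) (by norm_num) (by omega)
    refine ⟨L₀ + Nat.find hex, Nat.le_add_right _ _, (hfin _).mem_toFinset.2
      ⟨Nat.find_spec hex, ?_⟩⟩
    rcases Nat.eq_zero_or_eq_succ_pred (Nat.find hex) with h | h
    · rw [h]
      exact hr j
    · have h2 := Nat.find_min hex (m := (Nat.find hex).pred) (by omega)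
      rw [h]
      exact not_lt.1 h2

theorem pigeon {X : Type*} [MeasurableSpace X] (μ : Measure X) {A N : Set X} {B : ℕ → Set X}
    {L₀ : ℕ} (hL : 1 ≤ L₀) (hA : μ A ≠ ⊤) (h0 : μ A ≠ 0) (hN : μ N = 0) (hB : ∀ k, B k ⊆ A)
    (hc : ∀ x ∈ A, x ∈ N ∨ ∃ k ≥ L₀, x ∈ B k) :
    ∃ k ≥ L₀, μ.real A ≤ 4 * (k : ℝ) ^ 2 * μ.real (B k) := by
  by_contra h
  push Not at h
  have hm : 0 < μ.real A := ENNReal.toReal_pos h0 hA
  have h1 : ∀ k, μ (⋃ _ : L₀ ≤ k, B k) ≤ ENNReal.ofReal (μ.real A / 4 * (1 / (k : ℝ) ^ 2)) := by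
    intro k
    by_cases hk : L₀ ≤ k
    · rw [show (⋃ _ : L₀ ≤ k, B k) = B k by simp [hk], ← ofReal_measureReal (measure_ne_top_of_subset (hB k) hA)]
      refine ENNReal.ofReal_le_ofReal ?_
      have hk0 : (0 : ℝ) < k := by exact_mod_cast (by omega : 0 < k)
      have h2 := h k hk
      rw [div_mul_div_comm, mul_one, le_div_iff₀ (by positivity)]
      linarith
    · simp [hk]
  have h2 : μ A ≤ μ N + ∑' k, μ (⋃ _ : L₀ ≤ k, B k) := by
    refine le_trans (measure_mono fun x hx => ?_)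
      ((measure_union_le N _).trans (add_le_add le_rfl (measure_iUnion_le _)))
    rcases hc x hx with h | ⟨k, hk, h⟩
    · exact Or.inl h
    · exact Or.inr (Set.mem_iUnion₂.2 ⟨k, hk, h⟩)
  have h3 := hasSum_zeta_two.mul_left (μ.real A / 4)
  rw [hN, zero_add] at h2
  have h4 := h2.trans (ENNReal.tsum_le_tsum h1)
  rw [← ENNReal.ofReal_tsum_of_nonneg (fun k => by positivity) h3.summable, h3.tsum_eq,
    ← ofReal_measureReal hA, ENNReal.ofReal_le_ofReal_iff (by positivity)] at h4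
  have h5 : π ^ 2 < 16 := by nlinarith [pi_lt_four, pi_pos]
  nlinarith

theorem count {X Y : Type*} [MeasurableSpace X] (μ : Measure X) {A : Set X} (F : Y → Set X)
    (W : Finset Y) {ρ : ℝ} (hρ : 0 ≤ ρ) (hW : ∀ x ∈ A, ∃ w ∈ W, x ∈ F w)
    (hF : ∀ w ∈ W, μ (F w) ≤ ENNReal.ofReal ρ) : μ.real A ≤ W.card * ρ := by
  have h1 : μ A ≤ ∑ w ∈ W, μ (F w) :=
    le_trans (measure_mono fun x hx => Set.mem_iUnion₂.2 (by simpa using hW x hx))
      (measure_biUnion_finset_le W F)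
  have h2 := h1.trans (Finset.sum_le_card_nsmul _ _ _ hF)
  rw [nsmul_eq_mul, ← ENNReal.ofReal_natCast, ← ENNReal.ofReal_mul (Nat.cast_nonneg _)] at h2
  exact ENNReal.toReal_le_of_le_ofReal (by positivity) h2

theorem fin_lat (L : ℕ) : {u : Eu 3 | InC u ∧ flo L u = u}.Finite := by
  by_contra h
  obtain ⟨S, hS, hc⟩ := Set.Infinite.exists_subset_card_eq h ((2 ^ L) ^ 3 + 1)
  have h1 := geo1.card_sub 0 L S 0 (Nat.zero_le _) fun u hu => ⟨(hS hu).2, (hS hu).1.flo_zero⟩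
  rw [hc] at h1
  push_cast at h1
  simp only [Nat.sub_zero] at h1
  linarith

theorem cons_sub {n : ℕ} (a b : ℝ) (x y : Eu n) : ‖cons a x - cons b y‖ ≤ |a - b| + ‖x - y‖ := by
  have h := geo2_norm_sq (cons a x - cons b y)
  rw [geo2_tl_sub, geo2_tl_cons, geo2_tl_cons, PiLp.sub_apply, geo2_cons_zero, geo2_cons_zero,
    ← sq_abs (a - b)] at h
  refine abs_le_of_sq_le_sq' ?_ (by positivity) |>.2
  rw [h]
  nlinarith [mul_nonneg (abs_nonneg (a - b)) (norm_nonneg (x - y))]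

theorem cons_lat {n : ℕ} (L : ℕ) (j : ℤ) (x : Eu n) :
    flo L (cons ((j : ℝ) / 2 ^ L) (flo L x)) = cons ((j : ℝ) / 2 ^ L) (flo L x) := by
  ext k
  refine Fin.cases ?_ (fun k => ?_) k
  · rw [flo_apply, geo2_cons_zero, fl_lat]
  · have h := congrArg (fun z : Eu n => z k) (geo1.flo_flo x (le_refl L))
    rw [flo_apply]
    exact (flo_apply L (flo L x) k).symm.trans h

theorem near {L : ℕ} {a v : Eu 3} {t : ℝ} (hv : InC v) (h0 : 0 ≤ t) (h1 : t < 1) :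
    ‖cons ((fl L t : ℝ) / 2 ^ L) (flo L (flo L a + ((fl L t : ℝ) / 2 ^ L) • flo L v)) -
      cons t (a + t • v)‖ ≤ 9 * 2⁻¹ ^ L := by
  refine (cons_sub _ _ _ _).trans ?_
  set τ : ℝ := (fl L t : ℝ) / 2 ^ L
  have hq : (0 : ℝ) < 2⁻¹ ^ L := by positivity
  have h2 : |τ - t| ≤ 2⁻¹ ^ L := by
    have := fl_le L t
    rw [abs_le]
    constructor <;> linarith [this.1, this.2]
  have h3 : √((3 : ℕ) : ℝ) ≤ 2 := Real.sqrt_le_iff.2 ⟨by norm_num, by norm_num⟩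
  have h4 : ∀ x : Eu 3, ‖x - flo L x‖ ≤ 2 * 2⁻¹ ^ L := fun x =>
    (geo1.norm_sub_flo L x).trans (mul_le_mul_of_nonneg_right h3 hq.le)
  have h5 : ‖(τ - t) • flo L v‖ ≤ 2 * 2⁻¹ ^ L := by
    rw [norm_smul, Real.norm_eq_abs, mul_comm]
    exact mul_le_mul ((hv.flo L).norm_le.trans h3) h2 (abs_nonneg _) (by norm_num)
  have h6 : ‖t • (v - flo L v)‖ ≤ 2 * 2⁻¹ ^ L := by
    rw [norm_smul, Real.norm_eq_abs, abs_of_nonneg h0]
    exact (mul_le_of_le_one_left (norm_nonneg _) h1.le).trans (h4 v)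
  have e : flo L (flo L a + τ • flo L v) - (a + t • v) =
      (τ - t) • flo L v - ((flo L a + τ • flo L v) - flo L (flo L a + τ • flo L v)) -
        (a - flo L a) - t • (v - flo L v) := by
    rw [sub_smul, smul_sub]
    abel
  rw [e]
  have h7 := norm_sub_le ((τ - t) • flo L v -
    ((flo L a + τ • flo L v) - flo L (flo L a + τ • flo L v)) - (a - flo L a)) (t • (v - flo L v))
  have h8 := norm_sub_le ((τ - t) • flo L v -
    ((flo L a + τ • flo L v) - flo L (flo L a + τ • flo L v))) (a - flo L a)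
  have h9 := norm_sub_le ((τ - t) • flo L v)
    ((flo L a + τ • flo L v) - flo L (flo L a + τ • flo L v))
  linarith [h4 a, h4 (flo L a + τ • flo L v)]

theorem bignum {m W S : ℝ} {L : ℕ} (hm : 0 < m) (h5 : W * 2 ^ L ≤ 4 * (L : ℝ) ^ 2 * S)
    (h6 : m * (2 ^ L) ^ 3 ≤ 4 * (L : ℝ) ^ 2 * W) : (2 : ℝ) ^ (4 * L) ≤ 16 / m * L ^ 4 * S := by
  rw [div_mul_eq_mul_div, div_mul_eq_mul_div, le_div_iff₀ hm]
  calc (2 : ℝ) ^ (4 * L) * m = m * (2 ^ L) ^ 3 * 2 ^ L := by ring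
    _ ≤ 4 * (L : ℝ) ^ 2 * W * 2 ^ L := by gcongr
    _ = 4 * (L : ℝ) ^ 2 * (W * 2 ^ L) := by ring
    _ ≤ 4 * (L : ℝ) ^ 2 * (4 * (L : ℝ) ^ 2 * S) := by gcongr
    _ = _ := by ring

theorem few {L : ℕ} {d : ℝ} {U : ℕ → Set (Eu 4)} {J : Finset ℕ} (F : Finset (ℕ × Eu 3))
    (hJ : (J.card : ℝ) ≤ 2 ^ (d * (L + 1)))
    (hdi : ∀ j ∈ J, ∀ x ∈ U j, ∀ y ∈ U j, ‖x - y‖ ≤ 2⁻¹ ^ L)
    (hF : ∀ e ∈ F, flo L (cons ((e.1 : ℝ) / 2 ^ L) e.2) = cons ((e.1 : ℝ) / 2 ^ L) e.2 ∧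
      ∃ i ∈ J, ∃ p ∈ U i, ‖cons ((e.1 : ℝ) / 2 ^ L) e.2 - p‖ ≤ 9 * 2⁻¹ ^ L) :
    (F.card : ℝ) ≤ 21 ^ 4 * 2 ^ d * 2 ^ (d * L) := by
  let P : ℕ × Eu 3 → Eu 4 := fun e => cons ((e.1 : ℝ) / 2 ^ L) e.2
  have hP : Function.Injective P := by
    rintro ⟨j, x⟩ ⟨j', x'⟩ h
    have e1 := congrArg (fun z : Eu 4 => z 0) h
    have e2 := congrArg tl h
    simp only [P, geo2_cons_zero, geo2_tl_cons] at e1 e2
    rw [div_left_inj' (by positivity), Nat.cast_inj] at e1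
    rw [e1, e2]
  have h5 : ∀ z ∈ F.image P, flo L z = z ∧ ∃ i ∈ J, ∃ p ∈ U i, ‖z - p‖ ≤ 9 * 2⁻¹ ^ L := by
    intro z hz
    obtain ⟨e, he, rfl⟩ := Finset.mem_image.1 hz
    exact hF e he
  have h6 : F.image P ⊆ J.biUnion fun i =>
      (F.image P).filter fun z => ∃ p ∈ U i, ‖z - p‖ ≤ 9 * 2⁻¹ ^ L := fun z hz => by
    obtain ⟨i, hi, h⟩ := (h5 z hz).2
    exact Finset.mem_biUnion.2 ⟨i, hi, Finset.mem_filter.2 ⟨hz, h⟩⟩
  have h7 : ∀ i ∈ J, (((F.image P).filter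
      fun z => ∃ p ∈ U i, ‖z - p‖ ≤ 9 * 2⁻¹ ^ L).card : ℝ) ≤ 21 ^ 4 := by
    intro i hi
    rcases (U i).eq_empty_or_nonempty with h | ⟨q, hq⟩
    · simp [h]
    refine (geo1.card_ball L _ q (10 * 2⁻¹ ^ L) (by positivity) fun z hz => ?_).trans
      (le_of_eq ?_)
    · obtain ⟨hz1, p, hp, hz2⟩ := Finset.mem_filter.1 hz
      refine ⟨(h5 z hz1).1, ?_⟩
      linarith [norm_sub_le_norm_sub_add_norm_sub z p q, hdi i hi p hp q hq]
    · rw [mul_assoc, mul_assoc, ← mul_pow]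
      norm_num
  have h8 : (F.card : ℝ) ≤ J.card * 21 ^ 4 := by
    rw [← Finset.card_image_of_injective F hP, ← nsmul_eq_mul]
    refine le_trans ?_ (Finset.sum_le_card_nsmul _ _ _ h7)
    exact_mod_cast (Finset.card_le_card h6).trans Finset.card_biUnion_le
  calc (F.card : ℝ) ≤ 2 ^ (d * (L + 1)) * 21 ^ 4 := h8.trans (by gcongr)
    _ = _ := by
      rw [mul_add, mul_one, Real.rpow_add (by norm_num)]
      ring

end RedBX

open RedBX MeasureTheory in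
theorem sRedB : SRedB := by
  intro K V a d s hd hK hN
  obtain ⟨C₀, hC₀⟩ := hN.stk
  have hVt : volume V ≠ ⊤ := by
    refine ne_top_of_le_ne_top ?_ (measure_mono (t := {v : Eu 3 | flo 0 v = 0})
      fun v hv => (hN.box v hv).1.flo_zero)
    rw [geo1.vol_cell 0 0 (InC.flo_zero fun k => by simp)]
    exact ENNReal.ofReal_ne_top
  have hm : 0 < volume.real V := ENNReal.toReal_pos hN.pos hVt
  refine ⟨max C₀ (max (16 / volume.real V) (21 ^ 4 * 2 ^ d)), fun L₀ => ?_⟩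
  obtain ⟨U, J, hU, hJ, hdi, hsc⟩ := cover hd hK (L₀ + 1)
  let T : ℕ → Eu 3 → Set ℝ := fun k v =>
    {t | t ∈ Set.Ico (0 : ℝ) 1 ∧ ∃ j ∈ J k, cons t (a v + t • v) ∈ U j}
  have h1 : ∀ v ∈ V, ∃ k ≥ L₀ + 1, 1 ≤ 4 * (k : ℝ) ^ 2 * volume.real (T k v) := by
    intro v hv
    have h := pigeon volume (A := Set.Ico (0 : ℝ) 1) (B := fun k => T k v)
      (N := ⋃ j, ⋃ _ : (U j).Subsingleton, {t : ℝ | cons t (a v + t • v) ∈ U j})
      (L₀ := L₀ + 1) (by omega) (by simp) (by simp) ?_ (fun k t ht => ht.1) ?_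
    · simpa using h
    · refine Set.Countable.measure_zero (Set.countable_iUnion fun j =>
        Set.countable_iUnion fun hj => Set.Subsingleton.countable fun t ht t' ht' => ?_) _
      have := congrArg (fun z : Eu 4 => z 0) (hj ht ht')
      simpa only [geo2_cons_zero] using this
    · intro t ht
      obtain ⟨j, hj⟩ := Set.mem_iUnion.1 (hU (hN.seg v hv t (Set.Ico_subset_Icc_self ht)))
      rcases hsc j with h | ⟨k, hk, h⟩
      · exact Or.inl (Set.mem_iUnion₂.2 ⟨j, h, hj⟩)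
      · exact Or.inr ⟨k, hk, ht, j, h, hj⟩
  obtain ⟨L, hL, h2⟩ := pigeon volume (A := V) (N := ∅)
    (B := fun k => {v | v ∈ V ∧ 1 ≤ 4 * (k : ℝ) ^ 2 * volume.real (T k v)}) (L₀ := L₀ + 1)
    (by omega) hVt hN.pos measure_empty (fun k v hv => hv.1) fun v hv =>
      Or.inr ((h1 v hv).imp fun k hk => ⟨hk.1, hv, hk.2⟩)
  set VL := {v | v ∈ V ∧ 1 ≤ 4 * (L : ℝ) ^ 2 * volume.real (T L v)} with hVL
  have hWf : (flo L '' VL).Finite := (fin_lat L).subset (by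
    rintro _ ⟨v, hv, rfl⟩
    exact ⟨(hN.box v hv.1).1.flo L, geo1.flo_flo v le_rfl⟩)
  have hrep : ∀ w, ∃ v, w ∈ hWf.toFinset → v ∈ VL ∧ flo L v = w := fun w => by
    by_cases h : w ∈ hWf.toFinset
    · obtain ⟨v, hv⟩ := hWf.mem_toFinset.1 h
      exact ⟨v, fun _ => hv⟩
    · exact ⟨0, fun h' => absurd h' h⟩
  choose r hr using hrep
  set W := hWf.toFinset with hW
  let Jt : Eu 3 → Finset ℕ := fun w =>
    (Finset.range (2 ^ L)).filter fun j => ∃ t ∈ T L (r w), fl L t = j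
  have h3 : volume.real VL ≤ W.card * (2⁻¹ ^ L) ^ 3 :=
    count volume (fun w => {v | flo L v = w}) W (by positivity)
      (fun v hv => ⟨_, hWf.mem_toFinset.2 ⟨v, hv, rfl⟩, rfl⟩) fun w hw =>
        (geo1.vol_cell L w (by rw [← (hr w hw).2]; exact geo1.flo_flo _ le_rfl)).le
  have h4 : ∀ w, volume.real (T L (r w)) ≤ (Jt w).card * 2⁻¹ ^ L := fun w => by
    refine count volume (fun j : ℕ => Set.Icc ((j : ℝ) / 2 ^ L) ((j : ℝ) / 2 ^ L + 2⁻¹ ^ L)) _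
      (by positivity) (fun t ht => ?_) fun j _ => by simp
    have h5 := fl_mem (i := L) ht.1.1 ht.1.2
    obtain ⟨j, hj⟩ := Int.eq_ofNat_of_zero_le h5.1
    have h6 := fl_le L t
    rw [hj] at h5 h6
    refine ⟨j, Finset.mem_filter.2 ⟨Finset.mem_range.2 (by exact_mod_cast h5.2), t, ht, hj⟩, ?_⟩
    exact ⟨by simpa using h6.1, by simpa using h6.2.le⟩
  let S := (W.sigma Jt).image fun x => (flo L (a (r x.1)), x.1, x.2)
  have hS : ∀ u ∈ S, ∃ w ∈ W, ∃ j ∈ Jt w, u = (flo L (a (r w)), w, j) := fun u hu => by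
    obtain ⟨x, hx, rfl⟩ := Finset.mem_image.1 hu
    exact ⟨x.1, (Finset.mem_sigma.1 hx).1, x.2, (Finset.mem_sigma.1 hx).2, rfl⟩
  have hL0 : (0 : ℝ) < L := by exact_mod_cast (by omega : 0 < L)
  refine ⟨L, by omega, S, fun u hu => ?_, ?_, fun u hu u' hu' h => ?_, fun i hi => ?_, ?_⟩
  · obtain ⟨w, hw, j, hj, rfl⟩ := hS u hu
    have hb := hN.box _ (hr w hw).1.1
    have h5 := hb.1.flo L
    have h6 := geo1.flo_flo (r w) (le_refl L)
    rw [(hr w hw).2] at h5 h6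
    exact ⟨hb.2.flo L, h5, geo1.flo_flo _ le_rfl, h6, Finset.mem_range.1 (Finset.mem_filter.1 hj).1⟩
  · have hc : (S.card : ℝ) = ∑ w ∈ W, ((Jt w).card : ℝ) := by
      rw [Finset.card_image_of_injective, Finset.card_sigma, Nat.cast_sum]
      rintro ⟨w, j⟩ ⟨w', j'⟩ h
      simp only [Prod.mk.injEq] at h
      obtain ⟨-, rfl, rfl⟩ := h
      rfl
    have h5 : (W.card : ℝ) * 2 ^ L ≤ 4 * (L : ℝ) ^ 2 * S.card := by
      rw [hc, Finset.mul_sum, ← nsmul_eq_mul]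
      refine Finset.card_nsmul_le_sum _ _ _ fun w hw => ?_
      have h6 := (hr w hw).1.2.trans (mul_le_mul_of_nonneg_left (h4 w) (by positivity))
      rwa [inv_pow, ← mul_assoc, ← div_eq_mul_inv, one_le_div (by positivity)] at h6
    have h6 : volume.real V * (2 ^ L) ^ 3 ≤ 4 * (L : ℝ) ^ 2 * W.card := by
      have h7 := h2.trans (mul_le_mul_of_nonneg_left h3 (by positivity))
      rwa [inv_pow, inv_pow, ← mul_assoc, ← div_eq_mul_inv, le_div_iff₀ (by positivity)] at h7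
    exact (bignum hm h5 h6).trans (mul_le_mul_of_nonneg_right (mul_le_mul_of_nonneg_right
      ((le_max_left _ _).trans (le_max_right _ _)) (by positivity)) (Nat.cast_nonneg _))
  · obtain ⟨w, -, j, -, rfl⟩ := hS u hu
    obtain ⟨w', -, j', -, rfl⟩ := hS u' hu'
    obtain rfl : w = w' := h
    rfl
  · refine (hC₀ i _ fun x hx => ?_).trans
      (mul_le_mul_of_nonneg_right (le_max_left _ _) (by positivity))
    obtain ⟨u, hu, rfl⟩ := Finset.mem_image.1 hx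
    obtain ⟨w, hw, j, -, rfl⟩ := hS u hu
    refine ⟨r w, (hr w hw).1.1, ?_⟩
    rw [geo1.flo_flo _ hi, ← geo1.flo_flo (r w) hi, (hr w hw).2]
  · refine (few _ (hJ L) (hdi L) fun e he => ?_).trans (mul_le_mul_of_nonneg_right
      ((le_max_right _ _).trans (le_max_right _ _)) (by positivity))
    obtain ⟨u, hu, rfl⟩ := Finset.mem_image.1 he
    obtain ⟨w, hw, j, hj, rfl⟩ := hS u hu
    obtain ⟨t, ⟨ht, i, hi, hp⟩, htj⟩ := (Finset.mem_filter.1 hj).2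
    have h5 := cons_lat L j (flo L (a (r w)) + ((j : ℝ) / 2 ^ L) • w)
    have h6 := near (L := L) (a := a (r w)) (hN.box _ (hr w hw).1.1).1 ht.1 ht.2
    rw [htj, (hr w hw).2] at h6
    rw [Int.cast_natCast] at h5 h6
    exact ⟨h5, i, hi, _, hp, h6⟩

end Vale.Agent.P127
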