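import Vale.Agent.P127.Num

/-! Sticky Kakeya sets in four dimensions: nets, the uniform model, the conclusion. -/

namespace Vale.Agent.P127

open Vale.Agent.P118
open scoped RealInnerProductSpace NNReal ENNReal
open Real Classical Module

namespace RedCX

theorem net {X : Type} [MetricSpace X] (U : Set X) {r b : ℝ} (hr : 0 < r)
    (h : ∀ N : Finset X, (∀ x ∈ N, x ∈ U) → ((N : Set X).Pairwise fun x y =>
      Disjoint (Metric.closedBall x r) (Metric.closedBall y r)) → (N.card : ℝ) ≤ b) :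
    ∃ N : Finset X, (N.card : ℝ) ≤ b ∧ ∀ x ∈ U, ∃ y ∈ N, dist x y ≤ r + r := by
  let S : Set ℕ := {n | ∃ N : Finset X, (∀ x ∈ N, x ∈ U) ∧ ((N : Set X).Pairwise fun x y =>
    Disjoint (Metric.closedBall x r) (Metric.closedBall y r)) ∧ N.card = n}
  have hb : BddAbove S := ⟨⌈b⌉₊, fun n ⟨N, h1, h2, h3⟩ => by
    have := (h N h1 h2).trans (Nat.le_ceil b)
    rw [← h3]; exact_mod_cast this⟩
  obtain ⟨N, h1, h2, h3⟩ := Nat.sSup_mem (s := S) ⟨0, ∅, by simp, by simp, rfl⟩ hb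
  refine ⟨N, h N h1 h2, fun x hx => ?_⟩
  by_contra hc
  push Not at hc
  by_cases hN : x ∈ N
  · have h4 := hc x hN
    rw [dist_self] at h4
    linarith
  · have h4 : N.card + 1 ∈ S := ⟨insert x N, by simpa [hx] using h1, by
      rw [Finset.coe_insert]
      exact h2.insert fun y hy _ => ⟨Metric.closedBall_disjoint_closedBall (hc y hy),
        (Metric.closedBall_disjoint_closedBall (hc y hy)).symm⟩, Finset.card_insert_of_notMem hN⟩
    have := le_csSup hb h4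
    omega

end RedCX

theorem sPack : SPack := by
  intro X _ A s h
  obtain ⟨s', h0, hlt⟩ : ∃ s' : ℝ≥0, packMeas s' A = 0 ∧ (s' : ℝ≥0∞) < ENNReal.ofReal s := by
    simpa [packDim, iInf_lt_iff] using h
  have hs : (s' : ℝ) < s := by
    rw [← ENNReal.ofReal_coe_nnreal] at hlt
    exact (ENNReal.ofReal_lt_ofReal_iff_of_nonneg s'.coe_nonneg).1 hlt
  have hs0 : 0 ≤ s := s'.2.trans hs.le
  obtain ⟨U, hU, hsum⟩ : ∃ U : ℕ → Set X, A ⊆ ⋃ i, U i ∧ ∑' i, packPre s' (U i) < 1 := by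
    have h1 : packMeas s' A < 1 := by rw [h0]; exact zero_lt_one
    simpa only [packMeas, iInf_lt_iff, exists_prop] using h1
  refine ⟨U, hU, fun k => ?_⟩
  have h2 : packPre s' (U k) < 1 := (ENNReal.le_tsum k).trans_lt hsum
  simp only [packPre, iInf_lt_iff] at h2
  obtain ⟨δ, hδ, h3⟩ := h2
  have h4 : ∀ i : ℕ, 2⁻¹ ^ i ≤ δ → ∃ N : Finset X, (N.card : ℝ) ≤ 2 ^ (s * i) ∧
      ∀ x ∈ U k, ∃ y ∈ N, dist x y ≤ 2⁻¹ ^ i := fun i hi => by
    have hr : (0 : ℝ) < 2⁻¹ ^ i / 2 := by positivity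
    obtain ⟨N, h5, h6⟩ := RedCX.net (U k) (b := 2 ^ (s * i)) hr fun N n1 n2 => by
      have inj : Function.Injective fun x : X => (x, (2⁻¹ : ℝ) ^ i / 2) :=
        fun _ _ e => (Prod.ext_iff.1 e).1
      have h7 := (le_iSup₂_of_le (N.map ⟨_, inj⟩) ⟨fun b hb => by
        obtain ⟨x, hx, rfl⟩ := Finset.mem_map.1 hb
        exact ⟨n1 x hx, hr, by dsimp; linarith⟩, fun b hb b' hb' e => by
        obtain ⟨x, hx, rfl⟩ := Finset.mem_map.1 hb
        obtain ⟨y, hy, rfl⟩ := Finset.mem_map.1 hb'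
        exact n2 hx hy fun e' : x = y => e (by rw [e'])⟩ le_rfl).trans h3.le
      simp only [Finset.sum_map, Function.Embedding.coeFn_mk, Finset.sum_const, nsmul_eq_mul] at h7
      rw [← ENNReal.ofReal_natCast, ← ENNReal.ofReal_mul (by positivity), ENNReal.ofReal_le_one,
        mul_div_cancel₀ _ two_ne_zero, inv_two_pow_eq, ← rpow_mul zero_le_two, neg_mul,
        rpow_neg zero_le_two, ← div_eq_mul_inv, div_le_one (by positivity)] at h7
      exact h7.trans (rpow_le_rpow_of_exponent_le one_le_two (by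
        rw [mul_comm]; gcongr))
    exact ⟨N, h5, fun x hx => by simpa using h6 x hx⟩
  obtain ⟨i₀, h5⟩ := exists_pow_lt_of_lt_one hδ (show (2⁻¹ : ℝ) < 1 by norm_num)
  refine ⟨2 ^ (s * i₀), fun i => ?_⟩
  have h6 : ∀ {a b : ℕ}, a ≤ b → (2⁻¹ : ℝ) ^ b ≤ 2⁻¹ ^ a := fun h =>
    pow_le_pow_of_le_one (by norm_num) (by norm_num) h
  obtain ⟨N, h7, h8⟩ := h4 (i₀ + i) ((h6 (by omega)).trans h5.le)
  refine ⟨N, h7.trans_eq ?_, fun x hx => ?_⟩
  · rw [← rpow_add two_pos]; push_cast; ring_nf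
  · obtain ⟨y, hy, h9⟩ := h8 x hx
    exact ⟨y, hy, h9.trans (h6 (by omega))⟩

namespace RedCX

noncomputable def mk (S : Finset (Eu 3 × Eu 3 × ℕ)) (L : ℕ) : Cf S Unit ℕ 3 where
  p _ := (S.card : ℝ)⁻¹
  T _ := ()
  th u := u.1.2.2
  a u := u.1.1
  v u := u.1.2.1
  t u := (u.1.2.2 : ℝ) / 2 ^ L

theorem hn_le {S : Finset (Eu 3 × Eu 3 × ℕ)} {α : Type} [DecidableEq α] {p : S → ℝ} (hp : IsP p)
    (f : Eu 3 × Eu 3 × ℕ → α) {N : ℝ} (h : ((S.image f).card : ℝ) ≤ N) :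
    Hn p (fun u => f u.1) ≤ log N := by
  rw [← e1.hc_const (g := fun _ => ()) _ hp (Det.refl _ _)]
  refine e2.count' hp fun ω _ S' hS' => le_trans ?_ h
  refine Nat.cast_le.2 (Finset.card_le_card fun a ha => ?_)
  obtain ⟨u, -, -, rfl⟩ := hS' a ha
  exact Finset.mem_image_of_mem _ u.2

end RedCX

theorem sRedC (T : Tools) : SRedC := by
  intro S L C s d hL hs hS
  have l1 : (1 : ℝ) ≤ L := by exact_mod_cast hL
  have b0 : 0 < C * L ^ 4 * S.card := lt_of_lt_of_le (by positivity) hS.big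
  have hS0 : (0 : ℝ) < S.card := by
    rcases (Nat.cast_nonneg (α := ℝ) S.card).eq_or_lt with h | h
    · rw [← h, mul_zero] at b0; exact absurd b0 (lt_irrefl _)
    · exact h
  have hC4 : 0 < C * L ^ 4 := (mul_pos_iff_of_pos_right hS0).1 b0
  have hC : 0 < C := (mul_pos_iff_of_pos_right (by positivity)).1 hC4
  obtain ⟨D, hD⟩ : ∃ D, D = RedCX.mk S L := ⟨_, rfl⟩
  have hp : IsP D.p := by
    rw [hD]
    exact ⟨fun _ => inv_nonneg.2 hS0.le, by simp [RedCX.mk, hS0.ne']⟩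
  obtain ⟨Λ, hΛ⟩ : ∃ Λ, Λ = log (C * L ^ 4) := ⟨_, rfl⟩
  have hCΛ : log C ≤ Λ := hΛ ▸ log_le_log hC (le_mul_of_one_le_right hC.le (one_le_pow₀ l1))
  have box : ∀ ω, InC (D.a ω) ∧ InC (D.v ω) ∧ 0 ≤ D.t ω ∧ D.t ω < 1 := fun ω => by
    obtain ⟨h1, h2, -, -, h3⟩ := hS.lat _ ω.2
    rw [hD]
    exact ⟨h1, h2, by dsimp [RedCX.mk]; positivity,
      (div_lt_one (by positivity)).2 (by exact_mod_cast h3)⟩
  have lat : ∀ ω, flo L (D.a ω) = D.a ω ∧ flo L (D.v ω) = D.v ω := fun ω => by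
    obtain ⟨-, -, h1, h2, -⟩ := hS.lat _ ω.2
    rw [hD]
    exact ⟨h1, h2⟩
  have ft : ∀ ω, fl L (D.t ω) = (D.th ω : ℤ) := fun ω => by
    have := fl_lat L (ω.1.2.2 : ℤ)
    rw [Int.cast_natCast] at this
    rw [hD]; exact this
  have h1 : 4 * L * log 2 - Λ ≤ Hn D.p fun ω => (D.v ω, D.th ω) := by
    refine le_trans ?_ (e2.hn_low (u := (S.card : ℝ)⁻¹) hp fun ω _ => ?_)
    · have u1 := log_le_log (by positivity) hS.big
      rw [log_mul hC4.ne' hS0.ne', log_pow, ← hΛ] at u1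
      rw [log_inv]; push_cast at u1; linarith
    · have u1 : Pr D.p (fun ω' => (D.v ω', D.th ω') = (D.v ω, D.th ω)) ≤ Pr D.p fun ω' => ω' = ω := by
        refine e1.pr_mono hp fun ω' _ e => ?_
        rw [hD] at e
        obtain ⟨e1, e2⟩ := Prod.ext_iff.1 e
        exact Subtype.ext (Prod.ext (hS.fn _ ω'.2 _ ω.2 e1) (Prod.ext e1 e2))
      refine u1.trans_eq ?_
      simp [Pr, Finset.filter_eq', hD, RedCX.mk]
  have u0 : Det D.p (fun _ => ()) D.T := fun _ _ _ _ _ => rfl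
  have h2 : Hn D.p D.th = Hc D.p (fun ω => fl L (D.t ω)) D.T := by
    rw [e1.hc_const _ hp u0]
    exact e1.hn_congr hp (fun a b _ _ e => by simp only [ft, e])
      fun a b _ _ e => by simpa only [ft, Nat.cast_inj] using e
  have h3 : Hn D.p D.th ≤ L * log 2 := h2 ▸ T.t4.int L D.t D.T hp fun ω _ => (box ω).2.2
  have h4 : Hn D.p D.v = Hc D.p (fun ω => flo L (D.v ω)) D.T := by
    rw [e1.hc_const _ hp u0]; simp only [lat]
  have h5 : Hn D.p D.v ≤ 3 * L * log 2 := h4 ▸ by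
    exact_mod_cast T.t4.cube L D.v D.T hp fun ω _ => (box ω).2.1
  have h6 : Hn D.p D.c = Hn D.p D.th := e1.hn_congr hp (Det.fst _ _ _)
    fun a b _ _ e => Prod.ext e rfl
  have h7 : Hc D.p D.v D.th ≤ Hn D.p D.v := e1.hc_le _ _ hp
  have h8 : Hc D.p D.v D.c = Hc D.p D.v D.th := e1.hc_congr hp (Det.fst _ _ _)
    (fun a b _ _ e => Prod.ext e rfl) (Det.fst _ _ _) (Det.fst _ _ _)
  have h9 : Hc D.p D.v D.th = (Hn D.p fun ω => (D.v ω, D.th ω)) - Hn D.p D.th := rfl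
  have hΛ0 : 0 ≤ Λ := by linarith
  have h10 : 0 ≤ (s - 3) * L * log 2 := by have := log_two_pos; have := sub_nonneg.2 hs; positivity
  rw [← hΛ]
  refine ⟨S, inferInstance, D, ⟨hp, fun ω _ => box ω, fun ω _ => lat ω, fun a b _ _ e => ?_, ?_, ?_,
    fun i hi => ?_⟩, ?_⟩
  · rw [hD] at e ⊢
    exact congrArg (fun k : ℕ × Unit => (k.1 : ℝ) / 2 ^ L) e
  · push_cast; linarith
  · linarith
  · have g1 : Hn D.p (D.ln i) ≤ log (C * 2 ^ (s * i)) := by
      have := RedCX.hn_le hp (fun u => (flo i u.1, flo i u.2.1)) (hS.stk i hi)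
      rwa [hD] at this ⊢
    rw [log_mul hC.ne' (by positivity), log_rpow two_pos] at g1
    have g2 := e1.tri (fun ω => flo L (D.v ω)) (fun ω => flo i (D.v ω)) D.T hp
    have g3 := T.t4.sub i L D.v (fun ω => (flo i (D.v ω), D.T ω)) hp hi (Det.fst _ _ _)
    have g4 := e1.symm (fun ω => flo i (D.a ω)) (fun ω => flo i (D.v ω)) D.T hp
    have g5 := e1.chain (fun ω => flo i (D.a ω)) (fun ω => flo i (D.v ω)) D.T hp
    have g6 := e1.hc_le (fun ω => (flo i (D.a ω), flo i (D.v ω))) D.T hp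
    have g7 : (s - 3) * i * log 2 ≤ (s - 3) * L * log 2 := by
      have := log_two_pos; have := sub_nonneg.2 hs; gcongr
    have g8 : Hn D.p (D.ln i) = Hn D.p fun ω => (flo i (D.a ω), flo i (D.v ω)) := rfl
    push_cast at g3
    linarith
  · have g1 : Hn D.p (fun ω => (D.th ω, flo L (D.X ω))) ≤ log (C * 2 ^ (d * L)) := by
      have := RedCX.hn_le hp
        (fun u => (u.2.2, flo L (u.1 + ((u.2.2 : ℝ) / 2 ^ L) • u.2.1))) hS.few
      rwa [hD] at this ⊢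
    rw [log_mul hC.ne' (by positivity), log_rpow two_pos] at g1
    have g2 : Hn D.p (fun ω => (flo L (D.X ω), D.c ω)) ≤
        Hn D.p (fun ω => (D.th ω, flo L (D.X ω))) := e1.hn_mono hp fun a b _ _ e => by
      obtain ⟨e1, e2⟩ := Prod.ext_iff.1 e
      exact Prod.ext e2 (Prod.ext e1 rfl)
    unfold Hc
    linarith

theorem sTop (a : SRedA) (b : SRedB) (c : SRedC) : STop := by
  intro hlb K Λ hΛ hK
  have h4 : dimH K ≤ 4 := by
    have := dimH_mono (Set.subset_univ K)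
    rwa [Real.dimH_univ_eq_finrank, finrank_euclideanSpace_fin] at this
  refine le_antisymm h4 (not_lt.1 fun hlt => ?_)
  obtain ⟨d₀, d1, d2⟩ := ENNReal.lt_iff_exists_nnreal_btwn.1 hlt
  obtain ⟨d, d3, d4, d5⟩ : ∃ d : ℝ≥0, d₀ ≤ d ∧ (1 : ℝ) ≤ d ∧ (d : ℝ) < 4 :=
    ⟨max d₀ 1, le_max_left _ _, by exact_mod_cast le_max_right _ _, by
      have : d₀ < 4 := by exact_mod_cast d2
      exact_mod_cast max_lt this (by norm_num)⟩
  have h0 := hausdorffMeasure_of_dimH_lt (d1.trans_le (ENNReal.coe_le_coe.2 d3))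
  obtain ⟨e, he, L₀, hL⟩ := ef_iff.1 (hlb ((4 - d) / 2) (by linarith))
  obtain ⟨K', V, A, h1, h2⟩ := a K Λ d (3 + e / 2) hΛ hK d.2 h0 (by linarith)
  obtain ⟨C, hC⟩ := b K' V A d _ (by linarith) h1 h2
  obtain ⟨z, z0, z1, z2⟩ : ∃ z : ℝ, 0 < z ∧ z ≤ e / 2 ∧ z ≤ (4 - d) / 8 :=
    ⟨min (e / 2) ((4 - d) / 8), lt_min (by linarith) (by linarith), min_le_left _ _, min_le_right _ _⟩
  obtain ⟨e', he', L₁, hL₁⟩ := ef_iff.1 ((ef_log (show 0 < z / 16 by positivity)).and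
    (ef_const (2 * log C) (half_pos z0)))
  obtain ⟨L, l1, S, hS⟩ := hC (L₀ + L₁ + 1)
  obtain ⟨Ω, _, D, hD, ht⟩ := c S L C _ d (by omega) (by linarith) hS
  obtain ⟨g1, g2⟩ := hL₁ L (by omega) 0 (by positivity)
  dsimp only at g1 g2
  have l2 : (1 : ℝ) ≤ L := by exact_mod_cast (by omega : 1 ≤ L)
  have g3 : 2 * log (C * L ^ 4) ≤ z * L := by
    have u1 : C ≠ 0 := by
      rintro rfl
      have u2 := hS.big
      have u3 : (0 : ℝ) < 2 ^ (4 * L) := by positivity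
      simp only [zero_mul] at u2
      linarith
    have u2 : log L ≤ log (L + 1) := log_le_log (by linarith) (by linarith)
    rw [log_mul u1 (by positivity), log_pow]
    push_cast
    linarith
  have g4 : e / 2 * L * log 2 ≤ e / 2 * L * 1 :=
    mul_le_mul_of_nonneg_left log_two_le_one (by positivity)
  have g5 := mul_le_mul_of_nonneg_right z1 (by linarith : (0 : ℝ) ≤ L)
  have g6 := mul_le_mul_of_nonneg_right z2 (by linarith : (0 : ℝ) ≤ L)
  have g7 := hL L (by omega) _ (by nlinarith) D hD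
  have g8 : (4 - d) * L * (1 / 2) ≤ (4 - d) * L * log 2 :=
    mul_le_mul_of_nonneg_left half_le_log_two (by nlinarith)
  have g9 : 0 < (4 - d : ℝ) * L := by nlinarith
  push_cast at g7
  nlinarith

end Vale.Agent.P127
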