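import Vale.Agent.P127.Num

/-! Sticky Kakeya sets in four dimensions: radial projections, iteration of the heavy tube bound. -/

namespace Vale.Agent.P127

open Vale.Agent.P118
open scoped RealInnerProductSpace
open Real Classical Module

namespace RpX

variable {n : ℕ}

theorem p2 (j : ℕ) : (2⁻¹ : ℝ) ^ j = (2 : ℝ) ^ (-(j : ℝ)) := by
  rw [rpow_neg zero_le_two, rpow_natCast, inv_pow]

theorem r2 {x y : ℝ} (h : x ≤ y) : (2 : ℝ) ^ x ≤ 2 ^ y :=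
  rpow_le_rpow_of_exponent_le one_le_two h

theorem r1 {x : ℝ} (h : 0 ≤ x) : 1 ≤ (2 : ℝ) ^ x := one_le_rpow one_le_two h

theorem opp_ne {x y : Eu (n + 1)} (h : Opp x y) : y 0 ≠ x 0 := fun e => by
  have := h.1
  rw [e, sub_self, abs_zero] at this
  linarith

theorem dev_zero {x y : Eu (n + 1)} (h : Opp x y) : dev (sl x y) (y - x) = 0 := by
  rw [geo2.dev_sl _ _ _ (opp_ne h), geo2.sl_comm y, sub_self, smul_zero]

theorem tube_comm {x y : Eu (n + 1)} (h : Opp x y) (r : ℝ) : tube y x r = tube x y r := by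
  ext z
  have e : z - y = (z - x) - (y - x) := by abel
  simp only [tube, Set.mem_ofPred_eq]
  rw [geo2.sl_comm y, e, geo2.dev_sub, dev_zero h, sub_zero]

theorem plate_tube {x y z c : Eu (n + 1)} {V : Submodule ℝ (Eu (n + 1))} {ρ : ℝ} (h : Opp x y)
    (hx : ‖x‖ ≤ 2) (hz : ‖z‖ ≤ 2) (hρ : ρ ≤ 1 / 20) (hV : finrank ℝ V ≤ 1) (px : x ∈ plate c V ρ)
    (py : y ∈ plate c V ρ) (pz : z ∈ plate c V ρ) : z ∈ tube x y (100 * ρ) := by
  have key : ∀ w ∈ plate c V ρ, ‖prj V (w - x)‖ ≤ 2 * ρ := fun w hw => by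
    rw [show w - x = (w - c) - (x - c) by abel, la.prj_sub]
    exact (norm_sub_le _ _).trans ((add_le_add hw px).trans_eq (two_mul ρ).symm)
  have dv : ∀ u, ‖dev (sl x y) u‖ ≤ 5 / 4 * ‖u‖ := fun u => (geo2.norm_dev _ _).trans
    (mul_le_mul_of_nonneg_right (by linarith [h.2.2.1]) (norm_nonneg _))
  obtain ⟨v, hv⟩ := finrank_le_one_iff.1 hV
  obtain ⟨s, hs⟩ := hv ⟨_, la.sub_prj V (z - x)⟩
  obtain ⟨t, ht⟩ := hv ⟨_, la.sub_prj V (y - x)⟩
  have hs' : s • (v : Eu (n + 1)) = z - x - prj V (z - x) := congrArg Subtype.val hs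
  have ht' : t • (v : Eu (n + 1)) = y - x - prj V (y - x) := congrArg Subtype.val ht
  have k1 := key z pz
  have k2 := key y py
  have ρ0 : 0 ≤ ρ := by linarith [norm_nonneg (prj V (z - x))]
  have a1 : ‖s • (v : Eu (n + 1))‖ ≤ 5 := by
    rw [hs']
    linarith [norm_sub_le (z - x) (prj V (z - x)), norm_sub_le z x]
  have a2 : 3 / 4 ≤ ‖t • (v : Eu (n + 1))‖ := by
    have b1 := geo2.abs_zero (y - x)
    rw [PiLp.sub_apply, abs_sub_comm] at b1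
    rw [ht']
    linarith [norm_sub_norm_le (y - x) (prj V (y - x)), h.1]
  have a3 : ‖dev (sl x y) (t • (v : Eu (n + 1)))‖ ≤ 5 / 2 * ρ := by
    rw [ht', geo2.dev_sub, dev_zero h, zero_sub, norm_neg]
    linarith [dv (prj V (y - x))]
  have a4 : ‖dev (sl x y) (s • (v : Eu (n + 1)))‖ * ‖t • (v : Eu (n + 1))‖ =
      ‖dev (sl x y) (t • (v : Eu (n + 1)))‖ * ‖s • (v : Eu (n + 1))‖ := by
    simp only [geo2.dev_smul, norm_smul]
    ring
  have a5 := mul_le_mul a3 a1 (norm_nonneg _) (by positivity)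
  have a6 := mul_le_mul_of_nonneg_left a2 (norm_nonneg (dev (sl x y) (s • (v : Eu (n + 1)))))
  have a7 : dev (sl x y) (z - x) =
      dev (sl x y) (s • (v : Eu (n + 1))) + dev (sl x y) (prj V (z - x)) := by
    rw [← geo2.dev_add, hs', sub_add_cancel]
  change ‖dev (sl x y) (z - x)‖ ≤ 100 * ρ
  rw [a7]
  linarith [norm_add_le (dev (sl x y) (s • (v : Eu (n + 1)))) (dev (sl x y) (prj V (z - x))),
    dv (prj V (z - x))]

/-- the mass of a tube -/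
noncomputable def ms (Z : Finset (Eu (n + 1))) (a : Eu (n + 1) → ℝ) (x y : Eu (n + 1)) (r : ℝ) :
    ℝ := ∑ z ∈ Z with z ∈ tube x y r, a z

theorem ms_mono {Z : Finset (Eu (n + 1))} {a : Eu (n + 1) → ℝ} (ha : ∀ x, 0 ≤ a x)
    (x y : Eu (n + 1)) {r r' : ℝ} (h : r ≤ r') : ms Z a x y r ≤ ms Z a x y r' :=
  Finset.sum_le_sum_of_subset_of_nonneg (fun z hz => by
    rw [Finset.mem_filter] at hz ⊢
    exact ⟨hz.1, le_trans (show ‖_‖ ≤ r from hz.2) h⟩) fun z _ _ => ha z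

theorem ms_le {Z : Finset (Eu (n + 1))} {a : Eu (n + 1) → ℝ} (ha : ∀ x, 0 ≤ a x)
    (h : ∑ x ∈ Z, a x ≤ 1) (x y : Eu (n + 1)) (r : ℝ) : ms Z a x y r ≤ 1 :=
  (Finset.sum_le_sum_of_subset_of_nonneg (Finset.filter_subset _ _) fun z _ _ => ha z).trans h

/-- the symmetric hypotheses -/
structure Hy (P : PD n) (N : ℕ) (B η : ℝ) : Prop where
  a0 : ∀ x, 0 ≤ P.a x
  b0 : ∀ x, 0 ≤ P.b x
  sa : ∑ x ∈ P.Z₁, P.a x ≤ 1
  sb : ∑ x ∈ P.Z₂, P.b x ≤ 1
  opp : ∀ x ∈ P.Z₁, ∀ y ∈ P.Z₂, Opp x y ∧ Opp y x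
  fr : ∀ i ≤ N, ∀ x, ∑ y ∈ P.Z₁ with flo i y = flo i x, P.a y ≤ B * 2⁻¹ ^ i ∧
    ∑ y ∈ P.Z₂ with flo i y = flo i x, P.b y ≤ B * 2⁻¹ ^ i
  lt : ∀ x ∈ P.Z₁, ∀ y ∈ P.Z₂, ms P.Z₁ P.a x y ((2 : ℝ) ^ (-η * N)) ≤ B⁻¹ ^ 3 ∧
    ms P.Z₂ P.b x y ((2 : ℝ) ^ (-η * N)) ≤ B⁻¹ ^ 3

theorem Hy.swap {P : PD n} {N : ℕ} {B η : ℝ} (h : Hy P N B η) :
    Hy ⟨P.Z₂, P.Z₁, P.b, P.a, ∅⟩ N B η :=
  ⟨h.b0, h.a0, h.sb, h.sa, fun x hx y hy => (h.opp y hy x hx).symm,
    fun i hi x => (h.fr i hi x).symm, fun x hx y hy => by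
      have := (h.lt y hy x hx).symm
      simp only [ms, ← tube_comm (h.opp y hy x hx).1] at this
      exact this⟩

/-- the numerical conditions of one step -/
structure Nm (τ e : ℝ) (L₀ N : ℕ) (B η w β β' σ σ' : ℝ) : Prop where
  e0 : 0 < e
  τ0 : 0 ≤ τ
  b1 : 100 ≤ B
  b2 : B ≤ (2 : ℝ) ^ (η * N)
  b3 : 1 ≤ e * B
  w0 : 0 < w
  w1 : 2 ≤ w * B ^ 2
  η0 : 0 ≤ η
  β0 : 0 ≤ β
  β1 : 0 ≤ β'
  β2 : 8 * β ≤ e * β'
  η1 : 8 * η ≤ e * β'
  l0 : L₀ ≤ β' * N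
  σ0 : 0 ≤ σ
  σ1 : σ + 2 * τ ≤ 1
  σ2 : σ' ≤ 1
  σ3 : σ' ≤ σ + e / 2

/-- the heavy tube bound with fixed constants -/
def HvAt (n : ℕ) (τ e : ℝ) (L₀ : ℕ) : Prop :=
  ∀ (L : ℕ) (P : PD n) (σ M ρ s₁ w : ℝ), L₀ ≤ L → P.OK 0 L σ 1 M ρ s₁ → 0 ≤ σ →
    σ + 2 * τ ≤ 1 → 0 < w → 1 ≤ M → M ≤ w * (2 : ℝ) ^ (e * L) → (2 : ℝ) ^ (-e * L) ≤ ρ →
    ρ ≤ 1 → 0 ≤ s₁ → s₁ ≤ e * w → ∑ q ∈ P.S, P.a q.1 * P.b q.2 < w

theorem HvAt.mono {τ e e' : ℝ} {L₀ : ℕ} (h : HvAt n τ e L₀) (he : e' ≤ e) : HvAt n τ e' L₀ :=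
  fun L P σ M ρ s₁ w a1 a2 a3 a4 a5 a6 a7 a8 a9 b1 b2 =>
    have k : e' * L ≤ e * L := mul_le_mul_of_nonneg_right he L.cast_nonneg
    h L P σ M ρ s₁ w a1 a2 a3 a4 a5 a6 (a7.trans (mul_le_mul_of_nonneg_left (r2 k) a5.le))
      ((r2 (by linarith)).trans a8) a9 b1 (b2.trans (mul_le_mul_of_nonneg_right he a5.le))

theorem step {τ e : ℝ} {L₀ N i : ℕ} {B η w β β' σ σ' : ℝ} (H : HvAt n τ e L₀)
    (m : Nm τ e L₀ N B η w β β' σ σ') {P : PD n} (h : Hy P N B η) (hi : i ≤ N)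
    (S : Finset (Eu (n + 1) × Eu (n + 1))) (sub : S ⊆ P.Z₁ ×ˢ P.Z₂)
    (thin : ∀ q ∈ S, ∀ j ≤ N, ms P.Z₁ P.a q.1 q.2 (2⁻¹ ^ j) ≤ 2 ^ (β * N) * 2 ^ (-σ * j))
    (heavy : ∀ q ∈ S, 2 ^ (β' * N) * 2 ^ (-σ' * i) < ms P.Z₂ P.b q.1 q.2 (2⁻¹ ^ i)) :
    ∑ q ∈ S, P.a q.1 * P.b q.2 ≤ w := by
  rcases S.eq_empty_or_nonempty with rfl | ⟨q₀, hq₀⟩
  · exact m.w0.le
  have i0 : (0 : ℝ) ≤ i := i.cast_nonneg
  have N0 : (0 : ℝ) ≤ N := N.cast_nonneg
  have B1 := m.b1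
  have e0 := m.e0
  have big : β' * N ≤ i := by
    have k := (heavy q₀ hq₀).trans_le (ms_le h.b0 h.sb _ _ _)
    rw [← rpow_add two_pos, ← rpow_zero 2, rpow_lt_rpow_left_iff one_lt_two] at k
    linarith [mul_le_mul_of_nonneg_right m.σ2 i0]
  have n1 := mul_le_mul_of_nonneg_right m.β2 N0
  have n2 := mul_le_mul_of_nonneg_right m.η1 N0
  have n3 := mul_le_mul_of_nonneg_left big e0.le
  have n4 := mul_nonneg m.η0 N0
  have u1 := r1 (mul_nonneg m.β0 N0)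
  have u2 : 1 ≤ (2 : ℝ) ^ (e * i / 2) := r1 (by positivity)
  obtain ⟨M, hM⟩ : ∃ M, M = 2 * (2 : ℝ) ^ (β * N) * B * 2 ^ (e * i / 2) := ⟨_, rfl⟩
  have M1 : 2 * (2 : ℝ) ^ (β * N) ≤ M := by
    rw [hM, mul_assoc _ B]
    exact le_mul_of_one_le_right (by positivity) (one_le_mul_of_one_le_of_one_le (by linarith) u2)
  have M2 : B ≤ M := by
    rw [hM]
    exact (le_mul_of_one_le_left (by linarith) (by linarith)).trans
      (le_mul_of_one_le_right (by positivity) u2)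
  have M3 : (2 : ℝ) ^ (e * i / 2) ≤ M := by
    rw [hM]
    exact le_mul_of_one_le_left (by positivity)
      (one_le_mul_of_one_le_of_one_le (by linarith) (by linarith))
  have ρ1 : (2 : ℝ) ^ (-η * N) ≤ 1 := rpow_le_one_of_one_le_of_nonpos one_le_two (by linarith)
  refine (H i ⟨P.Z₁, P.Z₂, P.a, P.b, S⟩ σ M (2 ^ (-η * N) / 100) (B⁻¹ ^ 3) w
    (by exact_mod_cast m.l0.trans big) ⟨h.a0, h.b0, h.sa, h.sb, sub,
      fun x hx y hy => (h.opp x hx y hy).1, fun j hj x => ?_, fun q hq r hr => ?_, fun q hq => ?_,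
      fun q hq c V hV h1 h2 => ?_⟩ m.σ0 m.σ1 m.w0 (by linarith) ?_ ?_ (by linarith)
    (by positivity) ?_).le
  · refine (h.fr j (hj.trans hi) x).2.trans ?_
    rw [p2, neg_one_mul]
    exact mul_le_mul_of_nonneg_right M2 (by positivity)
  · have r0 : 0 < r := lt_of_lt_of_le (by positivity) hr
    rcases le_total 1 r with k | k
    · exact (ms_le h.a0 h.sa _ _ _).trans
        (one_le_mul_of_one_le_of_one_le (by linarith) (one_le_rpow k m.σ0))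
    obtain ⟨j, j1, j2⟩ := exists_nat_pow_near_of_lt_one r0 k (y := 2⁻¹) (by norm_num) (by norm_num)
    have ji : j ≤ i := (pow_le_pow_iff_right_of_lt_one₀ (by norm_num) (by norm_num)).1 (hr.trans j2)
    refine ((ms_mono h.a0 _ _ j2).trans (thin q hq j (ji.trans hi))).trans ?_
    have k1 : (2 : ℝ) ^ (-σ * j) ≤ 2 * r ^ σ := by
      rw [show -σ * j = -(j : ℝ) * σ by ring, rpow_mul zero_le_two, ← p2]
      refine (rpow_le_rpow (y := 2 * r) (by positivity) (by rw [pow_succ] at j1; linarith)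
        m.σ0).trans ?_
      rw [mul_rpow zero_le_two r0.le]
      refine mul_le_mul_of_nonneg_right ?_ (by positivity)
      exact (r2 (by linarith [m.σ1, m.τ0])).trans_eq (rpow_one 2)
    calc _ ≤ (2 : ℝ) ^ (β * N) * (2 * r ^ σ) := mul_le_mul_of_nonneg_left k1 (by positivity)
      _ = 2 * 2 ^ (β * N) * r ^ σ := by ring
      _ ≤ _ := mul_le_mul_of_nonneg_right M1 (by positivity)
  · have k1 : (2 : ℝ) ^ (-σ' * i) ≤ ms P.Z₂ P.b q.1 q.2 (3 * (n + 1) * 2⁻¹ ^ i) :=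
      ((le_mul_of_one_le_left (by positivity) (r1 (mul_nonneg m.β1 N0))).trans
        (heavy q hq).le).trans (ms_mono h.b0 _ _ (le_mul_of_one_le_left (by positivity)
          (by linarith [n.cast_nonneg (α := ℝ)])))
    refine le_trans ?_ (mul_le_mul M3 k1 (by positivity) (by linarith))
    rw [← rpow_add two_pos]
    exact r2 (by linarith [mul_le_mul_of_nonneg_right m.σ3 i0])
  · obtain ⟨q1, q2⟩ := Finset.mem_product.1 (sub hq)
    refine le_trans (Finset.sum_le_sum_of_subset_of_nonneg (fun z hz => ?_) fun z _ _ => h.a0 z)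
      (h.lt _ q1 _ q2).1
    rw [Finset.mem_filter] at hz ⊢
    have := plate_tube (h.opp _ q1 _ q2).1 (h.opp _ q1 _ q2).2.2.2.2 (h.opp _ hz.1 _ q2).2.2.2.2
      (by linarith) hV h1 h2 hz.2
    rw [mul_div_cancel₀ _ (by norm_num)] at this
    exact ⟨hz.1, this⟩
  · have k1 : B ^ 3 * 2 ^ (β * N) * 2 ^ (e * i / 2) ≤ (2 : ℝ) ^ (e * i) := by
      refine le_trans (mul_le_mul_of_nonneg_right (mul_le_mul_of_nonneg_right
        (pow_le_pow_left₀ (by linarith) m.b2 3) (by positivity)) (by positivity)) ?_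
      rw [← rpow_natCast, ← rpow_mul zero_le_two, ← rpow_add two_pos, ← rpow_add two_pos]
      refine r2 ?_
      push_cast
      linarith
    have k2 := mul_le_mul_of_nonneg_right m.w1
      (show 0 ≤ (2 : ℝ) ^ (β * N) * B * 2 ^ (e * i / 2) by positivity)
    have k3 := mul_le_mul_of_nonneg_left k1 m.w0.le
    rw [hM]
    linarith
  · rw [le_div_iff₀ (by norm_num)]
    refine (mul_le_mul_of_nonneg_left (B1.trans m.b2) (by positivity)).trans ?_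
    rw [← rpow_add two_pos]
    exact r2 (by linarith)
  · rw [inv_pow, inv_eq_one_div, div_le_iff₀ (by positivity)]
    have := mul_le_mul m.b3 m.w1 zero_le_two (by positivity)
    linarith

theorem union {α ι : Type} (S : Finset α) (J : Finset ι) (p : ι → α → Prop) (f : α → ℝ) (w : ℝ)
    (f0 : ∀ q, 0 ≤ f q) (cov : ∀ q ∈ S, ∃ j ∈ J, p j q)
    (h : ∀ j ∈ J, ∀ S' ⊆ S, (∀ q ∈ S', p j q) → ∑ q ∈ S', f q ≤ w) :
    ∑ q ∈ S, f q ≤ J.card * w := by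
  rw [← nsmul_eq_mul, ← Finset.sum_const]
  refine le_trans ?_ (Finset.sum_le_sum fun j hj => h j hj (S.filter (p j))
    (Finset.filter_subset _ _) fun q hq => (Finset.mem_filter.1 hq).2)
  simp only [Finset.sum_filter]
  rw [Finset.sum_comm]
  refine Finset.sum_le_sum fun q hq => ?_
  obtain ⟨j, hj, k⟩ := cov q hq
  refine le_trans (if_pos k).ge (Finset.single_le_sum (f := fun j => if p j q then f q else 0)
    (fun j _ => ?_) hj)
  split_ifs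
  exacts [f0 q, le_rfl]

theorem main {τ e : ℝ} {L₀ N K : ℕ} {B η w : ℝ} {β σ : ℕ → ℝ} (H : HvAt n τ e L₀)
    (m : ∀ k < K, Nm τ e L₀ N B η w (β k) (β (k + 1)) (σ k) (σ (k + 1))) {P : PD n}
    (h : Hy P N B η) (sub : P.S ⊆ P.Z₁ ×ˢ P.Z₂) (β0 : 0 ≤ β 0) (σ0 : σ 0 = 0)
    (last : ∀ q ∈ P.S, 2 ^ (β K * N) * 2 ^ (-σ K * N) < ms P.Z₂ P.b q.1 q.2 (2⁻¹ ^ N)) :
    ∑ q ∈ P.S, P.a q.1 * P.b q.2 ≤ (K * (N + 1) * 2 : ℕ) * w := by
  let T : ℕ → Eu (n + 1) × Eu (n + 1) → Prop := fun k q => ∀ j ≤ N,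
    ms P.Z₁ P.a q.1 q.2 (2⁻¹ ^ j) ≤ 2 ^ (β k * N) * 2 ^ (-σ k * j) ∧
    ms P.Z₂ P.b q.1 q.2 (2⁻¹ ^ j) ≤ 2 ^ (β k * N) * 2 ^ (-σ k * j)
  refine (union P.S ((Finset.range K ×ˢ Finset.range (N + 1)) ×ˢ (Finset.univ : Finset Bool))
    (fun j q => T j.1.1 q ∧ 2 ^ (β (j.1.1 + 1) * N) * 2 ^ (-σ (j.1.1 + 1) * j.1.2) <
      bif j.2 then ms P.Z₁ P.a q.1 q.2 (2⁻¹ ^ j.1.2) else ms P.Z₂ P.b q.1 q.2 (2⁻¹ ^ j.1.2)) _ w
    (fun q => mul_nonneg (h.a0 _) (h.b0 _)) (fun q hq => ?_) ?_).trans_eq (by simp)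
  · have t0 : T 0 q := fun j _ => by
      rw [σ0, neg_zero, zero_mul, rpow_zero, mul_one]
      have := r1 (mul_nonneg β0 N.cast_nonneg)
      exact ⟨(ms_le h.a0 h.sa _ _ _).trans this, (ms_le h.b0 h.sb _ _ _).trans this⟩
    obtain ⟨k, k1, k2, k3⟩ : ∃ k < K, T k q ∧ ¬T (k + 1) q := by
      by_contra hn
      push Not at hn
      have : ∀ k ≤ K, T k q := fun k => k.rec (fun _ => t0) fun k ih hk =>
        hn k hk (ih (Nat.le_of_succ_le hk))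
      exact absurd (this K le_rfl N le_rfl).2 (not_le.2 (last q hq))
    simp only [T, not_forall, not_and_or, not_le] at k3
    obtain ⟨j, j1, j2 | j2⟩ := k3
    · exact ⟨((k, j), true), by simp [k1, j1], k2, j2⟩
    · exact ⟨((k, j), false), by simp [k1, j1], k2, j2⟩
  · rintro ⟨⟨k, i⟩, s⟩ hj S' hS' hp
    simp only [Finset.mem_product, Finset.mem_range, Nat.lt_succ_iff] at hj
    have op : ∀ q ∈ S', Opp q.1 q.2 := fun q hq =>
      (h.opp _ (Finset.mem_product.1 (sub (hS' hq))).1 _ (Finset.mem_product.1 (sub (hS' hq))).2).1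
    cases s
    · exact step H (m k hj.1.1) h hj.1.2 _ (hS'.trans sub)
        (fun q hq j hj => ((hp q hq).1 j hj).1) fun q hq => (hp q hq).2
    · refine le_of_eq_of_le ?_ (step H (m k hj.1.1) h.swap hj.1.2
        (S'.map (Equiv.prodComm _ _).toEmbedding) (fun q hq => ?_) (fun q hq j hj => ?_)
        fun q hq => ?_)
      · rw [Finset.sum_map]
        exact Finset.sum_congr rfl fun q _ => mul_comm _ _
      all_goals obtain ⟨r, hr, rfl⟩ := Finset.mem_map.1 hq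
      · exact Finset.mem_product.2 (Finset.mem_product.1 (sub (hS' hr))).symm
      · have := ((hp r hr).1 j hj).2
        simp only [ms, ← tube_comm (op r hr)] at this
        exact this
      · have := (hp r hr).2
        simp only [ms, ← tube_comm (op r hr)] at this
        exact this

end RpX

open RpX in
theorem sRp (hv : SHv) : SRp := by
  intro n c₀ hn hc₀
  obtain ⟨c, c0, c1, c2⟩ : ∃ c : ℝ, 0 < c ∧ c ≤ c₀ ∧ c ≤ 1 / 2 :=
    ⟨min c₀ (1 / 2), by positivity, min_le_left _ _, min_le_right _ _⟩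
  obtain ⟨e₀, L₀, he₀, H₀⟩ := hv n (c / 4) hn (by positivity) (by linarith)
  obtain ⟨e, e0, e1, H⟩ : ∃ e : ℝ, 0 < e ∧ e ≤ 1 ∧ HvAt n (c / 4) e L₀ :=
    ⟨min e₀ 1, by positivity, min_le_right _ _, HvAt.mono H₀ (min_le_left _ _)⟩
  obtain ⟨K, hK⟩ := exists_nat_ge (2 / e)
  rw [div_le_iff₀ e0] at hK
  have K0 : (0 : ℝ) < K := pos_of_mul_pos_right (by linarith) e0.le
  obtain ⟨b, hb⟩ : ∃ b, b = c / 4 * (e / 8) ^ K := ⟨_, rfl⟩
  have b0 : 0 < b := by rw [hb]; positivity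
  obtain ⟨N₀, hN₀⟩ := exists_nat_ge (10 + 8 * K + L₀ / b)
  refine ⟨e / 8 * b, N₀, by positivity, fun N hN P B B1 B2 a0 b0' sa sb sub opp fr lt hs => ?_⟩
  have hN' : 10 + 8 * K + L₀ / b ≤ N := hN₀.trans (by exact_mod_cast hN)
  have l0 : 0 ≤ L₀ / b := by positivity
  have l1 : L₀ ≤ b * N := by
    rw [mul_comm, ← div_le_iff₀ b0]
    linarith
  have B3 : 4 * K * (N + 1) ≤ B := by nlinarith
  have B4 : 100 ≤ B := by nlinarith
  have B0 : 0 < B := by linarith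
  have N0 : (0 : ℝ) < N := by linarith
  have mb : ∀ k, b ≤ c / 4 * (e / 8) ^ (K - k) := fun k => by
    rw [hb]
    exact mul_le_mul_of_nonneg_left (pow_le_pow_of_le_one (by positivity) (by linarith)
      (Nat.sub_le K k)) (by positivity)
  refine (main (K := K) (w := (2 * B * K * (N + 1))⁻¹) (β := fun k => c / 4 * (e / 8) ^ (K - k))
    (σ := fun k => min (k * e / 2) (1 - c / 2)) H (fun k hk => ?_)
    ⟨a0, b0', sa, sb, opp, fr, lt⟩ sub (by positivity) (by simp; linarith) fun q hq => ?_).trans_eq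
    (by push_cast; field_simp)
  · refine ⟨e0, by positivity, B4, B2, by nlinarith, by positivity, ?_, by positivity,
      by positivity, by positivity, ?_, ?_,
      l1.trans (mul_le_mul_of_nonneg_right (mb _) N0.le), le_min (by positivity) (by linarith),
      by linarith [min_le_right (k * e / 2) (1 - c / 2)], (min_le_right _ _).trans (by linarith), ?_⟩
    · rw [← div_eq_inv_mul, le_div_iff₀ (by positivity)]
      nlinarith
    · rw [show K - k = K - (k + 1) + 1 by omega, pow_succ]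
      exact le_of_eq (by ring)
    · linarith [mul_le_mul_of_nonneg_left (mb (k + 1)) e0.le]
    · rw [← min_add_add_right]
      exact min_le_min (le_of_eq (by push_cast; ring)) (by linarith)
  · refine lt_of_lt_of_le ?_ (hs q hq)
    rw [← rpow_add two_pos, rpow_lt_rpow_left_iff one_lt_two, Nat.sub_self, pow_zero,
      min_eq_right (by linarith)]
    nlinarith

end Vale.Agent.P127
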