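import Vale.Agent.P127.Num

/-! The radial projection estimate for graphs. -/

namespace Vale.Agent.P127

open Vale.Agent.P118
open scoped RealInnerProductSpace
open Real Classical Module

namespace RqX

variable {n : ℕ}

theorem img_le {α β : Type} {_ : DecidableEq β} {Z T : Finset α} {A : α → β} {Ai : β → α}
    (h : ∀ z, Ai (A z) = z) {P : β → Prop} {_ : DecidablePred P} {μ : α → ℝ} (hμ : ∀ x, 0 ≤ μ x)
    (hT : ∀ z ∈ Z, P (A z) → z ∈ T) : ∑ y ∈ Z.image A with P y, μ (Ai y) ≤ ∑ z ∈ T, μ z := by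
  rw [Finset.filter_image, Finset.sum_image (Function.LeftInverse.injective h).injOn]
  simp only [h]
  exact Finset.sum_le_sum_of_subset_of_nonneg
    (fun z hz => hT z (Finset.mem_filter.1 hz).1 (Finset.mem_filter.1 hz).2) fun z _ _ => hμ z

theorem le_img {α β : Type} {_ : DecidableEq β} {Z T : Finset α} {A : α → β} {Ai : β → α}
    (h : ∀ z, Ai (A z) = z) {P : β → Prop} {_ : DecidablePred P} {μ : α → ℝ} (hμ : ∀ x, 0 ≤ μ x)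
    (hT : ∀ z ∈ T, z ∈ Z ∧ P (A z)) : ∑ z ∈ T, μ z ≤ ∑ y ∈ Z.image A with P y, μ (Ai y) := by
  rw [Finset.filter_image, Finset.sum_image (Function.LeftInverse.injective h).injOn]
  simp only [h]
  exact Finset.sum_le_sum_of_subset_of_nonneg
    (fun z hz => Finset.mem_filter.2 (hT z hz)) fun z _ _ => hμ z

/-- the normalising affine map -/
noncomputable def am (o : ℝ × Eu n) (δ : ℝ) (w : Eu n) (z : ℝ × Eu n) : Eu (n + 1) :=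
  cons ((z.1 - o.1) / δ) (z.2 - o.2 - (z.1 - o.1) • w)

/-- its inverse -/
noncomputable def ai (o : ℝ × Eu n) (δ : ℝ) (w : Eu n) (y : Eu (n + 1)) : ℝ × Eu n :=
  (o.1 + δ * y 0, o.2 + (δ * y 0) • w + tl y)

theorem am_zero (o : ℝ × Eu n) (δ : ℝ) (w : Eu n) (z : ℝ × Eu n) :
    am o δ w z 0 = (z.1 - o.1) / δ := geo2_cons_zero _ _

theorem am_tl (o : ℝ × Eu n) (δ : ℝ) (w : Eu n) (z : ℝ × Eu n) :
    tl (am o δ w z) = z.2 - o.2 - (z.1 - o.1) • w := geo2_tl_cons _ _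

theorem ai_am (o : ℝ × Eu n) {δ : ℝ} (hδ : δ ≠ 0) (w : Eu n) (z : ℝ × Eu n) :
    ai o δ w (am o δ w z) = z := by
  unfold ai
  rw [am_zero, am_tl, mul_div_cancel₀ _ hδ]
  refine Prod.ext (by simp) ?_
  show o.2 + (z.1 - o.1) • w + (z.2 - o.2 - (z.1 - o.1) • w) = z.2
  abel

theorem am_dev (o : ℝ × Eu n) {δ : ℝ} (hδ : δ ≠ 0) (w : Eu n) {x y : ℝ × Eu n}
    (h : y.1 - x.1 ≠ 0) (z : ℝ × Eu n) :
    dev (sl (am o δ w x) (am o δ w y)) (am o δ w z - am o δ w x) =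
      z.2 - x.2 - (z.1 - x.1) • (y.1 - x.1)⁻¹ • (y.2 - x.2) := by
  have h' : x.1 - y.1 ≠ 0 := fun e => h (by linarith)
  have h1 : ((x.1 - o.1) / δ - (y.1 - o.1) / δ)⁻¹ = δ / (x.1 - y.1) := by
    rw [← sub_div, inv_div]
    ring_nf
  unfold dev sl
  rw [geo2_tl_sub, geo2_tl_sub, PiLp.sub_apply]
  simp only [am_zero, am_tl, h1]
  ext k
  simp only [PiLp.sub_apply, PiLp.smul_apply, smul_eq_mul]
  field_simp
  ring

theorem norm_le_add (z : Eu (n + 1)) : ‖z‖ ≤ |z 0| + ‖tl z‖ := by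
  have h := geo2_norm_sq z
  have h1 := abs_nonneg (z 0)
  have h2 := norm_nonneg (tl z)
  refine (pow_le_pow_iff_left₀ (norm_nonneg _) (by positivity) two_ne_zero).1 ?_
  nlinarith [sq_abs (z 0), mul_nonneg h1 h2]

theorem am_small {o z : ℝ × Eu n} {δ : ℝ} {w : Eu n} {b : ℕ} (hδ : 2⁻¹ ^ b ≤ |δ|)
    (hw : ‖w‖ ≤ √n * 2 ^ b) (hb : 16 * (1 + 2 * √n) ≤ (2 : ℝ) ^ b)
    (h1 : fl (2 * b) z.1 = fl (2 * b) o.1) (h2 : flo (2 * b) z.2 = flo (2 * b) o.2) :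
    ‖am o δ w z‖ ≤ 1 / 16 := by
  have p : (0 : ℝ) < 2⁻¹ ^ b := by positivity
  have e : (2⁻¹ : ℝ) ^ b * 2 ^ b = 1 := by rw [← mul_pow]; norm_num
  have e2 : (2⁻¹ : ℝ) ^ (2 * b) = 2⁻¹ ^ b * 2⁻¹ ^ b := by rw [two_mul, pow_add]
  have p1 : (2⁻¹ : ℝ) ^ b ≤ 1 := pow_le_one₀ (by norm_num) (by norm_num)
  have s := sqrt_nonneg (n : ℝ)
  have a1 := fl_same h1
  have a2 := geo1.same_norm h2
  rw [e2] at a1 a2
  have a3 : |(z.1 - o.1) / δ| ≤ 2⁻¹ ^ b := by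
    rw [abs_div, div_le_iff₀ (p.trans_le hδ)]
    exact a1.trans (mul_le_mul_of_nonneg_left hδ p.le)
  have a4 : ‖(z.1 - o.1) • w‖ ≤ √n * 2⁻¹ ^ b := by
    rw [norm_smul, Real.norm_eq_abs]
    refine (mul_le_mul a1 hw (norm_nonneg _) (by positivity)).trans (le_of_eq ?_)
    linear_combination (√n * 2⁻¹ ^ b) * e
  have a5 := norm_sub_le (z.2 - o.2) ((z.1 - o.1) • w)
  have a6 : √n * (2⁻¹ ^ b * 2⁻¹ ^ b) ≤ √n * (2⁻¹ : ℝ) ^ b :=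
    mul_le_mul_of_nonneg_left (mul_le_of_le_one_right p.le p1) s
  have a7 := mul_le_mul_of_nonneg_left hb p.le
  have a8 := norm_le_add (am o δ w z)
  rw [am_zero, am_tl] at a8
  linarith

theorem am_shift {o o' : ℝ × Eu n} (h : o'.1 - o.1 ≠ 0) (z : ℝ × Eu n) :
    am o (o'.1 - o.1) ((o'.1 - o.1)⁻¹ • (o'.2 - o.2)) z - e0 n =
      am o' (o'.1 - o.1) ((o'.1 - o.1)⁻¹ • (o'.2 - o.2)) z := by
  ext k
  refine Fin.cases ?_ (fun j => ?_) k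
  · rw [PiLp.sub_apply, am_zero, am_zero, geo2_e0_zero]
    field_simp
    ring
  · simp only [am, e0, cons, PiLp.sub_apply, Fin.cons_succ, PiLp.smul_apply, smul_eq_mul,
      PiLp.zero_apply]
    field_simp
    ring

theorem opp_of {x y : Eu (n + 1)} (hx : ‖x‖ ≤ 1 / 16) (hy : ‖y - e0 n‖ ≤ 1 / 16) :
    Opp x y ∧ Opp y x := by
  obtain ⟨⟨h1, h2⟩, h3, -⟩ := geo2.sl_near x y x y hx hy hx hy
  have h4 : |y 0 - x 0| = y 0 - x 0 := abs_of_nonneg (by linarith)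
  have h5 : ‖y‖ ≤ 2 := by
    have := norm_add_le (y - e0 n) (e0 n)
    rw [sub_add_cancel, geo2.norm_e0] at this
    linarith
  refine ⟨⟨?_, ?_, by linarith, h5⟩, ?_, ?_, ?_, by linarith⟩
  · rwa [abs_sub_comm, h4]
  · rwa [abs_sub_comm, h4]
  · rwa [h4]
  · rwa [h4]
  · rw [geo2.sl_comm]
    linarith

theorem three {Z : Finset (ℝ × Eu n)} {μ : ℝ × Eu n → ℝ} (hμ : ∀ x, 0 ≤ μ x) {i : ℕ} {M : ℝ}
    (h : ∀ k : ℤ, ∑ x ∈ Z with fl i x.1 = k, μ x ≤ M) (s : ℝ) :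
    ∑ x ∈ Z with |x.1 - s| ≤ 2⁻¹ ^ i, μ x ≤ 3 * M := by
  have h1 : ∀ x ∈ Z.filter fun x => |x.1 - s| ≤ 2⁻¹ ^ i,
      fl i x.1 ∈ Finset.Icc (fl i s - 1) (fl i s + 1) := by
    intro x hx
    have h2 := abs_le.1 (Finset.mem_filter.1 hx).2
    have p : (0 : ℝ) < 2 ^ i := by positivity
    have e : (2 : ℝ) ^ i * 2⁻¹ ^ i = 1 := by rw [← mul_pow]; norm_num
    have h3 := mul_le_mul_of_nonneg_left h2.1 p.le
    have h4 := mul_le_mul_of_nonneg_left h2.2 p.le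
    unfold fl
    rw [Finset.mem_Icc, ← Int.floor_sub_one, ← Int.floor_add_one]
    exact ⟨Int.floor_le_floor (by linarith), Int.floor_le_floor (by linarith)⟩
  rw [← Finset.sum_fiberwise_of_maps_to h1]
  refine (Finset.sum_le_card_nsmul _ _ M fun k _ => le_trans ?_ (h k)).trans (le_of_eq ?_)
  · exact Finset.sum_le_sum_of_subset_of_nonneg
      (Finset.filter_subset_filter _ (Finset.filter_subset _ _)) fun x _ _ => hμ x
  · rw [Int.card_Icc, show fl i s + 1 + 1 - (fl i s - 1) = 3 by ring, nsmul_eq_mul]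
    rfl

theorem card_cl (Z : Finset (ℝ × Eu n)) (hZ : ∀ x ∈ Z, 0 ≤ x.1 ∧ x.1 < 1 ∧ InC x.2) (j : ℕ) :
    ((Z.image fun x => (fl j x.1, flo j x.2)).card : ℝ) ≤ 2 ^ (j * (n + 1)) := by
  have h1 : (Z.image fun x => (fl j x.1, flo j x.2)) ⊆
      Finset.Ico (0 : ℤ) (2 ^ j) ×ˢ Z.image fun x => flo j x.2 := by
    intro u hu
    obtain ⟨x, hx, rfl⟩ := Finset.mem_image.1 hu
    exact Finset.mem_product.2 ⟨Finset.mem_Ico.2 (fl_mem (hZ x hx).1 (hZ x hx).2.1),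
      Finset.mem_image_of_mem _ hx⟩
  have h2 := geo1.card_sub 0 j (Z.image fun x => flo j x.2) 0 (Nat.zero_le _) fun u hu => by
    obtain ⟨x, hx, rfl⟩ := Finset.mem_image.1 hu
    exact ⟨geo1.flo_flo _ le_rfl, ((hZ x hx).2.2.flo j).flo_zero⟩
  have h3 : ((Finset.Ico (0 : ℤ) (2 ^ j)).card : ℝ) = 2 ^ j := by
    have : ((Finset.Ico (0 : ℤ) (2 ^ j)).card : ℤ) = 2 ^ j := by
      rw [Int.card_Ico_of_le _ _ (by positivity), sub_zero]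
    exact_mod_cast this
  have h4 : ((Z.image fun x => (fl j x.1, flo j x.2)).card : ℝ) ≤ _ :=
    Nat.cast_le.2 (Finset.card_le_card h1)
  rw [Finset.card_product, Nat.cast_mul, h3] at h4
  refine h4.trans ((mul_le_mul_of_nonneg_left h2 (by positivity)).trans (le_of_eq ?_))
  rw [Nat.sub_zero, ← pow_succ', ← pow_mul]

theorem cls {N b : ℕ} {B ρ ρ' r r' hv M : ℝ}
    (hrp : ∀ P : PD n, (∀ x, 0 ≤ P.a x) → (∀ x, 0 ≤ P.b x) → ∑ x ∈ P.Z₁, P.a x ≤ 1 →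
      ∑ x ∈ P.Z₂, P.b x ≤ 1 → P.S ⊆ P.Z₁ ×ˢ P.Z₂ → (∀ x ∈ P.Z₁, ∀ y ∈ P.Z₂, Opp x y ∧ Opp y x) →
      (∀ i ≤ N, ∀ x, ∑ y ∈ P.Z₁ with flo i y = flo i x, P.a y ≤ B * 2⁻¹ ^ i ∧
        ∑ y ∈ P.Z₂ with flo i y = flo i x, P.b y ≤ B * 2⁻¹ ^ i) →
      (∀ x ∈ P.Z₁, ∀ y ∈ P.Z₂, ∑ z ∈ P.Z₁ with z ∈ tube x y ρ', P.a z ≤ B⁻¹ ^ 3 ∧
        ∑ z ∈ P.Z₂ with z ∈ tube x y ρ', P.b z ≤ B⁻¹ ^ 3) →
      (∀ q ∈ P.S, hv ≤ ∑ z ∈ P.Z₂ with z ∈ tube q.1 q.2 r', P.b z) →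
      ∑ q ∈ P.S, P.a q.1 * P.b q.2 ≤ B⁻¹)
    (hb : 16 * (1 + 2 * √n) ≤ (2 : ℝ) ^ b) (hρ : ρ' ≤ ρ) (hr : r ≤ r') (hM : 3 * M ≤ B)
    {Z₁ Z₂ : Finset (ℝ × Eu n)} {μ ν : ℝ × Eu n → ℝ} {S : Finset ((ℝ × Eu n) × ℝ × Eu n)}
    (hμ : ∀ x, 0 ≤ μ x) (hν : ∀ x, 0 ≤ ν x) (s1 : ∑ x ∈ Z₁, μ x ≤ 1) (s2 : ∑ x ∈ Z₂, ν x ≤ 1)
    (hS : S ⊆ Z₁ ×ˢ Z₂) (hZ : ∀ x ∈ Z₁ ∪ Z₂, 0 ≤ x.1 ∧ x.1 < 1 ∧ InC x.2)
    (hF : ∀ i ≤ N, ∀ k : ℤ, ∑ x ∈ Z₁ with fl i x.1 = k, μ x ≤ M * 2⁻¹ ^ i ∧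
      ∑ x ∈ Z₂ with fl i x.1 = k, ν x ≤ M * 2⁻¹ ^ i)
    (hL : ∀ β₀ β : Eu n, ‖β‖ ≤ 4 ^ b → ∑ x ∈ Z₁ with ‖x.2 - β₀ - x.1 • β‖ ≤ ρ, μ x ≤ B⁻¹ ^ 3 ∧
      ∑ x ∈ Z₂ with ‖x.2 - β₀ - x.1 • β‖ ≤ ρ, ν x ≤ B⁻¹ ^ 3)
    (hH : ∀ q ∈ S, hv ≤
      ∑ x ∈ Z₂ with fl (2 * b) x.1 = fl (2 * b) q.2.1 ∧ flo (2 * b) x.2 = flo (2 * b) q.2.2 ∧
        ‖x.2 - q.1.2 - (x.1 - q.1.1) • (q.2.1 - q.1.1)⁻¹ • (q.2.2 - q.1.2)‖ ≤ r, ν x)
    {o o' : ℝ × Eu n} (ho : o ∈ Z₁) (ho' : o' ∈ Z₂) (hδ : 2⁻¹ ^ b ≤ |o'.1 - o.1|)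
    (hc : ∀ q ∈ S, (fl (2 * b) q.1.1 = fl (2 * b) o.1 ∧ flo (2 * b) q.1.2 = flo (2 * b) o.2) ∧
      fl (2 * b) q.2.1 = fl (2 * b) o'.1 ∧ flo (2 * b) q.2.2 = flo (2 * b) o'.2) :
    ∑ q ∈ S, μ q.1 * ν q.2 ≤ B⁻¹ := by
  have p : (0 : ℝ) < 2⁻¹ ^ b := by positivity
  have e : (2⁻¹ : ℝ) ^ b * 2 ^ b = 1 := by rw [← mul_pow]; norm_num
  have s := sqrt_nonneg (n : ℝ)
  have d0 : o'.1 - o.1 ≠ 0 := abs_pos.1 (p.trans_le hδ)
  have z1 : ∀ x ∈ Z₁, 0 ≤ x.1 ∧ x.1 < 1 ∧ InC x.2 := fun x h => hZ x (Finset.mem_union_left _ h)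
  have z2 : ∀ x ∈ Z₂, 0 ≤ x.1 ∧ x.1 < 1 ∧ InC x.2 := fun x h => hZ x (Finset.mem_union_right _ h)
  have d1 : |o'.1 - o.1| ≤ 1 :=
    abs_le.2 ⟨by linarith [(z1 o ho).2.1, (z2 o' ho').1], by linarith [(z1 o ho).1, (z2 o' ho').2.1]⟩
  have slope : ∀ x ∈ Z₁, ∀ y ∈ Z₂, ∀ κ : ℝ, 0 < κ → κ * 2⁻¹ ^ b ≤ |y.1 - x.1| →
      κ * ‖(y.1 - x.1)⁻¹ • (y.2 - x.2)‖ ≤ √n * 2 ^ b := fun x hx y hy κ hκ h => by
    have q : 0 < |y.1 - x.1| := (mul_pos hκ p).trans_le h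
    rw [norm_smul, norm_inv, Real.norm_eq_abs, ← div_eq_inv_mul, ← mul_div_assoc, div_le_iff₀ q]
    have a1 := mul_le_mul_of_nonneg_left ((z2 y hy).2.2.norm_sub_le (z1 x hx).2.2) hκ.le
    have a2 := mul_le_mul_of_nonneg_left h (show 0 ≤ √n * 2 ^ b by positivity)
    have a3 : √n * 2 ^ b * (κ * 2⁻¹ ^ b) = κ * √n := by linear_combination (κ * √n) * e
    linarith
  have hw := slope o ho o' ho' 1 one_pos (by rwa [one_mul])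
  rw [one_mul] at hw
  have sh := am_shift d0
  generalize (o'.1 - o.1)⁻¹ • (o'.2 - o.2) = w at hw sh
  generalize o'.1 - o.1 = δ at hδ d0 d1 sh
  have inv := ai_am o d0 w
  obtain ⟨Y₁, hY₁⟩ : ∃ Y : Finset (ℝ × Eu n), ∀ x, x ∈ Y ↔ x ∈ Z₁ ∧
      fl (2 * b) x.1 = fl (2 * b) o.1 ∧ flo (2 * b) x.2 = flo (2 * b) o.2 :=
    ⟨Z₁.filter _, fun x => Finset.mem_filter⟩
  obtain ⟨Y₂, hY₂⟩ : ∃ Y : Finset (ℝ × Eu n), ∀ x, x ∈ Y ↔ x ∈ Z₂ ∧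
      fl (2 * b) x.1 = fl (2 * b) o'.1 ∧ flo (2 * b) x.2 = flo (2 * b) o'.2 :=
    ⟨Z₂.filter _, fun x => Finset.mem_filter⟩
  have op : ∀ x ∈ Y₁, ∀ y ∈ Y₂, Opp (am o δ w x) (am o δ w y) ∧ Opp (am o δ w y) (am o δ w x) :=
    fun x hx y hy => opp_of (am_small hδ hw hb ((hY₁ x).1 hx).2.1 ((hY₁ x).1 hx).2.2)
      (by rw [sh]; exact am_small hδ hw hb ((hY₂ y).1 hy).2.1 ((hY₂ y).1 hy).2.2)
  have far : ∀ x ∈ Y₁, ∀ y ∈ Y₂, 7 / 8 * 2⁻¹ ^ b ≤ |y.1 - x.1| := fun x hx y hy => by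
    have a1 := (op x hx y hy).2.1
    rw [am_zero, am_zero, ← sub_div, abs_div, le_div_iff₀ (p.trans_le hδ),
      sub_sub_sub_cancel_right] at a1
    linarith
  have ne : ∀ x ∈ Y₁, ∀ y ∈ Y₂, y.1 - x.1 ≠ 0 := fun x hx y hy =>
    abs_pos.1 (lt_of_lt_of_le (by positivity) (far x hx y hy))
  have hSY : ∀ q ∈ S, q.1 ∈ Y₁ ∧ q.2 ∈ Y₂ := fun q hq =>
    ⟨(hY₁ _).2 ⟨(Finset.mem_product.1 (hS hq)).1, (hc q hq).1⟩,
      (hY₂ _).2 ⟨(Finset.mem_product.1 (hS hq)).2, (hc q hq).2⟩⟩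
  have tot : ∀ {Y Z : Finset (ℝ × Eu n)} {m : ℝ × Eu n → ℝ}, (∀ x, 0 ≤ m x) → (∀ x ∈ Y, x ∈ Z) →
      ∑ y ∈ Y.image (am o δ w), m (ai o δ w y) ≤ ∑ x ∈ Z, m x := fun hm h => by
    rw [Finset.sum_image (Function.LeftInverse.injective inv).injOn]
    simp only [inv]
    exact Finset.sum_le_sum_of_subset_of_nonneg h fun x _ _ => hm x
  have fro : ∀ {Y Z : Finset (ℝ × Eu n)} {m : ℝ × Eu n → ℝ} {i : ℕ}, (∀ x, 0 ≤ m x) →
      (∀ x ∈ Y, x ∈ Z) → (∀ k : ℤ, ∑ x ∈ Z with fl i x.1 = k, m x ≤ M * 2⁻¹ ^ i) → ∀ x,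
      ∑ y ∈ Y.image (am o δ w) with flo i y = flo i x, m (ai o δ w y) ≤ B * 2⁻¹ ^ i := by
    intro Y Z m i hm h hk x
    refine (img_le inv hm fun z hz hf => ?_).trans ((three hm hk (o.1 + δ * x 0)).trans ?_)
    · refine Finset.mem_filter.2 ⟨h z hz, ?_⟩
      have a1 := geo1.same_coord hf 0
      have a2 : z.1 - (o.1 + δ * x 0) = δ * ((z.1 - o.1) / δ - x 0) := by
        field_simp
        ring
      rw [am_zero] at a1
      rw [a2, abs_mul]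
      exact (mul_le_mul d1 a1 (abs_nonneg _) zero_le_one).trans (one_mul _).le
    · rw [← mul_assoc]
      exact mul_le_mul_of_nonneg_right hM (by positivity)
  have lig : ∀ {Y Z : Finset (ℝ × Eu n)} {m : ℝ × Eu n → ℝ}, (∀ x, 0 ≤ m x) →
      (∀ x ∈ Y, x ∈ Z) → ∀ x ∈ Y₁, ∀ y ∈ Y₂,
      ∑ z ∈ Y.image (am o δ w) with z ∈ tube (am o δ w x) (am o δ w y) ρ', m (ai o δ w z) ≤
      ∑ z ∈ Z with ‖z.2 - (x.2 - x.1 • (y.1 - x.1)⁻¹ • (y.2 - x.2)) -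
        z.1 • (y.1 - x.1)⁻¹ • (y.2 - x.2)‖ ≤ ρ, m z := by
    intro Y Z m hm h x hx y hy
    refine img_le inv hm fun z hz hf => Finset.mem_filter.2 ⟨h z hz, ?_⟩
    have a1 : ‖dev _ _‖ ≤ ρ' := hf
    rw [am_dev o d0 w (ne x hx y hy), sub_smul] at a1
    refine le_trans (le_of_eq ?_) (a1.trans hρ)
    congr 1
    abel
  have key := hrp ⟨Y₁.image (am o δ w), Y₂.image (am o δ w), fun y => μ (ai o δ w y),
    fun y => ν (ai o δ w y), S.image (Prod.map (am o δ w) (am o δ w))⟩ (fun _ => hμ _)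
    (fun _ => hν _) ((tot hμ fun x h => ((hY₁ x).1 h).1).trans s1)
    ((tot hν fun x h => ((hY₂ x).1 h).1).trans s2)
    (fun u hu => by
      obtain ⟨q, hq, rfl⟩ := Finset.mem_image.1 hu
      exact Finset.mem_product.2 ⟨Finset.mem_image_of_mem _ (hSY q hq).1,
        Finset.mem_image_of_mem _ (hSY q hq).2⟩)
    (fun x' hx' y' hy' => by
      obtain ⟨x, hx, rfl⟩ := Finset.mem_image.1 hx'
      obtain ⟨y, hy, rfl⟩ := Finset.mem_image.1 hy'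
      exact op x hx y hy)
    (fun i hi x => ⟨fro hμ (fun x h => ((hY₁ x).1 h).1) (fun k => (hF i hi k).1) x,
      fro hν (fun x h => ((hY₂ x).1 h).1) (fun k => (hF i hi k).2) x⟩)
    (fun x' hx' y' hy' => by
      obtain ⟨x, hx, rfl⟩ := Finset.mem_image.1 hx'
      obtain ⟨y, hy, rfl⟩ := Finset.mem_image.1 hy'
      have a1 := slope x ((hY₁ x).1 hx).1 y ((hY₂ y).1 hy).1 _ (by norm_num) (far x hx y hy)
      have a2 : (4 : ℝ) ^ b = 2 ^ b * 2 ^ b := by rw [← mul_pow]; norm_num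
      have a3 := mul_le_mul_of_nonneg_right hb (show (0 : ℝ) ≤ 2 ^ b by positivity)
      have a4 : (0 : ℝ) ≤ √n * 2 ^ b := by positivity
      have a5 : (0 : ℝ) ≤ 2 ^ b := by positivity
      have a6 := hL (x.2 - x.1 • (y.1 - x.1)⁻¹ • (y.2 - x.2)) ((y.1 - x.1)⁻¹ • (y.2 - x.2))
        (by linarith)
      exact ⟨(lig hμ (fun x h => ((hY₁ x).1 h).1) x hx y hy).trans a6.1,
        (lig hν (fun x h => ((hY₂ x).1 h).1) x hx y hy).trans a6.2⟩)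
    (fun u hu => by
      obtain ⟨q, hq, rfl⟩ := Finset.mem_image.1 hu
      refine (hH q hq).trans (le_img inv hν fun z hz => ?_)
      obtain ⟨a1, a2, a3, a4⟩ := Finset.mem_filter.1 hz
      refine ⟨(hY₂ z).2 ⟨a1, a2.trans (hc q hq).2.1, a3.trans (hc q hq).2.2⟩, ?_⟩
      show ‖dev (sl (am o δ w q.1) (am o δ w q.2)) (am o δ w z - am o δ w q.1)‖ ≤ r'
      rw [am_dev o d0 w (ne _ (hSY q hq).1 _ (hSY q hq).2)]
      exact a4.trans hr)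
  have inj := Function.LeftInverse.injective inv
  rw [Finset.sum_image (inj.prodMap inj).injOn] at key
  simpa only [Prod.map_fst, Prod.map_snd, inv] using key

end RqX

open RqX in
theorem sRq (rp : SRp) : SRq := by
  intro n c hn hc
  obtain ⟨η', N₁, hη', hrp⟩ := rp n (c / 2) hn (half_pos hc)
  have l1 := log_two_pos
  have l2 : log 2 ≤ 1 := by linarith [log_two_lt_d9]
  have n0 : (0 : ℝ) ≤ n := Nat.cast_nonneg n
  obtain ⟨K, hK⟩ : ∃ K : ℝ, K = 4 * (n + 1) + 2 := ⟨_, rfl⟩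
  have K6 : 6 ≤ K := by linarith
  obtain ⟨N₂, hN₂⟩ := exists_nat_ge (max (2 * (n + 1) / c) ((16 * (1 + 2 * √n)) ^ 2) : ℝ)
  refine ⟨η' * log 2 / (2 * K), 3 * K, N₁ + N₂ + 2 * (n + 1), by positivity, by positivity,
    fun N hN b hb1 hb2 Z₁ Z₂ μ ν S hμ hν s1 s2 hS hZ hF hL hH => ?_⟩
  obtain ⟨N', rfl⟩ : ∃ N', N = N' + (n + 1) := ⟨N - (n + 1), by omega⟩
  have a1 : N₁ ≤ N' := by omega
  have a2 : (N₂ : ℝ) + (n + 1) ≤ N' := by exact_mod_cast (by omega : N₂ + (n + 1) ≤ N')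
  have a0 : (0 : ℝ) ≤ N₂ := Nat.cast_nonneg _
  have a3 := (le_max_left _ _).trans hN₂
  have a4 := (le_max_right _ _).trans hN₂
  rw [div_le_iff₀ hc] at a3
  have cN : ((N' + (n + 1) : ℕ) : ℝ) = N' + (n + 1) := by push_cast; ring
  rw [cN] at hb1 hb2 hL hH
  have s := sqrt_nonneg (n : ℝ)
  have b1 : 16 * (1 + 2 * √n) ≤ (b : ℝ) :=
    (le_sqrt_of_sq_le (by linarith)).trans hb1
  have b2 : (b : ℝ) ≤ 2 ^ b := by exact_mod_cast Nat.lt_two_pow_self.le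
  have b3 : (N' : ℝ) ≤ (b : ℝ) ^ 2 := by
    have := (sqrt_le_left (by positivity)).1 hb1
    linarith
  have b4 : (b : ℝ) ≤ exp b := by linarith [add_one_le_exp (b : ℝ)]
  have e1 : η' * log 2 / (2 * K) * (N' + (n + 1)) * K ≤ η' * N' * log 2 := by
    have h1 : η' * log 2 / (2 * K) * (N' + (n + 1)) * K = η' * log 2 * ((N' + (n + 1)) / 2) := by
      field_simp
    rw [h1]
    have := mul_le_mul_of_nonneg_left (show ((N' : ℝ) + (n + 1)) / 2 ≤ N' by linarith)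
      (mul_pos hη' l1).le
    linarith
  have e2 : η' * log 2 / (2 * K) * (N' + (n + 1)) ≤ η' * N' := by
    have h1 : 0 ≤ η' * log 2 / (2 * K) * (N' + (n + 1)) := by positivity
    have h2 := le_mul_of_one_le_right h1 (show 1 ≤ K by linarith)
    have h3 := mul_le_mul_of_nonneg_left l2 (show 0 ≤ η' * N' by positivity)
    linarith
  have B1 : (N' : ℝ) ^ 2 ≤ exp (K * b) := by
    calc (N' : ℝ) ^ 2 ≤ ((b : ℝ) ^ 2) ^ 2 := pow_le_pow_left₀ (by positivity) b3 2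
      _ = (b : ℝ) ^ 4 := by ring
      _ ≤ exp b ^ 4 := pow_le_pow_left₀ (by positivity) b4 4
      _ = exp (4 * b) := by rw [← exp_nat_mul]; norm_num
      _ ≤ _ := exp_le_exp.2 (mul_le_mul_of_nonneg_right (by linarith) (by positivity))
  have B2 : exp (K * b) ≤ (2 : ℝ) ^ (η' * N') := by
    rw [rpow_def_of_pos two_pos]
    have := mul_le_mul_of_nonneg_right hb2 (show 0 ≤ K by linarith)
    exact exp_le_exp.2 (by linarith)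
  have B3 : 3 * exp b ≤ exp (K * b) := by
    calc 3 * exp b ≤ exp b * exp b := mul_le_mul_of_nonneg_right (by linarith) (exp_pos _).le
      _ = exp (2 * b) := by rw [← exp_add, two_mul]
      _ ≤ _ := exp_le_exp.2 (mul_le_mul_of_nonneg_right (by linarith) (by positivity))
  have B4 : exp (-(3 * K) * b) = (exp (K * b))⁻¹ ^ 3 := by
    rw [← exp_neg, ← exp_nat_mul]
    congr 1
    push_cast
    ring
  have r1 : ((n : ℝ) + 1) * 2⁻¹ ^ (N' + (n + 1)) ≤ 2⁻¹ ^ N' := by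
    have h1 : ((n : ℝ) + 1) ≤ 2 ^ (n + 1) := by exact_mod_cast Nat.lt_two_pow_self.le
    have h2 : (2 : ℝ) ^ (n + 1) * 2⁻¹ ^ (n + 1) = 1 := by rw [← mul_pow]; norm_num
    have h3 := mul_le_mul_of_nonneg_right h1
      (show (0 : ℝ) ≤ 2⁻¹ ^ N' * 2⁻¹ ^ (n + 1) by positivity)
    rw [pow_add]
    refine h3.trans (le_of_eq ?_)
    linear_combination (2⁻¹ ^ N' : ℝ) * h2
  have r2 : (2 : ℝ) ^ (-(1 - c / 2) * N') ≤ 2 ^ (-(1 - c) * (N' + (n + 1))) := by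
    refine rpow_le_rpow_of_exponent_le one_le_two ?_
    have h1 := mul_le_mul_of_nonneg_right (show (N₂ : ℝ) ≤ N' by linarith) hc.le
    have h2 : 0 ≤ c * (n + 1) := by positivity
    linarith
  have r3 : (2 : ℝ) ^ (-η' * N') ≤ 2 ^ (-(η' * log 2 / (2 * K)) * (N' + (n + 1))) :=
    rpow_le_rpow_of_exponent_le one_le_two (by linarith)
  rw [B4] at hL
  have hm : ∀ q ∈ S, ((fl (2 * b) q.1.1, flo (2 * b) q.1.2), fl (2 * b) q.2.1, flo (2 * b) q.2.2) ∈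
      ((Z₁ ∪ Z₂).image fun x => (fl (2 * b) x.1, flo (2 * b) x.2)) ×ˢ
        (Z₁ ∪ Z₂).image fun x => (fl (2 * b) x.1, flo (2 * b) x.2) := fun q hq =>
    Finset.mem_product.2
      ⟨Finset.mem_image_of_mem _ (Finset.mem_union_left _ (Finset.mem_product.1 (hS hq)).1),
        Finset.mem_image_of_mem _ (Finset.mem_union_right _ (Finset.mem_product.1 (hS hq)).2)⟩
  rw [← Finset.sum_fiberwise_of_maps_to hm]
  refine (Finset.sum_le_card_nsmul _ _ (exp (K * b))⁻¹ fun u _ => ?_).trans ?_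
  · rcases (S.filter fun q => ((fl (2 * b) q.1.1, flo (2 * b) q.1.2), fl (2 * b) q.2.1,
      flo (2 * b) q.2.2) = u).eq_empty_or_nonempty with h | ⟨q, hq⟩
    · rw [h, Finset.sum_empty]
      positivity
    · obtain ⟨q1, q2⟩ := Finset.mem_filter.1 hq
      refine cls (hrp N' a1 · _ B1 B2) (b1.trans b2) r3 r1 B3 hμ hν s1 s2
        ((Finset.filter_subset _ _).trans hS) hZ (fun i hi => hF i (by omega)) hL
        (fun q hq => r2.trans (hH q (Finset.mem_filter.1 hq).1).2)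
        (Finset.mem_product.1 (hS q1)).1 (Finset.mem_product.1 (hS q1)).2 (hH q q1).1
        fun q' hq' => ?_
      have h1 := (Finset.mem_filter.1 hq').2.trans q2.symm
      simpa only [Prod.mk.injEq] using h1
  · have h1 := card_cl (Z₁ ∪ Z₂) hZ (2 * b)
    have h2 : (2 : ℝ) ^ (2 * b * (n + 1)) ≤ exp (2 * b * (n + 1)) := by
      have h3 : (2 : ℝ) ≤ exp 1 := by linarith [add_one_le_exp (1 : ℝ)]
      refine (pow_le_pow_left₀ two_pos.le h3 _).trans (le_of_eq ?_)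
      rw [← exp_nat_mul]
      congr 1
      push_cast
      ring
    have h3 := h1.trans h2
    rw [nsmul_eq_mul, Finset.card_product, Nat.cast_mul]
    refine (mul_le_mul_of_nonneg_right (mul_le_mul h3 h3 (Nat.cast_nonneg _) (exp_pos _).le)
      (by positivity)).trans (le_of_eq ?_)
    rw [← exp_neg, ← exp_add, ← exp_add, hK]
    congr 1
    ring

end Vale.Agent.P127
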