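import Vale.Agent.P127.Num

/-! Sticky Kakeya sets in four dimensions: two directions through a point are separated. -/

namespace Vale.Agent.P127

open Vale.Agent.P118
open scoped RealInnerProductSpace
open Real Classical Module

theorem sNod (cut : SCut) (full : SFull) : SNod := by
  intro m σ hc u ζ hu hζ
  obtain ⟨e, he, hf⟩ := ef_use1 (full m σ hc ζ hζ)
  filter_upwards [hf, cut m σ hc u e hu he] with x h1 h2 Ω Tt Θ _ D Ev i j hE hD hij hj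
  exact (h1 _ le_rfl (D.cut Ev) (h2 D Ev hE hD).1).dl i j hij hj

namespace SepX

variable {Ω Tt Θ γ : Type} [Fintype Ω] {m L : ℕ} {D : Cf Ω Tt Θ m} {E σ : ℝ}

noncomputable def qq (D : Cf Ω Tt Θ m) (Z : Ω → γ) (j : ℕ) : Ω × Ω → ℝ :=
  res D.p fun ω => (flo j (D.X ω), D.c ω, Z ω)

noncomputable def D2 (D : Cf Ω Tt Θ m) (Z : Ω → γ) (j : ℕ) : Cf (Ω × Ω) Tt Θ m :=
  D.lab (qq D Z j) Prod.snd fun z => D.th z.2

theorem isP (h : D.OK L E) (Z : Ω → γ) (j : ℕ) : IsP (qq D Z j) := e3.isP_res _ h.isP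

theorem sup {Z : Ω → γ} {j : ℕ} {z : Ω × Ω} (hz : qq D Z j z ≠ 0) :
    D.p z.2 ≠ 0 ∧ flo j (D.X z.1) = flo j (D.X z.2) ∧ D.c z.1 = D.c z.2 := by
  obtain ⟨-, h2, h3⟩ := e3.res_ne (p := D.p) (g := fun ω => (flo j (D.X ω), D.c ω, Z ω)) hz
  simp only [Prod.mk.injEq] at h3
  exact ⟨h2, h3.1, h3.2.1⟩

theorem low (T : Tools) (h : D.OK L E) (Z : Ω → γ) (i j : ℕ) :
    Hc D.p (fun ω => flo i (D.v ω)) (fun ω => (flo j (D.X ω), D.c ω)) ≤
      Hc D.p Z (fun ω => (flo j (D.X ω), D.c ω)) +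
        Hc (qq D Z j) (fun z => flo i (D.v z.2)) fun z => z.1 := by
  have h1 : Hc (qq D Z j) (fun z => flo i (D.v z.2)) (fun z => z.1) = _ :=
    (T.t1.ci0 (fun ω => (flo j (D.X ω), D.c ω, Z ω)) (fun ω => flo i (D.v ω)) (fun ω => ω) h.isP
      fun x y _ _ (e : x = y) => by simp only [e]).1
  have h2 := e1.tri (fun ω => flo i (D.v ω)) Z (fun ω => (flo j (D.X ω), D.c ω)) h.isP
  have h3 : Hc D.p (fun ω => flo i (D.v ω)) (fun ω => (Z ω, flo j (D.X ω), D.c ω)) ≤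
      Hc D.p (fun ω => flo i (D.v ω)) fun ω => (flo j (D.X ω), D.c ω, Z ω) := by
    refine e1.hc_mono h.isP (fun x y _ _ e => ?_) (Det.fst _ _ _)
    simp only [Prod.mk.injEq] at e ⊢
    exact ⟨e.2.1, e.2.2, e.1⟩
  linarith

theorem near (T : Tools) {q : Ω × Ω → ℝ} (hq : IsP q) (v : Ω → Eu m) (i : ℕ)
    (h0 : Pr q (fun z => ‖v z.2 - v z.1‖ ≤ 2⁻¹ ^ i) ≠ 0) :
    Hc (cnd q fun z => ‖v z.2 - v z.1‖ ≤ 2⁻¹ ^ i) (fun z => flo i (v z.2)) (fun z => z.1) ≤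
      m * log 2 + CE m := by
  refine T.t3.nearA i (fun z : Ω × Ω => v z.2) _ 2 (e2.isP_cnd hq h0) one_le_two
    fun x y hx hy (e : x.1 = y.1) => ?_
  have h1 := (e2.cnd_ne hx).2
  have h2 := (e2.cnd_ne hy).2
  have h3 := norm_sub_le_norm_sub_add_norm_sub (v x.2) (v x.1) (v y.2)
  rw [← e, norm_sub_rev] at h2
  linarith

theorem ext2 (T : Tools) (lab : SLab) (h : D.Ext σ L E) (Z : Ω → γ) (j : ℕ) :
    (D2 D Z j).Ext σ L E := by
  have hm : MP (qq D Z j) Prod.snd D.p := T.t1.mp_snd _ h.1.isP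
  have h1 : Hc (qq D Z j) (fun z => D.l z.2) (D2 D Z j).c = _ := T.t1.mp D.l D.c hm
  have h2 := (lab D (qq D Z j) Prod.snd (fun z => D.th z.2) L E 0 hm (fun _ _ _ _ e => e)
    (sub_nonpos.2 h1.ge) h.1).2.1 σ h
  rwa [add_zero] at h2

theorem far {Z : Ω → γ} {i j : ℕ} (hij : i ≤ j) (hi : i ≤ L) (Ev : Ω × Ω → Prop)
    (h : ((D2 D Z j).cut Ev).Full σ L E) :
    Hc (cnd (qq D Z j) Ev) (fun z => flo i (D.v z.2)) (fun z => z.1) ≤ σ * i * log 2 + E := by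
  have h1 : Hc (cnd (qq D Z j) Ev) (fun z => D.ln i z.2)
      (fun z => (flo i (D.X z.2), D.c z.2)) ≤ _ := h.du i hi
  have hp : IsP (cnd (qq D Z j) Ev) := h.ok.isP
  refine le_trans (e1.hc_mono hp (fun x y hx hy (e : x.1 = y.1) => ?_) fun x y _ _ e => ?_) h1
  · obtain ⟨-, h2, h3⟩ := sup (e2.cnd_ne hx).1
    obtain ⟨-, h4, h5⟩ := sup (e2.cnd_ne hy).1
    exact Prod.ext (flo_of_flo hij (by rw [← h2, ← h4, e])) (by rw [← h3, ← h5, e])
  · exact (Prod.ext_iff.1 (Prod.ext_iff.1 e).1).2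

theorem cap (T : Tools) (h : D.OK L E) (Z : Ω → γ) (i j : ℕ) (Ev : Ω × Ω → Prop) {u : ℝ}
    (hu : Pr (qq D Z j) Ev ≤ u) :
    Pr (qq D Z j) Ev * Hc (cnd (qq D Z j) Ev) (fun z => flo i (D.v z.2)) (fun z => z.1) ≤
      u * (m * i * log 2) := by
  have h0 := e1.pr_nonneg Ev (isP h Z j)
  have hl := log_two_pos
  have h2 : (0 : ℝ) ≤ m * i * log 2 := by positivity
  rcases h0.eq_or_lt with h1 | h1
  · rw [← h1, zero_mul]; exact mul_nonneg (h0.trans hu) h2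
  · have h3 := T.t4.cube i (fun z : Ω × Ω => D.v z.2) (fun z => z.1)
      (e2.isP_cnd (isP h Z j) h1.ne') fun z hz => (h.box _ (sup (e2.cnd_ne hz).1).1).2.1
    exact (mul_le_mul_of_nonneg_left h3 h0).trans (mul_le_mul_of_nonneg_right hu h2)

end SepX

theorem sSep (T : Tools) (lab : SLab) (cut : SCut) (full : SFull) : SSep := by
  intro m σ hc κ ζ hκ hζ
  have hσ := hc.pos
  obtain ⟨w, hw, hw1, hw2⟩ : ∃ w : ℝ, 0 < w ∧ w ≤ ζ ∧ w ≤ 1 / 2 :=
    ⟨min ζ (1 / 2), by positivity, min_le_left _ _, min_le_right _ _⟩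
  have hz : 0 < w * σ * κ / 10 := by positivity
  have hu : 0 < σ / (2 * (m + 1)) := by positivity
  obtain ⟨e, he, hf⟩ := ef_use1 (full m σ hc _ hz)
  filter_upwards [hf, cut m σ hc _ e hu he, full m σ hc _ hz,
    ef_lin zero_le_one (2 + m * log 2 + CE m) hz]
    with x h1 h2 h3 h4 Ω Tt Θ γ _ D Z i j hD hi hij hj hZ
  have hL0 : (0 : ℝ) ≤ x.2 := by positivity
  refine mul_le_mul_of_nonneg_right (le_of_not_gt fun hP => ?_) hL0
  have hq := SepX.isP hD.1 Z j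
  obtain ⟨Ev, hEv⟩ : ∃ Ev : Ω × Ω → Prop, Ev = fun z => ‖D.v z.2 - D.v z.1‖ ≤ 2⁻¹ ^ i := ⟨_, rfl⟩
  have hP' : ζ < Pr (SepX.qq D Z j) Ev := by rw [hEv]; exact hP
  have k1 := (h3 D hD).dl i j hij hj
  have k2 := SepX.low T hD.1 Z i j
  have k3 := e2.event_up (fun z : Ω × Ω => flo i (D.v z.2)) (fun z => z.1) Ev hq
  have k4 : Hc (cnd (SepX.qq D Z j) Ev) (fun z => flo i (D.v z.2)) (fun z => z.1) ≤
      m * log 2 + CE m := by
    rw [hEv]; exact SepX.near T hq D.v i (by rw [← hEv]; exact (hζ.trans hP').ne')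
  have hl := log_two_pos
  have k5 := mul_le_mul (e1.pr_le_one Ev hq) k4
    (e1.hc_nonneg _ _ (e2.isP_cnd hq (hζ.trans hP').ne')) zero_le_one
  have k6 := e1.pr_not Ev hq
  have hs : (0 : ℝ) ≤ σ * i * log 2 := by positivity
  have hzL := mul_nonneg hz.le hL0
  have k7 : Pr (SepX.qq D Z j) (fun z => ¬Ev z) *
      Hc (cnd (SepX.qq D Z j) fun z => ¬Ev z) (fun z => flo i (D.v z.2)) (fun z => z.1) ≤
      (1 - w) * (σ * i * log 2) + w * σ * κ / 10 * x.2 := by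
    rcases le_total (σ / (2 * (m + 1))) (Pr (SepX.qq D Z j) fun z => ¬Ev z) with h5 | h5
    · have h6 := SepX.far hij (hij.trans hj) _
        (h1 _ le_rfl _ (h2 (SepX.D2 D Z j) _ h5 (SepX.ext2 T lab hD Z j)).1)
      have h7 := mul_le_mul_of_nonneg_left h6 (hu.le.trans h5)
      have h8 := mul_le_mul_of_nonneg_right
        (show Pr (SepX.qq D Z j) (fun z => ¬Ev z) ≤ 1 - w by linarith) hs
      have h9 := mul_le_mul_of_nonneg_right
        (show Pr (SepX.qq D Z j) (fun z => ¬Ev z) ≤ 1 by linarith) hzL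
      linarith
    · have h6 := SepX.cap T hD.1 Z i j _ h5
      have h7 : σ / (2 * (m + 1)) * m ≤ (1 - w) * σ := by
        rw [div_mul_eq_mul_div, div_le_iff₀ (by positivity)]
        have h8 : (0 : ℝ) ≤ m := by positivity
        nlinarith [mul_nonneg (mul_nonneg hσ.le (sub_nonneg.2 hw2)) h8]
      have h8 := mul_le_mul_of_nonneg_right h7 (show (0 : ℝ) ≤ i * log 2 by positivity)
      linarith
  have k8 : κ * x.2 / 2 ≤ i * log 2 := by
    linarith [mul_le_mul_of_nonneg_left half_le_log_two (show (0 : ℝ) ≤ i by positivity)]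
  have k9 := mul_le_mul_of_nonneg_left k8 (mul_pos hw hσ).le
  linarith [log_two_le_one]

end Vale.Agent.P127
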