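import Vale.Agent.P127.Num

/-! Sticky Kakeya sets in four dimensions: moving along the line. -/

namespace Vale.Agent.P127

open Vale.Agent.P118
open scoped RealInnerProductSpace
open Real Classical Module

namespace ShX

theorem up (T : Tools) {Ω Ω' α γ δ κ : Type} [Fintype Ω] [Fintype Ω'] {p : Ω → ℝ} {p' : Ω' → ℝ}
    {pr₁ pr₂ : Ω' → Ω} (f : Ω → α) (C : Ω → γ) (c : Ω → δ) {k : Ω' → κ} (h1 : MP p' pr₁ p)
    (h2 : MP p' pr₂ p) (hk : Det p' k fun z => (f (pr₂ z), c (pr₂ z)))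
    (he : ∀ z, p' z ≠ 0 → C (pr₁ z) = C (pr₂ z) ∧ c (pr₁ z) = c (pr₂ z)) :
    Hc p' (fun z => f (pr₁ z)) k ≤ Hc p C (fun ω => (f ω, c ω)) + Hc p f fun ω => (C ω, c ω) := by
  have a1 := e1.tri (fun z => f (pr₁ z)) (fun z => C (pr₂ z)) k h1.1
  have a2 : Hc p' (fun z => C (pr₂ z)) k ≤ Hc p C (fun ω => (f ω, c ω)) :=
    (e1.hc_mono h1.1 hk (Det.fst _ _ _)).trans (T.t1.mp C (fun ω => (f ω, c ω)) h2).le
  have a3 : Hc p' (fun z => f (pr₁ z)) (fun z => (C (pr₂ z), k z)) ≤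
      Hc p f fun ω => (C ω, c ω) := by
    refine (e1.hc_mono (g' := fun z => (C (pr₁ z), c (pr₁ z))) h1.1 ?_ (Det.fst _ _ _)).trans
      (T.t1.mp f (fun ω => (C ω, c ω)) h1).le
    intro a b ha hb e
    obtain ⟨i1, i2⟩ := Prod.ext_iff.1 e
    have i3 := (Prod.ext_iff.1 (hk a b ha hb i2)).2
    exact Prod.ext (((he a ha).1.trans i1).trans (he b hb).1.symm)
      (((he a ha).2.trans i3).trans (he b hb).2.symm)
  linarith

variable {Ω Tt Θ β γ : Type} [Fintype Ω] {m q L s h : ℕ} {σ E E₁ : ℝ}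

noncomputable def D2 (D : Cf Ω Tt Θ m) (g : Ω → β) : Cf (Ω × Ω) Tt Θ m :=
  D.lab (res D.p g) Prod.snd fun z => D.th z.2

noncomputable def W2 (D : Cf Ω Tt Θ m) (g : Ω → β) (s h : ℕ) :
    Cf (Ω × Ω) (Tt × Eu m × Eu m) (Θ × Eu m × Eu m) m :=
  ((D2 D g).win s h).lab (res D.p g) (fun z => z) fun z => (D.th z.2, D.ln s z.1)

variable {D : Cf Ω Tt Θ m} {Q : Ω → Submodule ℝ (Eu m)} {g : Ω → β} {C : Ω → γ}

theorem d2 (T : Tools) (B : Base) (g : Ω → β) (h1 : D.Ext σ L E) (h2 : D.Gr Q q L E) :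
    (D2 D g).Ext σ L E ∧ (D2 D g).Gr (fun z => Q z.2) q L E := by
  have mp := T.t1.mp_snd g h1.1.isP
  obtain ⟨-, a, b, -⟩ := B.lab D (res D.p g) Prod.snd (fun z => D.th z.2) L E 0 mp
    (Det.refl _ _) (sub_nonpos.2 (T.t1.mp D.l D.c mp).ge) h1.1
  exact ⟨(a σ h1).mono (add_zero E).le, (b Q q h2).mono (add_zero E).le⟩

theorem w2 (T : Tools) (B : Base) (hp : IsP D.p) (hg : Det D.p g fun ω => (C ω, D.c ω))
    (h1 : ((D2 D g).win s h).Ext σ h E₁) (h2 : ((D2 D g).win s h).Gr (fun z => Q z.2) q h E₁)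
    (h3 : Hc D.p C (fun ω => (D.ln s ω, D.c ω)) ≤ E)
    (h4 : Hc D.p (D.ln s) (fun ω => (C ω, D.c ω)) - Hc D.p (D.ln s) g ≤ E) :
    (W2 D g s h).Ext σ h (E₁ + 2 * E) ∧ (W2 D g s h).Gr (fun z => Q z.2) q h (E₁ + 2 * E) := by
  have hP := e3.isP_res g hp
  have a1 := e1.symm ((D2 D g).win s h).l (fun z => D.ln s z.1) ((D2 D g).win s h).c hP
  have a2 : Hc (res D.p g) (fun z => D.ln s z.1) ((D2 D g).win s h).c ≤ _ :=
    up T (D.ln s) C D.c (T.t1.mp_fst g hp) (T.t1.mp_snd g hp)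
      (fun a b _ _ e => Prod.ext (congrArg (·.2.2) e)
        (Prod.ext (congrArg (·.1) e) (congrArg (·.2.1) e)))
      fun z hz => by
        obtain ⟨i1, i2, i3⟩ := e3.res_ne hz
        exact Prod.ext_iff.1 (hg _ _ i1 i2 i3)
  have a3 := (T.t1.ci_le g (D.ln s)
    (fun z => (((D2 D g).win s h).l z, ((D2 D g).win s h).c z)) hp).2 fun a b _ _ e => by
      simp only [Cf.l, Cf.c, Cf.win, D2, Cf.lab, Cf.ln, e]
  have a4 : Hc (res D.p g) ((D2 D g).win s h).l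
      (fun z => (D.ln s z.1, ((D2 D g).win s h).c z)) ≤
      Hc (res D.p g) ((D2 D g).win s h).l (W2 D g s h).c :=
    e1.hc_mono hP (fun a b _ _ e => Prod.ext
      (Prod.ext (congrArg (·.2.1) e) (congrArg (·.1) e)) (congrArg (·.2.2) e)) (Det.fst _ _ _)
  obtain ⟨-, a, b, -⟩ := B.lab ((D2 D g).win s h) (res D.p g) (fun z => z)
    (fun z => (D.th z.2, D.ln s z.1)) h E₁ (2 * E) (T.t1.mp_id hP)
    (fun a b _ _ e => Prod.ext (congrArg (·.1.1) e) (congrArg (·.2) e))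
    (show Hc (res D.p g) ((D2 D g).win s h).l ((D2 D g).win s h).c -
      Hc (res D.p g) ((D2 D g).win s h).l (W2 D g s h).c ≤ 2 * E by linarith) h1.1
  exact ⟨a σ h1, b _ q h2⟩

theorem ent (T : Tools) {t₂ : Ω → ℝ} (hD : D.OK L E) (hg : Det D.p g fun ω => (C ω, D.c ω))
    (h2 : h * log 2 - E ≤ Hc D.p (fun ω => fl (s + h) (t₂ ω)) fun ω => (D.l ω, D.c ω))
    (h3 : Hc D.p C (fun ω => (D.ln s ω, D.c ω)) ≤ E)
    (h4 : Hc D.p (D.ln s) (fun ω => (C ω, D.c ω)) - Hc D.p (D.ln s) g ≤ E) :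
    h * log 2 - 3 * E - 4 ≤ Hc (res D.p g) (fun z => fl h (2 ^ s * (t₂ z.1 - D.t z.1)))
      fun z => (D.l z.1, (W2 D g s h).c z) := by
  have hp := hD.isP
  have hP := e3.isP_res g hp
  have he : ∀ z, res D.p g z ≠ 0 → C z.1 = C z.2 ∧ D.c z.1 = D.c z.2 := fun z hz => by
    obtain ⟨i1, i2, i3⟩ := e3.res_ne hz
    exact Prod.ext_iff.1 (hg _ _ i1 i2 i3)
  have a1 := e1.tri (fun z : Ω × Ω => fl (s + h) (t₂ z.1))
    (fun z => fl h (2 ^ s * (t₂ z.1 - D.t z.1))) (fun z => (D.l z.1, (W2 D g s h).c z)) hP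
  have a2 := T.t3.near1 (s + h) (fun z : Ω × Ω => t₂ z.1)
    (fun z => (fl h (2 ^ s * (t₂ z.1 - D.t z.1)), D.l z.1, (W2 D g s h).c z)) 1 hP zero_le_one
    fun a b ha hb e => by
      have i1 : fl h (2 ^ s * (t₂ a.1 - D.t a.1)) = fl h (2 ^ s * (t₂ b.1 - D.t b.1)) :=
        congrArg (·.1) e
      rw [fl_mul, fl_mul] at i1
      have i2 : D.c a.2 = D.c b.2 := Prod.ext (congrArg (·.2.2.1.1) e) (congrArg (·.2.2.2.1) e)
      have i3 : D.t a.1 = D.t b.1 := hD.det _ _ (e3.res_ne ha).1 (e3.res_ne hb).1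
        (((he a ha).2.trans i2).trans (he b hb).2.symm)
      have i4 := fl_same i1
      rw [i3, sub_sub_sub_cancel_right] at i4
      rwa [one_mul]
  have a3 : Hc (res D.p g) (fun z => fl (s + h) (t₂ z.1))
      (fun z => (D.ln s z.2, D.l z.1, D.c z.1)) ≤
      Hc (res D.p g) (fun z => fl (s + h) (t₂ z.1)) fun z => (D.l z.1, (W2 D g s h).c z) := by
    refine e1.hc_mono hP (fun a b ha hb e => ?_) (Det.fst _ _ _)
    have i1 : D.l a.1 = D.l b.1 := congrArg (·.2.1) e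
    have i2 : D.c a.2 = D.c b.2 :=
      ((he a ha).2.symm.trans (congrArg (·.2.2) e)).trans (he b hb).2
    have i3 : D.ln s a.1 = D.ln s b.1 := congrArg (fun w : Eu m × Eu m => (flo s w.1, flo s w.2)) i1
    exact Prod.ext i1 (Prod.ext (Prod.ext (congrArg (·.1) i2) i3)
      (Prod.ext (congrArg (·.2) i2) (congrArg (·.1) e)))
  have a4 := e1.symm (fun z : Ω × Ω => fl (s + h) (t₂ z.1)) (fun z => D.ln s z.2)
    (fun z => (D.l z.1, D.c z.1)) hP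
  have a5 := T.t1.mp (fun ω => fl (s + h) (t₂ ω)) (fun ω => (D.l ω, D.c ω)) (T.t1.mp_fst g hp)
  have a6 := (T.t1.ci_le g (D.ln s)
    (fun z => (fl (s + h) (t₂ z.1), D.l z.1, D.c z.1)) hp).1 fun a b _ _ e => by simp only [e]
  have a7 : Hc (res D.p g) (fun z => D.ln s z.2) (fun z => (D.l z.1, D.c z.1)) ≤ _ :=
    up T (D.ln s) C D.c (T.t1.mp_snd g hp) (T.t1.mp_fst g hp)
      (fun a b _ _ e => Prod.ext
        (congrArg (fun w : (Eu m × Eu m) × Θ × Tt => (flo s w.1.1, flo s w.1.2)) e)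
        (congrArg (·.2) e)) fun z hz => ⟨(he z hz).1.symm, (he z hz).2.symm⟩
  have a8 := log_le_sub_one_of_pos (show (0 : ℝ) < 2 * 1 + 3 by norm_num)
  linarith

theorem geo {V : Submodule ℝ (Eu m)} {X X₁ X₂ Y φ d₁ d₂ : Eu m} {τ A R : ℝ}
    (h0 : ‖X - (2 : ℝ) ^ s • (X₂ - Y)‖ ≤ A * 2⁻¹ ^ h)
    (h1 : ‖prj V X₁ - φ + τ • d₁‖ ≤ R * 2⁻¹ ^ (s + h))
    (h2 : ‖prj V X₂ - φ + τ • d₂‖ ≤ R * 2⁻¹ ^ (s + h)) :
    ‖prj V X - (2 : ℝ) ^ s • (prj V X₁ - prj V Y) - (2 ^ s * τ) • (d₁ - d₂)‖ ≤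
      (A + 2 * R) * 2⁻¹ ^ h := by
  have e : prj V X - (2 : ℝ) ^ s • (prj V X₁ - prj V Y) - (2 ^ s * τ) • (d₁ - d₂) =
      prj V (X - (2 : ℝ) ^ s • (X₂ - Y)) +
        (2 : ℝ) ^ s • ((prj V X₂ - φ + τ • d₂) - (prj V X₁ - φ + τ • d₁)) := by
    rw [la.prj_sub, la.prj_smul, la.prj_sub]
    module
  have a1 := (la.prj_norm V _).trans h0
  have a2 := (norm_sub_le _ _).trans (add_le_add h2 h1)
  have a3 : (2 : ℝ) ^ s * (R * 2⁻¹ ^ (s + h) + R * 2⁻¹ ^ (s + h)) = 2 * R * 2⁻¹ ^ h := by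
    rw [pow_add, inv_pow, inv_pow]
    field_simp
    ring
  rw [e]
  refine (norm_add_le _ _).trans ?_
  rw [norm_smul, Real.norm_eq_abs, abs_of_pos (by positivity)]
  have a4 := mul_le_mul_of_nonneg_left a2 (show (0 : ℝ) ≤ 2 ^ s by positivity)
  linarith

theorem prob (T : Tools) {p : Ω → ℝ} (hp : IsP p) (g : Ω → β) (Ev : Ω → Prop)
    (F : Ω × Ω → Prop) : Pr (res p g) F - 2 * Pr p (fun ω => ¬Ev ω) ≤
      Pr (res p g) fun z => F z ∧ Ev z.1 ∧ Ev z.2 := by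
  have hP := e3.isP_res g hp
  have a1 := e1.pr_mono (E := F)
    (E' := fun z => (F z ∧ Ev z.1 ∧ Ev z.2) ∨ (¬Ev z.1 ∨ ¬Ev z.2)) hP fun z _ hz => by tauto
  have a2 := e1.pr_or (fun z => F z ∧ Ev z.1 ∧ Ev z.2) (fun z => ¬Ev z.1 ∨ ¬Ev z.2) hP
  have a3 := e1.pr_or (fun z : Ω × Ω => ¬Ev z.1) (fun z => ¬Ev z.2) hP
  have a4 := T.t1.mp_pr (fun ω => ¬Ev ω) (T.t1.mp_fst g hp)
  have a5 := T.t1.mp_pr (fun ω => ¬Ev ω) (T.t1.mp_snd g hp)
  linarith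

end ShX

open ShX in
theorem sSh (T : Tools) (B : Base) (enl : SEnl) : SSh := by
  intro m σ ctx q ng ζ hζ
  have m0 : (0 : ℝ) ≤ m := by positivity
  obtain ⟨κ, κ0, κ1, κ2⟩ : ∃ κ : ℝ, 0 < κ ∧ κ ≤ 1 ∧ m * κ ≤ ζ / 4 := by
    refine ⟨min 1 (ζ / 4 / (m + 1)), by positivity, min_le_left _ _, ?_⟩
    refine (mul_le_mul_of_nonneg_left (min_le_right _ _) m0).trans ?_
    rw [mul_div_assoc', div_le_iff₀ (by positivity)]
    nlinarith
  obtain ⟨ε₃, p3, H3⟩ := ef_use (enl m σ ctx q ng κ κ0) κ0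
  obtain ⟨ε₂, p2, H2⟩ := ef_use (B.cut m σ ctx (κ / 2) ε₃ (half_pos κ0) p3) κ0
  filter_upwards [H3, H2, B.win m σ ctx q (ε₂ / 2) (half_pos p2), ef_lin zero_le_two 0 (half_pos p2),
    ef_lin (show 0 ≤ (m : ℝ) + 1 by positivity) (1 + m + 3 * CE m) (half_pos hζ),
    ef_small (show 0 < κ / 4 by positivity), ef_large 1, ef_lin zero_le_one (2 * m + 3) p3,
    ef_lin (show (0 : ℝ) ≤ 3 by norm_num) 11 (show 0 < ε₃ * (κ / 2) by positivity)]
    with x H3 H2 H1 n1 n2 n3 n4 n5 n6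
  intro Ω Tt Θ Θ₂ γ γ' _ D Q th₂ t₂ G C Dv φ Ev s h hE hG hs d1 d2' d3 i1 i2 i3 hr hv
  obtain ⟨E, L⟩ := x
  dsimp only at *
  have hp := hE.1.isP
  have E0 := hE.1.nonneg
  have c0 := CE_nonneg m
  have L0 : (0 : ℝ) < L := by exact_mod_cast n4
  have hL : (h : ℝ) ≤ L := by exact_mod_cast (Nat.le_add_left h s).trans hs
  have h0 : (0 : ℝ) ≤ h := by positivity
  have R1 : 1 ≤ exp E := one_le_exp E0
  have lg := log_two_le_one
  have lg0 := log_two_pos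
  have κL := mul_le_mul_of_nonneg_right κ2 L0.le
  have ζL := mul_pos hζ L0
  have mh : m * h * log 2 ≤ m * h := mul_le_of_le_one_right (by positivity) lg
  rcases le_total (h : ℝ) (κ * L) with hk | hk
  · have a1 := T.t3.totB h Dv (fun ω => (C ω, D.c ω)) (exp E) hp R1 fun ω hω => (hr ω hω).2.2.1
    rw [log_exp] at a1
    have a2 := mul_le_mul_of_nonneg_left hk m0
    linarith
  set g := fun ω => (G ω, C ω, th₂ ω, D.c ω) with hg
  have gC : Det D.p g fun ω => (C ω, D.c ω) := fun a b _ _ e =>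
    Prod.ext (congrArg (·.2.1) e) (congrArg (·.2.2.2) e)
  have b1 := e1.dp (f := D.ln s) (f' := fun ω => flo h (Dv ω)) (k := fun ω => (C ω, D.c ω)) hp
    (fun a b ha hb e => congrArg (flo h)
      (d2' a b ha hb (Prod.ext (congrArg (·.1) e) (congrArg (·.2.2) e)))) gC
  have k1 : ⌈κ * h⌉₊ ≤ h := Nat.ceil_le.2 (mul_le_of_le_one_left h0 κ1)
  have k2 : ((h - ⌈κ * h⌉₊ : ℕ) : ℝ) = h - ⌈κ * h⌉₊ := Nat.cast_sub k1
  have k3 := Nat.le_ceil (κ * h)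
  have k4 := (Nat.ceil_lt_add_one (show 0 ≤ κ * h by positivity)).le
  have b2 := T.t3.far h (h - ⌈κ * h⌉₊) Dv g (exp E) hp (Nat.sub_le _ _) R1
    fun ω hω => (hr ω hω).2.2.1
  rw [log_exp, k2] at b2
  set F := fun z : Ω × Ω => 2⁻¹ ^ (h - ⌈κ * h⌉₊) ≤ ‖Dv z.2 - Dv z.1‖ with hF
  have hP := e3.isP_res g hp
  by_cases hu : Pr (res D.p g) F ≤ κ
  · have a1 : (m : ℝ) * (h - (h - ⌈κ * h⌉₊)) * log 2 ≤ m * (κ * L + 1) := by
      have j1 := mul_le_mul_of_nonneg_left hL κ0.le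
      refine (mul_le_of_le_one_right (mul_nonneg m0 (by linarith [mul_nonneg κ0.le h0])) lg).trans
        (mul_le_mul_of_nonneg_left (by linarith) m0)
    have a2 := mul_le_mul_of_nonneg_right hu
      (show 0 ≤ m * h * log 2 + m * E + CE m by positivity)
    have a3 := mul_le_mul_of_nonneg_left
      (show m * h * log 2 ≤ m * L from mh.trans (mul_le_mul_of_nonneg_left hL m0)) κ0.le
    have a4 := mul_le_of_le_one_left (show 0 ≤ m * E + CE m by positivity) κ1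
    linarith
  exfalso
  have c1 : Pr D.p (fun ω => ¬Ev ω) ≤ κ / 4 := le_of_mul_le_mul_right (hv.trans n3) L0
  set Ev0 := fun z : Ω × Ω => F z ∧ Ev z.1 ∧ Ev z.2 with hEv
  have c2 : κ / 2 ≤ Pr (res D.p g) Ev0 := by linarith [prob T hp g Ev F, not_le.1 hu]
  obtain ⟨w1, w2'⟩ := d2 T B g hE hG
  obtain ⟨w3, w4⟩ := H1 (D2 D g) _ s h hs w1 w2'
  obtain ⟨w5, w6⟩ := w2 T B hp gC w3 w4 i2 i3
  obtain ⟨w7, w8, -⟩ := H2 h _ hk (show ε₂ / 2 * L + 2 * E ≤ ε₂ * L by linarith) (W2 D g s h) Ev0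
    c2 w5
  have e3L : ε₃ * h ≤ ε₃ * L := mul_le_mul_of_nonneg_left hL p3.le
  have sup : ∀ z, cnd (res D.p g) Ev0 z ≠ 0 → D.p z.1 ≠ 0 ∧ D.p z.2 ≠ 0 ∧ g z.1 = g z.2 ∧
      D.c z.1 = D.c z.2 := fun z hz => by
    obtain ⟨j1, j2, j3⟩ := e3.res_ne (e2.cnd_ne hz).1
    exact ⟨j1, j2, j3, congrArg (·.2.2.2) j3⟩
  have cc : ∀ a b, (W2 D g s h).c a = (W2 D g s h).c b → D.c a.2 = D.c b.2 := fun a b e =>
    Prod.ext (congrArg (·.1.1) e) (congrArg (·.2.1) e)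
  have ex : 2 * (m + 1) + 2 * exp E ≤ exp (ε₃ * L) := by
    have j1 := add_one_le_exp (2 * (m : ℝ) + 3)
    have j2 : exp (2 * m + 3) * exp E ≤ exp (ε₃ * L) := by
      rw [← exp_add]
      exact exp_le_exp.2 (by linarith)
    nlinarith
  refine H3 h (ε₃ * L) hk le_rfl ((W2 D g s h).cut Ev0) (fun z => Q z.2) (fun z => D.l z.1)
    (fun z => (2 : ℝ) ^ s • (prj (Q z.2) (D.X z.1) -
      prj (Q z.2) (flo s (D.a z.2) + D.t z.2 • flo s (D.v z.2))))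
    (fun z => Dv z.1 - Dv z.2) (fun z => 2 ^ s * (t₂ z.1 - D.t z.1)) (h - ⌈κ * h⌉₊) h
    (w7.mono e3L) ((w8 _ q w6).mono e3L) (by rw [k2]; linarith) le_rfl
    (fun a b ha hb e => ?_) (fun a b ha hb e => ?_) (fun z hz => ?_) ?_
  · obtain ⟨j1, j2, -, j3⟩ := sup a ha
    obtain ⟨l1, l2, -, l3⟩ := sup b hb
    have j4 := cc a b e
    have j5 : Dv a.1 = Dv b.1 :=
      d2' _ _ j1 l1 (Prod.ext (congrArg (·.1.2) e) ((j3.trans j4).trans l3.symm))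
    have j6 : Dv a.2 = Dv b.2 := d2' _ _ j2 l2 (Prod.ext (congrArg (·.2.2) e) j4)
    simp only [j5, j6]
  · obtain ⟨j1, j2, -, j3⟩ := sup a ha
    obtain ⟨l1, l2, -, l3⟩ := sup b hb
    have j4 := cc a b (congrArg (·.2) e)
    have j5 : D.X a.1 = D.X b.1 :=
      hE.1.det_X _ _ j1 l1 (Prod.ext (congrArg (·.1) e) ((j3.trans j4).trans l3.symm))
    have j6 : flo s (D.a a.2) = flo s (D.a b.2) := congrArg (·.2.2.2.1) e
    have j7 : flo s (D.v a.2) = flo s (D.v b.2) := congrArg (·.2.2.2.2) e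
    simp only [j5, j6, j7, hG.1 _ _ j2 l2 j4, hE.1.det _ _ j2 l2 j4]
  · obtain ⟨j1, j2, j3, j4⟩ := sup z hz
    obtain ⟨j5, v1, v2, v3⟩ := e2.cnd_ne hz
    obtain ⟨r1, r2, r3, r4⟩ := hr _ j1
    obtain ⟨-, u2, u3, u4⟩ := hr _ j2
    have q1 : Q z.1 = Q z.2 := hG.1 _ _ j1 j2 j4
    have q2 : φ z.1 = φ z.2 := d3 _ _ j1 j2 j3
    have q3 : t₂ z.1 = t₂ z.2 := d1 _ _ j1 j2 (congrArg (·.2.2) j3)
    have q4 : D.t z.1 = D.t z.2 := hE.1.det _ _ j1 j2 j4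
    rw [q1] at r2 r4
    rw [← q2, ← q3, ← q4] at u4
    refine ⟨by rw [la.prj_sub, r2, u2], by rw [norm_sub_rev]; exact v1,
      by linarith [norm_sub_le (Dv z.1) (Dv z.2)], ?_, ?_⟩
    · rw [abs_mul, abs_of_pos (by positivity)]
      have := mul_le_mul_of_nonneg_left r1 (show (0 : ℝ) ≤ 2 ^ s by positivity)
      rw [← mul_pow, mul_inv_cancel₀ two_ne_zero, one_pow] at this
      linarith
    · exact (geo ((B.win0 (D2 D g) L s h E w1.1 hs).2.2.2 z j5) (r4 v2) (u4 v3)).trans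
        (mul_le_mul_of_nonneg_right ex (by positivity))
  · have a1 := ent T (h := h) hE.1 gC i1 i2 i3
    have pE : 0 < Pr (res D.p g) Ev0 := (half_pos κ0).trans_le c2
    have a2 := T.t2.evcap (g := fun z => (D.l z.1, (W2 D g s h).c z)) Ev0 hP pE fun z hz =>
      T.t3.cnt1B h (fun z : Ω × Ω => 2 ^ s * (t₂ z.1 - D.t z.1)) _ 1 z zero_le_one hz
        fun z hz => by
          rw [abs_mul, abs_of_pos (by positivity)]
          have := mul_le_mul_of_nonneg_left (hr _ (e3.res_ne hz).1).1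
            (show (0 : ℝ) ≤ 2 ^ s by positivity)
          rwa [← mul_pow, mul_inv_cancel₀ two_ne_zero, one_pow] at this
    have a3 := log_le_sub_one_of_pos (show (0 : ℝ) < 4 * 1 + 3 by norm_num)
    have a4 := log_nonneg (show (1 : ℝ) ≤ 4 * 1 + 3 by norm_num)
    refine le_trans ?_ a2
    have a5 := mul_le_mul_of_nonneg_left c2 (show 0 ≤ ε₃ * L by positivity)
    refine sub_le_sub (by linarith) ?_
    rw [div_le_iff₀ pE]
    linarith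

end Vale.Agent.P127
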