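import Vale.Agent.P127.Num

/-! Sticky Kakeya sets in four dimensions: the second order constraint. -/

namespace Vale.Agent.P127

open Vale.Agent.P118
open scoped RealInnerProductSpace
open Real Classical Module

namespace SoX

section Geo

variable {m p q r : ℕ} (ch : Chart m p q r)

include ch in
theorem sqrt_p : √p ≤ (m : ℝ) + 1 := by
  have h : (p : ℝ) ≤ m := by exact_mod_cast (by have := ch.dim; omega : p ≤ m)
  linarith [sqrt_le_succ p]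

theorem geo_y {F₁ F₂ : Eu r} {X X' v v' : Eu m} {d u : ℝ} (hF : ‖F₂‖ ≤ 2)
    (hX : ‖X - X'‖ ≤ √m * (u * u)) (hz : ‖ch.pi F₁ v - ch.pi F₁ v'‖ ≤ √p * u) (hd : |d| ≤ u)
    (hF' : ‖F₂ - F₁‖ ≤ √r * u) (hv : ‖v - v'‖ ≤ √m) :
    ‖ch.pi F₂ (X + d • v) - ch.pi F₂ (X' + d • v')‖ ≤ 7 * (r + 1) * (m + 1) * (u * u) := by
  have hu : 0 ≤ u := (abs_nonneg _).trans hd
  have e : ch.pi F₂ (X + d • v) - ch.pi F₂ (X' + d • v') = ch.pi F₂ (X - X') +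
      d • ((ch.pi F₁ v - ch.pi F₁ v') + ch.app (F₂ - F₁) (ch.Pw (v - v'))) := by
    simp only [Chart.pi, map_add, map_sub, map_smul, LinearMap.sub_apply]
    module
  have hm := sqrt_le_succ m
  have h1 : ‖ch.app (F₂ - F₁) (ch.Pw (v - v'))‖ ≤ (r + 1) * u * (m + 1) :=
    (ch.app_Pw_le _ _).trans (mul_le_mul
      (hF'.trans (mul_le_mul_of_nonneg_right (sqrt_le_succ r) hu)) (hv.trans hm) (norm_nonneg _)
      (by positivity))
  have h2 := hz.trans (mul_le_mul_of_nonneg_right (sqrt_p ch) hu)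
  have h3 := mul_le_mul hd ((norm_add_le _ _).trans (add_le_add h2 h1)) (norm_nonneg _) hu
  have h4 := hX.trans (mul_le_mul_of_nonneg_right hm (mul_nonneg hu hu))
  have h5 : 0 ≤ r * ((m + 1) * (u * u)) := by positivity
  have h6 : 0 ≤ (m + 1) * (u * u) := by positivity
  rw [e]
  refine (norm_add_le _ _).trans ?_
  rw [norm_smul, Real.norm_eq_abs]
  linarith [ch.pi_le hF (X - X')]

theorem geo_id {F₁ F₂ F₀ α₁ α₂ α' : Eu r} (X : Eu m) {v : Eu m} {t₁ t₂ u w : ℝ} (hv : ‖v‖ ≤ √m)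
    (h1 : ‖F₁ - F₀ - t₁ • α'‖ ≤ u * w) (h2 : ‖F₂ - F₀ - t₂ • α'‖ ≤ u * w) (a1 : ‖α₁ - α'‖ ≤ w)
    (a2 : ‖α₂ - α'‖ ≤ w) (hd : |t₂ - t₁| ≤ u) :
    ‖ch.pi F₂ v + ch.app α₂ (ch.Pw (X + (t₂ - t₁) • v)) - (ch.pi F₁ v + ch.app α₁ (ch.Pw X)) -
      ch.app (α₂ - α₁) (ch.Pw X) - (2 * (t₂ - t₁)) • ch.app α₁ (ch.Pw v)‖ ≤
      5 * (u * w) * (m + 1) := by
  have hu : 0 ≤ u := (abs_nonneg _).trans hd
  have e : ch.pi F₂ v + ch.app α₂ (ch.Pw (X + (t₂ - t₁) • v)) -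
      (ch.pi F₁ v + ch.app α₁ (ch.Pw X)) - ch.app (α₂ - α₁) (ch.Pw X) -
      (2 * (t₂ - t₁)) • ch.app α₁ (ch.Pw v) =
      ch.app ((F₂ - F₀ - t₂ • α') - (F₁ - F₀ - t₁ • α') +
        (t₂ - t₁) • ((α₂ - α') - (α₁ - α') - (α₁ - α'))) (ch.Pw v) := by
    simp only [Chart.pi, map_add, map_sub, map_smul, LinearMap.sub_apply, LinearMap.add_apply,
      LinearMap.smul_apply]
    module
  have h3 : ‖(α₂ - α') - (α₁ - α') - (α₁ - α')‖ ≤ 3 * w := by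
    linarith [norm_sub_le ((α₂ - α') - (α₁ - α')) (α₁ - α'), norm_sub_le (α₂ - α') (α₁ - α')]
  have h4 := mul_le_mul hd h3 (norm_nonneg _) hu
  have h5 : 0 ≤ u * w := (norm_nonneg _).trans h1
  rw [e]
  refine (ch.app_Pw_le _ _).trans (mul_le_mul ((norm_add_le _ _).trans ?_)
    (hv.trans (sqrt_le_succ m)) (norm_nonneg _) (by positivity))
  rw [norm_smul, Real.norm_eq_abs]
  linarith [norm_sub_le (F₂ - F₀ - t₂ • α') (F₁ - F₀ - t₁ • α')]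

theorem geo_S {A₁ A₂ A₁' A₂' S S' : Eu p} {δ : Eu r} {X X' : Eu m} {d u w c β : ℝ} (hu : 0 < u)
    (hc : 0 < c) (huw : u ≤ w) (hw : w ≤ c * β) (hd : u * c ≤ |d|) (hδ : ‖δ‖ ≤ 2)
    (h : ‖A₂ - A₁ - ch.app δ (ch.Pw X) - (2 * d) • S‖ ≤ 5 * (u * w) * (m + 1))
    (h' : ‖A₂' - A₁' - ch.app δ (ch.Pw X') - (2 * d) • S'‖ ≤ 5 * (u * w) * (m + 1))
    (h1 : ‖A₁ - A₁'‖ ≤ √p * (u * u)) (h2 : ‖A₂ - A₂'‖ ≤ √p * (u * u))
    (hX : ‖X - X'‖ ≤ √m * (u * u)) : ‖S - S'‖ ≤ 7 * (m + 1) * β := by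
  have e : (2 * d) • (S - S') = (A₂ - A₂') - (A₁ - A₁') - ch.app δ (ch.Pw (X - X')) -
      (A₂ - A₁ - ch.app δ (ch.Pw X) - (2 * d) • S) +
      (A₂' - A₁' - ch.app δ (ch.Pw X') - (2 * d) • S') := by
    simp only [map_sub]
    module
  have k0 : u * u ≤ u * w := mul_le_mul_of_nonneg_left huw hu.le
  have k1 : √p * (u * u) ≤ (m + 1) * (u * w) :=
    mul_le_mul (sqrt_p ch) k0 (by positivity) (by positivity)
  have k2 : √m * (u * u) ≤ (m + 1) * (u * w) :=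
    mul_le_mul (sqrt_le_succ m) k0 (by positivity) (by positivity)
  have k3 := (ch.app_Pw_le δ (X - X')).trans
    (mul_le_mul hδ (hX.trans k2) (norm_nonneg _) zero_le_two)
  have k4 : ‖(2 * d) • (S - S')‖ ≤ 14 * ((m + 1) * (u * w)) := by
    rw [e]
    have n1 := norm_sub_le (A₂ - A₂') (A₁ - A₁')
    have n2 := norm_sub_le ((A₂ - A₂') - (A₁ - A₁')) (ch.app δ (ch.Pw (X - X')))
    have n3 := norm_sub_le ((A₂ - A₂') - (A₁ - A₁') - ch.app δ (ch.Pw (X - X')))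
      (A₂ - A₁ - ch.app δ (ch.Pw X) - (2 * d) • S)
    refine (norm_add_le _ _).trans ?_
    linarith
  rw [norm_smul, Real.norm_eq_abs, abs_mul, abs_two] at k4
  have k5 := mul_le_mul_of_nonneg_right hd (norm_nonneg (S - S'))
  have k6 : (m + 1) * (u * w) ≤ (m + 1) * (u * (c * β)) := by gcongr
  refine le_of_mul_le_mul_left ?_ (mul_pos hu hc)
  linarith

end Geo

variable {Ω Tt Θ : Type} [Fintype Ω] {m p q r L s h : ℕ} {D : Cf Ω Tt Θ m} {ch : Chart m p q r}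
  {σ E e : ℝ} {Q : Ω → Submodule ℝ (Eu m)} {F F₀ α α' : Ω → Eu r} {M : Ω → ℤ × Eu r × ℕ}

theorem cc (tw : D.Two M L E) {z z' : Ω × Ω} (hz : D.pp M z ≠ 0) (hz' : D.pp M z' ≠ 0)
    (e : (D.two₁ M).c z = (D.two₁ M).c z') : D.c z.1 = D.c z'.1 ∧ D.c z.2 = D.c z'.2 := by
  have e1 : ((D.th z.1, D.th z.2), D.T z.1) = ((D.th z'.1, D.th z'.2), D.T z'.1) := e
  simp only [Prod.mk.injEq] at e1
  unfold Cf.c
  rw [(tw.supp z hz).2.2.2.2.1, (tw.supp z' hz').2.2.2.2.1, e1.1.1, e1.1.2, e1.2]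
  exact ⟨rfl, rfl⟩

theorem sup (tw : D.Two M L E) (hA : D.Afn F L s h E M F₀ α') {z : Ω × Ω} (hz : D.pp M z ≠ 0) :
    D.p z.1 ≠ 0 ∧ D.p z.2 ≠ 0 ∧ D.v z.2 = D.v z.1 ∧
      D.X z.2 = D.X z.1 + (D.t z.2 - D.t z.1) • D.v z.1 ∧ |D.t z.2 - D.t z.1| ≤ 2⁻¹ ^ s ∧
      ‖F z.2 - F z.1‖ ≤ √r * 2⁻¹ ^ s ∧ F₀ z.2 = F₀ z.1 ∧ α' z.2 = α' z.1 := by
  obtain ⟨h1, h2, h3, h4, h5, h6⟩ := tw.supp z hz
  have e : (M z.2, D.T z.2) = (M z.1, D.T z.1) := by rw [h5, h6]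
  refine ⟨h1, h2, h4, ?_, fl_same (hA.dt _ _ h2 h1 e), geo1.same_norm (hA.dF _ _ h2 h1 e),
    hA.d₀ _ _ h2 h1 e, hA.dα _ _ h2 h1 e⟩
  unfold Cf.X
  rw [h3, h4]
  module

/-- the conditioning variable -/
noncomputable abbrev gg (D : Cf Ω Tt Θ m) (M : Ω → ℤ × Eu r × ℕ) (s : ℕ) (z : Ω × Ω) :
    Eu m × (Θ × Θ) × Tt := (flo (s + s) (D.X z.1), (D.two₁ M).c z)

/-- the derivative -/
noncomputable abbrev dd (D : Cf Ω Tt Θ m) (ch : Chart m p q r) (F α : Ω → Eu r) (ω : Ω) : Eu p :=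
  D.z ch F ω + ch.app (α ω) (D.w ch ω)

theorem tr (T : Tools) {α β γ : Type} {P : Ω × Ω → ℝ} {pr : Ω × Ω → Ω} {p : Ω → ℝ} (mp : MP P pr p)
    (f : Ω → α) (g : Ω → β) {G : Ω × Ω → γ} (h : Det P G fun z => g (pr z)) :
    Hc P (fun z => f (pr z)) G ≤ Hc p f g :=
  (e1.hc_mono mp.1 h (Det.fst _ _ _)).trans_eq (T.t1.mp f g mp)

theorem one_le_a (m r : ℕ) : (1 : ℝ) ≤ 7 * (r + 1) * (m + 1) := by
  have h1 : (0 : ℝ) ≤ m := by positivity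
  have h2 : (0 : ℝ) ≤ r := by positivity
  nlinarith [mul_nonneg h1 h2]

theorem ent1 (T : Tools) (tw : D.Two M L E) (hD : D.PC ch σ Q F L E)
    (dc : D.DCP ch F α (s + s) E) :
    Hc (D.pp M) (fun z => flo (s + s) (dd D ch F α z.1)) (gg D M s) ≤
      p * log (7 * (r + 1) * (m + 1)) + CE p + E := by
  have hP := tw.mp₁.1
  have h1 := e1.tri (fun z => flo (s + s) (dd D ch F α z.1))
    (fun z => flo (s + s) (D.y ch F z.1)) (gg D M s) hP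
  have h2 := T.t3.nearA (s + s) (fun z => D.y ch F z.1) (gg D M s) _ hP (one_le_a m r)
    fun z z' hz hz' e => by
      obtain ⟨e1, e2⟩ := Prod.ext_iff.1 e
      have a1 := (tw.supp z hz).1
      unfold Cf.y
      rw [← hD.det _ _ a1 (tw.supp z' hz').1 (cc tw hz hz' e2).1, ← ch.pi_sub]
      have k1 := ch.pi_le (hD.rep _ a1).1 (D.X z.1 - D.X z'.1)
      have k2 := (geo1.same_norm e1).trans
        (mul_le_mul_of_nonneg_right (sqrt_le_succ m) (by positivity))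
      have k3 : (0 : ℝ) ≤ r * ((m + 1) * 2⁻¹ ^ (s + s)) := by positivity
      have k4 : (0 : ℝ) ≤ (m + 1) * 2⁻¹ ^ (s + s) := by positivity
      linarith
  have h3 : Hc (D.pp M) (fun z => flo (s + s) (dd D ch F α z.1))
      (fun z => (flo (s + s) (D.y ch F z.1), gg D M s z)) ≤ E := by
    refine (tr T tw.mp₁ (fun ω => flo (s + s) (dd D ch F α ω))
      (fun ω => (flo (s + s) (D.y ch F ω), D.c ω)) fun z z' hz hz' e => ?_).trans dc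
    obtain ⟨e1, e2⟩ := Prod.ext_iff.1 e
    exact Prod.ext e1 (cc tw hz hz' (Prod.ext_iff.1 e2).2).1
  linarith

theorem ent2 (T : Tools) (tw : D.Two M L E) (hD : D.PC ch σ Q F L E)
    (hA : D.Afn F L s h E M F₀ α') (dc : D.DCP ch F α (s + s) E)
    (zx : Hc D.p (fun ω => flo s (D.z ch F ω)) (fun ω => (flo s (D.X ω), D.c ω)) ≤ e) :
    Hc (D.pp M) (fun z => flo (s + s) (dd D ch F α z.2)) (gg D M s) ≤
      p * log (7 * (r + 1) * (m + 1)) + CE p + E + e := by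
  have hP := tw.mp₁.1
  have h0 := e1.tri (fun z => flo (s + s) (dd D ch F α z.2))
    (fun z => flo s (D.z ch F z.1)) (gg D M s) hP
  have h1 := e1.tri (fun z => flo (s + s) (dd D ch F α z.2))
    (fun z => flo (s + s) (D.y ch F z.2)) (fun z => (flo s (D.z ch F z.1), gg D M s z)) hP
  have h2 := T.t3.nearA (s + s) (fun z => D.y ch F z.2)
    (fun z => (flo s (D.z ch F z.1), gg D M s z)) _ hP (one_le_a m r) fun z z' hz hz' e => by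
      obtain ⟨e0, e⟩ := Prod.ext_iff.1 e
      obtain ⟨e1, e2⟩ := Prod.ext_iff.1 e
      obtain ⟨a1, a2, -, a4, a5, a6, -⟩ := sup tw hA hz
      obtain ⟨b1, b2, -, b4, -⟩ := sup tw hA hz'
      obtain ⟨c1, c2⟩ := cc tw hz hz' e2
      have k := geo1.same_norm e0
      unfold Cf.z at k
      unfold Cf.y
      rw [← hD.det _ _ a1 b1 c1] at k
      rw [← hD.det _ _ a2 b2 c2, a4, b4, ← hD.ok.det _ _ a1 b1 c1, ← hD.ok.det _ _ a2 b2 c2,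
        pow_add]
      exact geo_y ch (hD.rep _ a2).1 (pow_add (2⁻¹ : ℝ) s s ▸ geo1.same_norm e1) k a5 a6
        ((hD.ok.box _ a1).2.1.norm_sub_le (hD.ok.box _ b1).2.1)
  have h3 : Hc (D.pp M) (fun z => flo (s + s) (dd D ch F α z.2))
      (fun z => (flo (s + s) (D.y ch F z.2), flo s (D.z ch F z.1), gg D M s z)) ≤ E := by
    refine (tr T tw.mp₂ (fun ω => flo (s + s) (dd D ch F α ω))
      (fun ω => (flo (s + s) (D.y ch F ω), D.c ω)) fun z z' hz hz' e => ?_).trans dc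
    obtain ⟨e1, e2⟩ := Prod.ext_iff.1 e
    exact Prod.ext e1 (cc tw hz hz' (Prod.ext_iff.1 (Prod.ext_iff.1 e2).2).2).2
  have h4 : Hc (D.pp M) (fun z => flo s (D.z ch F z.1)) (gg D M s) ≤ e := by
    refine (tr T tw.mp₁ (fun ω => flo s (D.z ch F ω))
      (fun ω => (flo s (D.X ω), D.c ω)) fun z z' hz hz' e => ?_).trans zx
    obtain ⟨e1, e2⟩ := Prod.ext_iff.1 e
    exact Prod.ext (flo_of_flo (Nat.le_add_right s s) e1) (cc tw hz hz' e2).1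
  linarith

/-- the bad event -/
def Bad (D : Cf Ω Tt Θ m) (F F₀ α α' : Ω → Eu r) (s h c : ℕ) (z : Ω × Ω) : Prop :=
  ((2⁻¹ ^ (s + h) < ‖F z.1 - F₀ z.1 - D.t z.1 • α' z.1‖ ∨
    2⁻¹ ^ (s + h) < ‖F z.2 - F₀ z.2 - D.t z.2 • α' z.2‖) ∨
    (2⁻¹ ^ (h - c) ≤ ‖α z.1 - α' z.1‖ ∨ 2⁻¹ ^ (h - c) ≤ ‖α z.2 - α' z.2‖)) ∨
    |D.t z.2 - D.t z.1| ≤ 2⁻¹ ^ (s + c)

theorem bad_le (T : Tools) (tw : D.Two M L E) (hD : D.OK L E) (hA : D.Afn F L s h E M F₀ α')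
    {c : ℕ} {κ : ℝ} (hκ : 0 < κ) (hc : κ * L ≤ c) (hch : c ≤ h) (hL : s + h ≤ L)
    (cmp : Pr D.p (fun ω => 2⁻¹ ^ (h - c) ≤ ‖α ω - α' ω‖) * L ≤ e) :
    Pr (D.pp M) (Bad D F F₀ α α' s h c) * L ≤ 2 * E + 2 * e + 2 / κ * (4 * E + 10) := by
  have hP := tw.mp₁.1
  have h1 := T.t2.tsep (fun z => D.t z.1) (fun z => D.t z.2) (fun z => (D.l z.1, D.c z.1))
    (s + h) s c (4 * E) hP (by omega)
    (fun z z' hz hz' e => hD.det _ _ (tw.supp z hz).1 (tw.supp z' hz').1 (Prod.ext_iff.1 e).2)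
    (fun z hz => (sup tw hA hz).2.2.2.2.1) (by
      have := tw.tim (s + h) hL
      push_cast at this ⊢
      linarith [hA.ent])
  have h2 : Pr (D.pp M) (fun z => |D.t z.2 - D.t z.1| ≤ 2⁻¹ ^ (s + c)) * L ≤
      2 / κ * (4 * E + 10) := by
    rw [div_mul_eq_mul_div, le_div_iff₀ hκ]
    have k1 : κ * L * (1 / 2) ≤ c * log 2 :=
      mul_le_mul hc half_le_log_two (by norm_num) (by positivity)
    have k2 := mul_le_mul_of_nonneg_left k1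
      (e1.pr_nonneg (fun z => |D.t z.2 - D.t z.1| ≤ 2⁻¹ ^ (s + c)) hP)
    linarith
  have h3 := (e1.pr_or _ (fun z => |D.t z.2 - D.t z.1| ≤ 2⁻¹ ^ (s + c)) hP).trans
    (add_le_add_left ((e1.pr_or _ _ hP).trans (add_le_add
      ((e1.pr_or _ _ hP).trans_eq (congrArg₂ (· + ·)
        (T.t1.mp_pr (fun ω => 2⁻¹ ^ (s + h) < ‖F ω - F₀ ω - D.t ω • α' ω‖) tw.mp₁)
        (T.t1.mp_pr (fun ω => 2⁻¹ ^ (s + h) < ‖F ω - F₀ ω - D.t ω • α' ω‖) tw.mp₂)))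
      ((e1.pr_or _ _ hP).trans_eq (congrArg₂ (· + ·)
        (T.t1.mp_pr (fun ω => 2⁻¹ ^ (h - c) ≤ ‖α ω - α' ω‖) tw.mp₁)
        (T.t1.mp_pr (fun ω => 2⁻¹ ^ (h - c) ≤ ‖α ω - α' ω‖) tw.mp₂))))) _)
  have h4 := mul_le_mul_of_nonneg_right h3 (Nat.cast_nonneg L : (0 : ℝ) ≤ L)
  have h5 := hA.pr
  unfold Bad
  linarith

theorem pow_le {i j : ℕ} (h : i ≤ j) : (2⁻¹ : ℝ) ^ j ≤ 2⁻¹ ^ i :=
  pow_le_pow_of_le_one (by norm_num) (by norm_num) h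

theorem good (tw : D.Two M L E) (hD : D.OK L E) (hA : D.Afn F L s h E M F₀ α') {c : ℕ}
    {z : Ω × Ω} (hz : D.pp M z ≠ 0) (g : ¬Bad D F F₀ α α' s h c z) :
    2⁻¹ ^ s * 2⁻¹ ^ c ≤ |D.t z.2 - D.t z.1| ∧ ‖α z.2 - α z.1‖ ≤ 2 ∧
      ‖dd D ch F α z.2 - dd D ch F α z.1 - ch.app (α z.2 - α z.1) (ch.Pw (D.X z.1)) -
        (2 * (D.t z.2 - D.t z.1)) • ch.app (α z.1) (ch.Pw (D.v z.1))‖ ≤
        5 * (2⁻¹ ^ s * 2⁻¹ ^ (h - c)) * (m + 1) := by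
  obtain ⟨a1, -, a3, a4, a5, -, a7, a8⟩ := sup tw hA hz
  simp only [Bad, not_or, not_lt, not_le, a7, a8] at g
  obtain ⟨⟨⟨g1, g2⟩, g3, g4⟩, g5⟩ := g
  have k : (2⁻¹ : ℝ) ^ (s + h) ≤ 2⁻¹ ^ s * 2⁻¹ ^ (h - c) := by
    rw [← pow_add]
    exact pow_le (by omega)
  refine ⟨by rw [← pow_add]; exact g5.le, ?_, ?_⟩
  · have k1 := norm_sub_le (α z.2 - α' z.1) (α z.1 - α' z.1)
    have k2 : (2⁻¹ : ℝ) ^ (h - c) ≤ 1 := pow_le_one₀ (by norm_num) (by norm_num)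
    rw [sub_sub_sub_cancel_right] at k1
    linarith
  · unfold dd Cf.z Cf.w
    rw [a3, a4]
    exact geo_id ch _ (hD.box _ a1).2.1.norm_le (g1.trans k) (g2.trans k) g3.le g4.le a5

theorem log_R (m : ℕ) {E : ℝ} (hE : 0 ≤ E) :
    1 ≤ exp E * (m + 1) ∧ log (exp E * (m + 1)) ≤ E + m := by
  have h0 : (0 : ℝ) ≤ m := by positivity
  refine ⟨one_le_mul_of_one_le_of_one_le (one_le_exp hE) (by linarith), ?_⟩
  rw [log_mul (exp_pos E).ne' (by positivity), log_exp]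
  linarith [log_le_sub_one_of_pos (show (0 : ℝ) < m + 1 by positivity)]

theorem same2 {n : ℕ} {x y : Eu n} (h : flo (s + s) x = flo (s + s) y) :
    ‖x - y‖ ≤ √n * (2⁻¹ ^ s * 2⁻¹ ^ s) := by
  rw [← pow_add]
  exact geo1.same_norm h

theorem pair (tw : D.Two M L E) (hD : D.OK L E) (hA : D.Afn F L s h E M F₀ α')
    (hα : Det D.p D.c α) {b c : ℕ} (h1 : c + (c + b) ≤ h) (h2 : h ≤ s) {z z' : Ω × Ω}
    (hz : D.pp M z ≠ 0) (hz' : D.pp M z' ≠ 0) (g : ¬Bad D F F₀ α α' s h c z)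
    (g' : ¬Bad D F F₀ α α' s h c z')
    (e0 : flo (s + s) (dd D ch F α z.2) = flo (s + s) (dd D ch F α z'.2))
    (e1 : flo (s + s) (dd D ch F α z.1) = flo (s + s) (dd D ch F α z'.1))
    (e2 : flo (s + s) (D.X z.1) = flo (s + s) (D.X z'.1))
    (e3 : (D.two₁ M).c z = (D.two₁ M).c z') :
    ‖ch.app (α z.1) (ch.Pw (D.v z.1)) - ch.app (α z'.1) (ch.Pw (D.v z'.1))‖ ≤
      7 * (r + 1) * (m + 1) * 2⁻¹ ^ b := by
  obtain ⟨a1, a2, -⟩ := tw.supp z hz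
  obtain ⟨b1, b2, -⟩ := tw.supp z' hz'
  obtain ⟨c1, c2⟩ := cc tw hz hz' e3
  obtain ⟨g1, g2, g3⟩ := good (ch := ch) tw hD hA hz g
  obtain ⟨-, -, g4⟩ := good (ch := ch) tw hD hA hz' g'
  rw [← hD.det _ _ a1 b1 c1, ← hD.det _ _ a2 b2 c2, show α z'.2 - α z'.1 = α z.2 - α z.1 by
    rw [hα _ _ a1 b1 c1, hα _ _ a2 b2 c2]] at g4
  have k1 : (2⁻¹ : ℝ) ^ (h - c) ≤ 2⁻¹ ^ c * 2⁻¹ ^ b := by
    rw [← pow_add]
    exact pow_le (by omega)
  have k := geo_S ch (by positivity) (by positivity) (pow_le (by omega)) k1 g1 g2 g3 g4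
    (same2 e1) (same2 e0) (same2 e2)
  have k3 : (0 : ℝ) ≤ r * ((m + 1) * 2⁻¹ ^ b) := by positivity
  linarith

theorem ent3 (T : Tools) (tw : D.Two M L E) (hD : D.OK L E) (hA : D.Afn F L s h E M F₀ α')
    (hα : Det D.p D.c α) (bd : ∀ ω, D.p ω ≠ 0 → ‖α ω‖ ≤ exp E) {b c : ℕ} (h1 : c + (c + b) ≤ h)
    (h2 : h ≤ s) :
    Hc (D.pp M) (fun z => flo b (ch.app (α z.1) (ch.Pw (D.v z.1))))
      (fun z => (flo (s + s) (dd D ch F α z.2), flo (s + s) (dd D ch F α z.1), gg D M s z)) ≤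
      log 2 + p * log (7 * (r + 1) * (m + 1)) + CE p +
        Pr (D.pp M) (Bad D F F₀ α α' s h c) * (p * b + p * (E + m) + CE p) := by
  have hP := tw.mp₁.1
  obtain ⟨r1, r2⟩ := log_R m hD.nonneg
  have k0 : ∀ z, D.pp M z ≠ 0 → ‖ch.app (α z.1) (ch.Pw (D.v z.1))‖ ≤ exp E * (m + 1) :=
    fun z hz => (ch.app_Pw_le _ _).trans (mul_le_mul (bd _ (tw.supp z hz).1)
      ((hD.box _ (tw.supp z hz).1).2.1.norm_le.trans (sqrt_le_succ m)) (norm_nonneg _)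
      (exp_pos E).le)
  have k' := T.t3.nearE (p := D.pp M) b (fun z => ch.app (α z.1) (ch.Pw (D.v z.1)))
    (fun z => (flo (s + s) (dd D ch F α z.2), flo (s + s) (dd D ch F α z.1), gg D M s z))
    (fun z => ¬Bad D F F₀ α α' s h c z) _ _ hP (one_le_a m r) r1 k0
  have k := k' fun z z' hz hz' g g' e => by
    have e0 := congrArg (·.1) e
    have e1 := congrArg (·.2.1) e
    have e2 := congrArg (·.2.2.1) e
    have e3 := congrArg (·.2.2.2) e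
    dsimp only at e0 e1 e2 e3
    exact pair tw hD hA hα h1 h2 hz hz' g g' e0 e1 e2 e3
  have k4 : (fun z => ¬¬Bad D F F₀ α α' s h c z) = Bad D F F₀ α α' s h c :=
    funext fun z => propext not_not
  clear k'
  rw [k4] at k
  have k1 : p * b * log 2 ≤ p * b * 1 := mul_le_mul_of_nonneg_left log_two_le_one (by positivity)
  have k2 := mul_le_mul_of_nonneg_left r2 (Nat.cast_nonneg p : (0 : ℝ) ≤ p)
  have k3 : p * b * log 2 + p * log (exp E * (m + 1)) + CE p ≤ p * b + p * (E + m) + CE p := by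
    linarith
  have k5 := mul_le_mul_of_nonneg_left k3 (e1.pr_nonneg (Bad D F F₀ α α' s h c) hP)
  linarith

theorem ent4 (T : Tools) (tw : D.Two M L E) (hD : D.OK L E) (hα : Det D.p D.c α)
    (bd : ∀ ω, D.p ω ≠ 0 → ‖α ω‖ ≤ exp E) {b : ℕ} (hb : b ≤ s + s)
    (du : Hc D.p (D.ln b) (fun ω => (flo b (D.X ω), D.c ω)) ≤ σ * b * log 2 + e)
    (dl : σ * b * log 2 - e ≤ Hc (D.pp M) (fun z => flo b (D.v z.1)) (gg D M s)) :
    D.SOP ch α b (Hc (D.pp M) (fun z => flo b (ch.app (α z.1) (ch.Pw (D.v z.1)))) (gg D M s) +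
      2 * e + 2 * (p * (E + m) + CE p)) := by
  have hP := tw.mp₁.1
  obtain ⟨r1, r2⟩ := log_R m hD.nonneg
  have k0 : ∀ z, D.pp M z ≠ 0 → ‖ch.app (α z.1) (ch.Pw (D.v z.1)) -
      ch.app (α z.1) (ch.Pw (flo b (D.v z.1)))‖ ≤ exp E * (m + 1) * 2⁻¹ ^ b := fun z hz => by
    rw [← map_sub, ← map_sub, mul_assoc]
    exact (ch.app_Pw_le _ _).trans (mul_le_mul (bd _ (tw.supp z hz).1)
      ((geo1.norm_sub_flo _ _).trans (mul_le_mul_of_nonneg_right (sqrt_le_succ m) (by positivity)))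
      (norm_nonneg _) (exp_pos E).le)
  have k1 := T.t3.closeD b (fun z => ch.app (α z.1) (ch.Pw (D.v z.1)))
    (fun z => ch.app (α z.1) (ch.Pw (flo b (D.v z.1)))) (fun _ => 0)
    (fun z => (flo b (D.X z.1), D.c z.1)) _ hP r1 (fun _ _ _ _ _ => rfl)
    fun z hz => by rw [sub_zero]; exact k0 z hz
  have k2 := T.t3.closeD b (fun z => ch.app (α z.1) (ch.Pw (flo b (D.v z.1))))
    (fun z => ch.app (α z.1) (ch.Pw (D.v z.1))) (fun _ => 0) (gg D M s) _ hP r1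
    (fun _ _ _ _ _ => rfl) fun z hz => by rw [sub_zero, norm_sub_rev]; exact k0 z hz
  have k3 := e1.dp (f := fun z => D.ln b z.1)
    (f' := fun z => flo b (ch.app (α z.1) (ch.Pw (flo b (D.v z.1))))) (g := gg D M s)
    (k := fun z => (flo b (D.X z.1), D.c z.1)) hP (fun z z' hz hz' e => by
      obtain ⟨e1, e2⟩ := Prod.ext_iff.1 e
      have e3 : flo b (D.v z.1) = flo b (D.v z'.1) := (Prod.ext_iff.1 e1).2
      beta_reduce
      rw [e3, hα _ _ (tw.supp z hz).1 (tw.supp z' hz').1 (Prod.ext_iff.1 e2).2])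
    fun z z' hz hz' e => Prod.ext (flo_of_flo hb (Prod.ext_iff.1 e).1)
      (cc tw hz hz' (Prod.ext_iff.1 e).2).1
  have k4 := T.t1.mp (D.ln b) (fun ω => (flo b (D.X ω), D.c ω)) tw.mp₁
  have k5 : Hc (D.pp M) (fun z => flo b (D.v z.1)) (gg D M s) ≤
      Hc (D.pp M) (fun z => D.ln b z.1) (gg D M s) :=
    e1.hc_mono hP (Det.refl _ _) fun z z' _ _ e => (Prod.ext_iff.1 (Prod.ext_iff.1 e).1).2
  have k6 := T.t1.mp (fun ω => flo b (ch.app (α ω) (ch.Pw (D.v ω))))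
    (fun ω => (flo b (D.X ω), D.c ω)) tw.mp₁
  have k7 := mul_le_mul_of_nonneg_left r2 (Nat.cast_nonneg p : (0 : ℝ) ≤ p)
  unfold Cf.SOP
  linarith

end SoX

open SoX in
theorem sSo (T : Tools) (B : Base) (cmp : SCmp) : SSo := by
  intro m σ hc p q r ch κ ζ hκ hζ
  obtain ⟨C, hC, hC0⟩ : ∃ C : ℝ, C = 2 * p + p * m + CE p ∧ 0 ≤ C :=
    ⟨_, rfl, by have := CE_nonneg p; positivity⟩
  obtain ⟨e, he, he0⟩ : ∃ e : ℝ, (3 + 2 * C) * e = ζ / 2 ∧ 0 < e :=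
    ⟨ζ / 2 / (3 + 2 * C), by field_simp, by positivity⟩
  have hκ3 : 0 < κ / 3 := by positivity
  obtain ⟨e₁, he₁, hfull⟩ := ef_use1 (B.full m σ hc e he0)
  filter_upwards [hfull, B.fullC m σ hc ch e he0, cmp m σ hc ch _ e hκ3 he0,
    ef_lin (show (0 : ℝ) ≤ 3 by norm_num) 0 he₁, ef_const 3 hκ, ef_small one_pos, ef_large 1,
    ef_lin (show 0 ≤ 2 + 2 * p + C * (2 + 4 * (2 / (κ / 3))) by positivity)
      (3 * (p * log (7 * (r + 1) * (m + 1)) + CE p) + log 2 + 2 * (p * m + CE p) +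
        C * (10 * (2 / (κ / 3)))) (half_pos hζ)] with x h1 h2 h3 h4 h5 h6 h7 h8
    Ω Tt Θ _ D Q F F₀ α α' M s h b hD hA hα bd b1 b2 b3 b4 d1 d2 d3
  clear hfull
  obtain ⟨E, L⟩ := x
  dsimp only at *
  have tw := B.two D M L E hD.ok hA.det
  have hP := tw.mp₁.1
  have hF := h2 D Q F hD
  have hF2 := h1 (3 * E) (by linarith) (D.two₁ M) (tw.ext σ hD.ext).2.1
  obtain ⟨c, c1, c2⟩ : ∃ c : ℕ, 2 * c ≤ b ∧ b ≤ 2 * c + 1 := ⟨b / 2, by omega, by omega⟩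
  have c3 : κ / 3 * L ≤ c := by
    have : (b : ℝ) ≤ 2 * c + 1 := by exact_mod_cast c2
    linarith
  have k1 := bad_le T tw hD.ok hA hκ3 c3 (by omega) (by omega) (h3 D Q F α α' c h hD hα
    ((hA.det.pair (D.det_T _)).trans hA.dα) (fun ω hω => ⟨bd ω hω, hA.bd ω hω⟩) c3 (by omega)
    (by omega) d2 d3)
  have k2 := ent1 T tw hD d1
  have k3 := ent2 T tw hD hA d1 (hF.zx s (by omega))
  have k4 := ent3 (ch := ch) T tw hD.ok hA hα bd (b := b) (c := c) (by omega) (by omega)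
  have k5 := e1.tri (fun z => flo b (ch.app (α z.1) (ch.Pw (D.v z.1))))
    (fun z => flo (s + s) (dd D ch F α z.1)) (gg D M s) hP
  have k6 := e1.tri (fun z => flo b (ch.app (α z.1) (ch.Pw (D.v z.1))))
    (fun z => flo (s + s) (dd D ch F α z.2))
    (fun z => (flo (s + s) (dd D ch F α z.1), gg D M s z)) hP
  have k7 : Hc (D.pp M) (fun z => flo (s + s) (dd D ch F α z.2))
      (fun z => (flo (s + s) (dd D ch F α z.1), gg D M s z)) ≤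
      Hc (D.pp M) (fun z => flo (s + s) (dd D ch F α z.2)) (gg D M s) :=
    e1.hc_mono hP (Det.snd _ _ _) (Det.fst _ _ _)
  refine (ent4 T tw hD.ok hα bd (by omega) (hF.fg.full.du b (by omega))
    (hF2.dl b (s + s) (by omega) (by omega))).mono ?_
  have hp : (0 : ℝ) ≤ p := by positivity
  have l1 : (1 : ℝ) ≤ L := by exact_mod_cast h7
  have l2 : (b : ℝ) ≤ L := by exact_mod_cast (by omega : b ≤ L)
  have l3 : p * b + p * (E + m) + CE p ≤ L * C := by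
    have u1 := mul_le_mul_of_nonneg_left l2 hp
    have u2 := mul_le_mul_of_nonneg_left h6 hp
    have u3 := mul_le_mul_of_nonneg_left l1
      (show 0 ≤ p * m + CE p by have := CE_nonneg p; positivity)
    rw [hC]
    linarith
  have l4 := mul_le_mul_of_nonneg_left l3 (e1.pr_nonneg (Bad D F F₀ α α' s h c) hP)
  have l5 := mul_le_mul_of_nonneg_right k1 hC0
  have l6 : (3 + 2 * C) * e * L = ζ / 2 * L := by rw [he]
  linarith

end Vale.Agent.P127
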