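import Vale.Agent.P127.Num

/-! Sticky Kakeya sets in four dimensions: the compatibility of two labels on one line. -/

namespace Vale.Agent.P127

open Vale.Agent.P118
open scoped RealInnerProductSpace
open Real Classical Module

namespace StarX

theorem dec {α w : Eu 2} {β ε : ℝ} (hβ : 0 < β) (hε : 0 ≤ ε) (hα : β ≤ ‖α‖)
    (h : |⟪α, w⟫| ≤ ε * β) : ‖w - ⟪w, nn α⟫ • nn α‖ ≤ ε := by
  have h0 : 0 < ‖α‖ := hβ.trans_le hα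
  have h1 : w - ⟪w, nn α⟫ • nn α = (⟪α, w⟫ / ‖α‖ ^ 2) • α := by
    rw [sub_eq_iff_eq_add]; exact nn_dec (norm_pos_iff.1 h0) w
  have h2 : |⟪α, w⟫| / ‖α‖ ^ 2 * ‖α‖ = |⟪α, w⟫| / ‖α‖ := by field_simp
  rw [h1, norm_smul, Real.norm_eq_abs, abs_div, abs_of_pos (by positivity : 0 < ‖α‖ ^ 2), h2,
    div_le_iff₀ h0]
  exact h.trans (mul_le_mul_of_nonneg_left hα hε)

theorem inner_le {x y : Eu 2} {A B : ℝ} (hx : ‖x‖ ≤ A) (hy : ‖y‖ ≤ B) : |⟪x, y⟫| ≤ A * B :=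
  (abs_real_inner_le_norm x y).trans
    (mul_le_mul hx hy (norm_nonneg _) ((norm_nonneg _).trans hx))

theorem geo (ch : Chart 3 1 2 2) (hP : P1 ch) {F₁ F₂ α₁ α₂ : Eu 2} {dX dl : Eu 3}
    {dt β τ θ K : ℝ} (hβ : 0 < β) (hβ1 : β ≤ 1) (hτ : 0 < τ) (hτ1 : τ ≤ 1) (hθ : 0 < θ)
    (hθ1 : θ ≤ 1) (hK : 1 ≤ K) (hF₁ : ‖F₁‖ ≤ 2) (hF₂ : ‖F₂‖ ≤ 2) (hα₁ : β ≤ ‖α₁‖)
    (hα₂ : ‖α₂‖ ≤ K) (hdt : |dt| ≤ τ) (hE : |⟪F₂ - F₁, nn α₁⟫| ≤ θ) (hl : ‖dl‖ ≤ 2)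
    (hX : ‖dX‖ ≤ 2 * (τ * θ * β * β)) (h1 : ‖ch.pi F₁ dl‖ ≤ τ * θ * β * β)
    (h2 : ‖ch.app α₁ (ch.Pw dl)‖ ≤ τ * θ * β * β) :
    ‖ch.pi F₂ (dX + dt • dl)‖ ≤ 13 * (τ * θ) ∧
    (τ * θ < β * |⟪F₂ - F₁, nn α₁⟫ + dt * ⟪α₂, nn α₁⟫| →
      ‖ch.pi F₂ dl + ch.app α₂ (ch.Pw (dX + dt • dl))‖ ≤ τ * θ → ‖dl‖ ≤ 31 * K * β) := by
  have hρ : 0 < τ * θ := mul_pos hτ hθ
  have hρ1 : τ * θ ≤ 1 := mul_le_one₀ hτ1 hθ.le hθ1
  have hε : τ * θ * β ≤ τ * θ := mul_le_of_le_one_right hρ.le hβ1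
  have hε0 : 0 < τ * θ * β := mul_pos hρ hβ
  have hη : τ * θ * β * β ≤ τ * θ * β := mul_le_of_le_one_right hε0.le hβ1
  have hη0 : 0 < τ * θ * β * β := mul_pos hε0 hβ
  rw [norm_one, hP] at h2
  have hr := dec hβ hε0.le hα₁ h2
  have hm : |⟪ch.Pw dl, nn α₁⟫| ≤ 2 * 1 := inner_le ((ch.Pw_le dl).trans hl) (norm_nn_le α₁)
  generalize hdm : ⟪ch.Pw dl, nn α₁⟫ = dm at hr hm
  obtain ⟨r, hw⟩ : ∃ r, ch.Pw dl = r + dm • nn α₁ := ⟨ch.Pw dl - dm • nn α₁, by abel⟩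
  rw [hw, add_sub_cancel_right] at hr
  have hu : |ch.pi F₁ dl 0| ≤ τ * θ * β * β := by rwa [norm_one] at h1
  have hF : ‖F₂ - F₁‖ ≤ 4 := by linarith [norm_sub_le F₂ F₁]
  have hFr := inner_le hF hr
  have e1 : ch.pi F₂ dl 0 = ch.pi F₁ dl 0 + ⟪F₂ - F₁, r⟫ + dm * ⟪F₂ - F₁, nn α₁⟫ := by
    have h3 : (ch.pi F₂ dl - ch.pi F₁ dl) 0 = ch.app (F₂ - F₁) (ch.Pw dl) 0 := by
      rw [ch.pi_sub_pi]
    rw [hP, hw, inner_add_right, inner_smul_right, PiLp.sub_apply] at h3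
    linarith
  have hmE : |dm * ⟪F₂ - F₁, nn α₁⟫| ≤ 2 * 1 * θ := by
    rw [abs_mul]; exact mul_le_mul hm hE (abs_nonneg _) (by norm_num)
  refine ⟨?_, fun hG h4 => ?_⟩
  · have h3 : ‖ch.pi F₂ dl‖ ≤ 5 * (τ * θ) + 2 * θ := by
      rw [norm_one, e1]
      linarith [abs_add_three (ch.pi F₁ dl 0) ⟪F₂ - F₁, r⟫ (dm * ⟪F₂ - F₁, nn α₁⟫)]
    have h5 : ‖dt • ch.pi F₂ dl‖ ≤ τ * (5 * (τ * θ) + 2 * θ) := by
      rw [norm_smul, Real.norm_eq_abs]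
      exact mul_le_mul hdt h3 (norm_nonneg _) hτ.le
    have h6 : τ * (τ * θ) ≤ τ * θ := mul_le_of_le_one_left hρ.le hτ1
    rw [ch.pi_add, ch.pi_smul]
    linarith [norm_add_le (ch.pi F₂ dX) (dt • ch.pi F₂ dl), ch.pi_le hF₂ dX]
  · have e2 : (ch.pi F₂ dl + ch.app α₂ (ch.Pw (dX + dt • dl))) 0 =
        dm * (⟪F₂ - F₁, nn α₁⟫ + dt * ⟪α₂, nn α₁⟫) + (ch.pi F₁ dl 0 + ⟪F₂ - F₁, r⟫ +
          ⟪α₂, ch.Pw dX⟫ + dt * ⟪α₂, r⟫) := by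
      rw [PiLp.add_apply, hP, e1, map_add, map_smul, hw, inner_add_right, inner_smul_right,
        inner_add_right, inner_smul_right]
      ring
    rw [norm_one, e2] at h4
    have a1 := inner_le hα₂ ((ch.Pw_le dX).trans hX)
    have a2 : |dt * ⟪α₂, r⟫| ≤ 1 * (K * (τ * θ * β)) := by
      rw [abs_mul]
      exact mul_le_mul (hdt.trans hτ1) (inner_le hα₂ hr) (abs_nonneg _) zero_le_one
    have hK0 : 0 ≤ K := zero_le_one.trans hK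
    have a3 : K * (τ * θ * β) ≤ K * (τ * θ) := mul_le_mul_of_nonneg_left hε hK0
    have a4 : K * (τ * θ * β * β) ≤ K * (τ * θ) := mul_le_mul_of_nonneg_left (hη.trans hε) hK0
    have a5 : τ * θ ≤ K * (τ * θ) := le_mul_of_one_le_left hρ.le hK
    generalize ⟪F₂ - F₁, nn α₁⟫ + dt * ⟪α₂, nn α₁⟫ = G at h4 hG
    have a6 : |dm| * |G| ≤ 9 * (K * (τ * θ)) := by
      rw [← abs_mul]
      have b1 := abs_le.1 h4
      have b2 := abs_le.1 hu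
      have b3 := abs_le.1 hFr
      have b4 := abs_le.1 a1
      have b5 := abs_le.1 a2
      rw [abs_le]
      constructor <;> linarith [b1.1, b1.2, b2.1, b2.2, b3.1, b3.2, b4.1, b4.2, b5.1, b5.2]
    have a7 : |dm| ≤ 9 * K * β := by
      have b1 := mul_le_mul_of_nonneg_left hG.le (abs_nonneg dm)
      have b2 := mul_le_mul_of_nonneg_left a6 hβ.le
      refine le_of_mul_le_mul_right ?_ hρ
      linarith
    have a8 : ‖ch.Pw dl‖ ≤ τ * θ * β + 9 * K * β := by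
      have b1 : ‖dm • nn α₁‖ ≤ |dm| := by
        rw [norm_smul, Real.norm_eq_abs]
        exact mul_le_of_le_one_right (abs_nonneg _) (norm_nn_le _)
      rw [hw]
      linarith [norm_add_le r (dm • nn α₁)]
    have a9 : τ * θ * β ≤ β := mul_le_of_le_one_left hβ.le hρ1
    have a10 : β ≤ K * β := le_mul_of_one_le_left hβ.le hK
    linarith [ch.norm_le hF₁ dl]

theorem low (T : Tools) {Ω Ω' α β γ : Type} [Fintype Ω] [Fintype Ω'] {p' : Ω' → ℝ} {pr : Ω' → Ω}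
    {p : Ω → ℝ} (h : MP p' pr p) (f : Ω → α) (k : Ω → β) (G : Ω' → γ) (Ev : Ω' → Prop)
    (hG : Det p' G fun z => k (pr z)) :
    Pr p' Ev * Hc (cnd p' Ev) (fun z => f (pr z)) G ≤ Hc p f k := by
  rw [← T.t1.mp f k h]
  exact (e2.event_low _ _ Ev h.1).trans (e1.hc_mono h.1 hG (Det.fst _ _ _))

theorem pow_le {s a b₁ b : ℕ} (h : s + a + 2 * b₁ ≤ b) :
    (2⁻¹ : ℝ) ^ b ≤ 2⁻¹ ^ s * 2⁻¹ ^ a * 2⁻¹ ^ b₁ * 2⁻¹ ^ b₁ := by
  rw [← pow_add, ← pow_add, ← pow_add]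
  exact pow_le_pow_of_le_one (by norm_num) (by norm_num) (by omega)

theorem same1 {i : ℕ} {x y : Eu 1} (h : flo i x = flo i y) : ‖x - y‖ ≤ 2⁻¹ ^ i := by
  simpa using geo1.same_norm h

theorem sqrt3 : √((3 : ℕ) : ℝ) ≤ 2 := sqrt_le_iff.2 ⟨zero_le_two, by norm_num⟩

variable {Ω Tt Θ μ : Type} [Fintype Ω] {D : Cf Ω Tt Θ 3} {ch : Chart 3 1 2 2}
  {Q : Ω → Submodule ℝ (Eu 3)} {F α : Ω → Eu 2} {M : Ω → μ} {L b b₁ s a : ℕ} {σ κ' E : ℝ}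

theorem det_c (tw : D.Two M L E) :
    Det (D.pp M) (D.two₁ M).c (fun z => D.c z.1) ∧ Det (D.pp M) (D.two₁ M).c fun z => D.c z.2 := by
  refine ⟨fun z z' _ _ e => ?_, fun z z' hz hz' e => ?_⟩
  · obtain ⟨h1, h2⟩ := Prod.ext_iff.1 e
    exact Prod.ext (Prod.ext_iff.1 h1).1 h2
  · obtain ⟨h1, h2⟩ := Prod.ext_iff.1 e
    refine Prod.ext (Prod.ext_iff.1 h1).2 ?_
    exact (tw.supp z hz).2.2.2.2.1.trans (Eq.trans h2 (tw.supp z' hz').2.2.2.2.1.symm)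

/-- the geometry of two points with the same data -/
theorem pts (hP : P1 ch) (hpc : D.PC ch σ Q F L E) (hc : D.Com ch F α L b κ' E)
    (tw : D.Two M L E) (hM : Det D.p (fun ω => (M ω, D.T ω)) fun ω => fl s (D.t ω))
    (hb : s + a + 2 * b₁ ≤ b) {z z' : Ω × Ω} (hz : D.pp M z ≠ 0) (hz' : D.pp M z' ≠ 0)
    (h0 : 2⁻¹ ^ b₁ ≤ ‖α z.1‖ ∧ |⟪F z.2 - F z.1, nn (α z.1)⟫| ≤ 2⁻¹ ^ a ∧
      2 ^ b₁ * 2⁻¹ ^ (s + a) < |⟪F z.2 - F z.1, nn (α z.1)⟫ +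
        (D.t z.2 - D.t z.1) * ⟪α z.2, nn (α z.1)⟫|)
    (hcc : (D.two₁ M).c z = (D.two₁ M).c z') (hX : flo b (D.X z.1) = flo b (D.X z'.1))
    (h1 : flo b (D.z ch F z.1) = flo b (D.z ch F z'.1))
    (h2 : flo b (ch.app (α z.1) (ch.Pw (D.v z.1))) = flo b (ch.app (α z'.1) (ch.Pw (D.v z'.1)))) :
    ‖D.y ch F z.2 - D.y ch F z'.2‖ ≤ 13 * 2⁻¹ ^ (s + a) ∧
    (flo (s + a) (D.z ch F z.2 + ch.app (α z.2) (D.w ch z.2)) =
      flo (s + a) (D.z ch F z'.2 + ch.app (α z'.2) (D.w ch z'.2)) →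
      ‖D.v z.1 - D.v z'.1‖ ≤ 31 * exp E * 2⁻¹ ^ b₁) := by
  obtain ⟨p1, p2, ea, ev, eT, eM⟩ := tw.supp z hz
  obtain ⟨p1', p2', ea', ev', -, -⟩ := tw.supp z' hz'
  have c1 : D.c z'.1 = D.c z.1 := ((det_c tw).1 z z' hz hz' hcc).symm
  have c2 : D.c z'.2 = D.c z.2 := ((det_c tw).2 z z' hz hz' hcc).symm
  have t1 := hpc.ok.det _ _ p1' p1 c1
  have t2 := hpc.ok.det _ _ p2' p2 c2
  have f1 := hpc.det _ _ p1' p1 c1
  have f2 := hpc.det _ _ p2' p2 c2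
  have a1 := hc.det _ _ p1' p1 c1
  have a2 := hc.det _ _ p2' p2 c2
  have hdt : |D.t z.2 - D.t z.1| ≤ 2⁻¹ ^ s := fl_same (hM _ _ p2 p1 (Prod.ext eM eT))
  have hη := pow_le hb
  have hle : ∀ i : ℕ, (2⁻¹ : ℝ) ^ i ≤ 1 := fun i => pow_le_one₀ (by norm_num) (by norm_num)
  have eX : D.X z.2 - D.X z'.2 =
      (D.X z.1 - D.X z'.1) + (D.t z.2 - D.t z.1) • (D.v z.1 - D.v z'.1) := by
    simp only [Cf.X, ea, ev, ea', ev', t1, t2]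
    module
  have k := geo ch hP (dX := D.X z.1 - D.X z'.1) (dl := D.v z.1 - D.v z'.1) (by positivity)
    (hle b₁) (by positivity) (hle s) (by positivity) (hle a) (one_le_exp hpc.ok.nonneg)
    (hpc.rep _ p1).1 (hpc.rep _ p2).1 h0.1 (hc.bd _ p2) hdt h0.2.1
    (((hpc.ok.box _ p1).2.1.norm_sub_le (hpc.ok.box _ p1').2.1).trans sqrt3)
    ((geo1.same_norm hX).trans (mul_le_mul sqrt3 hη (by positivity) zero_le_two))
    (by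
      have h3 := same1 h1
      rw [Cf.z, Cf.z, f1, ← ch.pi_sub] at h3
      exact h3.trans hη)
    (by
      have h3 := same1 h2
      rw [a1, ← map_sub, ← map_sub] at h3
      exact h3.trans hη)
  rw [← pow_add, ← eX] at k
  refine ⟨by rw [Cf.y, Cf.y, f2, ← ch.pi_sub]; exact k.1, fun h4 => k.2 ?_ ?_⟩
  · have h5 := mul_lt_mul_of_pos_left h0.2.2 (by positivity : (0 : ℝ) < 2⁻¹ ^ b₁)
    rwa [← mul_assoc, ← mul_pow, inv_mul_cancel₀ two_ne_zero, one_pow, one_mul] at h5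
  · have h5 := same1 h4
    rw [Cf.z, Cf.z, Cf.w, Cf.w, f2, a2, ev, ev', add_sub_add_comm, ← ch.pi_sub, ← map_sub,
      ← map_sub] at h5
    exact h5

theorem main (T : Tools) (hP : P1 ch) (hpc : D.PC ch σ Q F L E) (hc : D.Com ch F α L b κ' E)
    (tw : D.Two M L E) (hM : Det D.p (fun ω => (M ω, D.T ω)) fun ω => fl s (D.t ω))
    (hb : s + a + 2 * b₁ ≤ b) {E₁ : ℝ}
    (hz : Hc D.p (fun ω => flo b (D.z ch F ω)) (fun ω => (flo b (D.X ω), D.c ω)) ≤ E₁)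
    (Ev : Ω × Ω → Prop) (hEv : ∀ z, Ev z → 2⁻¹ ^ b₁ ≤ ‖α z.1‖ ∧
      |⟪F z.2 - F z.1, nn (α z.1)⟫| ≤ 2⁻¹ ^ a ∧
      2 ^ b₁ * 2⁻¹ ^ (s + a) < |⟪F z.2 - F z.1, nn (α z.1)⟫ +
        (D.t z.2 - D.t z.1) * ⟪α z.2, nn (α z.1)⟫|) (h0 : 0 < Pr (D.pp M) Ev) :
    Pr (D.pp M) Ev * (Hc (cnd (D.pp M) Ev) (fun z => flo b₁ (D.v z.1))
      (fun z => (flo b (D.X z.1), (D.two₁ M).c z)) - (3 * E + 3000)) ≤ E₁ + 2 * E := by
  have hp := e2.isP_cnd tw.mp₁.1 h0.ne'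
  obtain ⟨d1, d2⟩ := det_c tw
  set g := fun z : Ω × Ω => (flo b (D.X z.1), (D.two₁ M).c z) with hg
  set A₁ := fun z : Ω × Ω => flo b (D.z ch F z.1) with hA₁
  set A₂ := fun z : Ω × Ω => flo b (ch.app (α z.1) (ch.Pw (D.v z.1))) with hA₂
  set A₃ := fun z : Ω × Ω => flo (s + a) (D.y ch F z.2) with hA₃
  set A₄ := fun z : Ω × Ω => flo (s + a) (D.z ch F z.2 + ch.app (α z.2) (D.w ch z.2)) with hA₄
  have dg : Det (D.pp M) g fun z => (flo b (D.X z.1), D.c z.1) :=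
    (Det.fst _ _ _).pair ((Det.snd _ _ _).trans d1)
  have l1 : Pr (D.pp M) Ev * Hc (cnd (D.pp M) Ev) A₁ g ≤ E₁ :=
    (low T tw.mp₁ (fun ω => flo b (D.z ch F ω)) _ g Ev dg).trans hz
  have l2 : Pr (D.pp M) Ev * Hc (cnd (D.pp M) Ev) A₂ (fun z => (A₁ z, g z)) ≤ E :=
    (low T tw.mp₁ (fun ω => flo b (ch.app (α ω) (ch.Pw (D.v ω)))) _ _ Ev
      ((Det.snd _ _ _).trans dg)).trans hc.so
  have l4 : Pr (D.pp M) Ev * Hc (cnd (D.pp M) Ev) A₄ (fun z => (A₃ z, A₂ z, A₁ z, g z)) ≤ E :=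
    (low T tw.mp₂ (fun ω => flo (s + a) (D.z ch F ω + ch.app (α ω) (D.w ch ω)))
      (fun ω => (flo (s + a) (D.y ch F ω), D.c ω)) _ Ev
      ((Det.fst _ _ _).pair ((Det.snd _ _ _).trans ((Det.snd _ _ _).trans ((Det.snd _ _ _).trans
        ((Det.snd _ _ _).trans d2)))))).trans (hc.dc _ (by omega))
  have k : ∀ z z', cnd (D.pp M) Ev z ≠ 0 → cnd (D.pp M) Ev z' ≠ 0 →
      (A₂ z, A₁ z, g z) = (A₂ z', A₁ z', g z') → _ := fun z z' hz hz' e =>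
    pts hP hpc hc tw hM hb (e2.cnd_ne hz).1 (e2.cnd_ne hz').1 (hEv z (e2.cnd_ne hz).2)
      (congrArg (fun u => u.2.2.2) e) (congrArg (fun u => u.2.2.1) e)
      (congrArg (fun u => u.2.1) e) (congrArg (fun u => u.1) e)
  have l3 := T.t3.nearA (s + a) (fun z : Ω × Ω => D.y ch F z.2) (fun z => (A₂ z, A₁ z, g z)) 13 hp
    (by norm_num) fun z z' hz hz' e => (k z z' hz hz' e).1
  have hE := hpc.ok.nonneg
  have l5 := T.t3.nearA b₁ (fun z : Ω × Ω => D.v z.1) (fun z => (A₄ z, A₃ z, A₂ z, A₁ z, g z))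
    (31 * exp E) hp (by linarith [one_le_exp hE]) fun z z' hz hz' e =>
      (k z z' hz hz' (congrArg (fun u => u.2.2) e)).2 (congrArg (fun u => u.1) e)
  have t1 := e1.tri (fun z : Ω × Ω => flo b₁ (D.v z.1)) A₁ g hp
  have t2 := e1.tri (fun z : Ω × Ω => flo b₁ (D.v z.1)) A₂ (fun z => (A₁ z, g z)) hp
  have t3 := e1.tri (fun z : Ω × Ω => flo b₁ (D.v z.1)) A₃ (fun z => (A₂ z, A₁ z, g z)) hp
  have t4 := e1.tri (fun z : Ω × Ω => flo b₁ (D.v z.1)) A₄ (fun z => (A₃ z, A₂ z, A₁ z, g z)) hp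
  rw [log_mul (by norm_num) (exp_pos E).ne', log_exp] at l5
  have n1 := log_le_sub_one_of_pos (show (0 : ℝ) < 31 by norm_num)
  have n2 := log_le_sub_one_of_pos (show (0 : ℝ) < 13 by norm_num)
  have n3 : CE 1 = 400 := by norm_num [CE]
  have n4 : CE 3 = 1600 := by norm_num [CE]
  have l6 : Hc (cnd (D.pp M) Ev) (fun z => flo b₁ (D.v z.1)) g - (3 * E + 3000) ≤
      Hc (cnd (D.pp M) Ev) A₁ g + Hc (cnd (D.pp M) Ev) A₂ (fun z => (A₁ z, g z)) +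
        Hc (cnd (D.pp M) Ev) A₄ (fun z => (A₃ z, A₂ z, A₁ z, g z)) := by
    push_cast at l3 l5
    linarith
  linarith [mul_le_mul_of_nonneg_left l6 h0.le]

end StarX

theorem sStar (T : Tools) (B : Base) : SStar := by
  intro σ hc ch hP κ ζ hκ hζ
  have hδ : 0 < σ * κ * log 2 / 10 := by have := hc.pos; have := log_two_pos; positivity
  obtain ⟨e, he, hnod⟩ := ef_use1 (B.nod 3 σ hc ζ _ hζ hδ)
  filter_upwards [hnod, B.fullC 3 σ hc ch _ (mul_pos hδ hζ), ef_lin (A := 3) (by norm_num) 0 he,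
    ef_lin (A := 2) zero_le_two 0 (mul_pos hδ hζ), ef_lin (A := 3) (by norm_num) 3000 hδ,
    ef_large 1]
    with x h1 h2 h3 h4 h5 h6 Ω Tt Θ μ _ D Q F α M κ' b b₁ s a hpc hcom hM hMt hb₁ hb hbL
  have hL : (1 : ℝ) ≤ x.2 := by exact_mod_cast h6
  by_contra hcon
  have hP0 := lt_of_mul_lt_mul_right (not_le.1 hcon) (by linarith)
  have tw := B.two D M x.2 x.1 hpc.ok hM
  have k1 := h1 (3 * x.1) (by linarith) (D.two₁ M) _ b₁ b hP0.le (tw.ext σ hpc.ext).2.1 (by omega)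
    (by omega)
  have k2 := StarX.main T hP hpc hcom tw hMt hb ((h2 D Q F hpc).zx b hbL) _ (fun _ h => h)
    (hζ.trans hP0)
  have k3 : σ * (κ * x.2) * log 2 ≤ σ * b₁ * log 2 :=
    mul_le_mul_of_nonneg_right (mul_le_mul_of_nonneg_left hb₁ hc.pos.le) log_two_pos.le
  have k4 : 0 < σ * κ * log 2 / 10 * x.2 := by positivity
  have k5 : ∀ H P : ℝ, σ * b₁ * log 2 - σ * κ * log 2 / 10 * x.2 ≤ H → ζ < P →
      P * (H - (3 * x.1 + 3000)) ≤ σ * κ * log 2 / 10 * ζ * x.2 + 2 * x.1 → False := by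
    intro H P q1 q2 q3
    have q4 : 8 * (σ * κ * log 2 / 10 * x.2) ≤ H - (3 * x.1 + 3000) := by linarith
    have q5 := mul_le_mul q2.le q4 (by positivity) (hζ.trans q2).le
    have q6 := mul_pos hζ k4
    linarith
  exact k5 _ _ k1 hP0 k2

end Vale.Agent.P127
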