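import Vale.Agent.P127.Num

/-! Sticky Kakeya sets in four dimensions: windows and locally affine slopes. -/

namespace Vale.Agent.P127

open Vale.Agent.P118
open scoped RealInnerProductSpace
open Real Classical Module

namespace TbX

variable {Ω Tt Θ : Type} {m r : ℕ} (D : Cf Ω Tt Θ m) (F : Ω → Eu r) (s : ℕ)

theorem fl_of_tb {a b : Ω} (h1 : D.tb s a = D.tb s b) (h2 : fl s (D.t a) = fl s (D.t b)) :
    fl (s + s) (D.t a) = fl (s + s) (D.t b) := by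
  unfold Cf.tb at h1
  rw [div_left_inj' (by positivity), h2, sub_left_inj] at h1
  exact_mod_cast h1

theorem tb_of_fl {a b : Ω} (h : fl (s + s) (D.t a) = fl (s + s) (D.t b)) :
    D.tb s a = D.tb s b := by
  unfold Cf.tb
  rw [h, fl_fl (Nat.le_add_right s s) h]

theorem wd_iff {a b : Ω} : D.Wd F s a = D.Wd F s b ↔
    fl s (D.t a) = fl s (D.t b) ∧ flo s (F a) = flo s (F b) ∧ D.T a = D.T b := by
  unfold Cf.Wd
  rw [Prod.mk.injEq, Prod.mk.injEq]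

variable [Fintype Ω]

theorem core (T : Tools) (B : Base) {L : ℕ} {E Z : ℝ} (ok : D.OK L E) (hs : 4 * s ≤ L)
    (h1 : Hc D.p (fun ω => flo s (F ω)) (fun ω => (fl s (D.t ω), D.T ω)) ≤ Z)
    (h2 : Hc D.p (fun ω => flo (s + s) (F ω)) (fun ω => (fl (s + s) (D.t ω), D.T ω)) ≤ Z) :
    Hc D.p (D.Wd F s) D.T ≤ s * log 2 + Z ∧
    s * log 2 - (3 * E + Z) ≤ Hc D.p (D.tb s) (fun ω => (D.l ω, D.Wd F s ω)) ∧
    Hc D.p (fun ω => (D.tb s ω, zm s s (F ω))) (D.Wd F s) ≤ s * log 2 + Z := by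
  have hp := ok.isP
  have a1 : Hc D.p (D.Wd F s) D.T ≤ Hc D.p (fun ω => (fl s (D.t ω), flo s (F ω))) D.T :=
    e1.hc_mono hp (Det.refl _ _) fun a b _ _ e => by
      obtain ⟨e1, e2⟩ := Prod.ext_iff.1 e
      obtain ⟨e3, e4⟩ := Prod.ext_iff.1 e1
      exact (wd_iff D F s).2 ⟨e3, e4, e2⟩
  have a2 := e1.chain (fun ω => fl s (D.t ω)) (fun ω => flo s (F ω)) D.T hp
  have a3 := T.t4.int s D.t D.T hp fun ω hω => (ok.box ω hω).2.2
  have a4 : Hc D.p (D.Wd F s) D.T ≤ s * log 2 + Z := by linarith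
  refine ⟨a4, ?_, ?_⟩
  · have b1 := (B.bas D L E ok).2.2.2.1 (s + s) (by omega)
    have b2 := e1.tri (fun ω => fl (s + s) (D.t ω)) (D.Wd F s) (fun ω => (D.l ω, D.T ω)) hp
    have b3 : Hc D.p (D.Wd F s) (fun ω => (D.l ω, D.T ω)) ≤ Hc D.p (D.Wd F s) D.T :=
      e1.hc_mono hp (Det.snd _ _ _) (Det.fst _ _ _)
    have b4 : Hc D.p (fun ω => fl (s + s) (D.t ω)) (fun ω => (D.Wd F s ω, D.l ω, D.T ω)) ≤
        Hc D.p (D.tb s) (fun ω => (D.l ω, D.Wd F s ω)) :=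
      e1.hc_mono hp (fun a b _ _ e => by
          obtain ⟨e1, e2⟩ := Prod.ext_iff.1 e
          exact Prod.ext (Prod.ext_iff.1 e2).1 e1)
        fun a b _ _ e => by
          obtain ⟨e1, e2⟩ := Prod.ext_iff.1 e
          exact fl_of_tb D s e1 ((wd_iff D F s).1 (Prod.ext_iff.1 e2).1).1
    push_cast at b1
    linarith
  · have c1 := e1.chain (D.tb s) (fun ω => zm s s (F ω)) (D.Wd F s) hp
    have c2 : Hc D.p (D.tb s) (D.Wd F s) ≤ Hc D.p (fun ω => fl (s + s) (D.t ω)) (D.Wd F s) :=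
      e1.hc_mono hp (Det.refl _ _) fun a b _ _ e => tb_of_fl D s (Prod.ext_iff.1 e).1
    have c3 := T.t4.sub1 s (s + s) D.t (D.Wd F s) hp (Nat.le_add_right s s)
      fun a b _ _ e => ((wd_iff D F s).1 e).1
    have c4 : Hc D.p (fun ω => zm s s (F ω)) (fun ω => (D.tb s ω, D.Wd F s ω)) ≤
        Hc D.p (fun ω => flo (s + s) (F ω)) (fun ω => (fl (s + s) (D.t ω), D.T ω)) :=
      e1.hc_mono hp (fun a b _ _ e => by
          obtain ⟨e1, e2⟩ := Prod.ext_iff.1 e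
          obtain ⟨e3, -, e4⟩ := (wd_iff D F s).1 e2
          exact Prod.ext (fl_of_tb D s e1 e3) e4)
        fun a b _ _ e => by
          have e1 : flo (s + s) (F a) = flo (s + s) (F b) := (Prod.ext_iff.1 e).1
          show zm s s (F a) = zm s s (F b)
          unfold zm
          rw [e1, flo_of_flo (Nat.le_add_right s s) e1]
    push_cast at c3
    linarith

theorem quarter {u v : ℝ} (h : u + 2 * log 2 ≤ v) : 4 * exp u ≤ exp v := by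
  have h1 : exp (u + 2 * log 2) = 4 * exp u := by
    rw [exp_add, two_mul, exp_add, exp_log two_pos]; ring
  rw [← h1]; exact exp_le_exp.2 h

theorem inv_pow_exp (n : ℕ) : (2⁻¹ : ℝ) ^ n = exp (-(n : ℝ) * log 2) := by
  rw [inv_two_pow_eq, two_rpow_eq]

theorem num1 (r s h : ℕ) {η A : ℝ} (hη : η ≤ 1 / 2) (hh : h ≤ η / 2 * s) (h1 : 8 ≤ η * s)
    (hA : 10 * A ≤ s) (hr : 10 * (r : ℝ) ≤ s) :
    √r * 2⁻¹ ^ (s + s) + 2⁻¹ ^ s * (2 : ℝ) ^ (-η * s) + 2⁻¹ ^ (s + s) * exp A ≤ 2⁻¹ ^ (s + h) := by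
  have hs0 : (0 : ℝ) ≤ s := by positivity
  have hηs : η * s ≤ 1 / 2 * s := mul_le_mul_of_nonneg_right hη hs0
  have hl := half_le_log_two
  have hk : (s : ℝ) / 10 ≤ ((s : ℝ) - h - 2) * log 2 := by nlinarith
  have t1 : √r * 2⁻¹ ^ (s + s) ≤ exp (r + -((s + s : ℕ) : ℝ) * log 2) := by
    rw [exp_add, inv_pow_exp]
    exact mul_le_mul_of_nonneg_right ((sqrt_le_succ r).trans (add_one_le_exp _)) (exp_pos _).le
  have t2 : (2⁻¹ : ℝ) ^ s * (2 : ℝ) ^ (-η * s) = exp (-(s : ℝ) * log 2 + -η * s * log 2) := by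
    rw [exp_add, inv_pow_exp, two_rpow_eq]
  have t3 : (2⁻¹ : ℝ) ^ (s + s) * exp A = exp (-((s + s : ℕ) : ℝ) * log 2 + A) := by
    rw [exp_add, inv_pow_exp]
  have q1 : 4 * exp (r + -((s + s : ℕ) : ℝ) * log 2) ≤ exp (-((s + h : ℕ) : ℝ) * log 2) :=
    quarter (by push_cast; nlinarith)
  have q2 : 4 * exp (-(s : ℝ) * log 2 + -η * s * log 2) ≤ exp (-((s + h : ℕ) : ℝ) * log 2) := by
    refine quarter ?_
    have : 0 ≤ (η * s - h - 2) * log 2 := mul_nonneg (by linarith) (by linarith)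
    push_cast; nlinarith
  have q3 : 4 * exp (-((s + s : ℕ) : ℝ) * log 2 + A) ≤ exp (-((s + h : ℕ) : ℝ) * log 2) :=
    quarter (by push_cast; nlinarith)
  rw [t2, t3, inv_pow_exp (s + h)]
  linarith [exp_pos (-((s + h : ℕ) : ℝ) * log 2)]

omit [Fintype Ω] in
theorem near (ω : Ω) (β₀ β : Eu r) {ρ A : ℝ} (h1 : ‖zm s s (F ω) - β₀ - D.tb s ω • β‖ ≤ ρ)
    (h2 : ‖β‖ ≤ A) :
    ‖F ω - (flo s (F ω) + (2⁻¹ : ℝ) ^ s • β₀ - ((fl s (D.t ω) : ℝ) / 2 ^ s) • β) - D.t ω • β‖ ≤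
      √r * 2⁻¹ ^ (s + s) + 2⁻¹ ^ s * ρ + 2⁻¹ ^ (s + s) * A := by
  have e : F ω - (flo s (F ω) + (2⁻¹ : ℝ) ^ s • β₀ - ((fl s (D.t ω) : ℝ) / 2 ^ s) • β) - D.t ω • β =
      (F ω - flo s (F ω) - (2⁻¹ : ℝ) ^ s • zm s s (F ω)) +
        (2⁻¹ : ℝ) ^ s • (zm s s (F ω) - β₀ - D.tb s ω • β) -
        (D.t ω - (fl s (D.t ω) : ℝ) / 2 ^ s - 2⁻¹ ^ s * D.tb s ω) • β := by
    module
  have n1 := zm_close s s (F ω)
  have n2 : ‖(2⁻¹ : ℝ) ^ s • (zm s s (F ω) - β₀ - D.tb s ω • β)‖ ≤ 2⁻¹ ^ s * ρ := by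
    rw [norm_smul, Real.norm_eq_abs, abs_of_pos (by positivity)]
    exact mul_le_mul_of_nonneg_left h1 (by positivity)
  have n3 : ‖(D.t ω - (fl s (D.t ω) : ℝ) / 2 ^ s - 2⁻¹ ^ s * D.tb s ω) • β‖ ≤
      2⁻¹ ^ (s + s) * A := by
    rw [norm_smul, Real.norm_eq_abs]
    exact mul_le_mul (D.tb_near s ω) h2 (norm_nonneg _) (by positivity)
  rw [e]
  exact (norm_sub_le _ _).trans (add_le_add ((norm_add_le _ _).trans (add_le_add n1 n2)) n3)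

/-- a plane vector from two coordinates -/
noncomputable def v2 (a b : Eu 1) : Eu 2 := WithLp.toLp 2 ![a 0, b 0]

theorem norm_two_le (x : Eu 2) : ‖x‖ ≤ |x 0| + |x 1| := by
  refine abs_le_of_sq_le_sq' ?_ (by positivity) |>.2
  rw [norm_sq_two, add_sq, sq_abs, sq_abs]
  have : 0 ≤ 2 * |x 0| * |x 1| := by positivity
  linarith

theorem norm_v2 (a b : Eu 1) : ‖v2 a b‖ ≤ ‖a‖ + ‖b‖ := by
  rw [norm_one, norm_one]
  simpa [v2] using norm_two_le (v2 a b)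

theorem norm_aff (x : Eu 2) (a b c d : Eu 1) (τ : ℝ) :
    ‖x - v2 a b - τ • v2 c d‖ ≤ ‖co 0 x - a - τ • c‖ + ‖co 1 x - b - τ • d‖ := by
  rw [norm_one, norm_one]
  simpa [v2, co] using norm_two_le (x - v2 a b - τ • v2 c d)

theorem num2 {η η' : ℝ} {s : ℕ} (h : 2 * η ≤ η') (h1 : 1 ≤ η * s) :
    2 * (2 : ℝ) ^ (-η' * s) ≤ (2 : ℝ) ^ (-η * s) := by
  have hs0 : (0 : ℝ) ≤ s := by positivity
  have h2 : 2 * η * s ≤ η' * s := mul_le_mul_of_nonneg_right h hs0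
  rw [← rpow_one_add' (by norm_num) ?_]
  · exact rpow_le_rpow_of_exponent_le one_le_two (by linarith)
  · linarith

end TbX

theorem sTb (T : Tools) (B : Base) : STb := by
  intro m p q r ch σ lip ζ hζ
  filter_upwards [lip (ζ / 2) (half_pos hζ), ef_lin (A := 3) (by norm_num) 0 (half_pos hζ)]
    with x hx h3 Ω Tt Θ _ D Q F hD s hs
  obtain ⟨a, b, c⟩ := TbX.core D F s T B hD.ok hs (hx D Q F hD s (by omega))
    (hx D Q F hD (s + s) (by omega))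
  have h0 : 0 ≤ ζ / 2 * x.2 := by positivity
  exact ⟨by linarith, by linarith, by linarith⟩

theorem sAf1 (tb : STb) : SAf1 := by
  intro m p q r ch σ η hη hη2 lip aff κ ζ hκ hζ
  obtain ⟨ζ', h0, h1, h2⟩ : ∃ ζ' : ℝ, 0 < ζ' ∧ 2 * ζ' ≤ ζ ∧ 10 * ζ' ≤ κ :=
    ⟨min (ζ / 2) (κ / 10), by positivity, by linarith [min_le_left (ζ / 2) (κ / 10)],
      by linarith [min_le_right (ζ / 2) (κ / 10)]⟩
  filter_upwards [aff κ ζ' hκ h0, tb ch σ lip ζ' h0, ef_const 8 (mul_pos hη hκ),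
    ef_const (10 * r) hκ] with x hx ht c1 c2 Ω Tt Θ _ D Q F hD s h hs hs4 hh
  obtain ⟨Λ, β₀, β, d1, d2, d3, d4, d5, d6⟩ := hx D Q F hD s hs hs4
  have hp := hD.ok.isP
  have hL : (0 : ℝ) ≤ x.2 := by positivity
  have k1 : 2 * ζ' * x.2 ≤ ζ * x.2 := mul_le_mul_of_nonneg_right h1 hL
  have k2 : 10 * ζ' * x.2 ≤ κ * x.2 := mul_le_mul_of_nonneg_right h2 hL
  have k3 : 0 ≤ ζ' * x.2 := by positivity
  have k4 : η * (κ * x.2) ≤ η * s := mul_le_mul_of_nonneg_left hs hη.le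
  have dW : Det D.p (fun ω => ((fl s (D.t ω), flo s (F ω), Λ ω), D.T ω))
      fun ω => (Λ ω, D.Wd F s ω) := fun a b _ _ e => by
    obtain ⟨e1, e2⟩ := Prod.ext_iff.1 e
    obtain ⟨e3, e4⟩ := Prod.ext_iff.1 e1
    obtain ⟨e5, e6⟩ := Prod.ext_iff.1 e4
    exact Prod.ext e6 ((TbX.wd_iff D F s).2 ⟨e3, e5, e2⟩)
  refine ⟨fun ω => (fl s (D.t ω), flo s (F ω), Λ ω),
    fun ω => flo s (F ω) + (2⁻¹ : ℝ) ^ s • β₀ ω - ((fl s (D.t ω) : ℝ) / 2 ^ s) • β ω, β,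
    fun a b ha hb e => ?_, ?_, fun a b _ _ e => ?_, fun a b _ _ e => ?_, fun a b ha hb e => ?_,
    dW.trans d4, fun ω hω => (d5 ω hω).trans (exp_le_exp.2 (by linarith)), ?_⟩
  · show (fl s (D.t a), flo s (F a), Λ a) = (fl s (D.t b), flo s (F b), Λ b)
    rw [hD.ok.det a b ha hb e, hD.det a b ha hb e, d1 a b ha hb e]
  · have a1 := e1.tri (fun ω => (fl s (D.t ω), flo s (F ω), Λ ω)) (D.Wd F s) D.T hp
    have a2 : Hc D.p (fun ω => (fl s (D.t ω), flo s (F ω), Λ ω)) (fun ω => (D.Wd F s ω, D.T ω)) ≤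
        Hc D.p Λ D.T :=
      e1.hc_mono hp (Det.snd _ _ _) fun a b _ _ e => by
        obtain ⟨e1, e2⟩ := Prod.ext_iff.1 e
        obtain ⟨e3, e4, -⟩ := (TbX.wd_iff D F s).1 (Prod.ext_iff.1 e2).1
        exact Prod.ext e3 (Prod.ext e4 e1)
    have a3 := e1.hc_le Λ D.T hp
    have a4 := (ht D Q F hD s hs4).1
    linarith
  · exact (Prod.ext_iff.1 (Prod.ext_iff.1 e).1).1
  · exact (Prod.ext_iff.1 (Prod.ext_iff.1 (Prod.ext_iff.1 e).1).2).1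
  · have f1 : fl s (D.t a) = fl s (D.t b) := (Prod.ext_iff.1 (Prod.ext_iff.1 e).1).1
    have f2 : flo s (F a) = flo s (F b) :=
      (Prod.ext_iff.1 (Prod.ext_iff.1 (Prod.ext_iff.1 e).1).2).1
    show flo s (F a) + (2⁻¹ : ℝ) ^ s • β₀ a - ((fl s (D.t a) : ℝ) / 2 ^ s) • β a =
      flo s (F b) + (2⁻¹ : ℝ) ^ s • β₀ b - ((fl s (D.t b) : ℝ) / 2 ^ s) • β b
    rw [f1, f2, dW.trans d3 a b ha hb e, dW.trans d4 a b ha hb e]
  · refine le_trans (mul_le_mul_of_nonneg_right (e1.pr_mono hp fun ω hω hE => ?_) hL)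
      (d6.trans (by linarith))
    by_contra hc
    have n1 := TbX.near D F s ω (β₀ ω) (β ω) (not_lt.1 hc) (d5 ω hω)
    have n2 := TbX.num1 r s h (A := ζ' * x.2) hη2 hh (by linarith) (by linarith) (by linarith)
    exact absurd (n1.trans n2) (not_le.2 hE)

theorem sAf2 : SAf2 := by
  intro m p q ch σ H
  obtain ⟨η₀, p0, A0⟩ := H 0
  obtain ⟨η₁, p1, A1⟩ := H 1
  obtain ⟨η, h0, h1, h2, h3⟩ : ∃ η : ℝ, 0 < η ∧ η ≤ 1 / 2 ∧ 2 * η ≤ η₀ ∧ 2 * η ≤ η₁ :=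
    ⟨min (min η₀ η₁) 1 / 2, by positivity, by linarith [min_le_right (min η₀ η₁) 1],
      by linarith [min_le_left (min η₀ η₁) 1, min_le_left η₀ η₁],
      by linarith [min_le_left (min η₀ η₁) 1, min_le_right η₀ η₁]⟩
  refine ⟨η, h0, h1, fun κ ζ hκ hζ => ?_⟩
  filter_upwards [A0 κ (ζ / 2) hκ (half_pos hζ), A1 κ (ζ / 2) hκ (half_pos hζ),
    ef_const 1 (half_pos hζ), ef_const 1 (mul_pos h0 hκ)] with x hx hy c1 c2 Ω Tt Θ _ D Q F hD s hs hs4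
  obtain ⟨Λ, β₀, β, d1, d2, d3, d4, d5, d6⟩ := hx D Q F hD s hs hs4
  obtain ⟨Λ', β₀', β', f1, f2, f3, f4, f5, f6⟩ := hy D Q F hD s hs hs4
  have hp := hD.ok.isP
  have hL : (0 : ℝ) ≤ x.2 := by positivity
  have k4 : η * (κ * x.2) ≤ η * s := mul_le_mul_of_nonneg_left hs h0.le
  have g0 : Det D.p (fun ω => (Nat.pair (Λ ω) (Λ' ω), D.Wd F s ω)) fun ω => (Λ ω, D.Wd F s ω) :=
    fun a b _ _ e => Prod.ext (Nat.pair_eq_pair.1 (Prod.ext_iff.1 e).1).1 (Prod.ext_iff.1 e).2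
  have g1 : Det D.p (fun ω => (Nat.pair (Λ ω) (Λ' ω), D.Wd F s ω)) fun ω => (Λ' ω, D.Wd F s ω) :=
    fun a b _ _ e => Prod.ext (Nat.pair_eq_pair.1 (Prod.ext_iff.1 e).1).2 (Prod.ext_iff.1 e).2
  refine ⟨fun ω => Nat.pair (Λ ω) (Λ' ω), fun ω => TbX.v2 (β₀ ω) (β₀' ω),
    fun ω => TbX.v2 (β ω) (β' ω), fun a b ha hb e => ?_, ?_, fun a b ha hb e => ?_,
    fun a b ha hb e => ?_, fun ω hω => ?_, ?_⟩
  · show Nat.pair (Λ a) (Λ' a) = Nat.pair (Λ b) (Λ' b)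
    rw [d1 a b ha hb e, f1 a b ha hb e]
  · have a1 : Hn D.p (fun ω => Nat.pair (Λ ω) (Λ' ω)) ≤ Hn D.p fun ω => (Λ ω, Λ' ω) :=
      e1.hn_mono hp (Det.comp D.p (fun ω => (Λ ω, Λ' ω)) fun u => Nat.pair u.1 u.2)
    have a2 := e1.hc_le Λ Λ' hp
    unfold Hc at a2
    linarith
  · show TbX.v2 (β₀ a) (β₀' a) = TbX.v2 (β₀ b) (β₀' b)
    rw [g0.trans d3 a b ha hb e, g1.trans f3 a b ha hb e]
  · show TbX.v2 (β a) (β' a) = TbX.v2 (β b) (β' b)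
    rw [g0.trans d4 a b ha hb e, g1.trans f4 a b ha hb e]
  · have a1 := TbX.norm_v2 (β ω) (β' ω)
    have a2 : exp (ζ * x.2) = exp (ζ / 2 * x.2) * exp (ζ / 2 * x.2) := by
      rw [← exp_add]; congr 1; ring
    have a3 := add_one_le_exp (ζ / 2 * x.2)
    have a4 : 2 * exp (ζ / 2 * x.2) ≤ exp (ζ / 2 * x.2) * exp (ζ / 2 * x.2) :=
      mul_le_mul_of_nonneg_right (by linarith) (exp_pos _).le
    linarith [d5 ω hω, f5 ω hω]
  · have a1 := e1.pr_or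
      (fun ω => (2 : ℝ) ^ (-η₀ * s) < ‖co 0 (zm s s (F ω)) - β₀ ω - D.tb s ω • β ω‖)
      (fun ω => (2 : ℝ) ^ (-η₁ * s) < ‖co 1 (zm s s (F ω)) - β₀' ω - D.tb s ω • β' ω‖) hp
    have a2 : Pr D.p (fun ω => (2 : ℝ) ^ (-η * s) <
        ‖id (zm s s (F ω)) - TbX.v2 (β₀ ω) (β₀' ω) - D.tb s ω • TbX.v2 (β ω) (β' ω)‖) ≤ _ :=
      le_trans (e1.pr_mono hp fun ω _ hE => by
        by_contra hc
        obtain ⟨c3, c4⟩ := not_or.1 hc
        have n1 := TbX.norm_aff (zm s s (F ω)) (β₀ ω) (β₀' ω) (β ω) (β' ω) (D.tb s ω)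
        have n2 := TbX.num2 (s := s) h2 (by linarith)
        have n3 := TbX.num2 (s := s) h3 (by linarith)
        have n4 : (2 : ℝ) ^ (-η * s) <
          ‖zm s s (F ω) - TbX.v2 (β₀ ω) (β₀' ω) - D.tb s ω • TbX.v2 (β ω) (β' ω)‖ := hE
        linarith [not_lt.1 c3, not_lt.1 c4]) a1
    have a3 := mul_le_mul_of_nonneg_right a2 hL
    rw [add_mul] at a3
    linarith

end Vale.Agent.P127
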