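import Vale.Agent.P127.Num

/-! Two labels on one line. -/

namespace Vale.Agent.P127

open Vale.Agent.P118
open scoped RealInnerProductSpace
open Real Classical Module

namespace TwoX

variable {Ω Ω' Tt Θ Θ' μ : Type} [Fintype Ω] [Fintype Ω'] {m L : ℕ} {D : Cf Ω Tt Θ m}
  {M : Ω → μ} {E : ℝ}

theorem labf (bas : SBas) (h : D.OK L E) (hM : Det D.p D.c M) {α : Type} (f : Ω → α)
    (hf : Det D.p D.c f) :
    Hc D.p f (fun ω => (M ω, D.T ω)) - 2 * E ≤ Hc D.p f fun ω => (D.l ω, D.T ω, M ω) := by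
  have h1 := e1.symm f D.l (fun ω => (M ω, D.T ω)) h.isP
  have h2 : Hc D.p D.l (fun ω => (M ω, D.T ω)) ≤ Hc D.p D.l D.T :=
    e1.hc_mono h.isP (Det.snd _ _ _) (Det.fst _ _ _)
  have h3 : Hc D.p D.l D.c ≤ Hc D.p D.l (fun ω => (f ω, M ω, D.T ω)) :=
    e1.hc_mono h.isP (hf.pair (hM.pair (D.det_T _))) (Det.fst _ _ _)
  have h4 : Hc D.p f (fun ω => (D.l ω, M ω, D.T ω)) ≤ Hc D.p f fun ω => (D.l ω, D.T ω, M ω) :=
    e1.hc_mono h.isP (Det.comp D.p (fun ω => (D.l ω, M ω, D.T ω)) fun x => (x.1, x.2.2, x.2.1))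
      (Det.fst _ _ _)
  have h5 := (bas D L E h).2.2.1
  linarith

theorem cost (T : Tools) (bas : SBas) (h : D.OK L E) (hM : Det D.p D.c M) {p' : Ω' → ℝ}
    {pr pr' : Ω' → Ω} {th' : Ω' → Θ'} (m1 : MP p' pr D.p) (m2 : MP p' pr' D.p)
    (hs : ∀ z, p' z ≠ 0 → D.T (pr' z) = D.T (pr z) ∧ M (pr' z) = M (pr z))
    (ci : Hc p' (fun z => D.th (pr' z)) (fun z => (D.l (pr z), D.c (pr z))) =
      Hc D.p D.th fun ω => (D.l ω, D.T ω, M ω))
    (hd : Det p' (fun z => (D.th (pr' z), D.c (pr z))) (D.lab p' pr th').c) :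
    Hc D.p D.l D.c - Hc p' (fun z => D.l (pr z)) (D.lab p' pr th').c ≤ 2 * E := by
  have h1 := T.t1.mp D.l D.c m1
  have h2 := e1.symm (fun z => D.l (pr z)) (fun z => D.th (pr' z)) (fun z => D.c (pr z)) m1.1
  have h3 : Hc p' (fun z => D.l (pr z)) (fun z => (D.th (pr' z), D.c (pr z))) ≤
      Hc p' (fun z => D.l (pr z)) (D.lab p' pr th').c := e1.hc_mono m1.1 hd (Det.fst _ _ _)
  have h4 : Hc p' (fun z => D.th (pr' z)) (fun z => D.c (pr z)) ≤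
      Hc p' (fun z => D.th (pr' z)) fun z => (M (pr' z), D.T (pr' z)) := by
    refine e1.hc_mono m1.1 (fun a b ha hb e => ?_) (Det.fst _ _ _)
    have ha' := T.t1.mp_ne m1 ha
    have hb' := T.t1.mp_ne m1 hb
    rw [(hs a ha).1, (hs a ha).2, (hs b hb).1, (hs b hb).2, hM _ _ ha' hb' e,
      D.det_T D.p _ _ ha' hb' e]
  have h5 := T.t1.mp D.th (fun ω => (M ω, D.T ω)) m2
  have h6 := labf bas h hM D.th (Det.fst _ _ _)
  linarith

end TwoX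

open TwoX in
theorem sTwo (T : Tools) (lab : SLab) (bas : SBas) : STwo := by
  intro Ω Tt Θ μ _ m D M L E h hM
  have m1 : MP (D.pp M) Prod.fst D.p := T.t1.mp_fst _ h.isP
  have m2 : MP (D.pp M) Prod.snd D.p := T.t1.mp_snd _ h.isP
  have hs : ∀ z, D.pp M z ≠ 0 → D.p z.1 ≠ 0 ∧ D.p z.2 ≠ 0 ∧ D.a z.2 = D.a z.1 ∧
      D.v z.2 = D.v z.1 ∧ D.T z.2 = D.T z.1 ∧ M z.2 = M z.1 := by
    intro z hz
    obtain ⟨h1, h2, h3⟩ := e3.res_ne hz
    simp only [Cf.l, Prod.mk.injEq] at h3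
    exact ⟨h1, h2, h3.1.1.symm, h3.1.2.symm, h3.2.1.symm, h3.2.2.symm⟩
  have hK : Det D.p (fun ω => (D.l ω, D.c ω)) fun ω => (D.l ω, D.T ω, M ω) :=
    (Det.fst _ _ _).pair ((Det.snd _ _ _).trans ((D.det_T _).pair hM))
  have ci := fun {α : Type} (f : Ω → α) => T.t1.ci0 _ f _ h.isP hK
  have hE := h.nonneg
  have e3E : E + 2 * E = 3 * E := by ring
  have l0 := lab D (D.pp M) Prod.fst (fun z => D.th z.1) L E (2 * E) m1 (Det.refl _ _)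
    (by
      have := T.t1.mp D.l D.c m1
      change _ - Hc (D.pp M) (fun z => D.l z.1) (fun z => D.c z.1) ≤ _
      linarith) h
  have l1 := lab D (D.pp M) Prod.fst (fun z => (D.th z.1, D.th z.2)) L E (2 * E) m1
    (Det.comp _ (D.lab (D.pp M) Prod.fst fun z => (D.th z.1, D.th z.2)).c fun x => (x.1.1, x.2))
    (cost T bas h hM m1 m2 (fun z hz => (hs z hz).2.2.2.2) (ci D.th).1
      (Det.comp _ (fun z : Ω × Ω => (D.th z.2, D.c z.1)) fun x => ((x.2.1, x.1), x.2.2))) h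
  have l2 := lab D (D.pp M) Prod.snd (fun z => (D.th z.1, D.th z.2)) L E (2 * E) m2
    (Det.comp _ (D.lab (D.pp M) Prod.snd fun z => (D.th z.1, D.th z.2)).c fun x => (x.1.2, x.2))
    (cost T bas h hM m2 m1
      (fun z hz => ⟨(hs z hz).2.2.2.2.1.symm, (hs z hz).2.2.2.2.2.symm⟩) (ci D.th).2
      (Det.comp _ (fun z : Ω × Ω => (D.th z.1, D.c z.2)) fun x => ((x.1, x.2.1), x.2.2))) h
  rw [e3E] at l0 l1 l2
  refine ⟨m1, m2, hs, fun f => (ci f).1, fun j hj => ?_, fun f hf => labf bas h hM f hf,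
    fun σ hσ => ⟨l0.2.1 σ hσ, l1.2.1 σ hσ, l2.2.1 σ hσ⟩,
    fun Q q hq => ⟨l0.2.2.1 Q q hq, l1.2.2.1 Q q hq, l2.2.2.1 Q q hq⟩,
    fun ch σ Q F hq => ⟨l0.2.2.2 ch σ Q F hq, l1.2.2.2 ch σ Q F hq, l2.2.2.2 ch σ Q F hq⟩⟩
  have h1 : Hc (D.pp M) (fun z => fl j (D.t z.2)) (fun z => (D.l z.1, D.c z.1)) = _ :=
    (ci fun ω => fl j (D.t ω)).1
  have h2 := e1.tri (fun ω => fl j (D.t ω)) M (fun ω => (D.l ω, D.T ω)) h.isP
  have h3 : Hc D.p M (fun ω => (D.l ω, D.T ω)) ≤ Hc D.p M D.T :=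
    e1.hc_mono h.isP (Det.snd _ _ _) (Det.fst _ _ _)
  have h4 : Hc D.p (fun ω => fl j (D.t ω)) (fun ω => (M ω, D.l ω, D.T ω)) ≤
      Hc D.p (fun ω => fl j (D.t ω)) fun ω => (D.l ω, D.T ω, M ω) :=
    e1.hc_mono h.isP (Det.comp D.p (fun ω => (M ω, D.l ω, D.T ω)) fun x => (x.2.1, x.2.2, x.1))
      (Det.fst _ _ _)
  have h5 := (bas D L E h).2.2.2.1 j hj
  linarith

end Vale.Agent.P127
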