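import Vale.Agent.P127.Num

/-! Sticky Kakeya sets in four dimensions: the direction `uu` is constant on windows. -/

namespace Vale.Agent.P127

open Vale.Agent.P118
open scoped RealInnerProductSpace
open Real Classical Module

namespace UcX

theorem pw {a c : ℕ} (h : c ≤ a) : (2⁻¹ : ℝ) ^ a ≤ 2⁻¹ ^ c :=
  pow_le_pow_of_le_one (by norm_num) (by norm_num) h

theorem pw2 (k c : ℕ) : (2 : ℝ) ^ k * 2⁻¹ ^ (k + c) = 2⁻¹ ^ c := by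
  rw [pow_add, ← mul_assoc, ← mul_pow]; norm_num

theorem pw3 {k a c : ℕ} (h : k + c ≤ a) : (2 : ℝ) ^ k * 2⁻¹ ^ a ≤ 2⁻¹ ^ c := by
  rw [← pw2 k c]; exact mul_le_mul_of_nonneg_left (pw h) (by positivity)

theorem uu_le (ch : Chart 3 1 2 2) {F : Eu 2} (hF : ‖F‖ ≤ 2) (α : Eu 2) : ‖uu ch F α‖ ≤ 3 := by
  have h1 := norm_nn_le α
  have h2 := ch.app_le F (nn α)
  have h3 : ‖F‖ * ‖nn α‖ ≤ 2 * 1 := mul_le_mul hF h1 (norm_nonneg _) (by norm_num)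
  unfold uu
  linarith [norm_sub_le (ch.iw (nn α)) (ch.iy (ch.app F (nn α))), ch.iw_le (nn α),
    ch.iy_le (ch.app F (nn α))]

theorem uu_sub (ch : Chart 3 1 2 2) (hP : P1 ch) {F₁ F₂ : Eu 2} (hF : ‖F₂‖ ≤ 2) (α₁ α₂ : Eu 2) :
    ‖uu ch F₂ α₂ - uu ch F₁ α₁‖ ≤ 3 * ‖nn α₂ - nn α₁‖ + |⟪F₂ - F₁, nn α₁⟫| := by
  have h0 : uu ch F₂ α₂ - uu ch F₁ α₁ = ch.iw (nn α₂ - nn α₁) -
      ch.iy (ch.app F₂ (nn α₂ - nn α₁) + ch.app (F₂ - F₁) (nn α₁)) := by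
    simp only [uu, map_sub, map_add, LinearMap.sub_apply]; abel
  have h1 : ‖ch.app (F₂ - F₁) (nn α₁)‖ = |⟪F₂ - F₁, nn α₁⟫| := by rw [norm_one, hP]
  have h2 := ch.app_le F₂ (nn α₂ - nn α₁)
  have h3 := mul_le_mul_of_nonneg_right hF (norm_nonneg (nn α₂ - nn α₁))
  rw [h0]
  linarith [norm_sub_le (ch.iw (nn α₂ - nn α₁))
    (ch.iy (ch.app F₂ (nn α₂ - nn α₁) + ch.app (F₂ - F₁) (nn α₁))), ch.iw_le (nn α₂ - nn α₁),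
    ch.iy_le (ch.app F₂ (nn α₂ - nn α₁) + ch.app (F₂ - F₁) (nn α₁)),
    norm_add_le (ch.app F₂ (nn α₂ - nn α₁)) (ch.app (F₂ - F₁) (nn α₁))]

/-- the grid of levels -/
def gr (s i : ℕ) : ℕ := s - 1 + i * (s / 2)

/-- the deterministic step -/
theorem detl (alg : SAlg) {α₁ α₂ α' G : Eu 2} {Δ : ℝ} {b b₁ s h j I : ℕ}
    (a1 : 2⁻¹ ^ b₁ ≤ ‖α₁‖) (a2 : 2⁻¹ ^ b₁ ≤ ‖α₂‖) (c1 : ‖α₁ - α'‖ ≤ 2⁻¹ ^ (h - b₁))
    (c2 : ‖α₂ - α'‖ ≤ 2⁻¹ ^ (h - b₁)) (hG : ‖G - Δ • α'‖ ≤ 2 * 2⁻¹ ^ (s + h))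
    (hΔ : 2⁻¹ ^ (s + b₁) ≤ |Δ|) (hG0 : ‖G‖ ≤ 2 * 2⁻¹ ^ s)
    (s1 : ∀ i ≤ I, s + gr s i + 2 * b₁ ≤ b → |⟪G, nn α₁⟫| ≤ 2⁻¹ ^ gr s i →
      |⟪G, nn α₁⟫ + Δ * ⟪α₂, nn α₁⟫| ≤ 2 ^ b₁ * 2⁻¹ ^ (s + gr s i))
    (s2 : ∀ i ≤ I, s + gr s i + 2 * b₁ ≤ b → |⟪G, nn α₂⟫| ≤ 2⁻¹ ^ gr s i →
      |⟪G, nn α₂⟫ + Δ * ⟪α₁, nn α₂⟫| ≤ 2 ^ b₁ * 2⁻¹ ^ (s + gr s i))
    (hb : 1 ≤ b₁) (h1 : 10 * b₁ ≤ h) (h2 : 2 * h ≤ s) (h3 : j + 4 * s ≤ b) (hI : b ≤ I * b₁) :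
    3 * ‖nn α₂ - nn α₁‖ + |⟪G, nn α₁⟫| < 2⁻¹ ^ j := by
  have hp : ∀ k : ℕ, (0 : ℝ) < 2⁻¹ ^ k := fun k => by positivity
  have e1 : (5 : ℝ) * (2 * 2⁻¹ ^ (h - b₁)) ≤ 2⁻¹ ^ b₁ := by
    have h5 := pw3 (k := 4) (a := h - b₁) (c := b₁) (by omega)
    have h6 := hp (h - b₁)
    linarith
  have e2 : ‖G - Δ • α'‖ ≤ |Δ| * (2 * 2⁻¹ ^ (h - b₁)) := by
    refine hG.trans (le_trans (le_of_eq ?_) (mul_le_mul_of_nonneg_right hΔ (by positivity)))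
    rw [show s + h = s + b₁ + (h - b₁) by omega, pow_add]; ring
  have A := fun (i : ℕ) (hi : i ≤ I) (ha : s + gr s i + 2 * b₁ ≤ b)
      (H : |⟪G, nn α₁⟫| ≤ 2⁻¹ ^ gr s i ∧ |⟪G, nn α₂⟫| ≤ 2⁻¹ ^ gr s i) =>
    alg α₁ α₂ α' G Δ _ _ _ (hp b₁) e1 a1 a2 (by linarith [hp (h - b₁)])
      (by linarith [hp (h - b₁)]) e2 (s1 i hi ha H.1) (s2 i hi ha H.2)
  have Bs : ∀ α : Eu 2, |⟪G, nn α⟫| ≤ 2⁻¹ ^ gr s 0 := fun α => by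
    have h5 := abs_real_inner_le_norm G (nn α)
    have h6 := mul_le_mul hG0 (norm_nn_le α) (norm_nonneg _) (by positivity)
    have h7 := pw3 (k := 1) (a := s) (c := gr s 0) (by unfold gr; omega)
    rw [pow_one] at h7
    linarith
  have In : ∀ i ≤ I, s + gr s i + 2 * b₁ ≤ b →
      |⟪G, nn α₁⟫| ≤ 2⁻¹ ^ gr s i ∧ |⟪G, nn α₂⟫| ≤ 2⁻¹ ^ gr s i := by
    intro i
    induction i with
    | zero => exact fun _ _ => ⟨Bs _, Bs _⟩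
    | succ i ih =>
      intro hi ha
      have hs : gr s (i + 1) = gr s i + s / 2 := by unfold gr; ring
      have ha' : s + gr s i + 2 * b₁ ≤ b := by omega
      obtain ⟨-, h5, h6⟩ := A i (by omega) ha' (ih (by omega) ha')
      have h7 := pw3 (k := 2 + b₁) (a := s + gr s i) (c := gr s (i + 1)) (by omega)
      rw [pow_add] at h7
      constructor <;> linarith
  have hd : 0 < s / 2 := by omega
  set i := (b - (s + (s - 1) + 2 * b₁)) / (s / 2) with hi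
  have k1 : i * (s / 2) ≤ b - (s + (s - 1) + 2 * b₁) := Nat.div_mul_le_self _ _
  have k2 : b - (s + (s - 1) + 2 * b₁) < i * (s / 2) + s / 2 := Nat.lt_div_mul_add hd
  have k3 : i ≤ I := by
    have : i * (s / 2) ≤ I * (s / 2) :=
      calc i * (s / 2) ≤ I * b₁ := by omega
        _ ≤ I * (s / 2) := Nat.mul_le_mul_left _ (by omega)
    exact Nat.le_of_mul_le_mul_right this hd
  have ha : s + gr s i + 2 * b₁ ≤ b := by unfold gr; omega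
  have hj : j + 4 + 3 * b₁ ≤ gr s i := by unfold gr; omega
  have H := In i k3 ha
  obtain ⟨h5, -, -⟩ := A i k3 ha H
  have h6 : ‖nn α₂ - nn α₁‖ * 2⁻¹ ^ (s + b₁) * 2⁻¹ ^ b₁ ≤ 2 * (2 ^ b₁ * 2⁻¹ ^ (s + gr s i)) :=
    le_trans (by gcongr) h5
  have h7 := pw3 (k := b₁) (a := s + gr s i) (c := j + 4 + (s + b₁) + b₁) (by omega)
  have h8 : ‖nn α₂ - nn α₁‖ ≤ 2 * 2⁻¹ ^ (j + 4) := by
    have h9 : ‖nn α₂ - nn α₁‖ * (2⁻¹ ^ (s + b₁) * 2⁻¹ ^ b₁) ≤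
        2 * 2⁻¹ ^ (j + 4) * (2⁻¹ ^ (s + b₁) * 2⁻¹ ^ b₁) := by
      rw [pow_add _ (j + 4 + (s + b₁)), pow_add _ (j + 4)] at h7
      nlinarith
    exact le_of_mul_le_mul_right h9 (by positivity)
  have h9 := H.1.trans (pw (c := j + 4) (by omega))
  have h10 : (2⁻¹ : ℝ) ^ (j + 4) = 2⁻¹ ^ j / 16 := by rw [pow_add]; ring
  have := hp j
  rw [h10] at h8 h9
  linarith

/-- the union bound -/
theorem un {Ω : Type} [Fintype Ω] {p : Ω → ℝ} (hp : IsP p) {B A₁ A₂ A₃ A₄ A₅ A₆ A₇ : Ω → Prop}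
    (S : Finset ℕ) {C C' : ℕ → Ω → Prop} {L E δ : ℝ} (hL : 0 ≤ L)
    (h : ∀ ω, p ω ≠ 0 → ¬A₁ ω → ¬A₂ ω → ¬A₃ ω → ¬A₄ ω → ¬A₅ ω → ¬A₆ ω → ¬A₇ ω →
      (∀ i ∈ S, ¬C i ω) → (∀ i ∈ S, ¬C' i ω) → ¬B ω)
    (h1 : Pr p A₁ * L ≤ E) (h2 : Pr p A₂ * L ≤ E) (h3 : Pr p A₃ * L ≤ E) (h4 : Pr p A₄ * L ≤ E)
    (h5 : Pr p A₅ * L ≤ δ) (h6 : Pr p A₆ * L ≤ δ) (h7 : Pr p A₇ * L ≤ δ)
    (h8 : ∀ i ∈ S, Pr p (C i) * L ≤ δ) (h9 : ∀ i ∈ S, Pr p (C' i) * L ≤ δ) :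
    Pr p B * L ≤ 4 * E + (2 * S.card + 3) * δ := by
  have k0 : Pr p B ≤ Pr p fun ω => A₁ ω ∨ A₂ ω ∨ A₃ ω ∨ A₄ ω ∨ A₅ ω ∨ A₆ ω ∨ A₇ ω ∨
      (∃ i ∈ S, C i ω) ∨ ∃ i ∈ S, C' i ω := e1.pr_mono hp fun ω hω hB => by
    by_contra hn
    push Not at hn
    obtain ⟨n1, n2, n3, n4, n5, n6, n7, n8, n9⟩ := hn
    exact h ω hω n1 n2 n3 n4 n5 n6 n7 n8 n9 hB
  have k1 := e1.pr_or A₁ (fun ω => A₂ ω ∨ A₃ ω ∨ A₄ ω ∨ A₅ ω ∨ A₆ ω ∨ A₇ ω ∨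
      (∃ i ∈ S, C i ω) ∨ ∃ i ∈ S, C' i ω) hp
  have k2 := e1.pr_or A₂ (fun ω => A₃ ω ∨ A₄ ω ∨ A₅ ω ∨ A₆ ω ∨ A₇ ω ∨
      (∃ i ∈ S, C i ω) ∨ ∃ i ∈ S, C' i ω) hp
  have k3 := e1.pr_or A₃ (fun ω => A₄ ω ∨ A₅ ω ∨ A₆ ω ∨ A₇ ω ∨
      (∃ i ∈ S, C i ω) ∨ ∃ i ∈ S, C' i ω) hp
  have k4 := e1.pr_or A₄ (fun ω => A₅ ω ∨ A₆ ω ∨ A₇ ω ∨
      (∃ i ∈ S, C i ω) ∨ ∃ i ∈ S, C' i ω) hp
  have k5 := e1.pr_or A₅ (fun ω => A₆ ω ∨ A₇ ω ∨ (∃ i ∈ S, C i ω) ∨ ∃ i ∈ S, C' i ω) hp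
  have k6 := e1.pr_or A₆ (fun ω => A₇ ω ∨ (∃ i ∈ S, C i ω) ∨ ∃ i ∈ S, C' i ω) hp
  have k7 := e1.pr_or A₇ (fun ω => (∃ i ∈ S, C i ω) ∨ ∃ i ∈ S, C' i ω) hp
  have k8 := e1.pr_or (fun ω => ∃ i ∈ S, C i ω) (fun ω => ∃ i ∈ S, C' i ω) hp
  have k9 := e1.pr_exists S C hp
  have k10 := e1.pr_exists S C' hp
  have k11 : (∑ i ∈ S, Pr p (C i)) * L ≤ S.card * δ := by
    rw [Finset.sum_mul, ← nsmul_eq_mul]; exact Finset.sum_le_card_nsmul _ _ _ h8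
  have k12 : (∑ i ∈ S, Pr p (C' i)) * L ≤ S.card * δ := by
    rw [Finset.sum_mul, ← nsmul_eq_mul]; exact Finset.sum_le_card_nsmul _ _ _ h9
  have k13 : Pr p B ≤ Pr p A₁ + Pr p A₂ + Pr p A₃ + Pr p A₄ + Pr p A₅ + Pr p A₆ + Pr p A₇ +
      ∑ i ∈ S, Pr p (C i) + ∑ i ∈ S, Pr p (C' i) := by linarith
  have k14 := mul_le_mul_of_nonneg_right k13 hL
  simp only [add_mul] at k14 ⊢
  linarith

end UcX

open UcX in
theorem sUc (T : Tools) (B : Base) (cmp : SCmp) (star : SStar) (alg : SAlg) : SUc := by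
  intro σ hσ ch hP κ ζ hκ hζ
  set I := ⌈1 / κ⌉₊ with hI
  set δ := ζ / (6 * (2 * (I + 1) + 3)) with hδ
  have hδ0 : 0 < δ := by positivity
  have l2 := log_two_pos
  filter_upwards [cmp 3 σ hσ ch κ δ hκ hδ0, star σ hσ ch hP κ δ hκ hδ0, ef_const 1 hκ,
    ef_lin (A := 4) (by norm_num) 10 (show 0 < δ * (κ * log 2) by positivity),
    ef_lin (A := 14) (by norm_num) (log 2 + 3 * CE 3 + 3 * log 3) (half_pos hζ)]
    with x hc hs k1 k2 k3 Ω Tt Θ _ D Q F F₀ α α' M b b₁ s h j pc com af dc' n1 n2 n3 n4 n5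
  have ok := pc.ok
  have hp := ok.isP
  have tw := B.two D M x.2 x.1 ok af.det
  have hq : IsP (D.pp M) := tw.mp₁.1
  have hL : (0 : ℝ) ≤ x.2 := by positivity
  have hb : 1 ≤ b₁ := by exact_mod_cast k1.trans n1
  have hbI : b ≤ I * b₁ := by
    have h1 : 1 / κ ≤ I := Nat.le_ceil _
    rw [div_le_iff₀ hκ] at h1
    have h2 : (x.2 : ℝ) ≤ I * b₁ :=
      calc (x.2 : ℝ) = 1 * x.2 := (one_mul _).symm
        _ ≤ I * κ * x.2 := mul_le_mul_of_nonneg_right h1 hL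
        _ = I * (κ * x.2) := mul_assoc _ _ _
        _ ≤ I * b₁ := mul_le_mul_of_nonneg_left n1 (by positivity)
    have h3 : x.2 ≤ I * b₁ := by exact_mod_cast h2
    omega
  have dM : Det D.p D.c fun ω => (M ω, D.T ω) := af.det.pair (D.det_T D.p)
  have sM : ∀ z, D.pp M z ≠ 0 → (M z.2, D.T z.2) = (M z.1, D.T z.1) := fun z hz => by
    obtain ⟨-, -, -, -, h1, h2⟩ := tw.supp z hz
    rw [h1, h2]
  have m1 := com.mac b₁ n1 (by omega)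
  have m2 := af.pr
  have m3 := hc D Q F α α' b₁ h pc com.det (dM.trans af.dα)
    (fun ω hω => ⟨com.bd ω hω, af.bd ω hω⟩) n1 (by omega) (by omega) (com.dc h (by omega)) dc'
  have m4 : Pr (D.pp M) (fun z => |D.t z.2 - D.t z.1| ≤ 2⁻¹ ^ (s + b₁)) * x.2 ≤ δ * x.2 := by
    have h1 := tw.tim (s + b₁) (by omega)
    have h2 := T.t2.tsep (p := D.pp M) (fun z => D.t z.1) (fun z => D.t z.2)
      (fun z => (D.l z.1, D.c z.1)) (s + b₁) s b₁ (4 * x.1) hq le_rfl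
      (fun z z' hz hz' e => ok.det _ _ (tw.supp z hz).1 (tw.supp z' hz').1 (Prod.ext_iff.1 e).2)
      (fun z hz => fl_same (af.dt _ _ (tw.supp z hz).2.1 (tw.supp z hz).1 (sM z hz)))
      (by linarith [af.ent])
    have h3 := e1.pr_nonneg (fun z : Ω × Ω => |D.t z.2 - D.t z.1| ≤ 2⁻¹ ^ (s + b₁)) hq
    have h4 := mul_le_mul_of_nonneg_left (mul_le_mul_of_nonneg_right n1 l2.le) h3
    refine le_of_mul_le_mul_right ?_ (show 0 < κ * log 2 by positivity)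
    nlinarith
  have m5 := fun (i : ℕ) (hi : s + gr s i + 2 * b₁ ≤ b) =>
    hs D Q F α M κ b b₁ s (gr s i) pc com af.det af.dt n1 hi (by omega)
  set S := (Finset.range (I + 1)).filter fun i => s + gr s i + 2 * b₁ ≤ b with hS
  have hcard : (S.card : ℝ) ≤ I + 1 := by
    have := Finset.card_filter_le (Finset.range (I + 1)) fun i => s + gr s i + 2 * b₁ ≤ b
    rw [Finset.card_range] at this
    exact_mod_cast this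
  have U := un hq (B := fun z => 2⁻¹ ^ j ≤ ‖uu ch (F z.2) (α z.2) - uu ch (F z.1) (α z.1)‖) S hL
    (fun z hz a1 a2 a3 a4 a5 a6 a7 a8 a9 => ?_)
    ((congrArg (· * _) (T.t1.mp_pr _ tw.mp₁)).trans_le m1)
    ((congrArg (· * _) (T.t1.mp_pr _ tw.mp₂)).trans_le m1)
    ((congrArg (· * _) (T.t1.mp_pr _ tw.mp₁)).trans_le m2)
    ((congrArg (· * _) (T.t1.mp_pr _ tw.mp₂)).trans_le m2)
    ((congrArg (· * _) (T.t1.mp_pr _ tw.mp₁)).trans_le m3)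
    ((congrArg (· * _) (T.t1.mp_pr _ tw.mp₂)).trans_le m3) m4
    (fun i hi => m5 i (Finset.mem_filter.1 hi).2)
    (fun i hi => (congrArg (· * _) (T.t1.swap _ _ _)).trans_le (m5 i (Finset.mem_filter.1 hi).2))
  · have f1 := tw.lab (fun ω => flo j (uu ch (F ω) (α ω))) fun a a' ha ha' e => by
      simp only [pc.det a a' ha ha' e, com.det a a' ha ha' e]
    have f2 := T.t3.far j j (fun ω => uu ch (F ω) (α ω)) (fun ω => (D.l ω, D.T ω, M ω)) 3 hp le_rfl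
      (by norm_num) fun ω hω => uu_le ch (pc.rep ω hω).1 _
    change _ ≤ _ + Pr (D.pp M) _ * _ at f2
    generalize hPd : Pr (D.pp M) (fun z => 2⁻¹ ^ j ≤ ‖uu ch (F z.2) (α z.2) -
      uu ch (F z.1) (α z.1)‖) = P at U f2
    have p0 : 0 ≤ P := hPd ▸ e1.pr_nonneg _ hq
    have p1 : P ≤ 1 := hPd ▸ e1.pr_le_one _ hq
    have l1 : log 2 ≤ 1 := by linarith [log_le_sub_one_of_pos (show (0 : ℝ) < 2 by norm_num)]
    have l3 : 0 ≤ log 3 := log_nonneg (by norm_num)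
    have c0 : 0 ≤ CE 3 := by unfold CE; positivity
    have g1 : (j : ℝ) * log 2 ≤ x.2 := by
      have : (j : ℝ) ≤ x.2 := by exact_mod_cast (show j ≤ x.2 by omega)
      nlinarith
    have g2 := mul_le_mul_of_nonneg_left g1 p0
    have g3 := mul_le_mul_of_nonneg_right p1 (show 0 ≤ 3 * log 3 + CE 3 by positivity)
    have g4 : (2 * S.card + 3) * (δ * x.2) ≤ ζ / 6 * x.2 := by
      have : (2 * (I + 1) + 3) * δ = ζ / 6 := by rw [hδ]; field_simp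
      rw [← this, mul_assoc]; gcongr
    push_cast at f2
    nlinarith
  · obtain ⟨z1, z2, -⟩ := tw.supp z hz
    have q1 := af.dα _ _ z2 z1 (sM z hz)
    have q2 := af.d₀ _ _ z2 z1 (sM z hz)
    have q3 := geo1.same_norm (af.dF _ _ z2 z1 (sM z hz))
    simp only [not_le, not_lt] at a1 a2 a3 a4 a5 a6 a7
    rw [q1] at a6
    rw [q1, q2] at a4
    have hm : ∀ i ≤ I, s + gr s i + 2 * b₁ ≤ b → i ∈ S := fun i h1 h2 =>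
      Finset.mem_filter.2 ⟨Finset.mem_range.2 (by omega), h2⟩
    refine not_le.2 ((uu_sub ch hP (pc.rep _ z2).1 _ _).trans_lt (detl alg (α' := α' z.1)
      (Δ := D.t z.2 - D.t z.1) (b := b) (s := s) (I := I) a1.le a2.le a5.le a6.le ?_ a7.le ?_
      (fun i h1 h2 h3 => ?_) (fun i h1 h2 h3 => ?_) hb n2 n3 n4 hbI))
    · have e : F z.2 - F z.1 - (D.t z.2 - D.t z.1) • α' z.1 =
          (F z.2 - F₀ z.1 - D.t z.2 • α' z.1) - (F z.1 - F₀ z.1 - D.t z.1 • α' z.1) := by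
        rw [sub_smul]; abel
      rw [e]
      linarith [norm_sub_le (F z.2 - F₀ z.1 - D.t z.2 • α' z.1) (F z.1 - F₀ z.1 - D.t z.1 • α' z.1)]
    · refine q3.trans (mul_le_mul_of_nonneg_right ?_ (by positivity))
      rw [sqrt_le_iff]; norm_num
    · exact not_lt.1 fun h4 => a8 i (hm i h1 h2) ⟨a1.le, h3, h4⟩
    · have e : ⟪F z.1 - F z.2, nn (α z.2)⟫ = -⟪F z.2 - F z.1, nn (α z.2)⟫ := by
        rw [← inner_neg_left, neg_sub]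
      refine not_lt.1 fun h4 => a9 i (hm i h1 h2) ⟨a2.le, ?_, ?_⟩
      · show |⟪F z.1 - F z.2, nn (α z.2)⟫| ≤ _
        rwa [e, abs_neg]
      · show _ < |⟪F z.1 - F z.2, nn (α z.2)⟫ + (D.t z.1 - D.t z.2) * ⟪α z.1, nn (α z.2)⟫|
        rw [e, ← abs_neg]
        exact h4.trans_eq (congrArg _ (by ring))

end Vale.Agent.P127
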