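import Vale.Agent.P127.ET1
import Vale.Agent.P127.ET2
import Vale.Agent.P127.ET3
import Vale.Agent.P127.ET4
import Vale.Agent.P127.Lab
import Vale.Agent.P127.Two
import Vale.Agent.P127.Full
import Vale.Agent.P127.FullG
import Vale.Agent.P127.FullC
import Vale.Agent.P127.Cut
import Vale.Agent.P127.Sep
import Vale.Agent.P127.Enl
import Vale.Agent.P127.Sh
import Vale.Agent.P127.Pl
import Vale.Agent.P127.Lip
import Vale.Agent.P127.Rp
import Vale.Agent.P127.Rq
import Vale.Agent.P127.Re0
import Vale.Agent.P127.Re
import Vale.Agent.P127.Cov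
import Vale.Agent.P127.Kau
import Vale.Agent.P127.Tb
import Vale.Agent.P127.K1a
import Vale.Agent.P127.K1b
import Vale.Agent.P127.K1c
import Vale.Agent.P127.K1
import Vale.Agent.P127.K2a
import Vale.Agent.P127.K2
import Vale.Agent.P127.Afc
import Vale.Agent.P127.Dc
import Vale.Agent.P127.Cmp
import Vale.Agent.P127.So
import Vale.Agent.P127.Com
import Vale.Agent.P127.Star
import Vale.Agent.P127.Uc
import Vale.Agent.P127.Fin
import Vale.Agent.P127.Q2
import Vale.Agent.P127.Ch
import Vale.Agent.P127.Ng
import Vale.Agent.P127.RedA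
import Vale.Agent.P127.RedB
import Vale.Agent.P127.RedC
import Vale.Agent.P127.Glue

/-! Sticky Kakeya sets in four dimensions: assembly. -/

namespace Vale.Agent.P127

open Vale.Agent.P118

theorem tools : Tools := ⟨eT1, eT2, eT3 eT1 eT2, eT4⟩

theorem bas' : SBas := sBas tools
theorem full' : SFull := sFull tools bas'
theorem fullG' : SFullG := sFullG tools bas' full'

theorem base : Base :=
  ⟨sLab tools, bas', sWin0 tools bas', sTwo tools (sLab tools) bas', full', fullG',
    sFullC tools bas' fullG', sCut tools, sWin tools (sWin0 tools bas') fullG',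
    sNod (sCut tools) full', sSep tools (sLab tools) (sCut tools) full'⟩

theorem enl' : SEnl := sEnl tools base
theorem sh' : SSh := sSh tools base enl'
theorem pl' : SPl := sPl tools base sh'
theorem tb' : STb := sTb tools base
theorem k1a' : SK1a := sK1a tools base tb'
theorem kau' : SKau := sKau tools
theorem cmp' : SCmp := sCmp tools base
theorem re' : SRe := sRe tools (sRe0 tools (sRq (sRp sHv)))

theorem lb3' : LB 3 0 :=
  lb3 sCh1 sCh2 (sLip tools base enl')
    (sK1 tools base tb' k1a' (sK1b tools base k1a') (sK1c tools base))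
    (sK2 tools base tb' (sK2a tools base tb') kau') (sAfc tools base tb' sCov re') (sAf1 tb') sAf2
    (sDc tools base sh') (sCom (sMac tools base) (sSo tools base cmp')) (sQ1 tools base)
    (sQ2 (sUc tools base cmp' (sStar tools base) sAlg) (sPlu tools base) (sFin tools base kau'))
    (sNg1 tools base pl') (sNg0 tools base pl') sNgm sLb

theorem sticky (K : Set (Eu 4)) (Λ : Set (AffLine 4)) (hΛ : packDim Λ ≤ 3) (hK : Kakeya K Λ) :
    dimH K = 4 :=
  sTop (sRedA sPack) sRedB (sRedC tools) lb3' K Λ hΛ hK

end Vale.Agent.P127
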