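import Vale.Agent.P127.Stmts
import Vale.Agent.P118.OEL1
import Vale.Agent.P118.OEL2
import Vale.Agent.P118.OEL3
import Vale.Agent.P118.OEV
import Vale.Agent.P118.OLA

/-! Sticky Kakeya sets in four dimensions: small facts used everywhere. -/

namespace Vale.Agent.P127

open Vale.Agent.P118
open scoped RealInnerProductSpace
open Real Classical Module

theorem e1 : EL1 := el1
theorem e2 : EL2 := el2 e1
theorem e3 : EL3 := el3 e1 e2
theorem ev : EV := eV e1 e2 e3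
theorem la : LA := lA

/-! ### the filter -/

theorem ef_iff {P : ℝ × ℕ → Prop} : (∀ᶠ x in EF, P x) ↔
    ∃ e : ℝ, 0 < e ∧ ∃ L₀ : ℕ, ∀ L ≥ L₀, ∀ E : ℝ, E ≤ e * L → P (E, L) := Iff.rfl

theorem ef_large (L₀ : ℕ) : ∀ᶠ x in EF, L₀ ≤ x.2 := ef_iff.2 ⟨1, one_pos, L₀, fun _ h _ _ => h⟩

theorem ef_small {ζ : ℝ} (hζ : 0 < ζ) : ∀ᶠ x in EF, x.1 ≤ ζ * x.2 :=
  ef_iff.2 ⟨ζ, hζ, 0, fun _ _ _ h => h⟩

theorem ef_const (B : ℝ) {ζ : ℝ} (hζ : 0 < ζ) : ∀ᶠ x in EF, B ≤ ζ * x.2 := by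
  filter_upwards [ef_large ⌈B / ζ⌉₊] with x hx
  have h : B / ζ ≤ x.2 := (Nat.le_ceil _).trans (by exact_mod_cast hx)
  rwa [div_le_iff₀' hζ] at h

theorem ef_lin {A : ℝ} (hA : 0 ≤ A) (B : ℝ) {ζ : ℝ} (hζ : 0 < ζ) :
    ∀ᶠ x in EF, A * x.1 + B ≤ ζ * x.2 := by
  filter_upwards [ef_small (show 0 < ζ / 2 / (A + 1) by positivity), ef_const B (half_pos hζ)]
    with x h1 h2
  have h0 : (0 : ℝ) ≤ x.2 := by positivity
  have h3 : A * x.1 ≤ A * (ζ / 2 / (A + 1) * x.2) := mul_le_mul_of_nonneg_left h1 hA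
  have h4 : A * (ζ / 2 / (A + 1) * x.2) ≤ ζ / 2 * x.2 := by
    rw [← mul_assoc]
    refine mul_le_mul_of_nonneg_right ?_ h0
    rw [mul_div_assoc', div_le_iff₀ (by positivity)]
    nlinarith
  linarith

theorem ef_log {ζ : ℝ} (hζ : 0 < ζ) : ∀ᶠ x in EF, log (x.2 + 1) ≤ ζ * x.2 := by
  filter_upwards [ef_const (2 / ζ + 2) (half_pos hζ)] with x hx
  have h0 : (0 : ℝ) < x.2 + 1 := by positivity
  have h1 : log (ζ / 2 * (x.2 + 1)) ≤ ζ / 2 * (x.2 + 1) - 1 := log_le_sub_one_of_pos (by positivity)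
  have h2 : log (2 / ζ) ≤ 2 / ζ - 1 := log_le_sub_one_of_pos (by positivity)
  have h3 : log (x.2 + 1) = log (2 / ζ) + log (ζ / 2 * (x.2 + 1)) := by
    rw [← log_mul (by positivity) (by positivity)]; congr 1; field_simp
  by_cases h : ζ ≤ 2
  · nlinarith
  · have h4 := log_le_sub_one_of_pos h0
    have h5 : (0 : ℝ) ≤ x.2 := by positivity
    nlinarith

/-- the master lemma: an eventual statement can be used at every level `n ≥ κ L` with every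
error `E' ≤ e L` -/
theorem ef_use {P : ℝ × ℕ → Prop} (h : ∀ᶠ x in EF, P x) {κ : ℝ} (hκ : 0 < κ) :
    ∃ e : ℝ, 0 < e ∧ ∀ᶠ x in EF, ∀ (n : ℕ) (E' : ℝ), κ * x.2 ≤ n → E' ≤ e * x.2 → P (E', n) := by
  obtain ⟨e, he, L₀, h⟩ := ef_iff.1 h
  refine ⟨e * κ, by positivity, ?_⟩
  filter_upwards [ef_const L₀ hκ] with x hx n E' hn hE
  refine h n (by exact_mod_cast hx.trans hn) E' (hE.trans ?_)
  rw [mul_assoc]
  exact mul_le_mul_of_nonneg_left hn he.le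

/-- the same at the level `L` itself -/
theorem ef_use1 {P : ℝ × ℕ → Prop} (h : ∀ᶠ x in EF, P x) :
    ∃ e : ℝ, 0 < e ∧ ∀ᶠ x in EF, ∀ E' : ℝ, E' ≤ e * x.2 → P (E', x.2) := by
  obtain ⟨e, he, h⟩ := ef_use h one_pos
  exact ⟨e, he, h.mono fun x hx E' hE => hx x.2 E' (by simp) hE⟩

theorem Ctx.σ_le {m : ℕ} {σ : ℝ} (h : Ctx m σ) : 0 ≤ (m : ℝ) - σ := sub_nonneg.2 h.le

theorem log_two_pos : 0 < log 2 := log_pos one_lt_two

/-! ### monotonicity in the error -/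

namespace Cf

variable {Ω Tt Θ : Type} [Fintype Ω] {m p q r L : ℕ} {D : Cf Ω Tt Θ m} {σ E E' : ℝ}
  {Q : Ω → Submodule ℝ (Eu m)} {ch : Chart m p q r} {F α : Ω → Eu r}

theorem OK.nonneg (h : D.OK L E) : 0 ≤ E :=
  (e1.hc_nonneg _ _ h.isP).trans (h.stk 0 (Nat.zero_le _))

theorem OK.mono (h : D.OK L E) (hE : E ≤ E') : D.OK L E' :=
  ⟨h.isP, h.box, h.lat, h.det, by linarith [h.dir], by linarith [h.tim],
    fun i hi => (h.stk i hi).trans hE⟩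

theorem Ext.mono (h : D.Ext σ L E) (hE : E ≤ E') : D.Ext σ L E' :=
  ⟨h.1.mono hE, by linarith [h.2]⟩

theorem Gr.mono (h : D.Gr Q q L E) (hE : E ≤ E') : D.Gr Q q L E' :=
  ⟨h.1, h.2.1, by linarith [h.2.2]⟩

theorem Pl.mono (h : D.Pl Q L E) (hE : E ≤ E') : D.Pl Q L E' := fun i hi => (h i hi).trans hE

theorem PC.mono (h : D.PC ch σ Q F L E) (hE : E ≤ E') : D.PC ch σ Q F L E' :=
  ⟨h.ext.mono hE, h.gr.mono hE, h.pl.mono hE, h.det, h.rep⟩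

theorem PC.ok (h : D.PC ch σ Q F L E) : D.OK L E := h.ext.1

theorem DCP.mono {b : ℕ} (h : D.DCP ch F α b E) (hE : E ≤ E') : D.DCP ch F α b E' :=
  le_trans h hE

theorem SOP.mono {b : ℕ} (h : D.SOP ch α b E) (hE : E ≤ E') : D.SOP ch α b E' := le_trans h hE

theorem Afn.mono {s h : ℕ} {M : Ω → ℤ × Eu r × ℕ} {F₀ : Ω → Eu r}
    (H : D.Afn F L s h E M F₀ α) (hE : E ≤ E') : D.Afn F L s h E' M F₀ α :=
  ⟨H.det, by linarith [H.ent], H.dt, H.dF, H.d₀, H.dα,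
    fun ω hω => (H.bd ω hω).trans (exp_le_exp.2 hE), H.pr.trans hE⟩

theorem Com.mono {b : ℕ} {κ : ℝ} (H : D.Com ch F α L b κ E) (hE : E ≤ E') :
    D.Com ch F α L b κ E' :=
  ⟨H.det, fun ω hω => (H.bd ω hω).trans (exp_le_exp.2 hE), fun b' hb => (H.dc b' hb).mono hE,
    H.so.mono hE, fun b₁ h1 h2 => (H.mac b₁ h1 h2).trans hE⟩

end Cf

/-! ### dyadic scales -/

section Scale

variable {m : ℕ}

theorem flo_apply (i : ℕ) (x : Eu m) (k : Fin m) :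
    flo i x k = ((fl i (x k) : ℝ) / 2 ^ i : ℝ) := rfl

theorem fl_mul (i k : ℕ) (t : ℝ) : fl k (2 ^ i * t) = fl (i + k) t := by
  unfold fl; rw [← mul_assoc, ← pow_add, add_comm]

theorem flo_smul (i k : ℕ) (x : Eu m) :
    flo k ((2 : ℝ) ^ i • x) = (2 : ℝ) ^ i • flo (i + k) x := by
  ext j
  simp only [flo_apply, PiLp.smul_apply, smul_eq_mul, fl_mul]
  rw [pow_add]; field_simp

theorem fl_le (i : ℕ) (t : ℝ) : (fl i t : ℝ) / 2 ^ i ≤ t ∧ t < (fl i t : ℝ) / 2 ^ i + 2⁻¹ ^ i := by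
  have h : (0 : ℝ) < 2 ^ i := by positivity
  refine ⟨?_, ?_⟩
  · rw [div_le_iff₀' h]; exact Int.floor_le _
  · rw [inv_pow, ← one_div, ← add_div, lt_div_iff₀' h]; exact Int.lt_floor_add_one _

theorem fl_same {i : ℕ} {t t' : ℝ} (h : fl i t = fl i t') : |t - t'| ≤ 2⁻¹ ^ i := by
  have h1 := fl_le i t
  have h2 := fl_le i t'
  rw [h] at h1
  rw [abs_le]; constructor <;> linarith

theorem fl_div (i k : ℕ) (t : ℝ) : fl i t = fl (i + k) t / 2 ^ k := by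
  unfold fl
  have h := Int.floor_div_natCast ((2 : ℝ) ^ (i + k) * t) (2 ^ k)
  push_cast at h
  rw [← h]; congr 1; rw [pow_add]; field_simp

theorem fl_fl {i j : ℕ} {t t' : ℝ} (hij : i ≤ j) (h : fl j t = fl j t') : fl i t = fl i t' := by
  obtain ⟨k, rfl⟩ := Nat.exists_eq_add_of_le hij
  rw [fl_div i k t, fl_div i k t', h]

theorem fl_lat (i : ℕ) (k : ℤ) : fl i ((k : ℝ) / 2 ^ i) = k := by
  unfold fl; rw [mul_div_cancel₀ _ (by positivity)]; exact Int.floor_intCast k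

theorem fl_mem {i : ℕ} {t : ℝ} (h0 : 0 ≤ t) (h1 : t < 1) : 0 ≤ fl i t ∧ fl i t < 2 ^ i := by
  have h : (0 : ℝ) < 2 ^ i := by positivity
  refine ⟨Int.floor_nonneg.2 (by positivity), Int.floor_lt.2 ?_⟩
  push_cast; nlinarith

theorem flo_of_flo {i j : ℕ} {x y : Eu m} (hij : i ≤ j) (h : flo j x = flo j y) :
    flo i x = flo i y := by rw [← geo1.flo_flo x hij, h, geo1.flo_flo y hij]

theorem flo_eq_iff {i : ℕ} {x y : Eu m} : flo i x = flo i y ↔ ∀ k, fl i (x k) = fl i (y k) := by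
  refine ⟨fun h k => ?_, fun h => ?_⟩
  · have h1 : (fl i (x k) : ℝ) / 2 ^ i = (fl i (y k) : ℝ) / 2 ^ i := by
      rw [← flo_apply, ← flo_apply, h]
    rw [div_left_inj' (by positivity)] at h1
    exact_mod_cast h1
  · ext k; rw [flo_apply, flo_apply, h k]

theorem sqrt_le_succ (m : ℕ) : √m ≤ (m : ℝ) + 1 := by
  have := sqrt_le_half m
  have h : (0 : ℝ) ≤ m := by positivity
  linarith

theorem norm_le_of_coord {x : Eu m} {a : ℝ} (ha : 0 ≤ a) (h : ∀ k, |x k| ≤ a) : ‖x‖ ≤ √m * a := by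
  rw [EuclideanSpace.norm_eq, ← sqrt_sq ha, ← sqrt_mul (by positivity)]
  refine sqrt_le_sqrt ?_
  calc ∑ k, ‖x k‖ ^ 2 ≤ ∑ _k : Fin m, a ^ 2 := Finset.sum_le_sum fun k _ => by
        rw [Real.norm_eq_abs]; exact pow_le_pow_left₀ (abs_nonneg _) (h k) 2
    _ = _ := by simp

theorem abs_coord_le (x : Eu m) (k : Fin m) : |x k| ≤ ‖x‖ := by
  simpa using PiLp.norm_apply_le x k

theorem InC.norm_le {x : Eu m} (h : InC x) : ‖x‖ ≤ √m := by
  simpa using norm_le_of_coord zero_le_one fun k => abs_le.2 ⟨by linarith [h k], (h k).2.le⟩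

theorem InC.norm_sub_le {x y : Eu m} (h : InC x) (h' : InC y) : ‖x - y‖ ≤ √m := by
  simpa using norm_le_of_coord (x := x - y) zero_le_one fun k => by
    rw [PiLp.sub_apply, abs_le]; constructor <;> linarith [h k, h' k]

theorem InC.flo {x : Eu m} (h : InC x) (i : ℕ) : InC (flo i x) := fun k => by
  have h1 : (0 : ℝ) ≤ fl i (x k) := by exact_mod_cast (fl_mem (i := i) (h k).1 (h k).2).1
  have h2 : (0 : ℝ) ≤ (fl i (x k) : ℝ) / 2 ^ i := by positivity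
  exact ⟨h2, (geo1.flo_le i x k).1.trans_lt (h k).2⟩

theorem InC.flo_zero {x : Eu m} (h : InC x) : P118.flo 0 x = 0 := by
  ext k
  have h1 := fl_mem (i := 0) (h k).1 (h k).2
  have h2 : fl 0 (x k) = 0 := by omega
  rw [flo_apply, h2]; simp

theorem zm_apply (i n : ℕ) (x : Eu m) (k : Fin m) :
    zm i n x k = (((fl (i + n) (x k) - 2 ^ n * fl i (x k) : ℤ) : ℝ) / 2 ^ n : ℝ) := by
  simp only [zm, PiLp.smul_apply, PiLp.sub_apply, flo_apply, smul_eq_mul]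
  push_cast; rw [pow_add]; field_simp

theorem fl_sub_mem (i n : ℕ) (t : ℝ) :
    0 ≤ fl (i + n) t - 2 ^ n * fl i t ∧ fl (i + n) t - 2 ^ n * fl i t < 2 ^ n := by
  rw [fl_div i n t, ← Int.emod_def]
  exact ⟨Int.emod_nonneg _ (by positivity), Int.emod_lt_of_pos _ (by positivity)⟩

theorem zm_box (i n : ℕ) (x : Eu m) : InC (zm i n x) := fun k => by
  have h := fl_sub_mem i n (x k)
  have h1 : (0 : ℝ) ≤ ((fl (i + n) (x k) - 2 ^ n * fl i (x k) : ℤ) : ℝ) := by exact_mod_cast h.1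
  have h2 : ((fl (i + n) (x k) - 2 ^ n * fl i (x k) : ℤ) : ℝ) < 2 ^ n := by exact_mod_cast h.2
  have h3 : (0 : ℝ) < 2 ^ n := by positivity
  rw [zm_apply]
  exact ⟨div_nonneg h1 h3.le, (div_lt_one h3).2 h2⟩

theorem zm_lat (i n : ℕ) (x : Eu m) : flo n (zm i n x) = zm i n x := by
  ext k; rw [flo_apply, zm_apply, fl_lat]

theorem zm_det (i n : ℕ) (x : Eu m) : flo (i + n) x = flo i x + (2⁻¹ : ℝ) ^ i • zm i n x := by
  rw [zm, smul_smul, ← mul_pow, inv_mul_cancel₀ two_ne_zero, one_pow, one_smul]; abel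

theorem zm_flo (i : ℕ) {k n : ℕ} (h : k ≤ n) (x : Eu m) : flo k (zm i n x) = zm i k x := by
  obtain ⟨j, rfl⟩ := Nat.exists_eq_add_of_le h
  ext l
  rw [flo_apply, zm_apply, zm_apply, fl_div k j, fl_lat, fl_div (i + k) j, add_assoc]
  congr 2
  rw [pow_add, mul_comm ((2 : ℤ) ^ k), mul_assoc, Int.sub_mul_ediv_left _ _ (by positivity)]

theorem zm_near (i n : ℕ) (x : Eu m) :
    ‖zm i n x - (2 : ℝ) ^ i • (x - flo i x)‖ ≤ √m * 2⁻¹ ^ n := by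
  have h := geo1.norm_sub_flo (i + n) x
  have h1 : zm i n x - (2 : ℝ) ^ i • (x - flo i x) = (2 : ℝ) ^ i • -(x - flo (i + n) x) := by
    rw [zm, ← smul_sub]; congr 1; abel
  rw [h1, norm_smul, norm_neg, Real.norm_eq_abs, abs_of_pos (by positivity)]
  calc _ ≤ 2 ^ i * (√m * 2⁻¹ ^ (i + n)) := by gcongr
    _ = _ := by rw [pow_add, inv_pow, inv_pow]; field_simp

theorem zm_close (i n : ℕ) (x : Eu m) :
    ‖x - flo i x - (2⁻¹ : ℝ) ^ i • zm i n x‖ ≤ √m * 2⁻¹ ^ (i + n) := by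
  rw [sub_sub, ← zm_det]; exact geo1.norm_sub_flo _ _

end Scale

namespace Cf

variable {Ω Tt Θ : Type} [Fintype Ω] {m p q r L : ℕ} {D : Cf Ω Tt Θ m} {E : ℝ}

theorem OK.norm_X (h : D.OK L E) {ω : Ω} (hω : D.p ω ≠ 0) : ‖D.X ω‖ ≤ 2 * √m := by
  obtain ⟨h1, h2, h3, h4⟩ := h.box ω hω
  have h5 : ‖D.t ω • D.v ω‖ ≤ 1 * √m := by
    rw [norm_smul, Real.norm_eq_abs, abs_of_nonneg h3]
    exact mul_le_mul h4.le h2.norm_le (norm_nonneg _) zero_le_one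
  unfold X
  linarith [norm_add_le (D.a ω) (D.t ω • D.v ω), h1.norm_le]

omit [Fintype Ω] in
theorem det_T (D : Cf Ω Tt Θ m) (p' : Ω → ℝ) : Det p' D.c D.T := Det.snd _ _ _

omit [Fintype Ω] in
theorem tb_lat (D : Cf Ω Tt Θ m) (F : Ω → Eu r) (s : ℕ) (ω : Ω) :
    LatP s (D.tb s ω) (zm s s (F ω)) := by
  have h := fl_sub_mem s s (D.t ω)
  have h1 : D.tb s ω = ((fl (s + s) (D.t ω) - 2 ^ s * fl s (D.t ω) : ℤ) : ℝ) / 2 ^ s := by
    unfold tb; push_cast; rfl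
  refine ⟨by rw [h1, fl_lat], ?_, ?_, zm_lat _ _ _, zm_box _ _ _⟩
  · rw [h1]; exact div_nonneg (by exact_mod_cast h.1) (by positivity)
  · rw [h1]; exact (div_lt_one (by positivity)).2 (by exact_mod_cast h.2)

omit [Fintype Ω] in
theorem tb_near (D : Cf Ω Tt Θ m) (s : ℕ) (ω : Ω) :
    |D.t ω - (fl s (D.t ω) : ℝ) / 2 ^ s - 2⁻¹ ^ s * D.tb s ω| ≤ 2⁻¹ ^ (s + s) := by
  have h := fl_le (s + s) (D.t ω)
  have h1 : (fl s (D.t ω) : ℝ) / 2 ^ s + 2⁻¹ ^ s * D.tb s ω = fl (s + s) (D.t ω) / 2 ^ (s + s) := by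
    unfold tb; rw [pow_add, inv_pow]; field_simp; ring
  have h2 : (0 : ℝ) < 2⁻¹ ^ (s + s) := by positivity
  rw [sub_sub, h1, abs_le]; constructor <;> linarith

theorem OK.det_tb (h : D.OK L E) (s : ℕ) : Det D.p D.c (D.tb s) := fun a b ha hb e => by
  unfold tb; rw [h.det a b ha hb e]

theorem OK.det_Wd (h : D.OK L E) {F : Ω → Eu r} (hF : Det D.p D.c F) (s : ℕ) :
    Det D.p D.c (D.Wd F s) := fun a b ha hb e => by
  unfold Wd; rw [h.det a b ha hb e, hF a b ha hb e, D.det_T D.p a b ha hb e]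

theorem OK.det_X (h : D.OK L E) : Det D.p (fun ω => (D.l ω, D.c ω)) D.X := fun a b ha hb e => by
  obtain ⟨h1, h2⟩ := Prod.ext_iff.1 e
  obtain ⟨h3, h4⟩ := Prod.ext_iff.1 h1
  unfold X; rw [h.det a b ha hb h2, show D.a a = D.a b from h3, show D.v a = D.v b from h4]

end Cf

/-! ### charts -/

namespace Chart

variable {m p q r : ℕ} (ch : Chart m p q r) (F : Eu r)

theorem pi_add (x y : Eu m) : ch.pi F (x + y) = ch.pi F x + ch.pi F y := by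
  simp only [pi, map_add]; abel

theorem pi_sub (x y : Eu m) : ch.pi F (x - y) = ch.pi F x - ch.pi F y := by
  simp only [pi, map_sub]; abel

theorem pi_smul (c : ℝ) (x : Eu m) : ch.pi F (c • x) = c • ch.pi F x := by
  simp only [pi, map_smul, smul_add]

theorem pi_sub_pi (G : Eu r) (x : Eu m) : ch.pi F x - ch.pi G x = ch.app (F - G) (ch.Pw x) := by
  simp only [pi, map_sub, LinearMap.sub_apply]; abel

theorem pi_iy (u : Eu p) : ch.pi F (ch.iy u) = u := by simp [pi, ch.Py_iy, ch.Pw_iy]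

theorem pi_iw (w : Eu q) : ch.pi F (ch.iw w) = ch.app F w := by simp [pi, ch.Py_iw, ch.Pw_iw]

theorem app_Pw_le (x : Eu m) : ‖ch.app F (ch.Pw x)‖ ≤ ‖F‖ * ‖x‖ :=
  (ch.app_le _ _).trans (mul_le_mul_of_nonneg_left (ch.Pw_le x) (norm_nonneg _))

theorem pi_le {F : Eu r} (hF : ‖F‖ ≤ 2) (x : Eu m) : ‖ch.pi F x‖ ≤ 3 * ‖x‖ := by
  have h1 := ch.app_Pw_le F x
  have h2 := mul_le_mul_of_nonneg_right hF (norm_nonneg x)
  unfold pi
  linarith [norm_add_le (ch.Py x) (ch.app F (ch.Pw x)), ch.Py_le x]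

theorem dec (x : Eu m) : x = ch.iy (ch.pi F x - ch.app F (ch.Pw x)) + ch.iw (ch.Pw x) := by
  rw [pi, add_sub_cancel_right, ch.split]

theorem norm_le {F : Eu r} (hF : ‖F‖ ≤ 2) (x : Eu m) : ‖x‖ ≤ ‖ch.pi F x‖ + 3 * ‖ch.Pw x‖ := by
  have h1 := norm_add_le (ch.iy (ch.pi F x - ch.app F (ch.Pw x))) (ch.iw (ch.Pw x))
  rw [← ch.dec F x] at h1
  have h2 := ch.app_le F (ch.Pw x)
  have h3 := mul_le_mul_of_nonneg_right hF (norm_nonneg (ch.Pw x))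
  linarith [ch.iy_le (ch.pi F x - ch.app F (ch.Pw x)), ch.iw_le (ch.Pw x),
    norm_sub_le (ch.pi F x) (ch.app F (ch.Pw x))]

variable {ch F} {Q : Submodule ℝ (Eu m)}

theorem Rep.prj_eq (h : ch.Rep Q F) (x : Eu m) : prj Q x = prj Q (ch.iy (ch.pi F x)) := by
  have h1 := la.prj_mem Q _ (h x).1
  rw [la.prj_sub] at h1
  exact sub_eq_zero.1 h1

theorem Rep.pi_prj (h : ch.Rep Q F) (x : Eu m) : ch.pi F (prj Q x) = ch.pi F x := by
  have h1 := (h _).2 (la.sub_prj Q x)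
  rw [pi_sub] at h1
  exact (sub_eq_zero.1 h1).symm

theorem Rep.prj_le (h : ch.Rep Q F) (x : Eu m) : ‖prj Q x‖ ≤ ‖ch.pi F x‖ := by
  rw [h.prj_eq]; exact (la.prj_norm _ _).trans (ch.iy_le _)

theorem Rep.pi_le (h : ch.Rep Q F) (hF : ‖F‖ ≤ 2) (x : Eu m) : ‖ch.pi F x‖ ≤ 3 * ‖prj Q x‖ := by
  rw [← h.pi_prj]; exact ch.pi_le hF _

end Chart

theorem prj_prj {m : ℕ} (V : Submodule ℝ (Eu m)) (x : Eu m) : prj V (prj V x) = prj V x := by
  have h := la.prj_mem V _ (la.sub_prj V x)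
  rw [la.prj_sub] at h
  exact (sub_eq_zero.1 h).symm

/-! ### plane vectors -/

theorem inner_two (x y : Eu 2) : ⟪x, y⟫ = x 0 * y 0 + x 1 * y 1 := by
  simp [PiLp.inner_apply, Fin.sum_univ_two, mul_comm]

theorem norm_sq_two (x : Eu 2) : ‖x‖ ^ 2 = x 0 ^ 2 + x 1 ^ 2 := by
  rw [← real_inner_self_eq_norm_sq, inner_two]; ring

theorem nn_zero (α : Eu 2) : nn α 0 = -α 1 / ‖α‖ := by simp [nn, div_eq_inv_mul]

theorem nn_one (α : Eu 2) : nn α 1 = α 0 / ‖α‖ := by simp [nn, div_eq_inv_mul]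

theorem inner_nn (α : Eu 2) : ⟪α, nn α⟫ = 0 := by rw [inner_two, nn_zero, nn_one]; ring

theorem norm_nn {α : Eu 2} (h : α ≠ 0) : ‖nn α‖ = 1 := by
  have h0 : ‖α‖ ≠ 0 := norm_ne_zero_iff.2 h
  have h1 : ‖nn α‖ ^ 2 = 1 := by
    rw [norm_sq_two, nn_zero, nn_one]; field_simp; rw [norm_sq_two]; ring
  exact (pow_eq_one_iff_of_nonneg (norm_nonneg _) two_ne_zero).1 h1

theorem norm_nn_le (α : Eu 2) : ‖nn α‖ ≤ 1 := by
  by_cases h : α = 0
  · simp [nn, h]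
  · exact (norm_nn h).le

theorem nn_dec {α : Eu 2} (h : α ≠ 0) (w : Eu 2) :
    w = (⟪α, w⟫ / ‖α‖ ^ 2) • α + ⟪w, nn α⟫ • nn α := by
  have h0 : ‖α‖ ≠ 0 := norm_ne_zero_iff.2 h
  have h1 := norm_sq_two α
  ext k
  fin_cases k
  · simp only [PiLp.add_apply, PiLp.smul_apply, smul_eq_mul, Fin.zero_eta, inner_two, nn_zero,
      nn_one]
    field_simp; rw [h1]; ring
  · simp only [PiLp.add_apply, PiLp.smul_apply, smul_eq_mul, Fin.mk_one, inner_two, nn_zero,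
      nn_one]
    field_simp; rw [h1]; ring

theorem norm_one (x : Eu 1) : ‖x‖ = |x 0| := by simp [EuclideanSpace.norm_eq, sqrt_sq_eq_abs]

end Vale.Agent.P127
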