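import Vale.Agent.P127.Num

/-! Sticky Kakeya sets: normalisation of the family of segments. -/

namespace Vale.Agent.P127

open Vale.Agent.P118
open scoped RealInnerProductSpace
open Real Classical Module

namespace RedAX

theorem ext4 {x y : Eu 4} (h0 : x 0 = y 0) (h1 : tl x = tl y) : x = y := by
  ext k
  induction k using Fin.cases with
  | zero => exact h0
  | succ k => exact congrArg (fun z : Eu 3 => z k) h1

theorem tl_cons (a : ℝ) (v : Eu 3) : tl (cons a v) = v := by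
  ext k
  rfl

theorem cons_zero (a : ℝ) (v : Eu 3) : cons a v 0 = a := rfl

theorem normsq_le {v : Eu 3} (h : InC v) : ‖v‖ ^ 2 ≤ 3 := by
  rw [EuclideanSpace.real_norm_sq_eq, Fin.sum_univ_three]
  have h0 := h 0
  have h1 := h 1
  have h2 := h 2
  nlinarith [h0.1, h0.2, h1.1, h1.2, h2.1, h2.2]

theorem norm_le {v : Eu 3} (h : InC v) : ‖v‖ ≤ 2 := by
  have := normsq_le h
  nlinarith [norm_nonneg v]

theorem r_pos (v : Eu 3) : 0 < √(1 + ‖v‖ ^ 2) := Real.sqrt_pos.2 (by positivity)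

theorem r_le {v : Eu 3} (h : InC v) : √(1 + ‖v‖ ^ 2) ≤ 2 :=
  Real.sqrt_le_iff.2 ⟨by norm_num, by linarith [normsq_le h]⟩

theorem dir_zero (v : Eu 3) : dir v 0 = (√(1 + ‖v‖ ^ 2))⁻¹ := by
  change (√(1 + ‖v‖ ^ 2))⁻¹ * 1 = _
  rw [mul_one]

theorem tl_dir (v : Eu 3) : tl (dir v) = (√(1 + ‖v‖ ^ 2))⁻¹ • v := by
  unfold dir
  rw [geo2.tl_smul, tl_cons]

theorem add_zero' (x y : Eu 4) : (x + y) 0 = x 0 + y 0 := rfl

theorem sub_zero' (x y : Eu 4) : (x - y) 0 = x 0 - y 0 := rfl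

theorem smul_zero' (c : ℝ) (x : Eu 4) : (c • x) 0 = c * x 0 := rfl

/-- the image of the first basis vector under the projection -/
theorem pr_e0 {v : Eu 3} {ℓ : AffLine 4} (h : ∀ x, ℓ.1.1 x = ⟪dir v, x⟫ • dir v) :
    ℓ.1.1 (e0 3) 0 = (1 + ‖v‖ ^ 2)⁻¹ ∧ tl (ℓ.1.1 (e0 3)) = (1 + ‖v‖ ^ 2)⁻¹ • v := by
  have h1 : ⟪dir v, e0 3⟫ = (√(1 + ‖v‖ ^ 2))⁻¹ := by
    rw [geo2.inner_eq, geo2.e0_zero, geo2.tl_e0, inner_zero_right, dir_zero]
    ring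
  have h2 : (√(1 + ‖v‖ ^ 2))⁻¹ * (√(1 + ‖v‖ ^ 2))⁻¹ = (1 + ‖v‖ ^ 2)⁻¹ := by
    rw [← mul_inv, Real.mul_self_sqrt (by positivity)]
  rw [h, h1, smul_zero', dir_zero, geo2.tl_smul, tl_dir, smul_smul, h2]
  exact ⟨rfl, rfl⟩

theorem dist_fst (ℓ ℓ' : AffLine 4) : ‖ℓ.1.1 - ℓ'.1.1‖ ≤ dist ℓ ℓ' := by
  rw [Subtype.dist_eq, Prod.dist_eq, ← dist_eq_norm]
  exact le_max_left _ _

theorem dist_snd (ℓ ℓ' : AffLine 4) : ‖ℓ.1.2 - ℓ'.1.2‖ ≤ dist ℓ ℓ' := by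
  rw [Subtype.dist_eq, Prod.dist_eq, ← dist_eq_norm]
  exact le_max_right _ _

theorem lip_v {v v' : Eu 3} (hv : InC v) (hv' : InC v') {ℓ ℓ' : AffLine 4}
    (h : ∀ x, ℓ.1.1 x = ⟪dir v, x⟫ • dir v) (h' : ∀ x, ℓ'.1.1 x = ⟪dir v', x⟫ • dir v') :
    ‖v - v'‖ ≤ 12 * dist ℓ ℓ' := by
  obtain ⟨a1, a2⟩ := pr_e0 h
  obtain ⟨b1, b2⟩ := pr_e0 h'
  have h1 : ‖ℓ.1.1 (e0 3) - ℓ'.1.1 (e0 3)‖ ≤ dist ℓ ℓ' := by
    have := (ℓ.1.1 - ℓ'.1.1).le_opNorm (e0 3)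
    rw [geo2.norm_e0, mul_one] at this
    exact this.trans (dist_fst ℓ ℓ')
  have h2 := (geo2.abs_zero _).trans h1
  have h3 := (geo2.norm_tl _).trans h1
  rw [sub_zero', a1, b1] at h2
  rw [geo2.tl_sub, a2, b2] at h3
  set q := (1 + ‖v‖ ^ 2)⁻¹ with hq
  set q' := (1 + ‖v'‖ ^ 2)⁻¹
  have hq4 : 1 / 4 ≤ q := by
    rw [hq, one_div]
    exact inv_anti₀ (by positivity) (by linarith [normsq_le hv])
  have e : q • (v - v') = (q • v - q' • v') - (q - q') • v' := by module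
  have h4 : q * ‖v - v'‖ ≤ dist ℓ ℓ' + dist ℓ ℓ' * 2 := by
    have h5 := norm_sub_le (q • v - q' • v') ((q - q') • v')
    rw [← e, norm_smul, norm_smul, Real.norm_eq_abs, Real.norm_eq_abs,
      abs_of_nonneg (by linarith)] at h5
    have h6 := mul_le_mul h2 (norm_le hv') (norm_nonneg _) dist_nonneg
    linarith
  nlinarith [norm_nonneg (v - v')]

theorem y_eq {v : Eu 3} {a b : Eu 4} (h : a - ⟪dir v, a⟫ • dir v = b) (t : ℝ) :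
    tl a + (t - a 0) • v = tl b + (t - b 0) • v := by
  rw [← h, geo2.tl_sub, geo2.tl_smul, tl_dir, sub_zero', smul_zero', dir_zero]
  module

theorem lip_y {v v' : Eu 3} (hv' : InC v') {b b' : Eu 4} {t δ n : ℝ} (h1 : ‖b - b'‖ ≤ δ)
    (h2 : ‖v - v'‖ ≤ 12 * δ) (h3 : |t - b 0| ≤ n) :
    ‖(tl b + (t - b 0) • v) - (tl b' + (t - b' 0) • v')‖ ≤ (3 + 12 * n) * δ := by
  have e : (tl b + (t - b 0) • v) - (tl b' + (t - b' 0) • v') =
      tl (b - b') + (t - b 0) • (v - v') - (b 0 - b' 0) • v' := by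
    rw [geo2.tl_sub]
    module
  have hδ : 0 ≤ δ := (norm_nonneg _).trans h1
  have c1 := (geo2.norm_tl _).trans h1
  have c2 := (geo2.abs_zero _).trans h1
  rw [sub_zero'] at c2
  have c3 := mul_le_mul h3 h2 (norm_nonneg _) ((abs_nonneg _).trans h3)
  have c4 := mul_le_mul c2 (norm_le hv') (norm_nonneg _) hδ
  have c5 := norm_sub_le (tl (b - b') + (t - b 0) • (v - v')) ((b 0 - b' 0) • v')
  have c6 := norm_add_le (tl (b - b')) ((t - b 0) • (v - v'))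
  rw [norm_smul, Real.norm_eq_abs] at c5 c6
  rw [e]
  linarith

theorem flo_close (i : ℕ) {x y : Eu 3} {c : ℝ} (h : ‖x - y‖ ≤ c * 2⁻¹ ^ i) :
    ‖flo i x - flo i y‖ ≤ (c + 2) * 2⁻¹ ^ i := by
  have h1 := geo1.diff_flo i x y
  have h2 : √((3 : ℕ) : ℝ) ≤ 2 := Real.sqrt_le_iff.2 ⟨by norm_num, by norm_num⟩
  have h3 := mul_le_mul_of_nonneg_right h2 (show (0 : ℝ) ≤ 2⁻¹ ^ i by positivity)
  have h4 := norm_sub_le (x - y) ((x - y) - (flo i x - flo i y))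
  rw [sub_sub_cancel] at h4
  linarith

theorem card_near (i c : ℕ) (S : Finset (Eu 3)) (a : Eu 3)
    (h : ∀ u ∈ S, flo i u = u ∧ ‖u - a‖ ≤ c * 2⁻¹ ^ i) : S.card ≤ (2 * c + 1) ^ 3 := by
  have h1 := geo1.card_ball i S a _ (by positivity) h
  have h2 : 2 * ((c : ℝ) * 2⁻¹ ^ i) * 2 ^ i = 2 * c := by
    rw [inv_pow]
    field_simp
  rw [h2] at h1
  exact_mod_cast h1

theorem count {X : Type} [MetricSpace X] {V : Set (Eu 3)} {a : Eu 3 → Eu 3} {ℓ : Eu 3 → X} (c : ℕ)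
    (h : ∀ v ∈ V, ∀ v' ∈ V, ‖a v - a v'‖ ≤ c * dist (ℓ v) (ℓ v') ∧ ‖v - v'‖ ≤ c * dist (ℓ v) (ℓ v'))
    (i : ℕ) (N : Finset X) (hN : ∀ v ∈ V, ∃ y ∈ N, dist (ℓ v) y ≤ 2⁻¹ ^ i)
    (S : Finset (Eu 3 × Eu 3)) (hS : ∀ u ∈ S, ∃ v ∈ V, u = (flo i (a v), flo i v)) :
    S.card ≤ (2 * (2 * c + 2) + 1) ^ 6 * N.card := by
  have : Nonempty X := ⟨ℓ 0⟩
  choose! w hw1 hw2 using hS
  choose! y hy1 hy2 using hN
  refine Finset.card_le_mul_card_image_of_maps_to (f := fun u => y (w u))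
    (fun u hu => hy1 _ (hw1 u hu)) _ fun z _ => ?_
  set F := S.filter fun u => y (w u) = z with hF
  rcases F.eq_empty_or_nonempty with h0 | ⟨u₀, hu₀⟩
  · rw [h0]
    exact Nat.zero_le _
  have key : ∀ u ∈ F, (flo i u.1 = u.1 ∧ ‖u.1 - u₀.1‖ ≤ (2 * c + 2 : ℕ) * 2⁻¹ ^ i) ∧
      flo i u.2 = u.2 ∧ ‖u.2 - u₀.2‖ ≤ (2 * c + 2 : ℕ) * 2⁻¹ ^ i := by
    intro u hu
    obtain ⟨m1, m2⟩ := Finset.mem_filter.1 hu
    obtain ⟨n1, n2⟩ := Finset.mem_filter.1 hu₀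
    have d1 := hy2 _ (hw1 u m1)
    have d2 := hy2 _ (hw1 u₀ n1)
    rw [m2] at d1
    rw [n2] at d2
    have d3 : (c : ℝ) * dist (ℓ (w u)) (ℓ (w u₀)) ≤ 2 * c * 2⁻¹ ^ i := by
      have d4 := dist_triangle_right (ℓ (w u)) (ℓ (w u₀)) z
      have d5 := mul_le_mul_of_nonneg_left (d4.trans (add_le_add d1 d2)) (Nat.cast_nonneg (α := ℝ) c)
      linarith
    obtain ⟨l1, l2⟩ := h _ (hw1 u m1) _ (hw1 u₀ n1)
    have e1 : u.1 = flo i (a (w u)) := congrArg Prod.fst (hw2 u m1)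
    have e2 : u.2 = flo i (w u) := congrArg Prod.snd (hw2 u m1)
    have e3 : u₀.1 = flo i (a (w u₀)) := congrArg Prod.fst (hw2 u₀ n1)
    have e4 : u₀.2 = flo i (w u₀) := congrArg Prod.snd (hw2 u₀ n1)
    rw [e1, e2, e3, e4]
    push_cast
    exact ⟨⟨geo1.flo_flo _ le_rfl, flo_close i (l1.trans d3)⟩, geo1.flo_flo _ le_rfl,
      flo_close i (l2.trans d3)⟩
  have s1 := card_near i (2 * c + 2) (F.image Prod.fst) u₀.1 fun x hx => by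
    obtain ⟨u, hu, rfl⟩ := Finset.mem_image.1 hx
    exact (key u hu).1
  have s2 := card_near i (2 * c + 2) (F.image Prod.snd) u₀.2 fun x hx => by
    obtain ⟨u, hu, rfl⟩ := Finset.mem_image.1 hx
    exact (key u hu).2
  calc F.card ≤ (F.image Prod.fst ×ˢ F.image Prod.snd).card :=
        Finset.card_le_card Finset.subset_product
    _ = _ := Finset.card_product _ _
    _ ≤ _ := Nat.mul_le_mul s1 s2
    _ = _ := by ring

theorem cube_pos : MeasureTheory.volume {v : Eu 3 | InC v} ≠ 0 := by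
  intro h
  have h1 := geo1.vol_cell (m := 3) 0 0 (by
    ext k
    simp [flo])
  have h2 : {v : Eu 3 | flo 0 v = 0} ⊆ {v : Eu 3 | InC v} := fun v hv k => by
    have h3 := geo1.flo_le 0 v k
    have h4 : flo 0 v = 0 := hv
    rw [h4] at h3
    simpa using h3
  rw [MeasureTheory.measure_mono_null h2 h] at h1
  simp at h1

theorem seg {v P : Eu 3} (hv : InC v) {a : Eu 4} {K : Set (Eu 4)}
    (h : ∀ t ∈ Set.Icc (0 : ℝ) 1, a + t • dir v ∈ K) {i : ℤ} (hi : ⌈4 * a 0⌉ = i) {t : ℝ}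
    (ht : t ∈ Set.Icc (0 : ℝ) 1) :
    cons t ((4 : ℝ) • (tl a + ((i : ℝ) / 4 - a 0) • v - P) + t • v) ∈
      (fun x => (4 : ℝ) • (x - cons ((i : ℝ) / 4) P)) '' K := by
  have h1 := Int.le_ceil (4 * a 0)
  have h2 := Int.ceil_lt_add_one (4 * a 0)
  rw [hi] at h1 h2
  have r0 := r_pos v
  have r2 := r_le hv
  have h3 : 0 ≤ (i : ℝ) / 4 + t / 4 - a 0 := by linarith [ht.1]
  have h4 : (i : ℝ) / 4 + t / 4 - a 0 ≤ 1 / 2 := by linarith [ht.2]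
  refine ⟨_, h (((i : ℝ) / 4 + t / 4 - a 0) * √(1 + ‖v‖ ^ 2)) ⟨by positivity, by nlinarith⟩, ?_⟩
  apply ext4
  · change 4 * (a 0 + ((i : ℝ) / 4 + t / 4 - a 0) * √(1 + ‖v‖ ^ 2) * dir v 0 - (i : ℝ) / 4) = t
    rw [dir_zero, mul_assoc, mul_inv_cancel₀ r0.ne']
    ring
  · simp only [geo2.tl_smul, geo2.tl_sub, geo2.tl_add, tl_cons, tl_dir]
    rw [smul_smul, mul_assoc, mul_inv_cancel₀ r0.ne']
    module

end RedAX

open RedAX in
theorem sRedA (pk : SPack) : SRedA := by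
  intro K Λ d s hΛ hK hd hK0 hs
  obtain ⟨U, hU, hnet⟩ := pk Λ s (hΛ.trans_lt (by
    rw [ENNReal.lt_ofReal_iff_toReal_lt (by norm_num)]
    simpa using hs))
  choose ℓ hℓ a0 h1 h2 h3 using fun v : Eu 3 => hK (dir v) (geo2.norm_dir v)
  let Y : ℤ → Eu 3 → Eu 3 := fun i v => tl (a0 v) + ((i : ℝ) / 4 - a0 v 0) • v
  let W : ℕ × ℤ × (Fin 3 → ℤ) × ℕ → Set (Eu 3) := fun j =>
    {v | InC v ∧ ℓ v ∈ U j.1 ∧ ⌈4 * a0 v 0⌉ = j.2.1 ∧ (∀ k, ⌊4 * Y j.2.1 v k⌋ = j.2.2.1 k) ∧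
      |(j.2.1 : ℝ) / 4 - (ℓ v).1.2 0| ≤ j.2.2.2}
  have hcov : {v : Eu 3 | InC v} ⊆ ⋃ j, W j := fun v hv => by
    obtain ⟨k, hk⟩ := Set.mem_iUnion.1 (hU (hℓ v))
    exact Set.mem_iUnion.2 ⟨(k, ⌈4 * a0 v 0⌉, fun k => ⌊4 * Y ⌈4 * a0 v 0⌉ v k⌋,
      ⌈|(⌈4 * a0 v 0⌉ : ℝ) / 4 - (ℓ v).1.2 0|⌉₊), hv, hk, rfl, fun _ => rfl, Nat.le_ceil _⟩
  obtain ⟨⟨k, i, z, n⟩, hj⟩ : ∃ j, MeasureTheory.volume (W j) ≠ 0 := by
    by_contra hn
    push Not at hn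
    exact cube_pos (MeasureTheory.measure_mono_null hcov (MeasureTheory.measure_iUnion_null hn))
  let P : Eu 3 := WithLp.toLp 2 fun k => (z k : ℝ) / 4
  refine ⟨(fun x => (4 : ℝ) • (x - cons ((i : ℝ) / 4) P)) '' K, W (k, i, z, n),
    fun v => (4 : ℝ) • (Y i v - P), ?_, hj, fun v hv => ⟨hv.1, fun k => ?_⟩,
    fun v hv t ht => seg hv.1 (h3 v) hv.2.2.1 ht, ?_⟩
  · have hl : LipschitzWith 4 fun x : Eu 4 => (4 : ℝ) • (x - cons ((i : ℝ) / 4) P) := by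
      refine LipschitzWith.of_dist_le_mul fun x y => ?_
      rw [dist_smul₀, dist_sub_right]
      norm_num
    have := hl.hausdorffMeasure_image_le hd K
    rw [hK0, mul_zero] at this
    exact le_antisymm this bot_le
  · have e : ((4 : ℝ) • (Y i v - P)) k = 4 * Y i v k - z k := by
      change 4 * (Y i v k - (z k : ℝ) / 4) = _
      ring
    have e2 : ⌊4 * Y i v k⌋ = z k := hv.2.2.2.1 k
    have b1 := Int.floor_le (4 * Y i v k)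
    have b2 := Int.lt_floor_add_one (4 * Y i v k)
    rw [e2] at b1 b2
    rw [e]
    constructor <;> linarith
  · obtain ⟨C, hC⟩ := hnet k
    refine ⟨((2 * (2 * (12 + 48 * n) + 2) + 1) ^ 6 : ℕ) * C, fun L S hS => ?_⟩
    obtain ⟨N, hN1, hN2⟩ := hC L
    have := count (V := W (k, i, z, n)) (a := fun v => (4 : ℝ) • (Y i v - P)) (ℓ := ℓ) (12 + 48 * n)
      (fun v hv v' hv' => by
        have l1 := lip_v hv.1 hv'.1 (h1 v) (h1 v')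
        have l2 := lip_y hv'.1 (dist_snd (ℓ v) (ℓ v')) l1 hv.2.2.2.2
        rw [← y_eq (h2 v), ← y_eq (h2 v')] at l2
        have l3 : ‖Y i v - Y i v'‖ ≤ (3 + 12 * n) * dist (ℓ v) (ℓ v') := l2
        have l4 : 0 ≤ (n : ℝ) * dist (ℓ v) (ℓ v') := by positivity
        rw [← smul_sub, sub_sub_sub_cancel_right, norm_smul, Real.norm_ofNat]
        push_cast
        constructor <;> linarith)
      L N (fun v hv => hN2 _ hv.2.1) S hS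
    calc (S.card : ℝ) ≤ ((2 * (2 * (12 + 48 * n) + 2) + 1) ^ 6 : ℕ) * (N.card : ℝ) := by
          exact_mod_cast this
      _ ≤ _ := by
          rw [mul_assoc]
          exact mul_le_mul_of_nonneg_left hN1 (Nat.cast_nonneg _)

end Vale.Agent.P127
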