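import Vale.Agent.P127.Defs
import Vale.Agent.P127.Pack

/-! Sticky Kakeya sets in four dimensions: the statements of the steps. -/

namespace Vale.Agent.P127

open Vale.Agent.P118
open scoped RealInnerProductSpace ENNReal
open Real Classical Module

/-! ### entropy tools -/

/-- transfer along measure preserving maps, conditional independence -/
structure ET1 : Prop where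
  mp : ∀ {Ω Ω' α β : Type} [Fintype Ω] [Fintype Ω'] {p' : Ω' → ℝ} {pr : Ω' → Ω} {p : Ω → ℝ}
    (f : Ω → α) (g : Ω → β), MP p' pr p →
    Hc p' (fun z => f (pr z)) (fun z => g (pr z)) = Hc p f g
  mp_hn : ∀ {Ω Ω' α : Type} [Fintype Ω] [Fintype Ω'] {p' : Ω' → ℝ} {pr : Ω' → Ω} {p : Ω → ℝ}
    (f : Ω → α), MP p' pr p → Hn p' (fun z => f (pr z)) = Hn p f
  mp_pr : ∀ {Ω Ω' : Type} [Fintype Ω] [Fintype Ω'] {p' : Ω' → ℝ} {pr : Ω' → Ω} {p : Ω → ℝ}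
    (E : Ω → Prop), MP p' pr p → Pr p' (fun z => E (pr z)) = Pr p E
  mp_ne : ∀ {Ω Ω' : Type} [Fintype Ω] [Fintype Ω'] {p' : Ω' → ℝ} {pr : Ω' → Ω} {p : Ω → ℝ}
    {z : Ω'}, MP p' pr p → p' z ≠ 0 → p (pr z) ≠ 0
  mp_isP : ∀ {Ω Ω' : Type} [Fintype Ω] [Fintype Ω'] {p' : Ω' → ℝ} {pr : Ω' → Ω} {p : Ω → ℝ},
    MP p' pr p → IsP p
  mp_id : ∀ {Ω : Type} [Fintype Ω] {p : Ω → ℝ}, IsP p → MP p (fun ω => ω) p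
  mp_fst : ∀ {Ω β : Type} [Fintype Ω] {p : Ω → ℝ} (g : Ω → β), IsP p → MP (res p g) Prod.fst p
  mp_snd : ∀ {Ω β : Type} [Fintype Ω] {p : Ω → ℝ} (g : Ω → β), IsP p → MP (res p g) Prod.snd p
  mp_comp : ∀ {Ω Ω' Ω'' : Type} [Fintype Ω] [Fintype Ω'] [Fintype Ω''] {p'' : Ω'' → ℝ}
    {pr' : Ω'' → Ω'} {p' : Ω' → ℝ} {pr : Ω' → Ω} {p : Ω → ℝ}, MP p'' pr' p' → MP p' pr p →
    MP p'' (fun z => pr (pr' z)) p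
  swap : ∀ {Ω β : Type} [Fintype Ω] (p : Ω → ℝ) (g : Ω → β) (E : Ω × Ω → Prop),
    Pr (res p g) (fun z => E (z.2, z.1)) = Pr (res p g) E
  ci : ∀ {Ω α β γ δ : Type} [Fintype Ω] {p : Ω → ℝ} (g : Ω → β) (f : Ω → α) (k : Ω → γ)
    (K : Ω → δ), IsP p → Det p K g →
    Hc (res p g) (fun z => f z.2) (fun z => (k z.2, K z.1)) = Hc p f fun ω => (k ω, g ω)
  ci' : ∀ {Ω α β γ δ : Type} [Fintype Ω] {p : Ω → ℝ} (g : Ω → β) (f : Ω → α) (k : Ω → γ)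
    (K : Ω → δ), IsP p → Det p K g →
    Hc (res p g) (fun z => f z.1) (fun z => (k z.1, K z.2)) = Hc p f fun ω => (k ω, g ω)
  ci0 : ∀ {Ω α β δ : Type} [Fintype Ω] {p : Ω → ℝ} (g : Ω → β) (f : Ω → α) (K : Ω → δ), IsP p →
    Det p K g → Hc (res p g) (fun z => f z.2) (fun z => K z.1) = Hc p f g ∧
      Hc (res p g) (fun z => f z.1) (fun z => K z.2) = Hc p f g
  ci_le : ∀ {Ω α β δ : Type} [Fintype Ω] {p : Ω → ℝ} (g : Ω → β) (f : Ω → α) (C : Ω × Ω → δ),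
    IsP p → (Det (res p g) Prod.fst C → Hc p f g ≤ Hc (res p g) (fun z => f z.2) C) ∧
      (Det (res p g) Prod.snd C → Hc p f g ≤ Hc (res p g) (fun z => f z.1) C)

/-- events and information -/
structure ET2 : Prop where
  evsum : ∀ {Ω α β : Type} [Fintype Ω] {p : Ω → ℝ} (f : Ω → α) (g : Ω → β) (E : Ω → Prop),
    IsP p → Pr p E * Hc (cnd p E) f g +
      Pr p (fun ω => ¬E ω) * Hc (cnd p fun ω => ¬E ω) f g ≤ Hc p f g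
  evcap : ∀ {Ω α β : Type} [Fintype Ω] {p : Ω → ℝ} {f : Ω → α} {g : Ω → β} (E : Ω → Prop)
    {Λ : ℝ}, IsP p → 0 < Pr p E → (∀ ω, p ω ≠ 0 → Cnt p f g ω (exp Λ)) →
    Λ - (Λ - Hc p f g + log 2) / Pr p E ≤ Hc (cnd p E) f g
  cntE : ∀ {Ω α β : Type} [Fintype Ω] {p : Ω → ℝ} {f : Ω → α} {g : Ω → β} (E : Ω → Prop)
    {A B : ℝ}, IsP p → (∀ ω, p ω ≠ 0 → E ω → ∀ S : Finset α,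
      (∀ a ∈ S, ∃ ω', p ω' ≠ 0 ∧ E ω' ∧ g ω' = g ω ∧ f ω' = a) → (S.card : ℝ) ≤ exp A) →
    (∀ ω, p ω ≠ 0 → Cnt p f g ω (exp B)) →
    Hc p f g ≤ log 2 + Pr p E * A + Pr p (fun ω => ¬E ω) * B
  info : ∀ {Ω α β γ δ δ' : Type} [Fintype Ω] {p : Ω → ℝ} {f : Ω → α} {g : Ω → β} {l : Ω → γ}
    {k : Ω → δ} {k' : Ω → δ'}, IsP p → Det p (fun ω => (l ω, k ω)) f →
    Det p (fun ω => (l ω, k ω)) g → Det p k' k →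
    Hc p f (fun ω => (g ω, k ω)) - Hc p f (fun ω => (g ω, k' ω)) ≤ Hc p l k - Hc p l k'
  /-- the pointwise mutual information is rarely large -/
  pmi : ∀ {Ω α β : Type} [Fintype Ω] {p : Ω → ℝ} (f : Ω → α) (g : Ω → β) {x : ℝ}, IsP p → 0 < x →
    Pr p (fun ω => exp x * (Pr p (fun ω' => f ω' = f ω) * Pr p fun ω' => g ω' = g ω) ≤
      Pr p fun ω' => f ω' = f ω ∧ g ω' = g ω) ≤ (Hn p f - Hc p f g + 1) / x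
  /-- an event of conditional probability below `u` -/
  rare : ∀ {Ω β : Type} [Fintype Ω] {p : Ω → ℝ} (g : Ω → β) (E : Ω → Prop) {u : ℝ}, IsP p →
    0 ≤ u → Pr p (fun ω => E ω ∧ Pr p (fun ω' => g ω' = g ω ∧ E ω') ≤
      u * Pr p fun ω' => g ω' = g ω) ≤ u
  tsep : ∀ {Ω β : Type} [Fintype Ω] {p : Ω → ℝ} (t₁ t₂ : Ω → ℝ) (g : Ω → β) (N r b : ℕ) (E : ℝ),
    IsP p → r + b ≤ N → Det p g t₁ → (∀ ω, p ω ≠ 0 → |t₂ ω - t₁ ω| ≤ 2⁻¹ ^ r) →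
    ((N : ℝ) - r) * log 2 - E ≤ Hc p (fun ω => fl N (t₂ ω)) g →
    Pr p (fun ω => |t₂ ω - t₁ ω| ≤ 2⁻¹ ^ (r + b)) * (b * log 2) ≤ E + 10

/-- counting cubes -/
structure ET3 : Prop where
  cntA : ∀ {Ω β : Type} [Fintype Ω] {m : ℕ} {p : Ω → ℝ} (i : ℕ) (X : Ω → Eu m) (g : Ω → β)
    (a : ℝ) (ω : Ω), 1 ≤ a → (∀ ω', p ω' ≠ 0 → g ω' = g ω → ‖X ω' - X ω‖ ≤ a * 2⁻¹ ^ i) →
    Cnt p (fun ω => flo i (X ω)) g ω (exp (m * log a + CE m))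
  nearA : ∀ {Ω β : Type} [Fintype Ω] {m : ℕ} {p : Ω → ℝ} (i : ℕ) (X : Ω → Eu m) (g : Ω → β)
    (a : ℝ), IsP p → 1 ≤ a →
    (∀ ω ω', p ω ≠ 0 → p ω' ≠ 0 → g ω = g ω' → ‖X ω - X ω'‖ ≤ a * 2⁻¹ ^ i) →
    Hc p (fun ω => flo i (X ω)) g ≤ m * log a + CE m
  near1 : ∀ {Ω β : Type} [Fintype Ω] {p : Ω → ℝ} (i : ℕ) (X : Ω → ℝ) (g : Ω → β) (a : ℝ),
    IsP p → 0 ≤ a → (∀ ω ω', p ω ≠ 0 → p ω' ≠ 0 → g ω = g ω' → |X ω - X ω'| ≤ a * 2⁻¹ ^ i) →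
    Hc p (fun ω => fl i (X ω)) g ≤ log (2 * a + 3)
  closeD : ∀ {Ω β : Type} [Fintype Ω] {m : ℕ} {p : Ω → ℝ} (i : ℕ) (X X' c : Ω → Eu m)
    (g : Ω → β) (a : ℝ), IsP p → 1 ≤ a → Det p g c →
    (∀ ω, p ω ≠ 0 → ‖X ω - X' ω - c ω‖ ≤ a * 2⁻¹ ^ i) →
    Hc p (fun ω => flo i (X ω)) g ≤ Hc p (fun ω => flo i (X' ω)) g + m * log a + CE m
  cntB : ∀ {Ω β : Type} [Fintype Ω] {m : ℕ} {p : Ω → ℝ} (i : ℕ) (X : Ω → Eu m) (g : Ω → β)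
    (R : ℝ) (ω : Ω), 1 ≤ R → p ω ≠ 0 → (∀ ω, p ω ≠ 0 → ‖X ω‖ ≤ R) →
    Cnt p (fun ω => flo i (X ω)) g ω (exp (m * i * log 2 + m * log R + CE m))
  totB : ∀ {Ω β : Type} [Fintype Ω] {m : ℕ} {p : Ω → ℝ} (i : ℕ) (X : Ω → Eu m) (g : Ω → β)
    (R : ℝ), IsP p → 1 ≤ R → (∀ ω, p ω ≠ 0 → ‖X ω‖ ≤ R) →
    Hc p (fun ω => flo i (X ω)) g ≤ m * i * log 2 + m * log R + CE m
  cnt1B : ∀ {Ω β : Type} [Fintype Ω] {p : Ω → ℝ} (i : ℕ) (X : Ω → ℝ) (g : Ω → β)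
    (R : ℝ) (ω : Ω), 0 ≤ R → p ω ≠ 0 → (∀ ω, p ω ≠ 0 → |X ω| ≤ R) →
    Cnt p (fun ω => fl i (X ω)) g ω (exp (i * log 2 + log (4 * R + 3)))
  tot1B : ∀ {Ω β : Type} [Fintype Ω] {p : Ω → ℝ} (i : ℕ) (X : Ω → ℝ) (g : Ω → β)
    (R : ℝ), IsP p → 0 ≤ R → (∀ ω, p ω ≠ 0 → |X ω| ≤ R) →
    Hc p (fun ω => fl i (X ω)) g ≤ i * log 2 + log (4 * R + 3)
  nearE : ∀ {Ω β : Type} [Fintype Ω] {m : ℕ} {p : Ω → ℝ} (i : ℕ) (X : Ω → Eu m) (g : Ω → β)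
    (E : Ω → Prop) (a R : ℝ), IsP p → 1 ≤ a → 1 ≤ R → (∀ ω, p ω ≠ 0 → ‖X ω‖ ≤ R) →
    (∀ ω ω', p ω ≠ 0 → p ω' ≠ 0 → E ω → E ω' → g ω = g ω' → ‖X ω - X ω'‖ ≤ a * 2⁻¹ ^ i) →
    Hc p (fun ω => flo i (X ω)) g ≤ log 2 + m * log a + CE m +
      Pr p (fun ω => ¬E ω) * (m * i * log 2 + m * log R + CE m)
  near1E : ∀ {Ω β : Type} [Fintype Ω] {p : Ω → ℝ} (i : ℕ) (X : Ω → ℝ) (g : Ω → β)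
    (E : Ω → Prop) (a R : ℝ), IsP p → 0 ≤ a → 0 ≤ R → (∀ ω, p ω ≠ 0 → |X ω| ≤ R) →
    (∀ ω ω', p ω ≠ 0 → p ω' ≠ 0 → E ω → E ω' → g ω = g ω' → |X ω - X ω'| ≤ a * 2⁻¹ ^ i) →
    Hc p (fun ω => fl i (X ω)) g ≤ log 2 + log (2 * a + 3) +
      Pr p (fun ω => ¬E ω) * (i * log 2 + log (4 * R + 3))
  far : ∀ {Ω β : Type} [Fintype Ω] {m : ℕ} {p : Ω → ℝ} (h h' : ℕ) (X : Ω → Eu m) (g : Ω → β)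
    (R : ℝ), IsP p → h' ≤ h → 1 ≤ R → (∀ ω, p ω ≠ 0 → ‖X ω‖ ≤ R) →
    Hc p (fun ω => flo h (X ω)) g ≤ log 2 + m * ((h : ℝ) - h') * log 2 + 2 * CE m +
      Pr (res p g) (fun z => 2⁻¹ ^ h' ≤ ‖X z.2 - X z.1‖) * (m * h * log 2 + m * log R + CE m)

/-- counting cubes in plates and in the unit cube -/
structure ET4 : Prop where
  plate : ∀ {Ω β : Type} [Fintype Ω] {m : ℕ} {p : Ω → ℝ} (i k : ℕ) (X : Ω → Eu m) (g : Ω → β)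
    (V : Submodule ℝ (Eu m)) (R ε : ℝ) (ω : Ω), 0 ≤ R → 0 ≤ ε → finrank ℝ V ≤ k →
    (∀ ω', p ω' ≠ 0 → g ω' = g ω → ‖X ω' - X ω‖ ≤ R ∧ ‖prj V (X ω' - X ω)‖ ≤ ε) →
    Cnt p (fun ω => flo i (X ω)) g ω
      ((R * 2 ^ i + m + 1) ^ k * (ε * 2 ^ i + m + 1) ^ m * exp (CE m / 10))
  plateC : ∀ {Ω β : Type} [Fintype Ω] {m : ℕ} {p : Ω → ℝ} (i j k : ℕ) (X : Ω → Eu m) (g : Ω → β)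
    (V : Submodule ℝ (Eu m)) (a : ℝ) (ω : Ω), i ≤ j → 1 ≤ a → finrank ℝ V ≤ k →
    (∀ ω', p ω' ≠ 0 → g ω' = g ω →
      ‖X ω' - X ω‖ ≤ a * 2⁻¹ ^ i ∧ ‖prj V (X ω' - X ω)‖ ≤ a * 2⁻¹ ^ j) →
    Cnt p (fun ω => flo j (X ω)) g ω (exp (k * ((j : ℝ) - i) * log 2 + 2 * m * log a + CE m))
  plateH : ∀ {Ω β : Type} [Fintype Ω] {m : ℕ} {p : Ω → ℝ} (i j k : ℕ) (X : Ω → Eu m) (g : Ω → β)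
    (V : Ω → Submodule ℝ (Eu m)) (a : ℝ), IsP p → i ≤ j → 1 ≤ a →
    (∀ ω, p ω ≠ 0 → finrank ℝ (V ω) ≤ k) → (∀ ω ω', p ω ≠ 0 → p ω' ≠ 0 → g ω' = g ω →
      ‖X ω' - X ω‖ ≤ a * 2⁻¹ ^ i ∧ ‖prj (V ω) (X ω' - X ω)‖ ≤ a * 2⁻¹ ^ j) →
    Hc p (fun ω => flo j (X ω)) g ≤ k * ((j : ℝ) - i) * log 2 + 2 * m * log a + CE m
  cubeC : ∀ {Ω β : Type} [Fintype Ω] {m : ℕ} {p : Ω → ℝ} (i : ℕ) (X : Ω → Eu m) (g : Ω → β)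
    (ω : Ω), (∀ ω, p ω ≠ 0 → InC (X ω)) →
    Cnt p (fun ω => flo i (X ω)) g ω (exp (m * i * log 2))
  cube : ∀ {Ω β : Type} [Fintype Ω] {m : ℕ} {p : Ω → ℝ} (i : ℕ) (X : Ω → Eu m) (g : Ω → β),
    IsP p → (∀ ω, p ω ≠ 0 → InC (X ω)) → Hc p (fun ω => flo i (X ω)) g ≤ m * i * log 2
  sub : ∀ {Ω β : Type} [Fintype Ω] {m : ℕ} {p : Ω → ℝ} (i j : ℕ) (X : Ω → Eu m) (g : Ω → β),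
    IsP p → i ≤ j → Det p g (fun ω => flo i (X ω)) →
    Hc p (fun ω => flo j (X ω)) g ≤ m * ((j : ℝ) - i) * log 2
  intC : ∀ {Ω β : Type} [Fintype Ω] {p : Ω → ℝ} (i : ℕ) (t : Ω → ℝ) (g : Ω → β) (ω : Ω),
    (∀ ω, p ω ≠ 0 → 0 ≤ t ω ∧ t ω < 1) → Cnt p (fun ω => fl i (t ω)) g ω (exp (i * log 2))
  int : ∀ {Ω β : Type} [Fintype Ω] {p : Ω → ℝ} (i : ℕ) (t : Ω → ℝ) (g : Ω → β), IsP p →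
    (∀ ω, p ω ≠ 0 → 0 ≤ t ω ∧ t ω < 1) → Hc p (fun ω => fl i (t ω)) g ≤ i * log 2
  sub1 : ∀ {Ω β : Type} [Fintype Ω] {p : Ω → ℝ} (i j : ℕ) (t : Ω → ℝ) (g : Ω → β),
    IsP p → i ≤ j → Det p g (fun ω => fl i (t ω)) →
    Hc p (fun ω => fl j (t ω)) g ≤ ((j : ℝ) - i) * log 2

structure Tools : Prop where
  t1 : ET1
  t2 : ET2
  t3 : ET3
  t4 : ET4

/-! ### operations on models -/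

def SLab : Prop :=
  ∀ {Ω Ω' Tt Θ Θ' : Type} [Fintype Ω] [Fintype Ω'] {m : ℕ} (D : Cf Ω Tt Θ m) (p' : Ω' → ℝ)
    (pr : Ω' → Ω) (th' : Ω' → Θ') (L : ℕ) (E E' : ℝ), MP p' pr D.p →
    Det p' (D.lab p' pr th').c (fun z => D.c (pr z)) →
    Hc D.p D.l D.c - Hc p' (fun z => D.l (pr z)) (D.lab p' pr th').c ≤ E' → D.OK L E →
    (D.lab p' pr th').OK L (E + E') ∧
    (∀ σ, D.Ext σ L E → (D.lab p' pr th').Ext σ L (E + E')) ∧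
    (∀ Q q, D.Gr Q q L E → (D.lab p' pr th').Gr (fun z => Q (pr z)) q L (E + E')) ∧
    ∀ {p q r : ℕ} (ch : Chart m p q r) σ Q F, D.PC ch σ Q F L E →
      (D.lab p' pr th').PC ch σ (fun z => Q (pr z)) (fun z => F (pr z)) L (E + E')

def SBas : Prop :=
  ∀ {Ω Tt Θ : Type} [Fintype Ω] {m : ℕ} (D : Cf Ω Tt Θ m) (L : ℕ) (E : ℝ), D.OK L E →
    (∀ i ≤ L, Hc D.p (D.ln i) D.T ≤ m * i * log 2 + E) ∧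
    (∀ i ≤ L, m * i * log 2 - E ≤ Hc D.p (fun ω => flo i (D.v ω)) D.c) ∧
    Hc D.p D.l D.T - Hc D.p D.l D.c ≤ 2 * E ∧
    (∀ i ≤ L, i * log 2 - 3 * E ≤ Hc D.p (fun ω => fl i (D.t ω)) fun ω => (D.l ω, D.T ω)) ∧
    (∀ i, Hc D.p (fun ω => flo i (D.X ω)) (fun ω => (D.ln i ω, D.c ω)) ≤ CE m) ∧
    ∀ (i : ℕ) (R : Ω → Submodule ℝ (Eu m)), Det D.p D.c R →
      Hc D.p (fun ω => flo i (prj (R ω) (D.X ω))) (fun ω => (D.ln i ω, D.c ω)) ≤ CE m ∧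
      Hc D.p (fun ω => flo i (prj (R ω) (D.X ω))) (fun ω => (flo i (D.X ω), D.c ω)) ≤ CE m

def SWin0 : Prop :=
  ∀ {Ω Tt Θ : Type} [Fintype Ω] {m : ℕ} (D : Cf Ω Tt Θ m) (L i n : ℕ) (E : ℝ), D.OK L E →
    i + n ≤ L → (D.win i n).OK n (3 * E) ∧
    |Hc D.p (fun ω => flo n ((D.win i n).X ω)) (D.win i n).c -
      Hc D.p (fun ω => flo (i + n) (D.X ω)) fun ω => (D.ln i ω, D.c ω)| ≤ CE m ∧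
    (∀ R : Ω → Submodule ℝ (Eu m), Det D.p D.c R →
      Hc D.p (fun ω => flo (i + n) (D.X ω))
        (fun ω => (flo (i + n) (prj (R ω) (D.X ω)), D.ln i ω, D.c ω)) - 2 * CE m ≤
      Hc D.p (fun ω => flo n ((D.win i n).X ω))
        fun ω => (flo n (prj (R ω) ((D.win i n).X ω)), (D.win i n).c ω)) ∧
    ∀ ω, D.p ω ≠ 0 → ‖(D.win i n).X ω -
      (2 : ℝ) ^ i • (D.X ω - (flo i (D.a ω) + D.t ω • flo i (D.v ω)))‖ ≤ 2 * (m + 1) * 2⁻¹ ^ n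

def SFull : Prop :=
  ∀ (m : ℕ) (σ : ℝ), Ctx m σ → ∀ ζ : ℝ, 0 < ζ → ∀ᶠ x in EF, ∀ {Ω Tt Θ : Type} [Fintype Ω]
    (D : Cf Ω Tt Θ m), D.Ext σ x.2 x.1 → D.Full σ x.2 (ζ * x.2)

def SFullG : Prop :=
  ∀ (m : ℕ) (σ : ℝ), Ctx m σ → ∀ (q : ℕ) (ζ : ℝ), 0 < ζ → ∀ᶠ x in EF, ∀ {Ω Tt Θ : Type}
    [Fintype Ω] (D : Cf Ω Tt Θ m) (Q : Ω → Submodule ℝ (Eu m)), D.Ext σ x.2 x.1 →
    D.Gr Q q x.2 x.1 → D.FullG σ Q q x.2 (ζ * x.2)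

def SFullC : Prop :=
  ∀ (m : ℕ) (σ : ℝ), Ctx m σ → ∀ {p q r : ℕ} (ch : Chart m p q r) (ζ : ℝ), 0 < ζ → ∀ᶠ x in EF,
    ∀ {Ω Tt Θ : Type} [Fintype Ω] (D : Cf Ω Tt Θ m) (Q : Ω → Submodule ℝ (Eu m))
    (F : Ω → Eu r), D.PC ch σ Q F x.2 x.1 → D.FullC ch σ Q F x.2 (ζ * x.2)

def SCut : Prop :=
  ∀ (m : ℕ) (σ : ℝ), Ctx m σ → ∀ u ζ : ℝ, 0 < u → 0 < ζ → ∀ᶠ x in EF, ∀ {Ω Tt Θ : Type}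
    [Fintype Ω] (D : Cf Ω Tt Θ m) (Ev : Ω → Prop), u ≤ Pr D.p Ev → D.Ext σ x.2 x.1 →
    (D.cut Ev).Ext σ x.2 (ζ * x.2) ∧
    (∀ Q q, D.Gr Q q x.2 x.1 → (D.cut Ev).Gr Q q x.2 (ζ * x.2)) ∧
    (∀ Q, D.Pl Q x.2 x.1 → (D.cut Ev).Pl Q x.2 (ζ * x.2)) ∧
    ∀ {p q r : ℕ} (ch : Chart m p q r) Q F, D.PC ch σ Q F x.2 x.1 →
      (D.cut Ev).PC ch σ Q F x.2 (ζ * x.2)

def SWin : Prop :=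
  ∀ (m : ℕ) (σ : ℝ), Ctx m σ → ∀ (q : ℕ) (ζ : ℝ), 0 < ζ → ∀ᶠ x in EF, ∀ {Ω Tt Θ : Type}
    [Fintype Ω] (D : Cf Ω Tt Θ m) (Q : Ω → Submodule ℝ (Eu m)) (i n : ℕ), i + n ≤ x.2 →
    D.Ext σ x.2 x.1 → D.Gr Q q x.2 x.1 →
    (D.win i n).Ext σ n (ζ * x.2) ∧ (D.win i n).Gr Q q n (ζ * x.2)

/-- two labels on one line -/
structure Cf.Two {Ω Tt Θ μ : Type} [Fintype Ω] {m : ℕ} (D : Cf Ω Tt Θ m) (M : Ω → μ) (L : ℕ)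
    (E : ℝ) : Prop where
  mp₁ : MP (D.pp M) Prod.fst D.p
  mp₂ : MP (D.pp M) Prod.snd D.p
  supp : ∀ z, D.pp M z ≠ 0 → D.p z.1 ≠ 0 ∧ D.p z.2 ≠ 0 ∧ D.a z.2 = D.a z.1 ∧ D.v z.2 = D.v z.1 ∧
    D.T z.2 = D.T z.1 ∧ M z.2 = M z.1
  ci : ∀ {α : Type} (f : Ω → α), Hc (D.pp M) (fun z => f z.2) (fun z => (D.l z.1, D.c z.1)) =
    Hc D.p f fun ω => (D.l ω, D.T ω, M ω)
  tim : ∀ j ≤ L, j * log 2 - Hc D.p M D.T - 3 * E ≤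
    Hc (D.pp M) (fun z => fl j (D.t z.2)) fun z => (D.l z.1, D.c z.1)
  lab : ∀ {α : Type} (f : Ω → α), Det D.p D.c f →
    Hc D.p f (fun ω => (M ω, D.T ω)) - 2 * E ≤ Hc D.p f fun ω => (D.l ω, D.T ω, M ω)
  ext : ∀ σ, D.Ext σ L E →
    (D.one M).Ext σ L (3 * E) ∧ (D.two₁ M).Ext σ L (3 * E) ∧ (D.two₂ M).Ext σ L (3 * E)
  gr : ∀ Q q, D.Gr Q q L E → (D.one M).Gr (fun z => Q z.1) q L (3 * E) ∧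
    (D.two₁ M).Gr (fun z => Q z.1) q L (3 * E) ∧ (D.two₂ M).Gr (fun z => Q z.2) q L (3 * E)
  pc : ∀ {p q r : ℕ} (ch : Chart m p q r) σ Q F, D.PC ch σ Q F L E →
    (D.one M).PC ch σ (fun z => Q z.1) (fun z => F z.1) L (3 * E) ∧
    (D.two₁ M).PC ch σ (fun z => Q z.1) (fun z => F z.1) L (3 * E) ∧
    (D.two₂ M).PC ch σ (fun z => Q z.2) (fun z => F z.2) L (3 * E)

def STwo : Prop :=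
  ∀ {Ω Tt Θ μ : Type} [Fintype Ω] {m : ℕ} (D : Cf Ω Tt Θ m) (M : Ω → μ) (L : ℕ) (E : ℝ),
    D.OK L E → Det D.p D.c M → D.Two M L E

def SNod : Prop :=
  ∀ (m : ℕ) (σ : ℝ), Ctx m σ → ∀ u ζ : ℝ, 0 < u → 0 < ζ → ∀ᶠ x in EF, ∀ {Ω Tt Θ : Type}
    [Fintype Ω] (D : Cf Ω Tt Θ m) (Ev : Ω → Prop) (i j : ℕ), u ≤ Pr D.p Ev → D.Ext σ x.2 x.1 →
    i ≤ j → j ≤ x.2 → σ * i * log 2 - ζ * x.2 ≤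
      Hc (cnd D.p Ev) (fun ω => flo i (D.v ω)) fun ω => (flo j (D.X ω), D.c ω)

def SSep : Prop :=
  ∀ (m : ℕ) (σ : ℝ), Ctx m σ → ∀ κ ζ : ℝ, 0 < κ → 0 < ζ → ∀ᶠ x in EF, ∀ {Ω Tt Θ γ : Type}
    [Fintype Ω] (D : Cf Ω Tt Θ m) (Z : Ω → γ) (h j : ℕ), D.Ext σ x.2 x.1 → κ * x.2 ≤ h →
    h ≤ j → j ≤ x.2 → Hc D.p Z (fun ω => (flo j (D.X ω), D.c ω)) ≤ x.1 →
    Pr (res D.p fun ω => (flo j (D.X ω), D.c ω, Z ω))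
      (fun z => ‖D.v z.2 - D.v z.1‖ ≤ 2⁻¹ ^ h) * x.2 ≤ ζ * x.2

structure Base : Prop where
  lab : SLab
  bas : SBas
  win0 : SWin0
  two : STwo
  full : SFull
  fullG : SFullG
  fullC : SFullC
  cut : SCut
  win : SWin
  nod : SNod
  sep : SSep

/-! ### grains -/

/-- a free direction enlarges the grains -/
def SEnl : Prop :=
  ∀ (m : ℕ) (σ : ℝ), Ctx m σ → ∀ q : ℕ, NG m σ (q + 1) → ∀ κ : ℝ, 0 < κ → ∀ᶠ x in EF,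
    ∀ {Ω Tt Θ γ : Type} [Fintype Ω] (D : Cf Ω Tt Θ m) (Q : Ω → Submodule ℝ (Eu m)) (Z : Ω → γ)
    (φ d : Ω → Eu m) (s : Ω → ℝ) (h n : ℕ), D.Ext σ x.2 x.1 → D.Gr Q q x.2 x.1 →
    h + κ * x.2 ≤ n → n ≤ x.2 → Det D.p D.c d → Det D.p (fun ω => (Z ω, D.c ω)) φ →
    (∀ ω, D.p ω ≠ 0 → prj (Q ω) (d ω) = d ω ∧ 2⁻¹ ^ h ≤ ‖d ω‖ ∧ ‖d ω‖ ≤ exp x.1 ∧
      |s ω| ≤ exp x.1 ∧ ‖prj (Q ω) (D.X ω) - φ ω - s ω • d ω‖ ≤ exp x.1 * 2⁻¹ ^ n) →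
    n * log 2 - x.1 ≤ Hc D.p (fun ω => fl n (s ω)) (fun ω => (Z ω, D.c ω)) → False

/-- moving along the line -/
def SSh : Prop :=
  ∀ (m : ℕ) (σ : ℝ), Ctx m σ → ∀ q : ℕ, NG m σ (q + 1) → ∀ ζ : ℝ, 0 < ζ → ∀ᶠ x in EF,
    ∀ {Ω Tt Θ Θ₂ γ γ' : Type} [Fintype Ω] (D : Cf Ω Tt Θ m) (Q : Ω → Submodule ℝ (Eu m))
    (th₂ : Ω → Θ₂) (t₂ : Ω → ℝ) (G : Ω → γ) (C : Ω → γ') (Dv φ : Ω → Eu m) (Ev : Ω → Prop)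
    (s h : ℕ), D.Ext σ x.2 x.1 → D.Gr Q q x.2 x.1 → s + h ≤ x.2 →
    Det D.p (fun ω => (th₂ ω, D.c ω)) t₂ → Det D.p (fun ω => (D.ln s ω, D.c ω)) Dv →
    Det D.p (fun ω => (G ω, C ω, th₂ ω, D.c ω)) φ →
    h * log 2 - x.1 ≤ Hc D.p (fun ω => fl (s + h) (t₂ ω)) (fun ω => (D.l ω, D.c ω)) →
    Hc D.p C (fun ω => (D.ln s ω, D.c ω)) ≤ x.1 →
    Hc D.p (D.ln s) (fun ω => (C ω, D.c ω)) -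
      Hc D.p (D.ln s) (fun ω => (G ω, C ω, th₂ ω, D.c ω)) ≤ x.1 →
    (∀ ω, D.p ω ≠ 0 → |t₂ ω - D.t ω| ≤ 2⁻¹ ^ s ∧ prj (Q ω) (Dv ω) = Dv ω ∧ ‖Dv ω‖ ≤ exp x.1 ∧
      (Ev ω → ‖prj (Q ω) (D.X ω) - φ ω + (t₂ ω - D.t ω) • Dv ω‖ ≤ exp x.1 * 2⁻¹ ^ (s + h))) →
    Pr D.p (fun ω => ¬Ev ω) * x.2 ≤ x.1 →
    Hc D.p (fun ω => flo h (Dv ω)) (fun ω => (C ω, D.c ω)) ≤ ζ * x.2

def SPl : Prop :=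
  ∀ (m : ℕ) (σ : ℝ), Ctx m σ → ∀ q : ℕ, NG m σ (q + 1) → ∀ ζ : ℝ, 0 < ζ → ∀ᶠ x in EF,
    ∀ {Ω Tt Θ : Type} [Fintype Ω] (D : Cf Ω Tt Θ m) (Q : Ω → Submodule ℝ (Eu m)),
    D.Ext σ x.2 x.1 → D.Gr Q q x.2 x.1 → D.Pl Q x.2 (ζ * x.2)

def SLip : Prop :=
  ∀ (m : ℕ) (σ : ℝ), Ctx m σ → ∀ {p q r : ℕ} (ch : Chart m p q r), NG m σ (q + 1) → LipP ch σ

/-! ### radial projections -/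

def SHv : Prop :=
  ∀ (n : ℕ) (τ : ℝ), 1 ≤ n → 0 < τ → τ ≤ 1 / 2 → ∃ (e : ℝ) (L₀ : ℕ), 0 < e ∧
    ∀ (L : ℕ) (P : PD n) (σ M ρ s₁ w : ℝ), L₀ ≤ L → P.OK 0 L σ 1 M ρ s₁ → 0 ≤ σ →
      σ + 2 * τ ≤ 1 → 0 < w → 1 ≤ M → M ≤ w * (2 : ℝ) ^ (e * L) → (2 : ℝ) ^ (-e * L) ≤ ρ →
      ρ ≤ 1 → 0 ≤ s₁ → s₁ ≤ e * w → ∑ q ∈ P.S, P.a q.1 * P.b q.2 < w

def SRp : Prop :=
  ∀ (n : ℕ) (c : ℝ), 1 ≤ n → 0 < c → ∃ (η : ℝ) (N₀ : ℕ), 0 < η ∧ ∀ N ≥ N₀,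
    ∀ (P : PD n) (B : ℝ), (N : ℝ) ^ 2 ≤ B → B ≤ (2 : ℝ) ^ (η * N) → (∀ x, 0 ≤ P.a x) →
    (∀ x, 0 ≤ P.b x) → ∑ x ∈ P.Z₁, P.a x ≤ 1 → ∑ x ∈ P.Z₂, P.b x ≤ 1 → P.S ⊆ P.Z₁ ×ˢ P.Z₂ →
    (∀ x ∈ P.Z₁, ∀ y ∈ P.Z₂, Opp x y ∧ Opp y x) →
    (∀ i ≤ N, ∀ x, ∑ y ∈ P.Z₁ with flo i y = flo i x, P.a y ≤ B * 2⁻¹ ^ i ∧
      ∑ y ∈ P.Z₂ with flo i y = flo i x, P.b y ≤ B * 2⁻¹ ^ i) →
    (∀ x ∈ P.Z₁, ∀ y ∈ P.Z₂,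
      ∑ z ∈ P.Z₁ with z ∈ tube x y ((2 : ℝ) ^ (-η * N)), P.a z ≤ B⁻¹ ^ 3 ∧
      ∑ z ∈ P.Z₂ with z ∈ tube x y ((2 : ℝ) ^ (-η * N)), P.b z ≤ B⁻¹ ^ 3) →
    (∀ q ∈ P.S, (2 : ℝ) ^ (-(1 - c) * N) ≤ ∑ z ∈ P.Z₂ with z ∈ tube q.1 q.2 (2⁻¹ ^ N), P.b z) →
    ∑ q ∈ P.S, P.a q.1 * P.b q.2 ≤ B⁻¹

def SRq : Prop :=
  ∀ (n : ℕ) (c : ℝ), 1 ≤ n → 0 < c → ∃ (η K : ℝ) (N₀ : ℕ), 0 < η ∧ 0 < K ∧ ∀ N ≥ N₀, ∀ b : ℕ,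
    √N ≤ b → b ≤ η * N → ∀ (Z₁ Z₂ : Finset (ℝ × Eu n)) (μ ν : ℝ × Eu n → ℝ)
    (S : Finset ((ℝ × Eu n) × ℝ × Eu n)), (∀ x, 0 ≤ μ x) → (∀ x, 0 ≤ ν x) →
    ∑ x ∈ Z₁, μ x ≤ 1 → ∑ x ∈ Z₂, ν x ≤ 1 → S ⊆ Z₁ ×ˢ Z₂ →
    (∀ x ∈ Z₁ ∪ Z₂, 0 ≤ x.1 ∧ x.1 < 1 ∧ InC x.2) →
    (∀ i ≤ N, ∀ k : ℤ, ∑ x ∈ Z₁ with fl i x.1 = k, μ x ≤ exp b * 2⁻¹ ^ i ∧
      ∑ x ∈ Z₂ with fl i x.1 = k, ν x ≤ exp b * 2⁻¹ ^ i) →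
    (∀ β₀ β : Eu n, ‖β‖ ≤ 4 ^ b →
      ∑ x ∈ Z₁ with ‖x.2 - β₀ - x.1 • β‖ ≤ (2 : ℝ) ^ (-η * N), μ x ≤ exp (-K * b) ∧
      ∑ x ∈ Z₂ with ‖x.2 - β₀ - x.1 • β‖ ≤ (2 : ℝ) ^ (-η * N), ν x ≤ exp (-K * b)) →
    (∀ q ∈ S, 2⁻¹ ^ b ≤ |q.2.1 - q.1.1| ∧ (2 : ℝ) ^ (-(1 - c) * N) ≤
      ∑ x ∈ Z₂ with fl (2 * b) x.1 = fl (2 * b) q.2.1 ∧ flo (2 * b) x.2 = flo (2 * b) q.2.2 ∧
        ‖x.2 - q.1.2 - (x.1 - q.1.1) • (q.2.1 - q.1.1)⁻¹ • (q.2.2 - q.1.2)‖ ≤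
          (n + 1) * 2⁻¹ ^ N, ν x) →
    ∑ q ∈ S, μ q.1 * ν q.2 ≤ exp (-2 * b)

def SRe0 : Prop :=
  ∀ (n : ℕ) (c : ℝ), 1 ≤ n → 0 < c → ∃ (η K : ℝ) (N₀ : ℕ), 0 < η ∧ 0 < K ∧ ∀ N ≥ N₀, ∀ b : ℕ,
    √N ≤ b → b ≤ η * N → ∀ {Ω : Type} [Fintype Ω] (p τ₁ τ₂ : Ω → ℝ) (f₁ f₂ : Ω → Eu n), IsP p →
    (∀ ω, p ω ≠ 0 → LatP N (τ₁ ω) (f₁ ω) ∧ LatP N (τ₂ ω) (f₂ ω)) →
    Hn p (fun ω => (τ₁ ω, f₁ ω)) ≤ N * log 2 + η * b →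
    Hn p (fun ω => (τ₂ ω, f₂ ω)) ≤ N * log 2 + η * b →
    2 * N * log 2 - η * b ≤ Hn p (fun ω => (τ₁ ω, τ₂ ω)) →
    (∀ β₀ β : Eu n, ‖β‖ ≤ 4 ^ b →
      Pr p (fun ω => ‖f₁ ω - β₀ - τ₁ ω • β‖ ≤ (2 : ℝ) ^ (-η * N)) ≤ exp (-K * b) ∧
      Pr p (fun ω => ‖f₂ ω - β₀ - τ₂ ω • β‖ ≤ (2 : ℝ) ^ (-η * N)) ≤ exp (-K * b)) →
    (1 - c) * N * log 2 ≤
      Hc p (fun ω => slp N b (τ₁ ω) (τ₂ ω) (f₁ ω) (f₂ ω)) fun ω => (τ₁ ω, f₁ ω)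

def SRe : Prop :=
  ∀ (n : ℕ) (c : ℝ), 1 ≤ n → 0 < c → ∃ η κ₀ K : ℝ, 0 < η ∧ 0 < κ₀ ∧ 0 < K ∧ ∀ κ : ℝ, 0 < κ →
    κ ≤ κ₀ → ∀ᶠ x in EF, ∀ {Ω Wt : Type} [Fintype Ω] (p : Ω → ℝ) (W : Ω → Wt) (τ₁ τ₂ : Ω → ℝ)
    (f₁ f₂ : Ω → Eu n) (b : ℕ), IsP p → κ * x.2 ≤ b → b ≤ 2 * κ * x.2 →
    (∀ ω, p ω ≠ 0 → LatP x.2 (τ₁ ω) (f₁ ω) ∧ LatP x.2 (τ₂ ω) (f₂ ω)) →
    Hc p (fun ω => (τ₁ ω, f₁ ω)) W ≤ x.2 * log 2 + x.1 →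
    Hc p (fun ω => (τ₂ ω, f₂ ω)) W ≤ x.2 * log 2 + x.1 →
    2 * x.2 * log 2 - x.1 ≤ Hc p (fun ω => (τ₁ ω, τ₂ ω)) W →
    Light p W τ₁ f₁ ((2 : ℝ) ^ (-η * x.2)) (4 ^ b) (exp (-K * b)) →
    Light p W τ₂ f₂ ((2 : ℝ) ^ (-η * x.2)) (4 ^ b) (exp (-K * b)) →
    (1 - c) * x.2 * log 2 ≤ Hc p (fun ω => slp x.2 b (τ₁ ω) (τ₂ ω) (f₁ ω) (f₂ ω))
      fun ω => ((τ₁ ω, f₁ ω), W ω)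

/-- greedy covering by neighbourhoods of lines -/
def SCov : Prop :=
  ∀ {Ω Wt : Type} [Fintype Ω] {n : ℕ} (p : Ω → ℝ) (W : Ω → Wt) (τ : Ω → ℝ) (f : Ω → Eu n)
    (ρ A s₀ : ℝ), IsP p → 0 ≤ A → 0 < s₀ → ∃ (Λ : Ω → ℕ) (β₀ β : Ω → Eu n),
    Det p (fun ω => (τ ω, f ω, W ω)) Λ ∧ Hn p Λ ≤ log (s₀⁻¹ + 1) ∧
    Det p (fun ω => (Λ ω, W ω)) β₀ ∧ Det p (fun ω => (Λ ω, W ω)) β ∧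
    (∀ ω, p ω ≠ 0 → ‖β ω‖ ≤ A ∧ (Λ ω ≠ 0 → ‖f ω - β₀ ω - τ ω • β ω‖ ≤ ρ)) ∧
    ∀ ω₀, p ω₀ ≠ 0 → ∀ γ₀ γ : Eu n, ‖γ‖ ≤ A →
      Pr p (fun ω => Λ ω = 0 ∧ W ω = W ω₀ ∧ ‖f ω - γ₀ - τ ω • γ‖ ≤ ρ) ≤
        s₀ * Pr p fun ω => W ω = W ω₀

/-- the Kaufman count -/
def SKau : Prop :=
  ∀ {Ω γ γ' : Type} [Fintype Ω] (p u₁ u₂ θ : Ω → ℝ) (W : Ω → γ) (G : Ω → γ') (N b : ℕ) (R : ℝ),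
    IsP p → 1 ≤ R → (∀ ω, p ω ≠ 0 → |u₁ ω| ≤ R ∧ |θ ω| ≤ 2 ^ b) → Det p G θ → Det p G W →
    Hc p (fun ω => fl N (θ ω)) (fun ω => ((fl N (u₁ ω), fl N (u₂ ω)), W ω)) +
      Hc p (fun ω => fl N (u₁ ω)) (fun ω => (fl N (u₂ ω + θ ω * u₁ ω), G ω)) ≤
      N * log 2 + b * log 2 + log (N + 1) + 2 * log R + 20 +
        Hc p (fun ω => fl N (u₂ ω)) fun ω => (fl N (u₁ ω), W ω)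

/-! ### the slope of the grains is locally affine -/

def STb : Prop :=
  ∀ {m p q r : ℕ} (ch : Chart m p q r) (σ : ℝ), LipP ch σ → ∀ ζ : ℝ, 0 < ζ → ∀ᶠ x in EF,
    ∀ {Ω Tt Θ : Type} [Fintype Ω] (D : Cf Ω Tt Θ m) (Q : Ω → Submodule ℝ (Eu m))
    (F : Ω → Eu r), D.PC ch σ Q F x.2 x.1 → ∀ s, 4 * s ≤ x.2 →
    Hc D.p (D.Wd F s) D.T ≤ s * log 2 + ζ * x.2 ∧
    s * log 2 - ζ * x.2 ≤ Hc D.p (D.tb s) (fun ω => (D.l ω, D.Wd F s ω)) ∧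
    Hc D.p (fun ω => (D.tb s ω, zm s s (F ω))) (D.Wd F s) ≤ s * log 2 + ζ * x.2

namespace Cf

variable {Ω Tt Θ : Type} [Fintype Ω] {m p r : ℕ} (D : Cf Ω Tt Θ m) (ch : Chart m p 1 r)
  (F : Ω → Eu r) (s : ℕ)

noncomputable def G1 (ω : Ω) : Eu m × (Θ × Tt) × Eu p :=
  (flo (s + s) (D.X ω), D.c ω, flo (s + s) (D.z ch F ω))

/-- two lines through the same point -/
noncomputable def p2 : Ω × Ω → ℝ := res D.p (D.G1 ch F s)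

noncomputable def G2 (z : Ω × Ω) : (Eu m × Eu m) × (ℤ × Eu r × Tt) × Eu m × Eu m :=
  (D.l z.1, D.Wd F s z.1, D.ln s z.2)

/-- two lines meeting the same line -/
noncomputable def p4 : (Ω × Ω) × Ω × Ω → ℝ := res (D.p2 ch F s) (D.G2 F s)

noncomputable def mu (z : Ω × Ω) : ℝ := ch.Pw (D.v z.2 - D.v z.1) 0

noncomputable def U4 (z : (Ω × Ω) × Ω × Ω) : (Θ × Tt) × (Eu m × Eu m) × Eu m × Eu m :=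
  (D.c z.1.2, D.ln (s + s) z.1.2, D.ln (s + s) z.2.2)

end Cf

def SK1a : Prop :=
  ∀ (m : ℕ) (σ : ℝ), Ctx m σ → ∀ {p r : ℕ} (ch : Chart m p 1 r), LipP ch σ → ∀ κ ζ : ℝ, 0 < κ →
    0 < ζ → ∀ᶠ x in EF, ∀ {Ω Tt Θ : Type} [Fintype Ω] (D : Cf Ω Tt Θ m)
    (Q : Ω → Submodule ℝ (Eu m)) (F : Ω → Eu r), D.PC ch σ Q F x.2 x.1 → ∀ s b : ℕ,
    κ * x.2 ≤ b → b ≤ s → 4 * s ≤ x.2 →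
    s * log 2 - ζ * x.2 ≤ Hc (D.p2 ch F s) (fun z => D.tb s z.2) (D.G2 F s) ∧
    σ * s * log 2 - ζ * x.2 ≤ Hc D.p (fun ω => flo s (D.v ω)) (D.G1 ch F s) ∧
    Pr (D.p2 ch F s) (fun z => |D.mu ch z| ≤ 2⁻¹ ^ b) * x.2 ≤ ζ * x.2

def SK1b : Prop :=
  ∀ (m : ℕ) (σ : ℝ), Ctx m σ → ∀ {p r : ℕ} (ch : Chart m p 1 r), LipP ch σ → ∀ κ ζ : ℝ, 0 < κ →
    0 < ζ → ∀ᶠ x in EF, ∀ {Ω Tt Θ : Type} [Fintype Ω] (D : Cf Ω Tt Θ m)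
    (Q : Ω → Submodule ℝ (Eu m)) (F : Ω → Eu r), D.PC ch σ Q F x.2 x.1 → ∀ s b : ℕ,
    κ * x.2 ≤ b → b ≤ s → 4 * s ≤ x.2 →
    (1 + σ) * s * log 2 - b * log 2 - ζ * x.2 ≤
      Hc (D.p2 ch F s) (fun z => D.ln (s + s) z.2) (D.G2 F s) ∧
    Hc D.p (D.ln (s + s)) (fun ω => (D.ln s ω, D.KK ch F s ω)) ≤ (1 + σ) * s * log 2 + ζ * x.2

def SK1c : Prop :=
  ∀ {m p : ℕ} (ch : Chart m p 1 p) (σ : ℝ), Q1 ch → ∀ ζ : ℝ, 0 < ζ → ∀ᶠ x in EF,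
    ∀ {Ω Tt Θ : Type} [Fintype Ω] (D : Cf Ω Tt Θ m) (Q : Ω → Submodule ℝ (Eu m))
    (F : Ω → Eu p), D.PC ch σ Q F x.2 x.1 → ∀ s b : ℕ, b ≤ s → 4 * s ≤ x.2 →
    Pr (D.p2 ch F s) (fun z => |D.mu ch z| ≤ 2⁻¹ ^ b) * x.2 ≤ x.1 →
    Pr (D.p4 ch F s) (fun z => |D.tb s z.2.2 - D.tb s z.1.2| ≤ 2⁻¹ ^ b) * x.2 ≤ x.1 →
    Hc (D.p4 ch F s) (fun z => slp s b (D.tb s z.1.2) (D.tb s z.2.2) (zm s s (F z.1.2))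
      (zm s s (F z.2.2))) (D.U4 s) ≤ 4 * p * b * log 2 + ζ * x.2 ∧
    Hc (D.p4 ch F s) (fun z => flo s (D.v z.1.1)) (fun z => (D.tb s z.2.2, D.U4 s z)) ≤
      m * b * log 2 + ζ * x.2 ∧
    Hc (D.p4 ch F s) (fun z => D.KK ch F s z.2.2) (fun z => (D.c z.1.2, D.ln (s + s) z.1.2)) ≤
      ζ * x.2

def SK1 : Prop :=
  ∀ (m : ℕ) (σ : ℝ), Ctx m σ → ∀ {p : ℕ} (ch : Chart m p 1 p), Q1 ch → LipP ch σ → KP ch id σ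

namespace Cf

variable {Ω Tt Θ : Type} [Fintype Ω] (D : Cf Ω Tt Θ 3) (ch : Chart 3 1 2 2) (F : Ω → Eu 2)
  (k : Fin 2) (s b : ℕ)

noncomputable def M2 (ω : Ω) : ℤ × Eu 2 := (fl s (D.t ω), flo s (F ω))

/-- the truncated slope of one coordinate -/
noncomputable def th2 (z : Ω × Ω) : ℝ :=
  if 2⁻¹ ^ b ≤ |D.tb s z.2 - D.tb s z.1| then
    (D.tb s z.2 - D.tb s z.1)⁻¹ * (zm s s (F z.2) k - zm s s (F z.1) k) else 0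

noncomputable def W2 (z : Ω × Ω) : (Θ × Tt) × Eu 1 × ℤ :=
  (D.c z.1, flo s (D.y ch F z.1), fl s (D.w ch z.1 k.rev))

end Cf

def SK2a : Prop :=
  ∀ σ : ℝ, Ctx 3 σ → ∀ ch : Chart 3 1 2 2, P1 ch → LipP ch σ → ∀ (k : Fin 2) (κ ζ : ℝ), 0 < κ →
    0 < ζ → ∀ᶠ x in EF, ∀ {Ω Tt Θ : Type} [Fintype Ω] (D : Cf Ω Tt Θ 3)
    (Q : Ω → Submodule ℝ (Eu 3)) (F : Ω → Eu 2), D.PC ch σ Q F x.2 x.1 → ∀ s b : ℕ,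
    κ * x.2 ≤ b → b ≤ s → 4 * s ≤ x.2 →
    s * log 2 - ζ * x.2 ≤ Hc (D.pp (D.M2 F s)) (fun z => fl s (D.w ch z.1 k))
      (fun z => (D.th z.2, D.W2 ch F k s z)) ∧
    Hc (D.pp (D.M2 F s)) (fun z => fl s (D.z ch F z.1 0))
      (fun z => (fl s (D.w ch z.1 k), D.W2 ch F k s z)) ≤ ζ * x.2 ∧
    Hc (D.pp (D.M2 F s)) (fun z => fl s (D.z ch F z.1 0 + D.th2 F k s b z * D.w ch z.1 k))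
      (fun z => (D.th z.2, D.W2 ch F k s z)) ≤ (1 - σ) * s * log 2 + b * log 2 + ζ * x.2

def SK2 : Prop :=
  ∀ σ : ℝ, Ctx 3 σ → ∀ ch : Chart 3 1 2 2, P1 ch → LipP ch σ → ∀ k : Fin 2, KP ch (co k) σ

def SAfc : Prop :=
  ∀ (m : ℕ) (σ : ℝ), Ctx m σ → ∀ {p q r n : ℕ} (ch : Chart m p q r) (ψ : Eu r → Eu n), 1 ≤ n →
    (∀ (N : ℕ) (x : Eu r), flo N x = x → InC x → flo N (ψ x) = ψ x ∧ InC (ψ x)) → LipP ch σ →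
    KP ch ψ σ → ∃ η : ℝ, 0 < η ∧ η ≤ 1 / 2 ∧ AffQ ch ψ σ η

def SAf1 : Prop :=
  ∀ {m p q r : ℕ} (ch : Chart m p q r) (σ η : ℝ), 0 < η → η ≤ 1 / 2 → LipP ch σ →
    AffQ ch id σ η → AffP ch σ (η / 2)

def SAf2 : Prop :=
  ∀ {m p q : ℕ} (ch : Chart m p q 2) (σ : ℝ), (∀ k, ∃ η : ℝ, 0 < η ∧ AffQ ch (co k) σ η) →
    ∃ η : ℝ, 0 < η ∧ η ≤ 1 / 2 ∧ AffQ ch id σ η

/-! ### first and second order constraints -/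

def SDc : Prop :=
  ∀ (m : ℕ) (σ : ℝ), Ctx m σ → ∀ {p q r : ℕ} (ch : Chart m p q r), NG m σ (q + 1) → DcP ch σ

def SMac : Prop :=
  ∀ (m : ℕ) (σ : ℝ), Ctx m σ → ∀ {p q r : ℕ} (ch : Chart m p q r) (κ ζ : ℝ), 0 < κ → 0 < ζ →
    ∀ᶠ x in EF, ∀ {Ω Tt Θ : Type} [Fintype Ω] (D : Cf Ω Tt Θ m) (Q : Ω → Submodule ℝ (Eu m))
    (F α : Ω → Eu r) (b₁ : ℕ), D.PC ch σ Q F x.2 x.1 → κ * x.2 ≤ b₁ → b₁ ≤ x.2 →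
    D.DCP ch F α b₁ x.1 → Pr D.p (fun ω => ‖α ω‖ ≤ 2⁻¹ ^ b₁) * x.2 ≤ ζ * x.2

def SCmp : Prop :=
  ∀ (m : ℕ) (σ : ℝ), Ctx m σ → ∀ {p q r : ℕ} (ch : Chart m p q r) (κ ζ : ℝ), 0 < κ → 0 < ζ →
    ∀ᶠ x in EF, ∀ {Ω Tt Θ : Type} [Fintype Ω] (D : Cf Ω Tt Θ m) (Q : Ω → Submodule ℝ (Eu m))
    (F α α' : Ω → Eu r) (b₁ h : ℕ), D.PC ch σ Q F x.2 x.1 → Det D.p D.c α → Det D.p D.c α' →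
    (∀ ω, D.p ω ≠ 0 → ‖α ω‖ ≤ exp x.1 ∧ ‖α' ω‖ ≤ exp x.1) → κ * x.2 ≤ b₁ → b₁ ≤ h → h ≤ x.2 →
    D.DCP ch F α h x.1 → D.DCP ch F α' h x.1 →
    Pr D.p (fun ω => 2⁻¹ ^ (h - b₁) ≤ ‖α ω - α' ω‖) * x.2 ≤ ζ * x.2

def SSo : Prop :=
  ∀ (m : ℕ) (σ : ℝ), Ctx m σ → ∀ {p q r : ℕ} (ch : Chart m p q r) (κ ζ : ℝ), 0 < κ → 0 < ζ →
    ∀ᶠ x in EF, ∀ {Ω Tt Θ : Type} [Fintype Ω] (D : Cf Ω Tt Θ m) (Q : Ω → Submodule ℝ (Eu m))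
    (F F₀ α α' : Ω → Eu r) (M : Ω → ℤ × Eu r × ℕ) (s h b : ℕ), D.PC ch σ Q F x.2 x.1 →
    D.Afn F x.2 s h x.1 M F₀ α' → Det D.p D.c α → (∀ ω, D.p ω ≠ 0 → ‖α ω‖ ≤ exp x.1) →
    κ * x.2 ≤ b → 2 * b ≤ h → 2 * h ≤ s → 4 * s ≤ x.2 → D.DCP ch F α (s + s) x.1 →
    D.DCP ch F α h x.1 → D.DCP ch F α' h x.1 → D.SOP ch α b (ζ * x.2)

def SCom : Prop :=
  ∀ (m : ℕ) (σ : ℝ), Ctx m σ → ∀ {p q r : ℕ} (ch : Chart m p q r) (η : ℝ), 0 < η → η ≤ 1 / 2 →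
    AffP ch σ η → DcP ch σ → ComP ch σ

def SQ1 : Prop :=
  ∀ (m : ℕ) (σ : ℝ), Ctx m σ → ∀ {p : ℕ} (ch : Chart m p 1 p), Q1 ch → ComP ch σ → NPC ch σ

def SStar : Prop :=
  ∀ σ : ℝ, Ctx 3 σ → ∀ ch : Chart 3 1 2 2, P1 ch → ∀ κ ζ : ℝ, 0 < κ → 0 < ζ → ∀ᶠ x in EF,
    ∀ {Ω Tt Θ μ : Type} [Fintype Ω] (D : Cf Ω Tt Θ 3) (Q : Ω → Submodule ℝ (Eu 3))
    (F α : Ω → Eu 2) (M : Ω → μ) (κ' : ℝ) (b b₁ s a : ℕ), D.PC ch σ Q F x.2 x.1 →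
    D.Com ch F α x.2 b κ' x.1 → Det D.p D.c M →
    Det D.p (fun ω => (M ω, D.T ω)) (fun ω => fl s (D.t ω)) → κ * x.2 ≤ b₁ →
    s + a + 2 * b₁ ≤ b → 2 * b ≤ x.2 →
    Pr (D.pp M) (fun z => 2⁻¹ ^ b₁ ≤ ‖α z.1‖ ∧ |⟪F z.2 - F z.1, nn (α z.1)⟫| ≤ 2⁻¹ ^ a ∧
      2 ^ b₁ * 2⁻¹ ^ (s + a) < |⟪F z.2 - F z.1, nn (α z.1)⟫ +
        (D.t z.2 - D.t z.1) * ⟪α z.2, nn (α z.1)⟫|) * x.2 ≤ ζ * x.2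

def SAlg : Prop :=
  ∀ (α₁ α₂ α' G : Eu 2) (Δ β ε ϱ : ℝ), 0 < β → 5 * ε ≤ β → β ≤ ‖α₁‖ → β ≤ ‖α₂‖ →
    ‖α₁ - α'‖ ≤ ε → ‖α₂ - α'‖ ≤ ε → ‖G - Δ • α'‖ ≤ |Δ| * ε →
    |⟪G, nn α₁⟫ + Δ * ⟪α₂, nn α₁⟫| ≤ ϱ → |⟪G, nn α₂⟫ + Δ * ⟪α₁, nn α₂⟫| ≤ ϱ →
    ‖nn α₂ - nn α₁‖ * |Δ| * β ≤ 2 * ϱ ∧ |⟪G, nn α₁⟫| ≤ 4 * ϱ ∧ |⟪G, nn α₂⟫| ≤ 4 * ϱ

def SUc : Prop :=
  ∀ σ : ℝ, Ctx 3 σ → ∀ ch : Chart 3 1 2 2, P1 ch → ∀ κ ζ : ℝ, 0 < κ → 0 < ζ → ∀ᶠ x in EF,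
    ∀ {Ω Tt Θ : Type} [Fintype Ω] (D : Cf Ω Tt Θ 3) (Q : Ω → Submodule ℝ (Eu 3))
    (F F₀ α α' : Ω → Eu 2) (M : Ω → ℤ × Eu 2 × ℕ) (b b₁ s h j : ℕ), D.PC ch σ Q F x.2 x.1 →
    D.Com ch F α x.2 b κ x.1 → D.Afn F x.2 s h x.1 M F₀ α' → D.DCP ch F α' h x.1 →
    κ * x.2 ≤ b₁ → 10 * b₁ ≤ h → 2 * h ≤ s → j + 4 * s ≤ b → 4 * b ≤ x.2 →
    Hc D.p (fun ω => flo j (uu ch (F ω) (α ω))) (fun ω => (M ω, D.T ω)) ≤ ζ * x.2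

def SPlu : Prop :=
  ∀ σ : ℝ, Ctx 3 σ → ∀ ch : Chart 3 1 2 2, P1 ch → ∀ κ ζ : ℝ, 0 < κ → 0 < ζ → ∀ᶠ x in EF,
    ∀ {Ω Tt Θ : Type} [Fintype Ω] (D : Cf Ω Tt Θ 3) (Q : Ω → Submodule ℝ (Eu 3))
    (F α : Ω → Eu 2) (b b₁ j : ℕ), D.PC ch σ Q F x.2 x.1 → D.Com ch F α x.2 b κ x.1 →
    κ * x.2 ≤ b₁ → j + b₁ ≤ b → 2 * b ≤ x.2 →
    Hc D.p (fun ω => flo j (prj (ℝ ∙ flo j (uu ch (F ω) (α ω))) (D.v ω)))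
      (fun ω => (flo b (D.X ω), D.c ω)) ≤ ζ * x.2

def SFin : Prop :=
  ∀ (m : ℕ) (σ : ℝ), Ctx m σ → ∀ ζ : ℝ, 0 < ζ → ∀ᶠ x in EF, ∀ {Ω Tt Θ μ : Type} [Fintype Ω]
    (D : Cf Ω Tt Θ m) (M : Ω → μ) (V : Ω → Submodule ℝ (Eu m)) (s j b : ℕ), D.Ext σ x.2 x.1 →
    Det D.p D.c M → Det D.p (fun ω => (M ω, D.T ω)) V → (∀ ω, D.p ω ≠ 0 → finrank ℝ (V ω) ≤ 1) →
    Hc D.p M D.T ≤ s * log 2 + x.1 → j ≤ b → b ≤ x.2 →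
    Hc D.p (fun ω => flo j (prj (V ω) (D.v ω))) (fun ω => (flo b (D.X ω), D.c ω)) ≤ x.1 →
    σ * j * log 2 ≤ s * log 2 + ζ * x.2

def SQ2 : Prop :=
  ∀ σ : ℝ, Ctx 3 σ → ∀ ch : Chart 3 1 2 2, P1 ch → ∀ η : ℝ, 0 < η → η ≤ 1 / 2 → AffP ch σ η →
    DcP ch σ → ComP ch σ → NPC ch σ

/-! ### charts and the induction on the grain dimension -/

def SCh1 : Prop :=
  ∃ ch : Fin 3 → Chart 3 2 1 2, (∀ j, Q1 (ch j)) ∧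
    ∀ Q : Submodule ℝ (Eu 3), finrank ℝ Q = 1 → ∃ j F, ‖F‖ ≤ 2 ∧ (ch j).Rep Q F

def SCh2 : Prop :=
  ∃ ch : Fin 3 → Chart 3 1 2 2, (∀ j, P1 (ch j)) ∧
    ∀ Q : Submodule ℝ (Eu 3), finrank ℝ Q = 2 → ∃ j F, ‖F‖ ≤ 2 ∧ (ch j).Rep Q F

def SNg1 : Prop :=
  ∀ (m : ℕ) (σ : ℝ), Ctx m σ → ∀ {p q r : ℕ} (ch : Fin 3 → Chart m p q r),
    (∀ Q : Submodule ℝ (Eu m), finrank ℝ Q = q → ∃ j F, ‖F‖ ≤ 2 ∧ (ch j).Rep Q F) →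
    (∀ j, NPC (ch j) σ) → NG m σ (q + 1) → NG m σ q

def SNg0 : Prop := ∀ (m : ℕ) (σ : ℝ), Ctx m σ → NG m σ 1 → NG m σ 0

def SNgm : Prop := ∀ (m : ℕ) (σ : ℝ), Ctx m σ → NG m σ m

def SLb : Prop := ∀ m : ℕ, (∀ σ, Ctx m σ → NG m σ 0) → LB m 0

/-! ### discretisation -/

def SPack : Prop :=
  ∀ {X : Type} [MetricSpace X] (A : Set X) (s : ℝ), packDim A < ENNReal.ofReal s →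
    ∃ U : ℕ → Set X, A ⊆ ⋃ k, U k ∧ ∀ k, ∃ C : ℝ, ∀ i : ℕ, ∃ N : Finset X,
      (N.card : ℝ) ≤ C * 2 ^ (s * i) ∧ ∀ x ∈ U k, ∃ y ∈ N, dist x y ≤ 2⁻¹ ^ i

def SRedA : Prop :=
  ∀ (K : Set (Eu 4)) (Λ : Set (AffLine 4)) (d s : ℝ), packDim Λ ≤ 3 → Kakeya K Λ → 0 ≤ d →
    MeasureTheory.Measure.hausdorffMeasure d K = 0 → 3 < s →
    ∃ K' V a, MeasureTheory.Measure.hausdorffMeasure d K' = 0 ∧ Nrm K' V a s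

def SRedB : Prop :=
  ∀ (K : Set (Eu 4)) (V : Set (Eu 3)) (a : Eu 3 → Eu 3) (d s : ℝ), 0 < d →
    MeasureTheory.Measure.hausdorffMeasure d K = 0 → Nrm K V a s →
    ∃ C : ℝ, ∀ L₀ : ℕ, ∃ L ≥ L₀, ∃ S, Fam S L C s d

def SRedC : Prop :=
  ∀ (S : Finset (Eu 3 × Eu 3 × ℕ)) (L : ℕ) (C s d : ℝ), 1 ≤ L → 3 ≤ s → Fam S L C s d →
    ∃ (Ω : Type) (_ : Fintype Ω) (D : Cf Ω Unit ℕ 3),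
      D.OK L ((s - 3) * L * log 2 + 2 * log (C * L ^ 4)) ∧
      Hc D.p (fun ω => flo L (D.X ω)) D.c ≤ (d - 1) * L * log 2 + 2 * log (C * L ^ 4)

def STop : Prop :=
  LB 3 0 → ∀ (K : Set (Eu 4)) (Λ : Set (AffLine 4)), packDim Λ ≤ 3 → Kakeya K Λ → dimH K = 4

end Vale.Agent.P127
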